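import Crest.Agent.R152.Defs

/-!
# R152/A1

Elementary counting.

Helper lemmas: prefix `a1_`.
-/

set_option autoImplicit false
set_option linter.unusedVariables false
set_option linter.unusedSectionVars false

namespace Crest.Agent.R152

open Crest.FinProb Crest.ProbabilityR.SignMatrix MeasureTheory ProbabilityTheory Filter Module
open scoped RealInnerProductSpace ENNReal Matrix Topology

noncomputable section

/-- The count is at most `(1 + x)^N / x^(κ (N+1))` for `0 < x ≤ 1` (`Finset.sum_pow_mul_eq_add_pow`); `x = min 1 (η/2)`. -/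
theorem card_small_subsets {η : ℝ} (hη : 0 < η) : ∃ κ : ℝ, 0 < κ ∧ κ ≤ 1 ∧ ∀ (α : Type) [DecidableEq α] (s : Finset α) (N : ℕ),
    s.card ≤ N → ((s.powerset.filter fun t => (t.card : ℝ) ≤ κ * (N + 1)).card : ℝ) ≤ Real.exp (η * (N + 1)) := by
  obtain ⟨x, hx⟩ : ∃ x, x = min 1 (η / 2) := ⟨_, rfl⟩
  have hx0 : 0 < x := by rw [hx]; positivity
  have hx1 : x ≤ 1 := hx ▸ min_le_left _ _
  have hx2 : x ≤ η / 2 := hx ▸ min_le_right _ _
  have hl : Real.log x ≤ 0 := Real.log_nonpos hx0.le hx1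
  obtain ⟨κ, hκ⟩ : ∃ κ, κ = min 1 (η / 2 / (1 - Real.log x)) := ⟨_, rfl⟩
  have hd : 0 < 1 - Real.log x := by linarith
  have hκ0 : 0 < κ := by rw [hκ]; positivity
  have hκ2 : κ * (1 - Real.log x) ≤ η / 2 := by
    rw [← le_div_iff₀ hd, hκ]; exact min_le_right _ _
  refine ⟨κ, hκ0, hκ ▸ min_le_left _ _, fun α _ s N hN => ?_⟩
  have h1 := Finset.sum_pow_mul_eq_add_pow x 1 s
  simp only [one_pow, mul_one] at h1
  have hN' : (s.card : ℝ) ≤ N := by exact_mod_cast hN
  have h2 : (x + 1) ^ s.card ≤ Real.exp (x * (N + 1)) := by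
    calc (x + 1) ^ s.card ≤ Real.exp x ^ s.card :=
          pow_le_pow_left₀ (by linarith) (Real.add_one_le_exp x) _
      _ = Real.exp (s.card * x) := (Real.exp_nat_mul _ _).symm
      _ ≤ _ := Real.exp_le_exp.2 (by nlinarith)
  have h3 : ((s.powerset.filter fun t => (t.card : ℝ) ≤ κ * (N + 1)).card : ℝ) *
      Real.exp (κ * (N + 1) * Real.log x) ≤ ∑ t ∈ s.powerset, x ^ t.card := by
    rw [← nsmul_eq_mul]
    refine (Finset.card_nsmul_le_sum _ (fun t => x ^ t.card) _ fun t ht => ?_).trans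
      (Finset.sum_le_sum_of_subset_of_nonneg (Finset.filter_subset _ _) fun _ _ _ => by positivity)
    have := (Finset.mem_filter.1 ht).2
    show _ ≤ x ^ t.card
    rw [← Real.exp_log hx0, ← Real.exp_nat_mul, Real.log_exp]
    exact Real.exp_le_exp.2 (mul_le_mul_of_nonpos_right this hl)
  rw [h1, ← le_div_iff₀ (Real.exp_pos _)] at h3
  refine h3.trans ((div_le_div_of_nonneg_right h2 (Real.exp_pos _).le).trans ?_)
  rw [← Real.exp_sub]
  refine Real.exp_le_exp.2 ?_
  have hN0 : (0 : ℝ) ≤ N + 1 := by positivity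
  have : x - κ * Real.log x ≤ η := by nlinarith
  nlinarith

theorem exists_top {α β : Type} [DecidableEq α] [LinearOrder β] (s : Finset α) (f : α → β) {k : ℕ} (hk : k ≤ s.card) :
    ∃ t ⊆ s, t.card = k ∧ ∀ i ∈ t, ∀ j ∈ s, j ∉ t → f j ≤ f i := by
  induction k with
  | zero => exact ⟨∅, Finset.empty_subset _, rfl, by simp⟩
  | succ k ih =>
    obtain ⟨t, ht, hc, h⟩ := ih (by omega)
    have hne : (s \ t).Nonempty := by
      rw [← Finset.card_pos, Finset.card_sdiff_of_subset ht]; omega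
    obtain ⟨j, hj, hmax⟩ := Finset.exists_max_image (s \ t) f hne
    obtain ⟨hj1, hj2⟩ := Finset.mem_sdiff.1 hj
    refine ⟨insert j t, Finset.insert_subset hj1 ht, by rw [Finset.card_insert_of_notMem hj2, hc],
      fun i hi j' hj' hn => ?_⟩
    have hn' : j' ∉ t := fun h => hn (Finset.mem_insert_of_mem h)
    rcases Finset.mem_insert.1 hi with rfl | hi
    · exact hmax j' (Finset.mem_sdiff.2 ⟨hj', hn'⟩)
    · exact h i hi j' hj' hn'

theorem exists_heavy {α : Type} [DecidableEq α] (s : Finset α) (w : α → ℝ) (hw : ∀ i ∈ s, 0 ≤ w i) {N k : ℕ}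
    (hs : s.card ≤ N) (hk : k ≤ N) : ∃ t ⊆ s, t.card ≤ k ∧ k * ∑ i ∈ s, w i ≤ N * ∑ i ∈ t, w i := by
  have hk' : (k : ℝ) ≤ N := by exact_mod_cast hk
  have hs' : (s.card : ℝ) ≤ N := by exact_mod_cast hs
  rcases le_total s.card k with h | h
  · exact ⟨s, Finset.Subset.refl _, h, mul_le_mul_of_nonneg_right hk' (Finset.sum_nonneg hw)⟩
  obtain ⟨t, ht, hc, hm⟩ := exists_top s w h
  refine ⟨t, ht, hc.le, ?_⟩
  have h0 : 0 ≤ ∑ i ∈ t, w i := Finset.sum_nonneg fun i hi => hw i (ht hi)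
  have h1 : ∀ j ∈ s \ t, k * w j ≤ ∑ i ∈ t, w i := fun j hj => by
    obtain ⟨hj1, hj2⟩ := Finset.mem_sdiff.1 hj
    rw [← hc, ← nsmul_eq_mul]
    exact Finset.card_nsmul_le_sum _ _ _ fun i hi => hm i hi j hj1 hj2
  have h2 := Finset.sum_le_card_nsmul _ _ _ h1
  rw [← Finset.mul_sum, nsmul_eq_mul, Finset.card_sdiff_of_subset ht, hc, Nat.cast_sub h] at h2
  rw [← Finset.sum_sdiff ht]
  nlinarith

theorem natAbs_det_le {ι : Type} [Fintype ι] [DecidableEq ι] (A : Matrix ι ι ℤ) (hA : ∀ i j, |A i j| ≤ 1) :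
    A.det.natAbs ≤ (Fintype.card ι).factorial := by
  have h := Matrix.det_le (A := A) (abv := AbsoluteValue.abs) (x := 1) hA
  simp only [one_pow, nsmul_eq_mul, mul_one, AbsoluteValue.abs_apply] at h
  rw [← Int.natCast_natAbs] at h
  exact_mod_cast h

theorem a1_prod (s : Finset ℕ) : (∀ x ∈ s, 2 ≤ x) → (s.card + 1).factorial ≤ ∏ x ∈ s, x := by
  induction s using Finset.induction_on_max with
  | empty => simp
  | insert a s hs ih =>
    intro h
    have ha : a ∉ s := fun h => lt_irrefl _ (hs a h)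
    have h1 : s ⊆ Finset.Ico 2 a := fun x hx =>
      Finset.mem_Ico.2 ⟨h x (Finset.mem_insert_of_mem hx), hs x hx⟩
    have h2 := Finset.card_le_card h1
    have h3 := h a (Finset.mem_insert_self _ _)
    rw [Nat.card_Ico] at h2
    rw [Finset.card_insert_of_notMem ha, Finset.prod_insert ha, Nat.factorial_succ]
    exact Nat.mul_le_mul (by omega) (ih fun x hx => h x (Finset.mem_insert_of_mem hx))

/-- A product of `k` distinct numbers `≥ 2` is `≥ (k+1)!`. -/
theorem card_primeFactors_le {D n : ℕ} (hD : D ≠ 0) (h : D ≤ n.factorial) : D.primeFactors.card ≤ n := by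
  have h1 := a1_prod D.primeFactors fun x hx => (Nat.prime_of_mem_primeFactors hx).two_le
  have h2 := Nat.le_of_dvd (Nat.pos_of_ne_zero hD) (Nat.prod_primeFactors_dvd D)
  by_contra hn
  have h3 : (n + 1 + 1).factorial ≤ (D.primeFactors.card + 1).factorial :=
    Nat.factorial_le (by omega)
  have h4 : n.factorial < (n + 1 + 1).factorial := by
    have := Nat.factorial_pos (n + 1)
    have h5 : n.factorial ≤ (n + 1).factorial := Nat.factorial_le (by omega)
    rw [Nat.factorial_succ (n + 1)]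
    nlinarith
  omega

/-- Pigeonhole for a cover. -/
theorem exists_ncard_ge {α β : Type} [Finite α] (S : Set α) (F : Finset β) (T : β → Set α) (h : ∀ x ∈ S, ∃ b ∈ F, x ∈ T b)
    {a c : ℝ} (ha : 0 < a) (hF : (F.card : ℝ) ≤ c) (hS : c * a < S.ncard) : ∃ b ∈ F, a ≤ (T b).ncard := by
  by_contra hn
  push Not at hn
  have h1 : S.ncard ≤ (⋃ b ∈ F, T b).ncard := Set.ncard_le_ncard (fun x hx => by
    obtain ⟨b, hb, hx⟩ := h x hx
    exact Set.mem_biUnion (x := b) (by exact hb) hx) (Set.toFinite _)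
  have h2 : (S.ncard : ℝ) ≤ ∑ b ∈ F, ((T b).ncard : ℝ) := by
    exact_mod_cast h1.trans (Finset.set_ncard_biUnion_le F T)
  have h3 := Finset.sum_le_card_nsmul F _ a fun b hb => (hn b hb).le
  rw [nsmul_eq_mul] at h3
  nlinarith

theorem eventually_exp_add_le {a b : ℝ} (ha : 0 < a) (hb : 0 < b) : ∀ᶠ n : ℕ in atTop,
    Real.exp (-a * n ^ 2) + Real.exp (-b * n ^ 2) ≤ Real.exp (-(min a b / 2) * n ^ 2) := by
  have hm : 0 < min a b := lt_min ha hb
  filter_upwards [eventually_ge_atTop (⌈2 / min a b⌉₊ + 1)] with n hn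
  have h1 : (⌈2 / min a b⌉₊ + 1 : ℝ) ≤ n := by exact_mod_cast hn
  have h2 := Nat.le_ceil (2 / min a b)
  have h3 : (0 : ℝ) ≤ ⌈2 / min a b⌉₊ := Nat.cast_nonneg _
  have h4 : 2 ≤ n * min a b := by rw [← div_le_iff₀ hm]; linarith
  have h5 : 1 ≤ min a b / 2 * n ^ 2 := by nlinarith
  have h6 : Real.exp (-a * n ^ 2) ≤ Real.exp (-min a b * n ^ 2) :=
    Real.exp_le_exp.2 (by nlinarith [min_le_left a b, sq_nonneg (n : ℝ)])
  have h7 : Real.exp (-b * n ^ 2) ≤ Real.exp (-min a b * n ^ 2) :=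
    Real.exp_le_exp.2 (by nlinarith [min_le_right a b, sq_nonneg (n : ℝ)])
  have h8 : Real.exp (-(min a b / 2) * n ^ 2) =
      Real.exp (min a b / 2 * n ^ 2) * Real.exp (-min a b * n ^ 2) := by
    rw [← Real.exp_add]; congr 1; ring
  have h9 := Real.add_one_le_exp (min a b / 2 * n ^ 2)
  have h10 := Real.exp_pos (-min a b * n ^ 2)
  rw [h8]
  nlinarith

theorem eventually_mul_exp_le {c : ℝ} (hc : 0 < c) (C K : ℝ) : ∀ᶠ n : ℕ in atTop,
    C * Real.exp (-c * n ^ 2) ≤ Real.exp (-K * n) := by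
  filter_upwards [eventually_ge_atTop (⌈(|K| + |C|) / c⌉₊ + 1)] with n hn
  have h1 : (⌈(|K| + |C|) / c⌉₊ + 1 : ℝ) ≤ n := by exact_mod_cast hn
  have h2 := Nat.le_ceil ((|K| + |C|) / c)
  have h3 : (0 : ℝ) ≤ ⌈(|K| + |C|) / c⌉₊ := Nat.cast_nonneg _
  have h4 : |K| + |C| ≤ n * c := by rw [← div_le_iff₀ hc]; linarith
  have h5 : C ≤ c * n ^ 2 - K * n := by
    nlinarith [le_abs_self K, le_abs_self C, abs_nonneg C]
  have h8 : Real.exp (-K * n) = Real.exp (c * n ^ 2 - K * n) * Real.exp (-c * n ^ 2) := by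
    rw [← Real.exp_add]; congr 1; ring
  rw [h8]
  exact mul_le_mul_of_nonneg_right (by linarith [Real.add_one_le_exp (c * n ^ 2 - K * n)])
    (Real.exp_pos _).le

end

end Crest.Agent.R152
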