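import Crest.Agent.R152.G2

/-!
# R152/L1

Integer vectors: independence over `ℤ`, `ℚ`, `ℝ`; bases of sublattices of `ℤ^ι`; the index formula.

Helper lemmas: prefix `l1_`.
-/

set_option autoImplicit false
set_option linter.unusedVariables false
set_option linter.unusedSectionVars false

namespace Crest.Agent.R152

open Crest.FinProb Crest.ProbabilityR.SignMatrix MeasureTheory ProbabilityTheory Filter Module
open scoped RealInnerProductSpace ENNReal Matrix Topology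

noncomputable section

variable {ι κ κ' : Type} [Fintype ι] [DecidableEq ι] [Fintype κ] [DecidableEq κ] [Fintype κ'] [DecidableEq κ']
  {E : Type} [NormedAddCommGroup E] [InnerProductSpace ℝ E]

theorem zc_injective : Function.Injective (zc : (ι → ℤ) → Euc ι) := by
  intro z w h
  funext i
  have := congrArg (fun x : Euc ι => x i) h
  simpa using this

theorem qc_injective : Function.Injective (qc : (ι → ℤ) → ι → ℚ) := by
  intro z w h
  funext i
  have := congrFun h i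
  simpa using this

theorem inner_zc (z w : ι → ℤ) : ⟪zc z, zc w⟫ = ((z ⬝ᵥ w : ℤ) : ℝ) := by
  simp [PiLp.inner_apply, dotProduct, mul_comm]

theorem norm_zc_sq (z : ι → ℤ) : ‖zc z‖ ^ 2 = ∑ i, (z i : ℝ) ^ 2 := by
  simp [EuclideanSpace.norm_sq_eq]

theorem norm_zc_sv (x : ι → Bool) : ‖zc (sv x)‖ ^ 2 = Fintype.card ι := by
  rw [norm_zc_sq]
  have : ∀ i, ((sv x i : ℤ) : ℝ) ^ 2 = 1 := fun i => by
    unfold sv
    split_ifs <;> simp
  simp [this]

theorem rop_zc (A : Matrix ι ι ℤ) (z : ι → ℤ) : rop A (zc z) = zc (A *ᵥ z) := by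
  ext i
  simp [rop, Matrix.toLpLin_apply, Matrix.mulVec, dotProduct]

theorem l1_det (A : Matrix ι ι ℤ) : (A.map (Int.cast : ℤ → ℝ)).det = (A.det : ℝ) :=
  ((Int.castRingHom ℝ).map_det A).symm

theorem l1_unit (A : Matrix ι ι ℤ) (hA : A.det ≠ 0) : IsUnit (A.map (Int.cast : ℤ → ℝ)).det := by
  rw [l1_det]
  exact (Int.cast_ne_zero.2 hA).isUnit

theorem ropInv_rop (A : Matrix ι ι ℤ) (hA : A.det ≠ 0) (x : Euc ι) : ropInv A (rop A x) = x := by
  rw [ropInv, rop, ← LinearMap.comp_apply, ← Matrix.toLpLin_mul_same, Matrix.nonsing_inv_mul _ (l1_unit A hA),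
    Matrix.toLpLin_one, LinearMap.id_apply]

theorem rop_ropInv (A : Matrix ι ι ℤ) (hA : A.det ≠ 0) (x : Euc ι) : rop A (ropInv A x) = x := by
  rw [ropInv, rop, ← LinearMap.comp_apply, ← Matrix.toLpLin_mul_same, Matrix.mul_nonsing_inv _ (l1_unit A hA),
    Matrix.toLpLin_one, LinearMap.id_apply]

theorem det_rop (A : Matrix ι ι ℤ) : LinearMap.det (rop A) = (A.det : ℝ) := by
  rw [rop, LinearMap.det_toLpLin, l1_det]

/-- The Gram determinant is the cast of the determinant of the integer matrix `z i ⬝ᵥ z j`. -/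
theorem gvol_zc_sq (z : κ → ι → ℤ) : ∃ c : ℕ, gvol (fun i => zc (z i)) ^ 2 = c := by
  have h : gvol (fun i => zc (z i)) ^ 2 = (((Matrix.of fun i j => z i ⬝ᵥ z j).det : ℤ) : ℝ) := by
    rw [gvol_sq, ← l1_det]
    congr 1
    ext i j
    simp [Matrix.gram, inner_zc]
  have h0 : 0 ≤ (Matrix.of fun i j => z i ⬝ᵥ z j).det := by
    have := sq_nonneg (gvol fun i => zc (z i))
    rw [h] at this
    exact_mod_cast this
  obtain ⟨c, hc⟩ := Int.eq_ofNat_of_zero_le h0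
  exact ⟨c, by rw [h, hc, Int.cast_natCast]⟩

/-- `→`: if the integer Gram determinant vanishes there is an integer relation `c` with `‖∑ c i z i‖² = 0`
(`Matrix.exists_mulVec_eq_zero_iff`). -/
theorem li_int_iff_real (z : κ → ι → ℤ) : LinearIndependent ℤ z ↔ LinearIndependent ℝ fun i => zc (z i) := by
  rw [← linearIndependent_algebraMap_comp_iff (S := ℝ)]
  exact ((WithLp.linearEquiv 2 ℝ (ι → ℝ)).symm.toLinearMap.linearIndependent_iff
    (LinearEquiv.ker _)).symm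

theorem li_int_iff_rat (z : κ → ι → ℤ) : LinearIndependent ℤ z ↔ LinearIndependent ℚ fun i => qc (z i) := by
  exact (linearIndependent_algebraMap_comp_iff (S := ℚ)).symm

theorem one_le_gvol_zc (z : κ → ι → ℤ) (hz : LinearIndependent ℝ fun i => zc (z i)) :
    1 ≤ gvol fun i => zc (z i) := by
  obtain ⟨c, hc⟩ := gvol_zc_sq z
  have h := (gvol_pos_iff _).2 hz
  have h1 : (0 : ℝ) < c := hc ▸ pow_pos h 2
  have h2 : (1 : ℝ) ≤ c := by exact_mod_cast h1
  by_contra h3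
  nlinarith

theorem l1_isBas {Λ : Submodule ℤ (ι → ℤ)} (b : Basis κ ℤ Λ) : IsBas Λ fun i => (b i : ι → ℤ) := by
  refine ⟨b.linearIndependent.map' Λ.subtype Λ.ker_subtype, ?_⟩
  have h := congrArg (Submodule.map Λ.subtype) b.span_eq
  rwa [Submodule.map_span, ← Set.range_comp, Submodule.map_subtype_top] at h

theorem l1_basis {Λ : Submodule ℤ (ι → ℤ)} {v : κ → ι → ℤ} (h : IsBas Λ v) :
    ∃ b : Basis κ ℤ Λ, ∀ i, (b i : ι → ℤ) = v i := by
  obtain ⟨h1, rfl⟩ := h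
  exact ⟨Basis.span h1, fun i => by simp⟩

theorem exists_isBas (Λ : Submodule ℤ (ι → ℤ)) : ∃ v : Fin (finrank ℤ Λ) → ι → ℤ, IsBas Λ v := by
  exact ⟨_, l1_isBas (Module.finBasis ℤ Λ)⟩

theorem isBas_finBasis (Λ : Submodule ℤ (ι → ℤ)) :
    IsBas Λ fun i : Fin (finrank ℤ Λ) => ((Module.finBasis ℤ Λ i : Λ) : ι → ℤ) := by
  exact l1_isBas _

theorem IsBas.card {Λ : Submodule ℤ (ι → ℤ)} {v : κ → ι → ℤ} (h : IsBas Λ v) : Fintype.card κ = finrank ℤ Λ := by
  obtain ⟨b, -⟩ := l1_basis h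
  exact (finrank_eq_card_basis b).symm

theorem IsBas.mem {Λ : Submodule ℤ (ι → ℤ)} {v : κ → ι → ℤ} (h : IsBas Λ v) (i : κ) : v i ∈ Λ := by
  rw [← h.2]
  exact Submodule.subset_span ⟨i, rfl⟩

theorem IsBas.exists_coeff {Λ : Submodule ℤ (ι → ℤ)} {v : κ → ι → ℤ} (h : IsBas Λ v) {z : ι → ℤ} (hz : z ∈ Λ) :
    ∃ c : κ → ℤ, z = ∑ i, c i • v i := by
  rw [← h.2, Submodule.mem_span_range_iff_exists_fun] at hz
  obtain ⟨c, hc⟩ := hz
  exact ⟨c, hc.symm⟩

theorem l1_index (Φ : Euc ι →ₗ[ℝ] E) {Λ₁ Λ₂ : Submodule ℤ (ι → ℤ)} (h : Λ₁ ≤ Λ₂) {v : κ → ι → ℤ}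
    {w : κ' → ι → ℤ} (hv : IsBas Λ₁ v) (hw : IsBas Λ₂ w) (hc : Fintype.card κ = Fintype.card κ') :
    gvol (fun i => Φ (zc (v i))) =
      (Λ₁.toAddSubgroup.relIndex Λ₂.toAddSubgroup : ℝ) * gvol (fun i => Φ (zc (w i))) := by
  obtain ⟨b₁, hb₁⟩ := l1_basis hv
  obtain ⟨b₂, hb₂⟩ := l1_basis hw
  let e := Fintype.equivOfCardEq hc
  have h1 := AddSubgroup.relIndex_eq_natAbs_det Λ₁.toAddSubgroup Λ₂.toAddSubgroup h b₁ (b₂.reindex e.symm)
  obtain ⟨T, hT, hT'⟩ : ∃ T : Matrix κ κ ℤ, Λ₁.toAddSubgroup.relIndex Λ₂.toAddSubgroup = T.det.natAbs ∧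
      ∀ j, ∑ i, T i j • w (e i) = v j := by
    refine ⟨(b₂.reindex e.symm).toMatrix fun i => ⟨b₁ i, h (b₁ i).2⟩, h1, fun j => ?_⟩
    have := congrArg Λ₂.subtype ((b₂.reindex e.symm).sum_toMatrix_smul_self
      (fun i => (⟨b₁ i, h (b₁ i).2⟩ : Λ₂)) j)
    simpa [hb₁, hb₂] using this
  rw [hT, ← gvol_reindex e fun i => Φ (zc (w i)), Nat.cast_natAbs, Int.cast_abs, ← Matrix.det_transpose,
    ← l1_det, ← gvol_change]
  congr 1
  funext i
  rw [← hT' i, map_sum, map_sum]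
  refine Finset.sum_congr rfl fun j _ => ?_
  rw [map_zsmul, map_zsmul, ← Int.cast_smul_eq_zsmul ℝ]
  rfl

/-- Index formula.  Reindex `w` by `κ`, write `v i = ∑ T i j • w j` with an integer matrix `T`; `gvol_change` and
`AddSubgroup.relIndex_eq_natAbs_det` (or `Submodule.natAbs_det_basis_change`). -/
theorem gvol_index (Φ : Euc ι →ₗ[ℝ] E) {Λ₁ Λ₂ : Submodule ℤ (ι → ℤ)} (h : Λ₁ ≤ Λ₂) {v : κ → ι → ℤ}
    {w : κ' → ι → ℤ} (hv : IsBas Λ₁ v) (hw : IsBas Λ₂ w) (hc : Fintype.card κ = Fintype.card κ') :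
    gvol (fun i => Φ (zc (v i))) =
      (Λ₁.toAddSubgroup.relIndex Λ₂.toAddSubgroup : ℝ) * gvol (fun i => Φ (zc (w i))) ∧
      Λ₁.toAddSubgroup.relIndex Λ₂.toAddSubgroup ≠ 0 := by
  refine ⟨l1_index Φ h hv hw hc, fun h0 => ?_⟩
  have h1 := l1_index LinearMap.id h hv hw hc
  rw [h0, Nat.cast_zero, zero_mul] at h1
  exact ((gvol_pos_iff _).2 ((li_int_iff_real v).1 hv.1)).ne' h1

/-- A sublattice of finite index has the same rank. -/
theorem finrank_eq_of_relIndex {Λ₁ Λ₂ : Submodule ℤ (ι → ℤ)} (h : Λ₁ ≤ Λ₂)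
    (hi : Λ₁.toAddSubgroup.relIndex Λ₂.toAddSubgroup ≠ 0) : finrank ℤ Λ₁ = finrank ℤ Λ₂ := by
  have h1 : Finite (Λ₂ ⧸ Λ₁.comap Λ₂.subtype) := Nat.finite_of_card_ne_zero hi
  rw [← (Submodule.finiteQuotient_iff _).1 h1, (Submodule.comapSubtypeEquivOfLe h).finrank_eq]

theorem index_range (A : Matrix ι ι ℤ) (hA : A.det ≠ 0) :
    (LinearMap.range A.mulVecLin).toAddSubgroup.index = A.det.natAbs := by
  have hi : Function.Injective A.mulVecLin :=
    (injective_iff_map_eq_zero _).2 fun v hv => Matrix.eq_zero_of_mulVec_eq_zero hA hv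
  have h := Submodule.natAbs_det_equiv (LinearMap.range A.mulVecLin) (LinearEquiv.ofInjective _ hi)
  rw [← LinearMap.det_toLin' A]
  exact h.symm

end

end Crest.Agent.R152
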