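import Crest.Agent.R152.A1
import Crest.Agent.R152.L1

/-!
# R152/A2

Covering admissible vectors when `c` is large: torsion subgroups of the cokernel.

Helper lemmas: prefix `a2_`.
-/

set_option autoImplicit false
set_option linter.unusedVariables false
set_option linter.unusedSectionVars false

namespace Crest.Agent.R152

open Crest.FinProb Crest.ProbabilityR.SignMatrix MeasureTheory ProbabilityTheory Filter Module
open scoped RealInnerProductSpace ENNReal Matrix Topology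

noncomputable section

theorem a2_card {G : Type} [AddCommGroup G] (t : ℕ) :
    Nat.card {g : G // t • g = 0} = Nat.card (nsmulAddMonoidHom (α := G) t).ker :=
  Nat.card_congr (Equiv.subtypeEquivRight fun g => by simp [AddMonoidHom.mem_ker])

theorem a2_ker_range {G G' : Type} [AddCommGroup G] [AddCommGroup G'] (f : G →+ G') :
    Nat.card G = Nat.card f.ker * Nat.card f.range := by
  rw [← AddSubgroup.index_ker, AddSubgroup.card_mul_index]

/-- `g ↦ t₁ • g` maps the `t₁ t₂`-torsion into the `t₂`-torsion with kernel the `t₁`-torsion. -/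
theorem card_torsion_mul {G : Type} [AddCommGroup G] [Finite G] (t₁ t₂ : ℕ) :
    Nat.card {g : G // (t₁ * t₂) • g = 0} ≤ Nat.card {g : G // t₁ • g = 0} * Nat.card {g : G // t₂ • g = 0} := by
  rw [a2_card (t₁ * t₂)]
  set K := (nsmulAddMonoidHom (α := G) (t₁ * t₂)).ker with hK
  let f : K →+ G := (nsmulAddMonoidHom (α := G) t₁).comp K.subtype
  rw [a2_ker_range f]
  refine Nat.mul_le_mul ?_ ?_
  · refine Nat.card_le_card_of_injective (fun g : f.ker => (⟨(g.1 : G), ?_⟩ : {g : G // t₁ • g = 0})) ?_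
    · have := g.2
      rw [AddMonoidHom.mem_ker] at this
      exact this
    · intro a b h
      exact Subtype.ext (Subtype.ext (Subtype.mk.inj h))
  · refine Nat.card_le_card_of_injective (fun g : f.range => (⟨(g.1 : G), ?_⟩ : {g : G // t₂ • g = 0})) ?_
    · obtain ⟨a, ha⟩ := g.2
      have h2 : (t₁ * t₂) • (a : G) = 0 := a.2
      rw [← ha]
      show t₂ • t₁ • (a : G) = 0
      rw [smul_smul, mul_comm, h2]
    · intro a b h
      exact Subtype.ext (Subtype.mk.inj h)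

/-- The kernel of multiplication by `t` has the size of its cokernel, a quotient of `(ZMod t)^n`. -/
theorem card_torsion_le_pow {n : ℕ} (H : AddSubgroup (Fin n → ℤ)) [Finite ((Fin n → ℤ) ⧸ H)] {t : ℕ} (ht : 0 < t) :
    Nat.card {g : (Fin n → ℤ) ⧸ H // t • g = 0} ≤ t ^ n := by
  rw [a2_card]
  set f := nsmulAddMonoidHom (α := (Fin n → ℤ) ⧸ H) t with hf
  have h1 := a2_ker_range f
  have h2 := f.range.card_mul_index
  have h3 : 0 < Nat.card f.range := Nat.card_pos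
  have h4 : Nat.card f.ker = f.range.index := by
    rw [h1, mul_comm] at h2
    exact (Nat.eq_of_mul_eq_mul_right h3 h2).symm
  rw [h4, AddSubgroup.index]
  have h5 : Nat.card (Fin n → Fin t) = t ^ n := by simp
  rw [← h5]
  refine Nat.card_le_card_of_surjective
    (fun a : Fin n → Fin t => ((((fun i => ((a i : ℕ) : ℤ)) : Fin n → ℤ) : (Fin n → ℤ) ⧸ H) :
      ((Fin n → ℤ) ⧸ H) ⧸ f.range)) ?_
  intro q
  induction q using QuotientAddGroup.induction_on with
  | H g =>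
  induction g using QuotientAddGroup.induction_on with
  | H z =>
  have ht' : (0 : ℤ) < t := by exact_mod_cast ht
  refine ⟨fun i => ⟨(z i % t).toNat, ?_⟩, ?_⟩
  · have := Int.emod_lt_of_pos (z i) ht'
    have := Int.emod_nonneg (z i) ht'.ne'
    omega
  · refine QuotientAddGroup.eq.2 ⟨((fun i => z i / t : Fin n → ℤ) : (Fin n → ℤ) ⧸ H), ?_⟩
    rw [hf, nsmulAddMonoidHom_apply, ← QuotientAddGroup.mk_nsmul, ← QuotientAddGroup.mk_neg, ← QuotientAddGroup.mk_add]
    congr 1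
    funext i
    have h6 := Int.emod_nonneg (z i) ht'.ne'
    have h7 := Int.mul_ediv_add_emod (z i) t
    simp only [Pi.smul_apply, nsmul_eq_mul, Pi.add_apply, Pi.neg_apply, Int.toNat_of_nonneg h6]
    linarith

/-- The order of the `t`-torsion divides `card G`, and (Cauchy) each of its prime factors divides `t`. -/
theorem card_torsion_dvd {G : Type} [AddCommGroup G] [Finite G] (P : Finset ℕ) :
    Nat.card {g : G // (∏ l ∈ (Nat.card G).primeFactors \ P, l ^ (Nat.card G).factorization l) • g = 0} ∣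
      ∏ l ∈ (Nat.card G).primeFactors \ P, l ^ (Nat.card G).factorization l := by
  set t := ∏ l ∈ (Nat.card G).primeFactors \ P, l ^ (Nat.card G).factorization l with ht
  rw [a2_card]
  set K := (nsmulAddMonoidHom (α := G) t).ker with hK
  have hG : Nat.card G ≠ 0 := Nat.card_pos.ne'
  refine (Nat.dvd_iff_prime_pow_dvd_dvd _ _).2 fun p j hp hj => ?_
  rcases Nat.eq_zero_or_pos j with rfl | hj0
  · simp
  have hp1 : p ∣ Nat.card K := (dvd_pow_self p hj0.ne').trans hj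
  have := Fact.mk hp
  obtain ⟨g, hg⟩ := exists_prime_addOrderOf_dvd_card' p hp1
  have hg2 : t • g = 0 := Subtype.ext g.2
  have hpt : p ∣ t := hg ▸ addOrderOf_dvd_of_nsmul_eq_zero hg2
  obtain ⟨l, hl, hpl⟩ := (Prime.dvd_finsetProd_iff hp.prime _).1 hpt
  have hl' : l.Prime := Nat.prime_of_mem_primeFactors (Finset.mem_sdiff.1 hl).1
  have hpl' : p = l := (Nat.prime_dvd_prime_iff_eq hp hl').1 (hp.dvd_of_dvd_pow hpl)
  subst hpl'
  have h1 : p ^ j ∣ Nat.card G := hj.trans (AddSubgroup.card_addSubgroup_dvd_card K)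
  have h2 : j ≤ (Nat.card G).factorization p := (hp.pow_dvd_iff_le_factorization hG).1 h1
  exact (pow_dvd_pow p h2).trans
    (Finset.dvd_prod_of_mem (fun l => l ^ (Nat.card G).factorization l) hl)

theorem a2_split {D : ℕ} (hD : D ≠ 0) {P : Finset ℕ} (hP : P ⊆ D.primeFactors) :
    (∏ l ∈ D.primeFactors \ P, l ^ D.factorization l) * ∏ l ∈ P, l ^ D.factorization l = D := by
  rw [Finset.prod_sdiff hP]
  exact Nat.prod_factorization_pow_eq_self hD

theorem a2_t2 (p₀ : ℕ) (P : Finset ℕ) : ∏ l ∈ P.filter (· < p₀), l ^ p₀ ≤ p₀ ^ (p₀ * p₀) := by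
  have h1 : (P.filter (· < p₀)).card ≤ p₀ := by
    refine (Finset.card_le_card (t := Finset.range p₀) fun l hl => ?_).trans (by simp)
    exact Finset.mem_range.2 (Finset.mem_filter.1 hl).2
  have h2 := Finset.prod_le_pow_card (P.filter (· < p₀)) (fun l => l ^ p₀) (p₀ ^ p₀)
    fun l hl => Nat.pow_le_pow_left (Finset.mem_filter.1 hl).2.le _
  refine h2.trans ?_
  rw [pow_mul]
  rcases Nat.eq_zero_or_pos p₀ with rfl | h0
  · simp
  · exact Nat.pow_le_pow_right (by positivity) h1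

theorem a2_dvd {p₀ D s : ℕ} (hD : D ≠ 0) (hs : s ∣ D) {P : Finset ℕ} (hP : ∀ l ∈ P, ¬ mdl p₀ l ∣ s) :
    s ∣ (∏ l ∈ D.primeFactors \ P, l ^ D.factorization l) * ∏ l ∈ P.filter (· < p₀), l ^ p₀ := by
  refine (Nat.dvd_iff_prime_pow_dvd_dvd _ _).2 fun p j hp hj => ?_
  rcases Nat.eq_zero_or_pos j with rfl | hj0
  · simp
  have hp1 : p ∣ s := (dvd_pow_self p hj0.ne').trans hj
  by_cases hpP : p ∈ P
  · have h1 := hP p hpP
    unfold mdl at h1
    split_ifs at h1 with h2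
    · have h3 : j ≤ p₀ := by
        by_contra h4
        exact h1 ((pow_dvd_pow p (by omega)).trans hj)
      exact Dvd.dvd.mul_left ((pow_dvd_pow p h3).trans
        (Finset.dvd_prod_of_mem (fun l => l ^ p₀) (Finset.mem_filter.2 ⟨hpP, h2⟩))) _
    · exact absurd hp1 h1
  · have h2 : j ≤ D.factorization p := (hp.pow_dvd_iff_le_factorization hD).1 (hj.trans hs)
    refine Dvd.dvd.mul_right ((pow_dvd_pow p h2).trans
      (Finset.dvd_prod_of_mem (fun l => l ^ D.factorization l) (Finset.mem_sdiff.2 ⟨?_, hpP⟩))) _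
    exact Nat.mem_primeFactors.2 ⟨hp, hp1.trans hs, hD⟩

theorem a2_heavy {n k c : ℕ} (hn : 0 < n) (hk : k ≤ n) (hc : c ≠ 0) (hcn : c.primeFactors.card ≤ n)
    (B : ℕ → Prop) [DecidablePred B]
    (hB : (∏ l ∈ c.primeFactors.filter B, l ^ c.factorization l) ^ 2 ≤ c) :
    ∃ P ⊆ c.primeFactors, P.card ≤ k ∧ (∀ l ∈ P, ¬ B l) ∧
      (c : ℝ) ^ ((k : ℝ) / (2 * n)) ≤ ((∏ l ∈ P, l ^ c.factorization l : ℕ) : ℝ) := by
  set Q := c.primeFactors.filter (fun l => ¬ B l) with hQ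
  have hpos : ∀ l ∈ c.primeFactors, (0 : ℝ) < ((l ^ c.factorization l : ℕ) : ℝ) := fun l hl => by
    have := (Nat.prime_of_mem_primeFactors hl).pos
    positivity
  obtain ⟨P, hPQ, hPk, hP⟩ := exists_heavy Q (fun l => Real.log ((l ^ c.factorization l : ℕ) : ℝ))
    (fun l hl => Real.log_natCast_nonneg _) ((Finset.card_filter_le _ _).trans hcn) hk
  have hPc : P ⊆ c.primeFactors := hPQ.trans (Finset.filter_subset _ _)
  refine ⟨P, hPc, hPk, fun l hl => (Finset.mem_filter.1 (hPQ hl)).2, ?_⟩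
  have h1 : (∏ l ∈ c.primeFactors.filter B, l ^ c.factorization l) * ∏ l ∈ Q, l ^ c.factorization l = c := by
    rw [hQ, Finset.prod_filter_mul_prod_filter_not]
    exact Nat.prod_factorization_pow_eq_self hc
  have h2 : c ≤ (∏ l ∈ Q, l ^ c.factorization l) ^ 2 := by
    have h3 : c * c ≤ c * (∏ l ∈ Q, l ^ c.factorization l) ^ 2 := by
      calc c * c = (∏ l ∈ c.primeFactors.filter B, l ^ c.factorization l) ^ 2 *
            (∏ l ∈ Q, l ^ c.factorization l) ^ 2 := by rw [← mul_pow, h1, sq]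
        _ ≤ _ := Nat.mul_le_mul_right _ hB
    exact Nat.le_of_mul_le_mul_left h3 (Nat.pos_of_ne_zero hc)
  have hc' : (0 : ℝ) < c := by exact_mod_cast Nat.pos_of_ne_zero hc
  have hlog : ∀ T ⊆ c.primeFactors, ∑ l ∈ T, Real.log ((l ^ c.factorization l : ℕ) : ℝ) =
      Real.log ((∏ l ∈ T, l ^ c.factorization l : ℕ) : ℝ) := fun T hT => by
    rw [Nat.cast_prod, Real.log_prod fun l hl => (hpos l (hT hl)).ne']
  have hpp : ∀ T ⊆ c.primeFactors, (0 : ℝ) < ((∏ l ∈ T, l ^ c.factorization l : ℕ) : ℝ) := fun T hT => by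
    rw [Nat.cast_prod]
    exact Finset.prod_pos fun l hl => hpos l (hT hl)
  rw [hlog P hPc, hlog Q (Finset.filter_subset _ _)] at hP
  have h4 : Real.log c ≤ 2 * Real.log ((∏ l ∈ Q, l ^ c.factorization l : ℕ) : ℝ) := by
    have h5 : (c : ℝ) ≤ ((∏ l ∈ Q, l ^ c.factorization l : ℕ) : ℝ) ^ 2 := by exact_mod_cast h2
    have h6 := Real.log_le_log hc' h5
    rw [Real.log_pow] at h6
    exact_mod_cast h6
  have hn' : (0 : ℝ) < n := by exact_mod_cast hn
  rw [Real.rpow_def_of_pos hc', ← Real.exp_log (hpp P hPc)]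
  refine Real.exp_le_exp.2 ?_
  rw [← mul_div_assoc, div_le_iff₀ (by positivity)]
  have hk' : (0 : ℝ) ≤ k := Nat.cast_nonneg _
  nlinarith

/-- `D = |det A|`, `t₁ P = ∏_{l | D, l ∉ P} l^{v_l D}`, `t₂ P = ∏_{l ∈ P, l < p₀} l^{p₀} ≤ p₀^{p₀²}`, `Λ P = {z | t₁ t₂ z ∈ range A}`; its index is
`D / #torsion ≥ D / (t₁ t₂^n)`.  For admissible `x` let `P_x` be the primes of `c` with `mdl ∤ s` (`(∏_{P_x} l^{v_l c})² ≥ c`), `P ⊆ P_x` from
`exists_heavy` (`card_primeFactors_le`); then `s ∣ t₁ t₂`. -/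
theorem cover_large {n : ℕ} (hn : 0 < n) (p₀ : ℕ) (A : Matrix (Fin n) (Fin n) ℤ) (hA : A.det ≠ 0)
    (hD : A.det.natAbs ≤ n.factorial) {k : ℕ} (hk : k ≤ n) :
    ∃ Λ : Finset ℕ → Submodule ℤ (Fin n → ℤ), (∀ P, LinearMap.range A.mulVecLin ≤ Λ P) ∧
      ∀ x s c y, AdmA p₀ A x s c y → ∃ P ⊆ A.det.natAbs.primeFactors, P.card ≤ k ∧ sv x ∈ Λ P ∧
        (c : ℝ) ^ ((k : ℝ) / (2 * n)) ≤ (Λ P).toAddSubgroup.index * (p₀ : ℝ) ^ (p₀ * p₀ * n) := by
  set D := A.det.natAbs with hDdef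
  have hD0 : D ≠ 0 := Int.natAbs_ne_zero.2 hA
  set H := (LinearMap.range A.mulVecLin).toAddSubgroup with hH
  have hG : Nat.card ((Fin n → ℤ) ⧸ H) = D := index_range A hA
  have : Finite ((Fin n → ℤ) ⧸ H) := Nat.finite_of_card_ne_zero (hG ▸ hD0)
  let t₁ : Finset ℕ → ℕ := fun P => ∏ l ∈ D.primeFactors \ P, l ^ D.factorization l
  let t₂ : Finset ℕ → ℕ := fun P => ∏ l ∈ P.filter (· < p₀), l ^ p₀
  let T : Finset ℕ → AddSubgroup ((Fin n → ℤ) ⧸ H) := fun P =>
    (nsmulAddMonoidHom (α := (Fin n → ℤ) ⧸ H) (t₁ P * t₂ P)).ker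
  let Λ : Finset ℕ → Submodule ℤ (Fin n → ℤ) := fun P =>
    AddSubgroup.toIntSubmodule ((T P).comap (QuotientAddGroup.mk' H))
  have hΛ : ∀ P z, z ∈ Λ P ↔ (t₁ P * t₂ P) • z ∈ H := fun P z => by
    rw [← QuotientAddGroup.eq_zero_iff, QuotientAddGroup.mk_nsmul]
    exact Iff.rfl
  refine ⟨Λ, fun P z hz => (hΛ P z).2 (H.nsmul_mem hz _), fun x s c y h => ?_⟩
  obtain ⟨hs, hy, -, -, hDc, hB⟩ := h
  have hDc' : D = c * s ^ 2 := hDc
  have hc0 : c ≠ 0 := by
    rintro rfl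
    exact hD0 (by rw [hDc', zero_mul])
  have hcD : c ∣ D := ⟨_, hDc'⟩
  have hsub : c.primeFactors ⊆ D.primeFactors := Nat.primeFactors_mono hcD hD0
  obtain ⟨P, hPc, hPk, hPB, hP⟩ := a2_heavy hn hk hc0
    ((Finset.card_le_card hsub).trans (card_primeFactors_le hD0 hD)) (fun l => mdl p₀ l ∣ s) hB
  have hPD : P ⊆ D.primeFactors := hPc.trans hsub
  refine ⟨P, hPD, hPk, ?_, hP.trans ?_⟩
  · obtain ⟨m, hm⟩ : s ∣ t₁ P * t₂ P :=
      a2_dvd hD0 ⟨c * s, by rw [hDc']; ring⟩ hPB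
    rw [hΛ, hm, mul_comm, ← smul_smul]
    refine H.nsmul_mem ⟨y, ?_⟩ _
    rw [Matrix.mulVecLin_apply, hy, natCast_zsmul]
  · have h1 : (Λ P).toAddSubgroup.index = (T P).index :=
      AddSubgroup.index_comap_of_surjective _ (QuotientAddGroup.mk'_surjective H)
    have h2 := (T P).card_mul_index
    rw [hG] at h2
    have ht2 : 0 < t₂ P := Finset.prod_pos fun l hl =>
      pow_pos (Nat.prime_of_mem_primeFactors (hPD (Finset.mem_filter.1 hl).1)).pos _
    have ht1 : 0 < t₁ P := Finset.prod_pos fun l hl =>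
      pow_pos (Nat.prime_of_mem_primeFactors (Finset.mem_sdiff.1 hl).1).pos _
    have h3 : Nat.card (T P) ≤ t₁ P * t₂ P ^ n := by
      rw [← a2_card]
      refine (card_torsion_mul _ _).trans (Nat.mul_le_mul ?_ (card_torsion_le_pow H ht2))
      have h4 := card_torsion_dvd (G := (Fin n → ℤ) ⧸ H) P
      rw [hG] at h4
      exact Nat.le_of_dvd ht1 h4
    have h5 : t₁ P * ∏ l ∈ P, l ^ D.factorization l = D := a2_split hD0 hPD
    have h6 : ∏ l ∈ P, l ^ D.factorization l ≤ t₂ P ^ n * (T P).index := by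
      refine Nat.le_of_mul_le_mul_left ?_ ht1
      rw [h5, ← mul_assoc]
      exact h2.symm.le.trans (Nat.mul_le_mul_right _ h3)
    have h7 : ∏ l ∈ P, l ^ c.factorization l ≤ ∏ l ∈ P, l ^ D.factorization l :=
      Finset.prod_le_prod' fun l hl => Nat.pow_le_pow_right
        (Nat.prime_of_mem_primeFactors (hPD hl)).pos ((Nat.factorization_le_iff_dvd hc0 hD0).2 hcD l)
    have h8 : t₂ P ^ n ≤ p₀ ^ (p₀ * p₀ * n) := by
      rw [pow_mul _ (p₀ * p₀)]
      exact Nat.pow_le_pow_left (a2_t2 p₀ P) _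
    have h9 : ∏ l ∈ P, l ^ c.factorization l ≤ (T P).index * p₀ ^ (p₀ * p₀ * n) := by
      rw [mul_comm]
      exact h7.trans (h6.trans (Nat.mul_le_mul_right _ h8))
    rw [h1]
    exact_mod_cast h9

end

end Crest.Agent.R152
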