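import Crest.Agent.R152.A1
import Crest.Agent.R152.L1

/-!
# R152/A3

Covering admissible vectors when `c` is small: two centres per prime.

Helper lemmas: prefix `a3_`.
-/

set_option autoImplicit false
set_option linter.unusedVariables false
set_option linter.unusedSectionVars false

namespace Crest.Agent.R152

open Crest.FinProb Crest.ProbabilityR.SignMatrix MeasureTheory ProbabilityTheory Filter Module
open scoped RealInnerProductSpace ENNReal Matrix Topology

noncomputable section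

variable {n : ℕ}

/-- `det (fromBlocks A X Xᵀ 0) = det A * det (-(Xᵀ A⁻¹ X))` (`Matrix.det_fromBlocks₁₁`) over `ℚ`; here `A⁻¹ (x j) = y j / s j`. -/
theorem det_pairing_int {κ : Type} [Fintype κ] [DecidableEq κ] (A : Matrix (Fin n) (Fin n) ℤ) (hA : A.det ≠ 0)
    (x y : κ → Fin n → ℤ) (s : κ → ℕ) (hs : ∀ i, 0 < s i) (hy : ∀ i, A *ᵥ y i = (s i : ℤ) • x i) :
    ∃ m : ℤ, (A.det : ℚ) * (Matrix.of fun i j => ((x i ⬝ᵥ y j : ℤ) : ℚ) / s j).det = m := by
  let X : Matrix (Fin n) κ ℤ := Matrix.of fun a i => x i a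
  let Y : Matrix (Fin n) κ ℚ := Matrix.of fun a i => (y i a : ℚ) / s i
  let c : ℤ →+* ℚ := Int.castRingHom ℚ
  set Γ : Matrix κ κ ℚ := Matrix.of fun i j => ((x i ⬝ᵥ y j : ℤ) : ℚ) / s j with hΓ
  have h1 : A.map c * Y = X.map c := by
    ext a i
    have h := congrFun (hy i) a
    have hs' : (s i : ℚ) ≠ 0 := by exact_mod_cast (hs i).ne'
    simp only [Matrix.mulVec, dotProduct, Pi.smul_apply, smul_eq_mul] at h
    have h' : ∑ j, (A a j : ℚ) * (y i j : ℚ) = s i * x i a := by exact_mod_cast h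
    simp only [Matrix.mul_apply, Matrix.map_apply, Matrix.of_apply, X, Y, c, eq_intCast, ← mul_div_assoc,
      ← Finset.sum_div, h']
    field_simp
  have h2 : (X.map c)ᵀ * Y = Γ := by
    ext i j
    simp [Matrix.mul_apply, X, Y, c, hΓ, dotProduct, Finset.sum_div, mul_div_assoc]
  have h3 : Matrix.fromBlocks (A.map c) (X.map c) (X.map c)ᵀ 0 * Matrix.fromBlocks 1 (-Y) 0 1 =
      Matrix.fromBlocks (A.map c) 0 (X.map c)ᵀ (-Γ) := by
    rw [Matrix.fromBlocks_multiply]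
    simp [h1, h2]
  have h4 := congrArg Matrix.det h3
  rw [Matrix.det_mul, Matrix.det_fromBlocks_zero₂₁, Matrix.det_fromBlocks_zero₁₂, Matrix.det_one, Matrix.det_one,
    mul_one, mul_one, Matrix.det_neg] at h4
  have h5 : Matrix.fromBlocks (A.map c) (X.map c) (X.map c)ᵀ 0 = (Matrix.fromBlocks A X Xᵀ 0).map c := by
    rw [Matrix.fromBlocks_map, Matrix.map_zero _ (map_zero c), Matrix.transpose_map]
  have h6 : ∀ {ι : Type} [Fintype ι] [DecidableEq ι] (M : Matrix ι ι ℤ), (M.map c).det = (M.det : ℚ) :=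
    fun M => (RingHom.map_det c M).symm
  rw [h5, h6, h6] at h4
  refine ⟨(-1) ^ Fintype.card κ * (Matrix.fromBlocks A X Xᵀ 0).det, ?_⟩
  rw [Int.cast_mul, h4, Int.cast_pow, Int.cast_neg, Int.cast_one]
  have h7 : ((-1 : ℚ) ^ Fintype.card κ) * (-1) ^ Fintype.card κ = 1 := by rw [← mul_pow]; simp
  linear_combination (-(A.det : ℚ) * Γ.det) * h7

theorem a3_pair_abs {κ : Type} [Fintype κ] [DecidableEq κ] (A : Matrix (Fin n) (Fin n) ℤ) (hA : A.det ≠ 0)
    (x y : κ → Fin n → ℤ) (s : κ → ℕ) (hs : ∀ i, 0 < s i) (hy : ∀ i, A *ᵥ y i = (s i : ℤ) • x i) :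
    ∃ m : ℤ, (A.det.natAbs : ℚ) * (Matrix.of fun i j => ((x i ⬝ᵥ y j : ℤ) : ℚ) / s j).det = m := by
  obtain ⟨m, hm⟩ := det_pairing_int A hA x y s hs hy
  rw [Nat.cast_natAbs]
  rcases abs_choice A.det with h | h
  · exact ⟨m, by rw [h, hm]⟩
  · exact ⟨-m, by rw [h, Int.cast_neg, Int.cast_neg, ← hm, neg_mul]⟩

/-- If `D² ∣ 2 a₁ a₂ a₃`, `e = v_l D`, `β = (e + v_l 2)/3`, then `l^(e - β)` divides one of the `a i`. -/
theorem three_far {l D : ℕ} (hl : l.Prime) (hD : D ≠ 0) (a₁ a₂ a₃ : ℤ) (h : (D : ℤ) ^ 2 ∣ 2 * a₁ * a₂ * a₃) :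
    let r := D.factorization l - (D.factorization l + (2 : ℕ).factorization l) / 3
    (l : ℤ) ^ r ∣ a₁ ∨ (l : ℤ) ^ r ∣ a₂ ∨ (l : ℤ) ^ r ∣ a₃ := by
  intro r
  have : Fact l.Prime := ⟨hl⟩
  by_contra hc
  simp only [padicValInt_dvd_iff, not_or, not_le] at hc
  obtain ⟨⟨h1, h1'⟩, ⟨h2, h2'⟩, h3, h3'⟩ := hc
  have h4 : (l : ℤ) ^ (2 * D.factorization l) ∣ 2 * a₁ * a₂ * a₃ := by
    refine dvd_trans ?_ h
    rw [mul_comm, pow_mul]
    exact pow_dvd_pow_of_dvd (by exact_mod_cast Nat.ordProj_dvd D l) 2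
  rw [padicValInt_dvd_iff, padicValInt.mul (by positivity) h3, padicValInt.mul (by positivity) h2,
    padicValInt.mul two_ne_zero h1] at h4
  have h5 : padicValInt l 2 = (2 : ℕ).factorization l := by
    rw [Nat.factorization_def _ hl, ← padicValInt.of_nat]; rfl
  rcases h4 with h4 | h4
  · exact absurd h4 (by positivity)
  · omega

/-- The integer `D * (xᵀ A⁻¹ x')` for `A y' = s' x'`, `D = c' s'²`. -/
def prg (x y' : Fin n → ℤ) (s' c' : ℕ) : ℤ := c' * s' * (x ⬝ᵥ y')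

/-- For three admissible vectors the Gram matrix `Γ i j = x i ⬝ᵥ y j / s j` is symmetric with integer diagonal; `D det Γ` and the `D (Γ ii Γ jj - Γ ij²)`
are integers (`det_pairing_int`), hence so is `2 D Γ₁₂ Γ₁₃ Γ₂₃`. -/
theorem sq_dvd_prg {p₀ : ℕ} {A : Matrix (Fin n) (Fin n) ℤ} (hs : A.IsSymm) (hA : A.det ≠ 0) (x : Fin 3 → Fin n → Bool)
    (s c : Fin 3 → ℕ) (y : Fin 3 → Fin n → ℤ) (h : ∀ i, AdmA p₀ A (x i) (s i) (c i) (y i)) :
    (A.det.natAbs : ℤ) ^ 2 ∣ 2 * prg (sv (x 1)) (y 0) (s 0) (c 0) * prg (sv (x 2)) (y 0) (s 0) (c 0) *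
      prg (sv (x 2)) (y 1) (s 1) (c 1) := by
  have hs0 : ∀ i, 0 < s i := fun i => (h i).1
  have hy : ∀ i, A *ᵥ y i = (s i : ℤ) • sv (x i) := fun i => (h i).2.1
  have hsq : ∀ i, (s i : ℚ) ≠ 0 := fun i => by exact_mod_cast (hs0 i).ne'
  let Γ : Fin 3 → Fin 3 → ℚ := fun i j => ((sv (x i) ⬝ᵥ y j : ℤ) : ℚ) / s j
  have hsym : ∀ i j, Γ i j = Γ j i := by
    intro i j
    have h1 : (s i : ℤ) * (sv (x i) ⬝ᵥ y j) = s j * (sv (x j) ⬝ᵥ y i) := by
      rw [← smul_eq_mul, ← smul_eq_mul, ← smul_dotProduct, ← smul_dotProduct, ← hy, ← hy,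
        dotProduct_comm (A *ᵥ y j), Matrix.dotProduct_mulVec, ← Matrix.mulVec_transpose, hs.eq]
    have h2 : (s i : ℚ) * ((sv (x i) ⬝ᵥ y j : ℤ) : ℚ) = s j * ((sv (x j) ⬝ᵥ y i : ℤ) : ℚ) := by exact_mod_cast h1
    have := hsq i
    have := hsq j
    simp only [Γ]
    field_simp
    linear_combination h2
  have hd : ∀ i, ∃ d : ℤ, Γ i i = d := by
    intro i
    obtain ⟨d, hd⟩ := (h i).2.2.2.1
    refine ⟨d, ?_⟩
    have := hsq i
    simp only [Γ, hd]
    push_cast
    field_simp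
  choose d hd using hd
  set D : ℕ := A.det.natAbs with hD
  have hprg : ∀ i j, ((prg (sv (x i)) (y j) (s j) (c j) : ℤ) : ℚ) = D * Γ i j := by
    intro i j
    have h1 : D = c j * s j ^ 2 := (h j).2.2.2.2.1
    have := hsq j
    simp only [Γ, prg, h1]
    push_cast
    field_simp
  have h2 : ∀ i j, ∃ m : ℤ, (D : ℚ) * (Γ i i * Γ j j - Γ i j * Γ j i) = m := by
    intro i j
    obtain ⟨m, hm⟩ := a3_pair_abs A hA (fun a => sv (x (![i, j] a))) (fun a => y (![i, j] a)) (fun a => s (![i, j] a))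
      (fun a => hs0 _) (fun a => hy _)
    refine ⟨m, ?_⟩
    rw [← hm, Matrix.det_fin_two]
    rfl
  obtain ⟨m, hm⟩ := a3_pair_abs A hA (fun a => sv (x a)) y s hs0 hy
  rw [Matrix.det_fin_three] at hm
  change (D : ℚ) * (Γ 0 0 * Γ 1 1 * Γ 2 2 - Γ 0 0 * Γ 1 2 * Γ 2 1 - Γ 0 1 * Γ 1 0 * Γ 2 2 + Γ 0 1 * Γ 1 2 * Γ 2 0 +
    Γ 0 2 * Γ 1 0 * Γ 2 1 - Γ 0 2 * Γ 1 1 * Γ 2 0) = m at hm
  obtain ⟨m01, h01⟩ := h2 0 1
  obtain ⟨m02, h02⟩ := h2 0 2
  obtain ⟨m12, h12⟩ := h2 1 2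
  rw [hsym 0 1, hd, hd] at h01
  rw [hsym 0 2, hd, hd] at h02
  rw [hsym 1 2, hd, hd] at h12
  rw [hsym 0 1, hsym 0 2, hsym 1 2, hd, hd, hd] at hm
  refine ⟨m - d 0 * m12 - d 1 * m02 - d 2 * m01 + 2 * D * d 0 * d 1 * d 2, ?_⟩
  have : ((2 * prg (sv (x 1)) (y 0) (s 0) (c 0) * prg (sv (x 2)) (y 0) (s 0) (c 0) *
      prg (sv (x 2)) (y 1) (s 1) (c 1) : ℤ) : ℚ) =
      (((D : ℤ) ^ 2 * (m - d 0 * m12 - d 1 * m02 - d 2 * m01 + 2 * D * d 0 * d 1 * d 2) : ℤ) : ℚ) := by
    push_cast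
    rw [hprg, hprg, hprg, ← hm, ← h01, ← h02, ← h12]
    ring
  exact_mod_cast this

/-- Lower bound for the index of `{z | D ∣ z ⬝ᵥ w}`: the index `I` kills the quotient, so `D ∣ I * w j` for all `j`. -/
theorem dvd_index_mul (D : ℤ) (w : Fin n → ℤ) (Λ : Submodule ℤ (Fin n → ℤ)) (hΛ : ∀ z, z ∈ Λ ↔ D ∣ z ⬝ᵥ w) (j : Fin n) :
    D ∣ (Λ.toAddSubgroup.index : ℤ) * w j := by
  have h := (hΛ _).1 (Λ.toAddSubgroup.nsmul_index_mem (Pi.single j 1))
  rwa [smul_dotProduct, single_one_dotProduct, nsmul_eq_mul] at h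

/-- admissible tuples -/
structure a3_T (p₀ : ℕ) (A : Matrix (Fin n) (Fin n) ℤ) where
  x : Fin n → Bool
  s : ℕ
  c : ℕ
  y : Fin n → ℤ
  h : AdmA p₀ A x s c y

theorem a3_centres {p₀ : ℕ} {A : Matrix (Fin n) (Fin n) ℤ} (hs : A.IsSymm) (hA : A.det ≠ 0) [Nonempty (a3_T p₀ A)]
    (l : ℕ) : ∃ cen : Bool → a3_T p₀ A, l.Prime → ∀ τ : a3_T p₀ A, ∃ b,
      (l : ℤ) ^ (A.det.natAbs.factorization l - (A.det.natAbs.factorization l + (2 : ℕ).factorization l) / 3) ∣
        prg (sv τ.x) (cen b).y (cen b).s (cen b).c ∧ (cen b).c.factorization l ≤ τ.c.factorization l := by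
  set r := A.det.natAbs.factorization l - (A.det.natAbs.factorization l + (2 : ℕ).factorization l) / 3 with hr
  let f : a3_T p₀ A → ℕ := fun τ => τ.c.factorization l
  let τ₁ := Function.argmin f
  by_cases hall : ∀ τ : a3_T p₀ A, (l : ℤ) ^ r ∣ prg (sv τ.x) τ₁.y τ₁.s τ₁.c
  · exact ⟨fun _ => τ₁, fun _ τ => ⟨true, hall τ, Function.argmin_le f τ⟩⟩
  · let S : Set (a3_T p₀ A) := {τ | ¬ (l : ℤ) ^ r ∣ prg (sv τ.x) τ₁.y τ₁.s τ₁.c}
    have hS : S.Nonempty := not_forall.1 hall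
    let τ₂ := Function.argminOn f S hS
    have h₂ : τ₂ ∈ S := Function.argminOn_mem f S hS
    refine ⟨fun b => bif b then τ₁ else τ₂, fun hl τ => ?_⟩
    by_cases hτ : τ ∈ S
    · refine ⟨false, ?_, Function.argminOn_le f S hτ⟩
      have h := sq_dvd_prg hs hA (fun i => (![τ₁, τ₂, τ] i).x) (fun i => (![τ₁, τ₂, τ] i).s)
        (fun i => (![τ₁, τ₂, τ] i).c) (fun i => (![τ₁, τ₂, τ] i).y) (fun i => (![τ₁, τ₂, τ] i).h)
      rcases three_far hl (Int.natAbs_ne_zero.2 hA) _ _ _ h with h | h | h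
      · exact absurd h h₂
      · exact absurd h hτ
      · exact h
    · exact ⟨true, not_not.1 hτ, Function.argmin_le f τ⟩

theorem a3_sum_log (P : Finset ℕ) (N : ℕ) : ∑ l ∈ P, (N.factorization l : ℝ) * Real.log l ≤ Real.log N := by
  classical
  rw [Real.log_nat_eq_sum_factorization, Finsupp.sum]
  have h1 : ∑ l ∈ P, (N.factorization l : ℝ) * Real.log l =
      ∑ l ∈ P ∩ N.factorization.support, (N.factorization l : ℝ) * Real.log l := by
    refine (Finset.sum_subset Finset.inter_subset_left fun l hl hl' => ?_).symm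
    have : N.factorization l = 0 := by
      by_contra h
      exact hl' (Finset.mem_inter.2 ⟨hl, Finsupp.mem_support_iff.2 h⟩)
    simp [this]
  rw [h1]
  exact Finset.sum_le_sum_of_subset_of_nonneg Finset.inter_subset_right fun l _ _ =>
    mul_nonneg (Nat.cast_nonneg _) (Real.log_natCast_nonneg l)

/-- The lattice `{z | D ∣ z ⬝ᵥ w}`. -/
def a3_lat (D : ℤ) (w : Fin n → ℤ) : Submodule ℤ (Fin n → ℤ) where
  carrier := {z | D ∣ z ⬝ᵥ w}
  add_mem' := fun ha hb => by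
    simp only [Set.mem_ofPred_eq, add_dotProduct] at *
    exact dvd_add ha hb
  zero_mem' := by simp
  smul_mem' := fun c a ha => by
    simp only [Set.mem_ofPred_eq, smul_dotProduct, smul_eq_mul] at *
    exact ha.mul_left c

theorem a3_mem (D : ℤ) (w z : Fin n → ℤ) : z ∈ a3_lat D w ↔ D ∣ z ⬝ᵥ w := Iff.rfl

/-- `D = |det A|`, `P ⊆ primeFactors D` from `exists_heavy` (weights `v_l(D) log l`).  For `l ∈ P`, `e = v_l D`, `β = (e + v_l 2)/3`, `m = D / l^e`; call `τ`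
close to `τ'` if `l^(e-β) ∣ prg x y' s' c'`.  First centre: an admissible tuple with minimal `v_l c`; second centre: one with minimal `v_l c` among those
not close to the first (if any).  By `sq_dvd_prg`, `three_far` every tuple is close to a centre `τ'` with `v_l c' ≤ v_l c`.  For a choice `χ` of centres let
`w = ∑_{l ∈ P} m l^β c' s' y'` and `Λ χ = {z | D ∣ z ⬝ᵥ w}` (finite index; it contains `range A` since `A w ∈ D ℤ^n` and `A` is symmetric).  If `a = v_l s' > β`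
take `j` with `l ∤ y' j`: `v_l (w j) = β + e - a` (the other terms are divisible by `l^e`), so `l^(a - β)` divides the index (`dvd_index_mul`), and
`a - β ≥ e/6 - v_l(c)/2 - v_l(2)/3`.  Coprime prime powers: their product divides the index. -/
theorem cover_small (hn : 0 < n) (p₀ : ℕ) (A : Matrix (Fin n) (Fin n) ℤ) (hs : A.IsSymm) (hA : A.det ≠ 0)
    (hD : A.det.natAbs ≤ n.factorial) {k : ℕ} (hk : k ≤ n) :
    ∃ F : Finset (Submodule ℤ (Fin n → ℤ)), F.card ≤ 2 ^ k ∧ (∀ Λ ∈ F, LinearMap.range A.mulVecLin ≤ Λ) ∧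
      ∀ x s c y, AdmA p₀ A x s c y → ∃ Λ ∈ F, sv x ∈ Λ ∧
        (A.det.natAbs : ℝ) ^ ((k : ℝ) / (6 * n)) ≤ 2 * √c * Λ.toAddSubgroup.index := by
  classical
  rcases isEmpty_or_nonempty (a3_T p₀ A) with hT | hT
  · exact ⟨∅, by simp, by simp, fun x s c y h => (hT.false ⟨x, s, c, y, h⟩).elim⟩
  choose cen hcen using a3_centres (p₀ := p₀) hs hA
  set D : ℕ := A.det.natAbs with hDd
  have hD0 : D ≠ 0 := Int.natAbs_ne_zero.2 hA
  obtain ⟨P, hPS, hPk, hPw⟩ := exists_heavy D.primeFactors (fun l => (D.factorization l : ℝ) * Real.log l)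
    (fun l _ => mul_nonneg (Nat.cast_nonneg _) (Real.log_natCast_nonneg l)) (card_primeFactors_le hD0 hD) hk
  have hPp : ∀ l : P, (l : ℕ).Prime := fun l => Nat.prime_of_mem_primeFactors (hPS l.2)
  let β : ℕ → ℕ := fun l => (D.factorization l + (2 : ℕ).factorization l) / 3
  let co : ℕ → a3_T p₀ A → ℕ := fun l τ => ordCompl[l] D * l ^ β l * τ.c * τ.s
  let w : (P → Bool) → Fin n → ℤ := fun χ => ∑ l : P, (co l (cen l (χ l)) : ℤ) • (cen l (χ l)).y
  have hrange : ∀ χ, LinearMap.range A.mulVecLin ≤ a3_lat D (w χ) := by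
    rintro χ _ ⟨u, rfl⟩
    rw [a3_mem, Matrix.mulVecLin_apply, dotProduct_comm, Matrix.dotProduct_mulVec, ← Matrix.mulVec_transpose, hs.eq]
    simp only [w, Matrix.mulVec_sum, Matrix.mulVec_smul, sum_dotProduct, smul_dotProduct, smul_eq_mul]
    refine Finset.dvd_sum fun l _ => ?_
    obtain ⟨-, h1, -, -, h2, -⟩ := (cen l (χ l)).h
    rw [h1, smul_dotProduct, smul_eq_mul, ← mul_assoc]
    refine Dvd.dvd.mul_right ?_ _
    refine ⟨ordCompl[l] D * l ^ β l, ?_⟩
    rw [← hDd] at h2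
    have : co l (cen l (χ l)) * (cen l (χ l)).s = D * (ordCompl[l] D * l ^ β l) := by
      conv_rhs => enter [1]; rw [h2]
      simp only [co]
      ring
    exact_mod_cast this
  refine ⟨Finset.univ.image fun χ => a3_lat D (w χ), ?_, ?_, fun x s c y h => ?_⟩
  · refine Finset.card_image_le.trans ?_
    rw [Finset.card_univ, Fintype.card_fun, Fintype.card_bool, Fintype.card_coe]
    exact Nat.pow_le_pow_right two_pos hPk
  · intro Λ hΛ
    obtain ⟨χ, -, rfl⟩ := Finset.mem_image.1 hΛ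
    exact hrange χ
  choose χ hχ1 hχ2 using fun l : P => hcen l (hPp l) ⟨x, s, c, y, h⟩
  refine ⟨_, Finset.mem_image_of_mem _ (Finset.mem_univ χ), ?_, ?_⟩
  · rw [a3_mem]
    simp only [w, dotProduct_sum, dotProduct_smul, smul_eq_mul]
    refine Finset.dvd_sum fun l _ => ?_
    have e : (co l (cen l (χ l)) : ℤ) * (sv x ⬝ᵥ (cen l (χ l)).y) =
        (ordCompl[l] D : ℕ) * ((l : ℤ) ^ β l * prg (sv x) (cen l (χ l)).y (cen l (χ l)).s (cen l (χ l)).c) := by
      simp only [co, prg, Nat.cast_mul, Nat.cast_pow]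
      ring
    have e2 : (D : ℤ) = (ordCompl[l] D : ℕ) * (l : ℤ) ^ D.factorization l := by
      rw [mul_comm]
      exact_mod_cast (Nat.ordProj_mul_ordCompl_eq_self D l).symm
    rw [e]
    conv_lhs => rw [e2]
    refine mul_dvd_mul_left _ (dvd_trans ?_ (mul_dvd_mul_left _ (hχ1 l)))
    rw [← pow_add]
    exact pow_dvd_pow _ (by simp only [β]; omega)
  set I : ℕ := (a3_lat D (w χ)).toAddSubgroup.index with hI
  have hI0 : I ≠ 0 := by
    have h1 : I ∣ D := by
      rw [hDd, ← index_range A hA]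
      exact AddSubgroup.index_dvd_of_le (hrange χ)
    exact ne_zero_of_dvd_ne_zero hD0 h1
  have hc0 : c ≠ 0 := by
    have h2 : D = c * s ^ 2 := h.2.2.2.2.1
    rintro rfl
    exact hD0 (by simpa using h2)
  have hval : ∀ l : P, D.factorization l ≤ (4 * c ^ 3 * I ^ 6).factorization l := by
    intro l
    have hl := hPp l
    have hc' := hχ2 l
    obtain ⟨hs0, -, hj, -, h2, -⟩ := (cen l (χ l)).h
    rw [← hDd] at h2
    have hc1 : (cen l (χ l)).c ≠ 0 := by
      intro h0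
      exact hD0 (by simpa [h0] using h2)
    have h3 : D.factorization l = (cen l (χ l)).c.factorization l + 2 * (cen l (χ l)).s.factorization l := by
      conv_lhs => rw [h2]
      rw [Nat.factorization_mul hc1 (pow_ne_zero _ hs0.ne'), Nat.factorization_pow]
      simp
    have h4 : (cen l (χ l)).s.factorization l ≤ I.factorization l + β l := by
      rcases Nat.eq_zero_or_pos ((cen l (χ l)).s.factorization l) with h0 | h0
      · omega
      obtain ⟨j, hj⟩ := hj l hl (Nat.dvd_of_factorization_pos h0.ne')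
      have h5 := dvd_index_mul D (w χ) _ (a3_mem _ _) j
      have h6 : (l : ℤ) ^ D.factorization l ∣ (I : ℤ) * w χ j :=
        dvd_trans (by exact_mod_cast Nat.ordProj_dvd D l) h5
      simp only [w, Finset.sum_apply, Pi.smul_apply, smul_eq_mul] at h6
      rw [← Finset.add_sum_erase _ _ (Finset.mem_univ l), mul_add] at h6
      have h7 : (l : ℤ) ^ D.factorization l ∣
          (I : ℤ) * ∑ l' ∈ Finset.univ.erase l, (co l' (cen l' (χ l')) : ℤ) * (cen l' (χ l')).y j := by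
        refine Dvd.dvd.mul_left (Finset.dvd_sum fun l' hl' => Dvd.dvd.mul_right ?_ _) _
        have hne : (l : ℕ) ≠ l' := fun e => (Finset.mem_erase.1 hl').1 (Subtype.ext e.symm)
        have h8 : (l : ℕ) ^ D.factorization l ∣ ordCompl[l'] D := by
          have h9 : (l : ℕ) ^ D.factorization l ∣ ordProj[l'] D * ordCompl[l'] D := by
            rw [Nat.ordProj_mul_ordCompl_eq_self]
            exact Nat.ordProj_dvd D l
          exact (Nat.coprime_pow_primes _ _ hl (hPp l') hne).dvd_of_dvd_mul_left h9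
        have h10 : (l : ℕ) ^ D.factorization l ∣ co l' (cen l' (χ l')) :=
          ((h8.mul_right _).mul_right _).mul_right _
        exact_mod_cast h10
      have h8 := (dvd_add_left h7).1 h6
      rw [← mul_assoc] at h8
      have h9 := (Nat.prime_iff_prime_int.1 hl).pow_dvd_of_dvd_mul_right _ hj h8
      have h10 : (l : ℕ) ^ D.factorization l ∣ I * co l (cen l (χ l)) := by exact_mod_cast h9
      have hm0 : ordCompl[l] D ≠ 0 := (Nat.ordCompl_pos l hD0).ne'
      have hb0 : (l : ℕ) ^ β l ≠ 0 := pow_ne_zero _ hl.ne_zero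
      have hm1 : (ordCompl[l] D).factorization l = 0 :=
        Nat.factorization_eq_zero_of_not_dvd (Nat.not_dvd_ordCompl hl hD0)
      rw [hl.pow_dvd_iff_le_factorization (mul_ne_zero hI0 (mul_ne_zero (mul_ne_zero (mul_ne_zero hm0 hb0) hc1) hs0.ne')),
        Nat.factorization_mul hI0 (mul_ne_zero (mul_ne_zero (mul_ne_zero hm0 hb0) hc1) hs0.ne'),
        Nat.factorization_mul (mul_ne_zero (mul_ne_zero hm0 hb0) hc1) hs0.ne',
        Nat.factorization_mul (mul_ne_zero hm0 hb0) hc1, Nat.factorization_mul hm0 hb0, hl.factorization_pow] at h10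
      simp only [Finsupp.add_apply, hm1, Finsupp.single_eq_same] at h10
      omega
    have h5 : (4 * c ^ 3 * I ^ 6).factorization l =
        2 * (2 : ℕ).factorization l + 3 * c.factorization l + 6 * I.factorization l := by
      rw [Nat.factorization_mul (by positivity) (by positivity), Nat.factorization_mul (by positivity) (by positivity),
        show (4 : ℕ) = 2 ^ 2 from rfl, Nat.factorization_pow, Nat.factorization_pow, Nat.factorization_pow]
      simp
    simp only [β] at h4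
    change (cen l (χ l)).c.factorization l ≤ c.factorization l at hc'
    omega
  have h1 : ∑ l ∈ P, (D.factorization l : ℝ) * Real.log l ≤ Real.log ((4 * c ^ 3 * I ^ 6 : ℕ) : ℝ) := by
    refine le_trans (Finset.sum_le_sum fun l hl => ?_) (a3_sum_log P _)
    exact mul_le_mul_of_nonneg_right (by exact_mod_cast hval ⟨l, hl⟩) (Real.log_natCast_nonneg l)
  have h2 : ∑ l ∈ D.primeFactors, (D.factorization l : ℝ) * Real.log l = Real.log D := by
    rw [Real.log_nat_eq_sum_factorization, Finsupp.sum, Nat.support_factorization]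
  have hc1 : (0 : ℝ) < c := by exact_mod_cast Nat.pos_of_ne_zero hc0
  have hI1 : (0 : ℝ) < I := by exact_mod_cast Nat.pos_of_ne_zero hI0
  have hD1 : (0 : ℝ) < D := by exact_mod_cast Nat.pos_of_ne_zero hD0
  have hn1 : (0 : ℝ) < n := by exact_mod_cast hn
  have h3 : Real.log ((4 * c ^ 3 * I ^ 6 : ℕ) : ℝ) ≤ 6 * Real.log (2 * √c * I) := by
    have e : (6 : ℝ) * Real.log (2 * √c * I) = Real.log ((2 * √c * I) ^ 6) := by
      rw [Real.log_pow]; norm_num
    rw [e]
    refine Real.log_le_log (by positivity) ?_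
    have e2 : (2 * √c * I : ℝ) ^ 6 = 64 * (√c ^ 2) ^ 3 * I ^ 6 := by ring
    rw [e2, Real.sq_sqrt hc1.le]
    push_cast
    have : (0 : ℝ) ≤ c ^ 3 * I ^ 6 := by positivity
    nlinarith
  rw [Real.rpow_le_iff_le_log hD1 (by positivity), div_mul_eq_mul_div, div_le_iff₀ (by positivity)]
  rw [h2] at hPw
  have h4 := mul_le_mul_of_nonneg_left (h1.trans h3) hn1.le
  nlinarith

end

end Crest.Agent.R152
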