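import Crest.Agent.R152.P1
import Crest.Agent.R152.A1

/-!
# R152/B1

Large corank is very unlikely; reduction of the corank by one.

Helper lemmas: prefix `b1_`.
-/

set_option autoImplicit false
set_option linter.unusedVariables false
set_option linter.unusedSectionVars false

namespace Crest.Agent.R152

open Crest.FinProb Crest.ProbabilityR.SignMatrix MeasureTheory ProbabilityTheory Filter Module
open scoped RealInnerProductSpace ENNReal Matrix Topology

noncomputable section

variable {p : ℝ}

theorem b1_eq {ι F : Type} [Fintype ι] [DecidableEq ι] [Field F] (M M' : Matrix ι ι F) (hM : M.IsSymm)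
    (hM' : M'.IsSymm) (I : Finset ι)
    (hs : ∀ j, (fun l => M l j) ∈ Submodule.span F (Set.range fun i : I => fun l => M l i))
    (hs' : ∀ j, (fun l => M' l j) ∈ Submodule.span F (Set.range fun i : I => fun l => M' l i))
    (he : ∀ i ∈ I, ∀ j, M i j = M' i j) : M = M' := by
  have hcol : ∀ (i : I) l, M' l i = M l i := fun i l => by
    rw [hM'.apply, ← he i i.2 l, hM.apply]
  ext l j
  obtain ⟨c, hc⟩ := (Submodule.mem_span_range_iff_exists_fun F).1 (hs j)
  obtain ⟨c', hc'⟩ := (Submodule.mem_span_range_iff_exists_fun F).1 (hs' j)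
  obtain ⟨e, hee⟩ := (Submodule.mem_span_range_iff_exists_fun F).1 (hs l)
  have h1 : ∀ m, M m j = ∑ i : I, c i * M m i := fun m => by
    have := congrFun hc m
    simpa [Finset.sum_apply] using this.symm
  have h2 : ∀ m, M' m j = ∑ i : I, c' i * M m i := fun m => by
    have := congrFun hc' m
    simp only [Finset.sum_apply, Pi.smul_apply, smul_eq_mul, hcol] at this
    exact this.symm
  have h3 : ∀ m, M l m = ∑ i : I, e i * M i m := fun m => by
    have := congrFun hee m
    simp only [Finset.sum_apply, Pi.smul_apply, smul_eq_mul] at this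
    rw [hM.apply, ← this]
    exact Finset.sum_congr rfl fun i _ => by rw [hM.apply]
  have h4 : ∀ d : I → F, ∑ i : I, d i * M l i = ∑ i' : I, e i' * ∑ i : I, d i * M i' i := fun d => by
    simp only [Finset.mul_sum]
    rw [Finset.sum_comm]
    refine Finset.sum_congr rfl fun i _ => ?_
    rw [h3 i, Finset.mul_sum]
    exact Finset.sum_congr rfl fun i' _ => by ring
  rw [h1 l, h2 l, h4 c, h4 c']
  refine Finset.sum_congr rfl fun i _ => ?_
  rw [← h1, ← h2, he i i.2]

theorem b1_exists_cols {ι F : Type} [Fintype ι] [DecidableEq ι] [Field F] (M : Matrix ι ι F) :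
    ∃ I : Finset ι, I.card = M.rank ∧
      ∀ j, (fun l => M l j) ∈ Submodule.span F (Set.range fun i : I => fun l => M l i) := by
  obtain ⟨κ, a, ha, hsp, hli⟩ := exists_linearIndependent' F M.col
  haveI : Fintype κ := Fintype.ofInjective a ha
  refine ⟨Finset.univ.image a, ?_, fun j => ?_⟩
  · rw [Finset.card_image_of_injective _ ha, Matrix.rank_eq_finrank_span_cols, ← hsp,
      finrank_span_eq_card hli, Finset.card_univ]
  · have hj : M.col j ∈ Submodule.span F (Set.range (M.col ∘ a)) := by
      rw [hsp]; exact Submodule.subset_span ⟨j, rfl⟩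
    refine Submodule.span_mono ?_ hj
    rintro _ ⟨k, rfl⟩
    exact ⟨⟨a k, Finset.mem_image_of_mem _ (Finset.mem_univ _)⟩, rfl⟩

theorem b1_ker {n : ℕ} {F : Type} [Field F] (M : Matrix (Fin n) (Fin n) F) (h : M.rank < n) :
    ∃ v, v ≠ 0 ∧ M *ᵥ v = 0 := by
  classical
  refine Matrix.exists_mulVec_eq_zero_iff.2 ?_
  by_contra hd
  have := Matrix.rank_of_det_ne_zero hd
  rw [Fintype.card_fin] at this
  omega

/-- If the columns in `I` form a basis of the column space of a symmetric matrix, the principal block `I × I` is injective (if `M_{II} c = 0` then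
`(M c)_j = cᵀ M_{·I} c_j = 0` for all `j`), so the entries in `Iᶜ × Iᶜ` are determined by the others. -/
theorem eq_of_col_basis {ι F : Type} [Fintype ι] [DecidableEq ι] [Field F] (M M' : Matrix ι ι F) (hM : M.IsSymm)
    (hM' : M'.IsSymm) (I : Finset ι) (hI : LinearIndependent F fun i : I => fun j => M j i)
    (hs : ∀ j, (fun l => M l j) ∈ Submodule.span F (Set.range fun i : I => fun l => M l i))
    (hs' : ∀ j, (fun l => M' l j) ∈ Submodule.span F (Set.range fun i : I => fun l => M' l i))
    (he : ∀ i ∈ I, ∀ j, M i j = M' i j) : M = M' := by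
  exact b1_eq M M' hM hM' I hs hs' he

/-- Union over the `≤ 2^card` sets `I` (`exists_linearIndependent` for the columns, `|I| = rank`); resample `Sym2 Iᶜ` (`Sym2.map Subtype.val` is injective,
`Sym2.card`), `pr_le_of_subsingleton`. -/
theorem corank_bound (h0 : 0 < p) (h1 : p < 1) {ι F : Type} [Fintype ι] [DecidableEq ι] [Field F] {u w : F} (huw : u ≠ w) (k : ℕ) :
    pr p {b : Sym2 ι → Bool | (Matrix.of fun i j => if b s(i, j) then u else w).rank + k ≤ Fintype.card ι} ≤
      2 ^ Fintype.card ι * pm p ^ (k * k / 2) := by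
  classical
  set A : (Sym2 ι → Bool) → Matrix ι ι F := fun b => Matrix.of fun i j => if b s(i, j) then u else w with hA
  have hAs : ∀ b, (A b).IsSymm := fun b => by
    ext i j
    simp only [hA, Matrix.transpose_apply, Matrix.of_apply]
    rw [Sym2.eq_swap]
  let s : Finset (Finset ι) := Finset.univ.filter fun I => I.card + k ≤ Fintype.card ι
  have hle := pr_le_card_mul h0 h1 s
    (fun I => {b | ∀ j, (fun l => A b l j) ∈ Submodule.span F (Set.range fun i : I => fun l => A b l i)})
    {b : Sym2 ι → Bool | (A b).rank + k ≤ Fintype.card ι} (c := pm p ^ (k * k / 2)) ?_ ?_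
  · refine hle.trans ?_
    have hs : (s.card : ℝ) ≤ 2 ^ Fintype.card ι := by
      have : s.card ≤ 2 ^ Fintype.card ι := by
        refine (Finset.card_filter_le _ _).trans ?_
        simp
      exact_mod_cast this
    exact mul_le_mul_of_nonneg_right hs (pow_nonneg (pm_pos p).le _)
  · intro b hb
    obtain ⟨I, hI, hsp⟩ := b1_exists_cols (A b)
    refine ⟨I, ?_, hsp⟩
    simp only [s, Finset.mem_filter, Finset.mem_univ, true_and]
    rw [hI]; exact hb
  · intro I hI
    simp only [s, Finset.mem_filter, Finset.mem_univ, true_and] at hI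
    have he : Function.Injective (Sym2.map (Subtype.val : {x // x ∉ I} → ι)) :=
      Sym2.map.injective Subtype.val_injective
    refine pr_le_of_repl h0 h1 he _ fun ω => ?_
    refine (pr_le_of_subsingleton h0 h1 ?_).trans ?_
    · intro η hη η' hη'
      have hEq := b1_eq _ _ (hAs _) (hAs _) I hη hη' (fun i hi j => by
        have hn : s(i, j) ∉ Set.range (Sym2.map (Subtype.val : {x // x ∉ I} → ι)) := by
          rintro ⟨z, hz⟩
          induction z using Sym2.ind with
          | h x y =>
            rw [Sym2.map_mk, Sym2.eq_iff] at hz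
            rcases hz with ⟨h, -⟩ | ⟨-, h⟩
            · exact x.2 (h ▸ hi)
            · exact y.2 (h ▸ hi)
        simp only [hA, Matrix.of_apply]
        rw [repl_of_not_mem _ _ hn, repl_of_not_mem _ _ hn])
      funext z
      induction z using Sym2.ind with
      | h x y =>
        have := congrFun (congrFun hEq x) y
        simp only [hA, Matrix.of_apply] at this
        have e1 := repl_apply he η ω s(x, y)
        have e2 := repl_apply he η' ω s(x, y)
        rw [Sym2.map_mk] at e1 e2
        rw [e1, e2] at this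
        cases h : η s(x, y) <;> cases h' : η' s(x, y) <;> simp_all [huw.symm]
    · refine pow_le_pow_of_le_one (pm_pos p).le (pm_lt_one h0 h1).le ?_
      rw [Sym2.card, Nat.choose_two_right]
      have hc : k ≤ Fintype.card {x // x ∉ I} := by
        rw [Fintype.card_subtype_compl, Fintype.card_coe]
        omega
      apply Nat.div_le_div_right
      simp only [Nat.add_sub_cancel]
      exact Nat.mul_le_mul (by omega) hc

/-- A nonzero kernel vector of a sign matrix has two nonzero coordinates; `pr_le_qq`. -/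
theorem pr_orth_le (h0 : 0 < p) (h1 : p < 1) {n : ℕ} (a : Sym2 (Fin n) → Bool) (w : Fin n → ℚ) (hw : w ≠ 0)
    (h : (Mx a).map (Int.cast : ℤ → ℚ) *ᵥ w = 0) : pr p {x : Fin n → Bool | qc (sv x) ⬝ᵥ w = 0} ≤ qq p := by
  classical
  obtain ⟨i, hi⟩ : ∃ i, w i ≠ 0 := Function.ne_iff.1 hw
  have hsv : ∀ (x : Fin n → Bool) (j : Fin n), (sv x j : ℚ) = 1 ∨ (sv x j : ℚ) = -1 := fun x j => by
    unfold sv; split_ifs <;> simp
  obtain ⟨j, hji, hj⟩ : ∃ j, j ≠ i ∧ w j ≠ 0 := by
    by_contra hcon
    push Not at hcon
    have := congrFun h i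
    simp only [Matrix.mulVec, dotProduct, Matrix.map_apply, Pi.zero_apply] at this
    rw [Finset.sum_eq_single i (fun j _ hj => by rw [hcon j hj, mul_zero]) (by simp), Mx_apply] at this
    rcases hsv (fun l => a s(i, l)) i with h' | h' <;> rw [h'] at this <;> simp [hi] at this
  have key : ∀ l, w l ≠ 0 → ∀ ω ∈ {x : Fin n → Bool | qc (sv x) ⬝ᵥ w = 0},
      Function.update ω l (!ω l) ∉ {x : Fin n → Bool | qc (sv x) ⬝ᵥ w = 0} := by
    intro l hl ω hω hω'
    simp only [Set.mem_ofPred_eq, dotProduct, qc_apply] at hω hω'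
    rw [← Finset.add_sum_erase _ _ (Finset.mem_univ l)] at hω hω'
    have e : ∑ x ∈ Finset.univ.erase l, (sv (Function.update ω l (!ω l)) x : ℚ) * w x =
        ∑ x ∈ Finset.univ.erase l, (sv ω x : ℚ) * w x :=
      Finset.sum_congr rfl fun x hx => by
        simp only [sv, Function.update_of_ne (Finset.ne_of_mem_erase hx)]
    rw [e] at hω'
    have e2 : (sv (Function.update ω l (!ω l)) l : ℚ) = -(sv ω l : ℚ) := by
      simp only [sv, Function.update_self]
      cases ω l <;> simp
    rw [e2] at hω'
    have : (sv ω l : ℚ) * w l = 0 := by linarith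
    rcases hsv ω l with h' | h' <;> rw [h'] at this <;> simp [hl] at this
  exact pr_le_qq h0 h1 _ hji.symm (key i hi) (key j hj)

/-- If `M v = 0`, `v i ≠ 0`, then `w ↦ (w extended by 0 at i)` is a bijection from the kernel of the minor onto `ker M ∩ {· i = 0}`: if the minor kills `w` then
`M w̃ = t e_i` and `0 = vᵀ M w̃ = t v i`. -/
theorem ker_minor {n : ℕ} {F : Type} [Field F] (M : Matrix (Fin (n + 1)) (Fin (n + 1)) F) (hM : M.IsSymm)
    (v : Fin (n + 1) → F) (hv : M *ᵥ v = 0) (i : Fin (n + 1)) (hi : v i ≠ 0) :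
    (M.submatrix i.succAbove i.succAbove).rank = M.rank ∧ ∀ w, M.submatrix i.succAbove i.succAbove *ᵥ w = 0 →
      (fun j => M i (i.succAbove j)) ⬝ᵥ w = 0 := by
  classical
  let P : Matrix (Fin n) (Fin (n + 1)) F := Matrix.of fun j =>
    Fin.insertNth (α := fun _ => F) i (-(v (i.succAbove j)) / v i) (Pi.single j 1)
  have hMP : M = M.submatrix id i.succAbove * P := by
    ext m l
    simp only [Matrix.mul_apply, Matrix.submatrix_apply, id, P, Matrix.of_apply]
    induction l using Fin.succAboveCases i with
    | x =>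
      simp only [Fin.insertNth_apply_same]
      have := congrFun hv m
      simp only [Matrix.mulVec, dotProduct, Pi.zero_apply] at this
      rw [Fin.sum_univ_succAbove _ i] at this
      have e : ∑ j, M m (i.succAbove j) * (-(v (i.succAbove j)) / v i) =
          -(∑ j, M m (i.succAbove j) * v (i.succAbove j)) / v i := by
        rw [neg_div, Finset.sum_div, ← Finset.sum_neg_distrib]
        exact Finset.sum_congr rfl fun j _ => by ring
      rw [e, eq_div_iff hi]
      linear_combination this
    | p l =>
      simp only [Fin.insertNth_apply_succAbove]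
      rw [Finset.sum_eq_single l (fun j _ hj => by rw [Pi.single_eq_of_ne' hj, mul_zero]) (by simp)]
      simp
  have hA : (M.submatrix i.succAbove i.succAbove).IsSymm := hM.submatrix _
  have hC : M.submatrix id i.succAbove = Pᵀ * M.submatrix i.succAbove i.succAbove := by
    ext m l
    have := congrFun (congrFun hMP (i.succAbove l)) m
    rw [Matrix.submatrix_apply, id, hM.apply, this]
    simp only [Matrix.mul_apply, Matrix.submatrix_apply, id, Matrix.transpose_apply]
    exact Finset.sum_congr rfl fun j _ => by rw [hM.apply (i.succAbove j), mul_comm]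
  refine ⟨le_antisymm (Matrix.rank_submatrix_le _ _ _) ?_, fun w hw => ?_⟩
  · calc M.rank = (M.submatrix id i.succAbove * P).rank := by rw [← hMP]
      _ ≤ (M.submatrix id i.succAbove).rank := Matrix.rank_mul_le_left _ _
      _ ≤ _ := by rw [hC]; exact Matrix.rank_mul_le_right _ _
  · have : M.submatrix id i.succAbove *ᵥ w = 0 := by
      rw [hC, ← Matrix.mulVec_mulVec, hw, Matrix.mulVec_zero]
    exact congrFun this i

/-- Union over `i`, `ker_minor`, `ex_minr_colx`, `pr_orth_le` for a kernel vector chosen as a function of the minor. -/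
theorem corank_step (h0 : 0 < p) (h1 : p < 1) (n k : ℕ) (hk : 1 ≤ k) :
    pr p {b : Sym2 (Fin (n + 1)) → Bool | rk b + (k + 1) = n + 1} ≤
      (n + 1) * qq p * pr p {a : Sym2 (Fin n) → Bool | rk a + k = n} := by
  classical
  have hW : ∀ a : Sym2 (Fin n) → Bool, ∃ w : Fin n → ℚ, rk a + k = n →
      w ≠ 0 ∧ (Mx a).map (Int.cast : ℤ → ℚ) *ᵥ w = 0 := fun a => by
    by_cases ha : rk a + k = n
    · obtain ⟨w, hw⟩ := b1_ker ((Mx a).map (Int.cast : ℤ → ℚ)) (by unfold rk at ha; omega)
      exact ⟨w, fun _ => hw⟩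
    · exact ⟨0, fun h => absurd h ha⟩
  choose W hW using hW
  have hle := pr_le_card_mul h0 h1 (Finset.univ : Finset (Fin (n + 1)))
    (fun i => {b | rk (minr b i) + k = n ∧ qc (sv (colx b i)) ⬝ᵥ W (minr b i) = 0})
    {b : Sym2 (Fin (n + 1)) → Bool | rk b + (k + 1) = n + 1}
    (c := qq p * pr p {a : Sym2 (Fin n) → Bool | rk a + k = n}) ?_ ?_
  · refine hle.trans (le_of_eq ?_)
    simp only [Finset.card_univ, Fintype.card_fin]
    push_cast
    ring
  · intro b hb
    simp only [Set.mem_ofPred_eq] at hb
    obtain ⟨v, hv0, hv⟩ := b1_ker ((Mx b).map (Int.cast : ℤ → ℚ)) (by unfold rk at hb; omega)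
    obtain ⟨i, hi⟩ : ∃ i, v i ≠ 0 := Function.ne_iff.1 hv0
    obtain ⟨e1, e2⟩ := ker_minor _ ((Mx_symm b).map _) v hv i hi
    have hm : (Mx (minr b i)).map (Int.cast : ℤ → ℚ) =
        ((Mx b).map (Int.cast : ℤ → ℚ)).submatrix i.succAbove i.succAbove := by
      rw [Mx_minr]; rfl
    have hr : rk (minr b i) + k = n := by
      unfold rk at hb ⊢
      rw [hm, e1]; omega
    refine ⟨i, Finset.mem_univ _, hr, ?_⟩
    have := e2 (W (minr b i)) (by rw [← hm]; exact (hW _ hr).2)
    have e3 : qc (sv (colx b i)) = fun j => (Mx b).map (Int.cast : ℤ → ℚ) i (i.succAbove j) := by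
      funext j
      simp only [qc_apply, Matrix.map_apply, Mx_apply]
      rfl
    rw [e3]
    exact this
  · intro i _
    let f : (Sym2 (Fin n) → Bool) → (Fin n → Bool) → ℝ := fun a x =>
      if rk a + k = n ∧ qc (sv x) ⬝ᵥ W a = 0 then 1 else 0
    have e1 : pr p {b : Sym2 (Fin (n + 1)) → Bool | rk (minr b i) + k = n ∧
        qc (sv (colx b i)) ⬝ᵥ W (minr b i) = 0} = ex p fun b => f (minr b i) (colx b i) := by
      rw [pr_eq_ex]
      congr 1
      funext b
      simp only [f, Set.indicator, Set.mem_ofPred_eq]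
    rw [e1, ex_minr_colx, pr_eq_ex, ← ex_const_mul]
    refine ex_mono h0 h1 fun a => ?_
    by_cases ha : rk a + k = n
    · rw [Set.indicator_of_mem (by exact ha), mul_one]
      refine le_trans (le_of_eq ?_) (pr_orth_le h0 h1 a (W a) (hW a ha).1 (hW a ha).2)
      rw [pr_eq_ex]
      congr 1
      funext x
      simp only [f, Set.indicator, Set.mem_ofPred_eq, ha, true_and]
    · rw [Set.indicator_of_notMem (by exact ha), mul_zero]
      simp only [f, ha, false_and, if_false]
      rw [ex_const]

end

end Crest.Agent.R152
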