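import Crest.Agent.R152.B1

/-!
# R152/B2

From corank one to singularity; the lower bound; the limit.

Helper lemmas: prefix `b2_`.
-/

set_option autoImplicit false
set_option linter.unusedVariables false
set_option linter.unusedSectionVars false

namespace Crest.Agent.R152

open Crest.FinProb Crest.ProbabilityR.SignMatrix MeasureTheory ProbabilityTheory Filter Module
open scoped RealInnerProductSpace ENNReal Matrix Topology

noncomputable section

variable {p : ℝ}

/-- Probability of corank exactly `k`. -/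
def b2_P (p : ℝ) (n k : ℕ) : ℝ := pr p {b : Sym2 (Fin n) → Bool | rk b + k = n}

theorem b2_step (h0 : 0 < p) (h1 : p < 1) (m j : ℕ) :
    b2_P p (m + 1 + j) (j + 1) ≤ ((m + 1 + j : ℕ) : ℝ) ^ j * qq p ^ j * b2_P p (m + 1) 1 := by
  induction j with
  | zero => simp
  | succ j ih =>
    have h := corank_step h0 h1 (m + 1 + j) (j + 1) (by omega)
    have hq := (qq_pos p).le
    have hP : 0 ≤ b2_P p (m + 1) 1 := pr_nonneg h0 h1 _
    calc b2_P p (m + 1 + (j + 1)) (j + 1 + 1)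
        ≤ (((m + 1 + j : ℕ) : ℝ) + 1) * qq p * b2_P p (m + 1 + j) (j + 1) := h
      _ ≤ (((m + 1 + j : ℕ) : ℝ) + 1) * qq p *
          (((m + 1 + j : ℕ) : ℝ) ^ j * qq p ^ j * b2_P p (m + 1) 1) := by gcongr
      _ ≤ (((m + 1 + j : ℕ) : ℝ) + 1) * qq p *
          ((((m + 1 + j : ℕ) : ℝ) + 1) ^ j * qq p ^ j * b2_P p (m + 1) 1) := by gcongr; linarith
      _ = _ := by push_cast; ring

theorem b2_all (h0 : 0 < p) (h1 : p < 1) {δ : ℝ} (hδ : 0 < δ)
    (H : ∀ᶠ n : ℕ in atTop,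
      pr p {b : Sym2 (Fin (n + 1)) → Bool | rk b = n} ≤ qq p ^ n * Real.exp (δ * n)) :
    ∃ C : ℝ, 1 ≤ C ∧ ∀ n k : ℕ, 1 ≤ k → b2_P p n k ≤ C * (n : ℝ) ^ (k - 1) * (qq p ^ n * Real.exp (δ * n)) := by
  obtain ⟨N, hN⟩ := eventually_atTop.1 H
  have hq := qq_pos p
  have hq2 := half_le_qq p
  have hA : ∀ m : ℕ, b2_P p (m + 1) 1 ≤ 2 ^ N * (qq p ^ m * Real.exp (δ * m)) := fun m => by
    have h2 : (1 : ℝ) ≤ 2 ^ N := one_le_pow₀ (by norm_num)
    by_cases hm : N ≤ m
    · have e : b2_P p (m + 1) 1 = pr p {b : Sym2 (Fin (m + 1)) → Bool | rk b = m} := by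
        unfold b2_P
        congr 1
        ext b
        simp
      rw [e]
      exact (hN m hm).trans (le_mul_of_one_le_left (by positivity) h2)
    · refine (pr_le_one h0 h1 _).trans ?_
      have e1 : (1 : ℝ) ≤ Real.exp (δ * m) := Real.one_le_exp (by positivity)
      have e2 : (1 : ℝ) ≤ 2 ^ N * qq p ^ m := by
        calc (1 : ℝ) = 2 ^ m * (1 / 2) ^ m := by rw [← mul_pow]; norm_num
          _ ≤ 2 ^ N * qq p ^ m := by
            gcongr
            · norm_num
            · omega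
      calc (1 : ℝ) = 1 * 1 := by ring
        _ ≤ (2 ^ N * qq p ^ m) * Real.exp (δ * m) := by gcongr
        _ = _ := by ring
  refine ⟨2 * 2 ^ N, by nlinarith [one_le_pow₀ (n := N) (by norm_num : (1 : ℝ) ≤ 2)], fun n k hk => ?_⟩
  by_cases hkn : k ≤ n
  · obtain ⟨j, rfl⟩ : ∃ j, k = j + 1 := ⟨k - 1, by omega⟩
    obtain ⟨m, rfl⟩ : ∃ m, n = m + 1 + j := ⟨n - 1 - j, by omega⟩
    refine (b2_step h0 h1 m j).trans ?_
    rw [Nat.add_sub_cancel]
    have e1 : Real.exp (δ * m) ≤ Real.exp (δ * ((m + 1 + j : ℕ) : ℝ)) := by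
      gcongr
      omega
    have e2 : qq p ^ j * qq p ^ m ≤ 2 * qq p ^ (m + 1 + j) := by
      have : 0 < qq p ^ j * qq p ^ m := by positivity
      calc qq p ^ j * qq p ^ m = (qq p ^ j * qq p ^ m) * 1 := by ring
        _ ≤ (qq p ^ j * qq p ^ m) * (2 * qq p) := by gcongr; linarith
        _ = _ := by ring
    calc ((m + 1 + j : ℕ) : ℝ) ^ j * qq p ^ j * b2_P p (m + 1) 1
        ≤ ((m + 1 + j : ℕ) : ℝ) ^ j * qq p ^ j * (2 ^ N * (qq p ^ m * Real.exp (δ * m))) := by
          gcongr; exact hA m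
      _ = 2 ^ N * ((m + 1 + j : ℕ) : ℝ) ^ j * ((qq p ^ j * qq p ^ m) * Real.exp (δ * m)) := by ring
      _ ≤ 2 ^ N * ((m + 1 + j : ℕ) : ℝ) ^ j *
          ((2 * qq p ^ (m + 1 + j)) * Real.exp (δ * ((m + 1 + j : ℕ) : ℝ))) := by gcongr
      _ = _ := by ring
  · have e : b2_P p n k = 0 := by
      unfold b2_P
      rw [← pr_empty (ι := Sym2 (Fin n)) p]
      congr 1
      ext b
      simp only [Set.mem_ofPred_eq, Set.mem_empty_iff_false, iff_false]
      omega
    rw [e]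
    positivity

theorem b2_tail (h0 : 0 < p) (h1 : p < 1) : ∃ B : ℕ, 1 ≤ B ∧ ∀ n : ℕ,
    pr p {b : Sym2 (Fin n) → Bool | rk b + 2 * B * (Nat.sqrt n + 1) ≤ n} ≤ qq p ^ n := by
  obtain ⟨B, hB⟩ := exists_pow_lt_of_lt_one (show (0 : ℝ) < 1 / 4 by norm_num) (pm_lt_one h0 h1)
  have hpm := pm_pos p
  have hpm1 := (pm_lt_one h0 h1).le
  refine ⟨B + 1, by omega, fun n => ?_⟩
  have h := corank_bound h0 h1 (ι := Fin n) (F := ℚ) (u := 1) (w := -1) (by norm_num)
    (2 * (B + 1) * (Nat.sqrt n + 1))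
  have e : {b : Sym2 (Fin n) → Bool | rk b + 2 * (B + 1) * (Nat.sqrt n + 1) ≤ n} =
      {b : Sym2 (Fin n) → Bool | (Matrix.of fun i j => if b s(i, j) then (1 : ℚ) else -1).rank +
        2 * (B + 1) * (Nat.sqrt n + 1) ≤ Fintype.card (Fin n)} := by
    ext b
    have : (Mx b).map (Int.cast : ℤ → ℚ) = Matrix.of fun i j => if b s(i, j) then (1 : ℚ) else -1 := by
      ext i j
      simp only [Matrix.map_apply, Mx, symSignMatrix, Matrix.of_apply]
      split_ifs <;> simp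
    simp only [Set.mem_ofPred_eq, rk, this, Fintype.card_fin]
  rw [e]
  refine h.trans ?_
  rw [Fintype.card_fin]
  have hs := Nat.lt_succ_sqrt n
  have e2 : B * n ≤ 2 * (B + 1) * (Nat.sqrt n + 1) * (2 * (B + 1) * (Nat.sqrt n + 1)) / 2 := by
    rw [Nat.le_div_iff_mul_le (by norm_num)]
    simp only [Nat.succ_eq_add_one] at hs
    calc B * n * 2 ≤ (B + 1) * ((Nat.sqrt n + 1) * (Nat.sqrt n + 1)) * (4 * (B + 1)) := by
          gcongr <;> omega
      _ = _ := by ring
  calc (2 : ℝ) ^ n * pm p ^ (2 * (B + 1) * (Nat.sqrt n + 1) * (2 * (B + 1) * (Nat.sqrt n + 1)) / 2)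
      ≤ 2 ^ n * pm p ^ (B * n) := by gcongr ?_ * ?_; exact pow_le_pow_of_le_one hpm.le hpm1 e2
    _ = (2 * pm p ^ B) ^ n := by rw [mul_pow, ← pow_mul]
    _ ≤ qq p ^ n := by
      gcongr
      linarith [half_le_qq p]

theorem b2_growth {δ C : ℝ} (hδ : 0 < δ) (hC : 1 ≤ C) (B : ℕ) (hB : 1 ≤ B) : ∀ᶠ n : ℕ in atTop,
    ((2 * B * (Nat.sqrt n + 1) : ℕ) : ℝ) * (C * (n : ℝ) ^ (2 * B * (Nat.sqrt n + 1))) + 1 ≤ Real.exp (δ * n) := by
  have hBr : (1 : ℝ) ≤ B := by exact_mod_cast hB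
  have h1 := (isLittleO_log_rpow_atTop (show (0 : ℝ) < 1 / 2 by norm_num)).bound
    (show 0 < δ / (16 * B) by positivity)
  have h2 : ∀ᶠ n : ℕ in atTop, Real.log (C + 1) ≤ δ / 2 * n :=
    (tendsto_natCast_atTop_atTop.const_mul_atTop (show 0 < δ / 2 by positivity)).eventually_ge_atTop _
  filter_upwards [tendsto_natCast_atTop_atTop.eventually h1, h2, eventually_ge_atTop 2] with n hn hn2 hn3
  set k := 2 * B * (Nat.sqrt n + 1) with hk
  have hn2r : (2 : ℝ) ≤ n := by exact_mod_cast hn3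
  have hnpos : (0 : ℝ) < n := by linarith
  have hk1 : (k : ℝ) ≤ (n : ℝ) ^ k := by
    have : k ≤ n ^ k := (Nat.lt_two_pow_self).le.trans (Nat.pow_le_pow_left hn3 k)
    exact_mod_cast this
  have hone : (1 : ℝ) ≤ (n : ℝ) ^ k := one_le_pow₀ (by linarith)
  have hsq : ((Nat.sqrt n : ℕ) : ℝ) ≤ √(n : ℝ) := Real.nat_sqrt_le_real_sqrt
  have hsq1 : (1 : ℝ) ≤ √(n : ℝ) := Real.one_le_sqrt.2 (by linarith)
  have hk2 : (k : ℝ) ≤ 4 * B * √(n : ℝ) := by
    rw [hk]; push_cast
    nlinarith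
  have hlog : Real.log n ≤ δ / (16 * B) * √(n : ℝ) := by
    rw [Real.norm_of_nonneg (Real.log_nonneg (by linarith)),
      Real.norm_of_nonneg (by positivity), ← Real.sqrt_eq_rpow] at hn
    exact hn
  have hl0 : 0 ≤ Real.log n := Real.log_nonneg (by linarith)
  have e1 : 2 * (k : ℝ) * Real.log n ≤ δ / 2 * n := by
    calc 2 * (k : ℝ) * Real.log n ≤ 2 * (4 * B * √(n : ℝ)) * (δ / (16 * B) * √(n : ℝ)) := by gcongr
      _ = δ / 2 * (√(n : ℝ) * √(n : ℝ)) := by field_simp; ring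
      _ = _ := by rw [Real.mul_self_sqrt hnpos.le]
  have e2 : (n : ℝ) ^ k * (n : ℝ) ^ k = Real.exp (2 * (k : ℝ) * Real.log n) := by
    rw [← pow_add, ← Real.exp_log (show 0 < (n : ℝ) ^ (k + k) by positivity), Real.log_pow]
    congr 1
    push_cast; ring
  calc (k : ℝ) * (C * (n : ℝ) ^ k) + 1 ≤ (n : ℝ) ^ k * (C * (n : ℝ) ^ k) + (n : ℝ) ^ k * (n : ℝ) ^ k := by
        gcongr
        nlinarith
    _ = (C + 1) * ((n : ℝ) ^ k * (n : ℝ) ^ k) := by ring
    _ = Real.exp (Real.log (C + 1) + 2 * (k : ℝ) * Real.log n) := by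
        rw [e2, Real.exp_add, Real.exp_log (by linarith)]
    _ ≤ _ := by
        gcongr
        linarith

/-- There is `C` with `P_m(1) ≤ C q^m e^{ε m/2}` for all `m`; `corank_step` gives `P_n(k+1) ≤ (n q)^k P_{n-k}(1)`; `corank_bound` with `k₀ = ⌈C' √n⌉`
(`2^n pm^{k₀²/2} ≤ q^n`); `k₀ n^{k₀} = e^{o(n)}`; `det = 0` implies `rk < n` (`Matrix.rank_of_isUnit` over `ℚ`). -/
theorem sing_le_of_corank_one (h0 : 0 < p) (h1 : p < 1)
    (H : ∀ ε : ℝ, 0 < ε → ∀ᶠ n : ℕ in atTop,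
      pr p {b : Sym2 (Fin (n + 1)) → Bool | rk b = n} ≤ qq p ^ n * Real.exp (ε * n)) {ε : ℝ} (hε : 0 < ε) :
    ∀ᶠ n : ℕ in atTop, singularProb n p ≤ qq p ^ n * Real.exp (ε * n) := by
  have hδ : 0 < ε / 2 := by linarith
  obtain ⟨C, hC, hP⟩ := b2_all h0 h1 hδ (H _ hδ)
  obtain ⟨B, hB, hT⟩ := b2_tail h0 h1
  filter_upwards [b2_growth hδ hC B hB, eventually_ge_atTop 1] with n hn hn1
  set k := 2 * B * (Nat.sqrt n + 1) with hk
  have hq := qq_pos p
  have hn1r : (1 : ℝ) ≤ n := by exact_mod_cast hn1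
  have hsub : {b : Sym2 (Fin n) → Bool | (symSignMatrix n b).det = 0} ⊆
      {b : Sym2 (Fin n) → Bool | ∃ j ∈ Finset.Icc 1 k, rk b + j = n} ∪
        {b : Sym2 (Fin n) → Bool | rk b + k ≤ n} := by
    intro b hb
    have hlt : rk b < n := by
      have hd : ((Mx b).map (Int.cast : ℤ → ℚ)).det = 0 := by
        have := (Int.castRingHom ℚ).map_det (Mx b)
        simp only [eq_intCast, RingHom.mapMatrix_apply, Int.coe_castRingHom] at this
        rw [← this]
        exact_mod_cast hb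
      obtain ⟨v, hv0, hv⟩ := Matrix.exists_mulVec_eq_zero_iff.2 hd
      have h2 := LinearMap.finrank_range_add_finrank_ker ((Mx b).map (Int.cast : ℤ → ℚ)).mulVecLin
      have h3 : 0 < finrank ℚ (LinearMap.ker ((Mx b).map (Int.cast : ℤ → ℚ)).mulVecLin) := by
        rw [Module.finrank_pos_iff_exists_ne_zero]
        exact ⟨⟨v, hv⟩, fun h => hv0 (congrArg Subtype.val h)⟩
      rw [Module.finrank_fintype_fun_eq_card, Fintype.card_fin] at h2
      unfold rk Matrix.rank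
      omega
    by_cases hc : rk b + k ≤ n
    · exact Or.inr hc
    · exact Or.inl ⟨n - rk b, Finset.mem_Icc.2 ⟨by omega, by omega⟩, by omega⟩
  have hX : 0 < qq p ^ n * Real.exp (ε / 2 * n) := by positivity
  have hU := pr_le_card_mul h0 h1 (Finset.Icc 1 k) (fun j => {b : Sym2 (Fin n) → Bool | rk b + j = n})
    {b : Sym2 (Fin n) → Bool | ∃ j ∈ Finset.Icc 1 k, rk b + j = n} (fun b hb => hb)
    (c := C * (n : ℝ) ^ k * (qq p ^ n * Real.exp (ε / 2 * n))) (fun j hj => by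
      rw [Finset.mem_Icc] at hj
      refine (hP n j hj.1).trans ?_
      gcongr
      omega)
  rw [Nat.card_Icc, Nat.add_sub_cancel] at hU
  have e1 : (1 : ℝ) ≤ Real.exp (ε / 2 * n) := Real.one_le_exp (by positivity)
  calc singularProb n p ≤ _ := pr_mono h0 h1 hsub
    _ ≤ _ := pr_union_le h0 h1 _ _
    _ ≤ k * (C * (n : ℝ) ^ k * (qq p ^ n * Real.exp (ε / 2 * n))) + qq p ^ n * Real.exp (ε / 2 * n) :=
        add_le_add hU ((hT n).trans (le_mul_of_one_le_right (by positivity) e1))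
    _ = (k * (C * (n : ℝ) ^ k) + 1) * (qq p ^ n * Real.exp (ε / 2 * n)) := by ring
    _ ≤ Real.exp (ε / 2 * n) * (qq p ^ n * Real.exp (ε / 2 * n)) := by gcongr
    _ = _ := by
        rw [mul_left_comm, ← Real.exp_add]
        congr 2
        ring

/-- Rows `0` and `1` are equal (`Matrix.det_zero_of_row_eq`): the coins `s(0,0), s(0,1), s(1,1)` are `true` and `s(0,j) = s(1,j)` for `j ≥ 2`
(`pr_comp`, `ex_sum`, `pr_rows`). -/
theorem le_sing (h0 : 0 < p) (h1 : p < 1) (n : ℕ) : p ^ 3 * qq p ^ n ≤ singularProb (n + 2) p := by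
  classical
  let c : Fin 2 → Fin (n + 2) := Fin.castLE (by omega)
  let r : Fin n → Fin (n + 2) := fun j => j.succ.succ
  have hc : Function.Injective c := Fin.castLE_injective _
  have hr : Function.Injective r := fun a b h => Fin.succ_injective _ (Fin.succ_injective _ h)
  have hrc : ∀ a b, r a ≠ c b := fun a b h => by
    have := congrArg Fin.val h
    simp only [r, c, Fin.val_succ, Fin.val_castLE] at this
    omega
  let e : Sym2 (Fin 2) ⊕ Fin n × Fin 2 → Sym2 (Fin (n + 2)) := Sum.elim (Sym2.map c) (blk r c)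
  have he : Function.Injective e := by
    refine Function.Injective.sumElim (Sym2.map.injective hc) (blk_injective hr hc hrc) fun a b h => ?_
    induction a using Sym2.ind with
    | h x y =>
      rw [Sym2.map_mk, blk, Sym2.eq_iff] at h
      rcases h with ⟨h, -⟩ | ⟨-, h⟩
      · exact hrc _ _ h.symm
      · exact hrc _ _ h.symm
  let S : Set (Sym2 (Fin 2) ⊕ Fin n × Fin 2 → Bool) :=
    {η | (fun z => η (Sum.inl z)) = (fun _ => true) ∧ ∀ j, η (Sum.inr (j, 0)) = η (Sum.inr (j, 1))}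
  have hS : pr p S = p ^ 3 * qq p ^ n := by
    have hA : pr p {a : Sym2 (Fin 2) → Bool | a = fun _ => true} = p ^ 3 := by
      rw [p1_pr, Finset.sum_eq_single (fun _ => true)]
      · rw [Set.indicator_of_mem (by rfl), p1_wgt]
        simp only [p1_c, if_true, Finset.prod_const, Finset.card_univ, Sym2.card, Fintype.card_fin]
        rfl
      · intro b _ hb
        exact Set.indicator_of_notMem (by exact hb) _
      · simp
    have hB : pr p {x : Fin 2 → Bool | x 0 = x 1} = qq p := by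
      rw [p1_pr, ← (piFinTwoEquiv fun _ => Bool).symm.sum_comp, Fintype.sum_prod_type]
      simp [Set.indicator, p1_wgt, p1_c, qq, Fin.prod_univ_two]
      ring
    have hR := pr_rows (ι := Fin n) (κ := Fin 2) p (fun _ => {x : Fin 2 → Bool | x 0 = x 1})
    simp only [hB, Finset.prod_const, Finset.card_univ, Fintype.card_fin, Set.mem_ofPred_eq] at hR
    rw [pr_eq_ex, ex_sum, ← hA, ← hR, mul_comm, pr_eq_ex p {a : Sym2 (Fin 2) → Bool | a = fun _ => true},
      ← ex_const_mul]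
    congr 1
    funext a
    rw [mul_comm, pr_eq_ex, ← ex_const_mul]
    congr 1
    funext x
    simp only [S, Set.indicator, Set.mem_ofPred_eq, Sum.elim_inl, Sum.elim_inr]
    split_ifs <;> simp_all
  rw [← hS, ← pr_comp p he S]
  refine pr_mono h0 h1 fun b hb => ?_
  obtain ⟨hb1, hb2⟩ := hb
  have h00 : b s(0, 0) = true := congrFun hb1 s(0, 0)
  have h01 : b s(0, 1) = true := congrFun hb1 s(0, 1)
  have h11 : b s(1, 1) = true := congrFun hb1 s(1, 1)
  refine Matrix.det_zero_of_row_eq (i := 0) (j := 1) (Fin.zero_ne_one) ?_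
  funext j
  simp only [symSignMatrix, Matrix.of_apply]
  induction j using Fin.cases with
  | zero => rw [h00, Sym2.eq_swap, h01]
  | succ j =>
    induction j using Fin.cases with
    | zero => rw [Fin.succ_zero_eq_one, h01, h11]
    | succ j =>
      have : b s(j.succ.succ, 0) = b s(j.succ.succ, 1) := hb2 j
      rw [Sym2.eq_swap, this, Sym2.eq_swap]

theorem tendsto_root {q c : ℝ} (hq : 0 < q) (hc : 0 < c) (a : ℕ → ℝ) (hl : ∀ n, c * q ^ n ≤ a (n + 2))
    (hu : ∀ ε : ℝ, 0 < ε → ∀ᶠ n : ℕ in atTop, a n ≤ q ^ n * Real.exp (ε * n)) :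
    Tendsto (fun n : ℕ => a n ^ (1 / (n : ℝ))) atTop (𝓝 q) := by
  have ha : ∀ n, 2 ≤ n → c / q ^ 2 * q ^ n ≤ a n := fun n hn => by
    obtain ⟨m, rfl⟩ : ∃ m, n = m + 2 := ⟨n - 2, by omega⟩
    refine le_trans (le_of_eq ?_) (hl m)
    field_simp
    ring
  have hc' : 0 < c / q ^ 2 := by positivity
  have hroot : ∀ (x : ℝ) (n : ℕ), 0 < x → 1 ≤ n → (x ^ n) ^ (1 / (n : ℝ)) = x := fun x n hx hn => by
    rw [one_div]
    exact Real.pow_rpow_inv_natCast hx.le (by omega)
  refine tendsto_order.2 ⟨fun x hx => ?_, fun y hy => ?_⟩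
  · have ht : Tendsto (fun n : ℕ => (c / q ^ 2) ^ (1 / (n : ℝ)) * q) atTop (𝓝 ((c / q ^ 2) ^ (0 : ℝ) * q)) :=
      ((Real.continuousAt_const_rpow hc'.ne').tendsto.comp tendsto_one_div_atTop_nhds_zero_nat).mul_const q
    rw [Real.rpow_zero, one_mul] at ht
    filter_upwards [ht.eventually (lt_mem_nhds hx), eventually_ge_atTop 2] with n hn hn2
    refine hn.trans_le ?_
    calc (c / q ^ 2) ^ (1 / (n : ℝ)) * q = (c / q ^ 2 * q ^ n) ^ (1 / (n : ℝ)) := by
          rw [Real.mul_rpow hc'.le (by positivity), hroot q n hq (by omega)]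
      _ ≤ _ := Real.rpow_le_rpow (by positivity) (ha n hn2) (by positivity)
  · have hl0 : 0 < Real.log (y / q) := Real.log_pos (by rw [one_lt_div hq]; exact hy)
    filter_upwards [hu (Real.log (y / q) / 2) (by positivity), eventually_ge_atTop 2] with n hn hn2
    have h0 : 0 ≤ a n := le_trans (by positivity) (ha n hn2)
    calc a n ^ (1 / (n : ℝ)) ≤ (q ^ n * Real.exp (Real.log (y / q) / 2 * n)) ^ (1 / (n : ℝ)) :=
          Real.rpow_le_rpow h0 hn (by positivity)
      _ = q * Real.exp (Real.log (y / q) / 2) := by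
          rw [mul_comm _ (n : ℝ), Real.exp_nat_mul, ← mul_pow, hroot _ n (by positivity) (by omega)]
      _ < q * Real.exp (Real.log (y / q)) := by
          gcongr
          linarith
      _ = y := by
          rw [Real.exp_log (by have := hq.trans hy; positivity)]
          field_simp

end

end Crest.Agent.R152
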