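import Crest.Agent.R152.G1

/-!
# R152/G2

Inequalities for `gvol`.  The key one is `gvol_le_of_le` (a pointwise larger quadratic form has larger determinant).
Proof by induction on the number of vectors with `gvol_sum` (`Fin (k+1) ≃ Fin k ⊕ Unit`): the new factor is the distance of the
last vector to the span of the others, `‖P x‖ = inf ‖x - ∑ c i • a i‖`, and this distance is monotone.  (Or use the
monotonicity of `det` on positive semidefinite matrices in `Crest/Agent/R341/Det.lean`.)

Helper lemmas: prefix `g2_`.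
-/

set_option autoImplicit false
set_option linter.unusedVariables false
set_option linter.unusedSectionVars false

namespace Crest.Agent.R152

open Crest.FinProb Crest.ProbabilityR.SignMatrix MeasureTheory ProbabilityTheory Filter Module
open scoped RealInnerProductSpace ENNReal Matrix Topology

noncomputable section

variable {E E' : Type} [NormedAddCommGroup E] [InnerProductSpace ℝ E] [NormedAddCommGroup E'] [InnerProductSpace ℝ E']
  {κ κ' : Type} [Fintype κ] [DecidableEq κ] [Fintype κ'] [DecidableEq κ']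

theorem g2_had_fin [FiniteDimensional ℝ E] (k : ℕ) (v : Fin k → E) : gvol v ≤ ∏ i, ‖v i‖ := by
  induction k with
  | zero => simp [gvol_empty]
  | succ k ih =>
    have e : (fun i => v (finSumFinEquiv i)) =
        Sum.elim (fun i : Fin k => v i.castSucc) (fun _ : Fin 1 => v (Fin.last k)) := by
      funext i
      rcases i with i | i
      · rfl
      · obtain rfl : i = 0 := Subsingleton.elim _ _
        rfl
    rw [← gvol_reindex finSumFinEquiv v, e, gvol_sum, gvol_unique (κ := Fin 1), Fin.prod_univ_castSucc]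
    exact mul_le_mul (ih _) (Submodule.norm_starProjection_apply_le _ _) (norm_nonneg _)
      (Finset.prod_nonneg fun _ _ => norm_nonneg _)

theorem g2_had (v : κ → E) : gvol v ≤ ∏ i, ‖v i‖ := by
  let S := Submodule.span ℝ (Set.range v)
  have : FiniteDimensional ℝ S := FiniteDimensional.span_of_finite ℝ (Set.finite_range v)
  let v' : κ → S := fun i => ⟨v i, Submodule.subset_span ⟨i, rfl⟩⟩
  have h := g2_had_fin _ fun i => v' ((Fintype.equivFin κ).symm i)
  rw [gvol_reindex, (Fintype.equivFin κ).symm.prod_comp fun i => ‖v' i‖] at h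
  exact (gvol_isometry S.subtypeₗᵢ v').trans_le h

/-- Monotonicity: if every linear combination of `w` is at most `c` times as long as the same combination of `v`. -/
theorem gvol_le_of_le (v : κ → E) (w : κ → E') {c : ℝ} (hc : 0 ≤ c)
    (h : ∀ t : κ → ℝ, ‖∑ i, t i • w i‖ ≤ c * ‖∑ i, t i • v i‖) :
    gvol w ≤ c ^ Fintype.card κ * gvol v := by
  by_cases hv : LinearIndependent ℝ v
  swap
  · have hw : ¬ LinearIndependent ℝ w := fun hw => hv (Fintype.linearIndependent_iff.2 fun t ht =>
      Fintype.linearIndependent_iff.1 hw t (norm_le_zero_iff.1 (by simpa [ht] using h t)))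
    have : gvol w = 0 := le_antisymm (not_lt.1 fun h0 => hw ((gvol_pos_iff w).1 h0)) (gvol_nonneg w)
    rw [this]
    exact mul_nonneg (pow_nonneg hc _) (gvol_nonneg v)
  let S := Submodule.span ℝ (Set.range v)
  have : FiniteDimensional ℝ S := FiniteDimensional.span_of_finite ℝ (Set.finite_range v)
  have hr : finrank ℝ S = Fintype.card κ := finrank_span_eq_card hv
  let e : OrthonormalBasis κ ℝ S :=
    (stdOrthonormalBasis ℝ S).reindex (Fintype.equivFinOfCardEq hr.symm).symm
  choose T hT using fun i => (Submodule.mem_span_range_iff_exists_fun ℝ).1 (e i).2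
  have h1 := gvol_change (Matrix.of T) v
  have h2 := gvol_change (Matrix.of T) w
  simp only [Matrix.of_apply, hT] at h1 h2
  have h3 : gvol (fun i => (e i : E)) = 1 :=
    (gvol_isometry S.subtypeₗᵢ e).trans (gvol_orthonormal e.orthonormal)
  have h4 : gvol (fun i => ∑ j, T i j • w j) ≤ c ^ Fintype.card κ := by
    refine (g2_had _).trans ?_
    rw [← Finset.card_univ, ← Finset.prod_const]
    refine Finset.prod_le_prod (fun _ _ => norm_nonneg _) fun i _ => (h _).trans_eq ?_
    rw [hT, ← Submodule.coe_norm, e.orthonormal.1 i, mul_one]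
  rw [h3] at h1
  calc gvol w = (|(Matrix.of T).det| * gvol w) * gvol v := by rw [mul_right_comm, ← h1, one_mul]
    _ ≤ _ := mul_le_mul_of_nonneg_right (h2 ▸ h4) (gvol_nonneg v)

theorem gvol_map_le (T : E →ₗ[ℝ] E') {c : ℝ} (hc : 0 ≤ c) (h : ∀ x, ‖T x‖ ≤ c * ‖x‖) (v : κ → E) :
    gvol (fun i => T (v i)) ≤ c ^ Fintype.card κ * gvol v :=
  gvol_le_of_le v _ hc fun t => by simpa only [map_sum, map_smul] using h (∑ i, t i • v i)

theorem le_gvol_map (T : E →ₗ[ℝ] E') {c : ℝ} (hc : 0 ≤ c) (h : ∀ x, c * ‖x‖ ≤ ‖T x‖) (v : κ → E) :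
    c ^ Fintype.card κ * gvol v ≤ gvol (fun i => T (v i)) := by
  have := gvol_le_of_le (fun i => T (v i)) (fun i => c • v i) zero_le_one fun t => by
    have e : ∑ i, t i • c • v i = c • ∑ i, t i • v i := by
      rw [Finset.smul_sum]
      exact Finset.sum_congr rfl fun i _ => smul_comm _ _ _
    rw [e, norm_smul, Real.norm_of_nonneg hc, one_mul]
    simpa only [map_sum, map_smul] using h (∑ i, t i • v i)
  rwa [gvol_smul, abs_of_nonneg hc, one_pow, one_mul] at this

theorem g2_contr (T : E →ₗ[ℝ] E') (h : ∀ x, ‖T x‖ ≤ ‖x‖) (v : κ → E) :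
    gvol (fun i => T (v i)) ≤ gvol v := by
  simpa using gvol_map_le T zero_le_one (by simpa using h) v

/-- Hadamard-Fischer (`gvol_sum` and contraction by the projection; work in the span to get finite dimension, or
assume it). -/
theorem gvol_sum_le [FiniteDimensional ℝ E] (a : κ → E) (b : κ' → E) :
    gvol (Sum.elim a b) ≤ gvol a * gvol b := by
  rw [gvol_sum]
  exact mul_le_mul_of_nonneg_left (g2_contr (Submodule.span ℝ (Set.range a))ᗮ.starProjection.toLinearMap
    (Submodule.norm_starProjection_apply_le _) b) (gvol_nonneg a)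

/-- Hadamard. -/
theorem gvol_le_prod [FiniteDimensional ℝ E] (v : κ → E) : gvol v ≤ ∏ i, ‖v i‖ := g2_had v

theorem g2_kill [FiniteDimensional ℝ E] [FiniteDimensional ℝ E'] (T : E →ₗ[ℝ] E') (h : ∀ x, ‖T x‖ ≤ ‖x‖)
    (U : Submodule ℝ E) (U' : Submodule ℝ E') (hU : ∀ x ∈ U, T x ∈ U') (b : κ' → E) :
    gvol (fun j => U'ᗮ.starProjection (T (b j))) ≤ gvol (fun j => Uᗮ.starProjection (b j)) := by
  have e : ∀ x, U'ᗮ.starProjection (T x) = U'ᗮ.starProjection (T (Uᗮ.starProjection x)) := fun x => by
    rw [Submodule.starProjection_orthogonal_val (K := U), map_sub, map_sub,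
      (Submodule.starProjection_apply_eq_zero_iff (K := U'ᗮ)).2
        (U'.le_orthogonal_orthogonal (hU _ (U.starProjection_apply_mem x))), sub_zero]
  refine le_of_eq_of_le (congrArg gvol (funext fun j => e (b j))) ?_
  exact g2_contr (U'ᗮ.starProjection.toLinearMap ∘ₗ T)
    (fun x => (Submodule.norm_starProjection_apply_le _ _).trans (h x)) _

/-- Relative volumes decrease under a contraction `T`: with `P`, `P'` the projections killing the spans of `a`,
`T a`, the map `P' T` is a contraction that kills the span of `a`, so `P' T b = P' T P b`. -/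
theorem gvol_rel_le [FiniteDimensional ℝ E] [FiniteDimensional ℝ E'] (T : E →ₗ[ℝ] E') (h : ∀ x, ‖T x‖ ≤ ‖x‖)
    (a : κ → E) (b : κ' → E) :
    gvol (Sum.elim (fun i => T (a i)) (fun j => T (b j))) * gvol a ≤
      gvol (Sum.elim a b) * gvol (fun i => T (a i)) := by
  rw [gvol_sum, gvol_sum]
  have := g2_kill T h (Submodule.span ℝ (Set.range a)) (Submodule.span ℝ (Set.range fun i => T (a i)))
    (fun x hx => by
      rw [show (Set.range fun i => T (a i)) = T '' Set.range a from Set.range_comp T a,
        ← Submodule.map_span]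
      exact ⟨x, hx, rfl⟩) b
  nlinarith [mul_le_mul_of_nonneg_left this (mul_nonneg (gvol_nonneg a) (gvol_nonneg fun i => T (a i)))]

/-- Submodularity (Koteljanskii).  By `gvol_sum` it suffices to compare the volume of `c` projected away from the
span of `(a, b)` with that projected away from the span of `a`; the first is a projection of the second. -/
theorem gvol_submod [FiniteDimensional ℝ E] {κ'' : Type} [Fintype κ''] [DecidableEq κ''] (a : κ → E) (b : κ' → E)
    (c : κ'' → E) :
    gvol (Sum.elim (Sum.elim a b) c) * gvol a ≤ gvol (Sum.elim a b) * gvol (Sum.elim a c) := by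
  rw [gvol_sum (Sum.elim a b), gvol_sum a c]
  have := g2_kill (LinearMap.id : E →ₗ[ℝ] E) (fun _ => le_rfl) (Submodule.span ℝ (Set.range a))
    (Submodule.span ℝ (Set.range (Sum.elim a b)))
    (fun x hx => Submodule.span_mono (by rintro _ ⟨i, rfl⟩; exact ⟨Sum.inl i, rfl⟩) hx) c
  simp only [LinearMap.id_apply] at this
  nlinarith [mul_le_mul_of_nonneg_left this (mul_nonneg (gvol_nonneg a) (gvol_nonneg (Sum.elim a b)))]

/-- Completion by an orthonormal basis of the orthogonal complement. -/
theorem exists_complete [FiniteDimensional ℝ E] (v : κ → E) (hv : LinearIndependent ℝ v) :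
    ∃ f : Fin (finrank ℝ E - Fintype.card κ) → E, Orthonormal ℝ f ∧ gvol (Sum.elim v f) = gvol v := by
  let S := Submodule.span ℝ (Set.range v)
  have hr : finrank ℝ Sᗮ = finrank ℝ E - Fintype.card κ := by
    rw [← finrank_span_eq_card hv, ← S.finrank_add_finrank_orthogonal, Nat.add_sub_cancel_left]
  let e := (stdOrthonormalBasis ℝ Sᗮ).reindex (finCongr hr)
  have ho : Orthonormal ℝ fun i => (e i : E) := e.orthonormal.comp_linearIsometry Sᗮ.subtypeₗᵢ
  refine ⟨fun i => e i, ho, ?_⟩
  rw [gvol_sum]
  have : (fun j => Sᗮ.starProjection (e j : E)) = fun j => (e j : E) :=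
    funext fun j => Submodule.starProjection_eq_self_iff.2 (e j).2
  rw [this, gvol_orthonormal ho, mul_one]

/-- Complete `v` by `f` (`exists_complete`), reindex to `Fin (finrank)`, use `gvol_map_full`, `gvol_sum_le`,
`gvol_le_prod`. -/
theorem gvol_full_le [FiniteDimensional ℝ E] [FiniteDimensional ℝ E'] (e : OrthonormalBasis κ' ℝ E) (T : E →ₗ[ℝ] E')
    (v : κ → E) (hv : LinearIndependent ℝ v) :
    ∃ f : Fin (finrank ℝ E - Fintype.card κ) → E, Orthonormal ℝ f ∧
      gvol v * gvol (fun i => T (e i)) ≤ gvol (fun i => T (v i)) * ∏ j, ‖T (f j)‖ := by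
  obtain ⟨f, hf, e1⟩ := exists_complete v hv
  refine ⟨f, hf, ?_⟩
  have hc : Fintype.card κ' = Fintype.card (κ ⊕ Fin (finrank ℝ E - Fintype.card κ)) := by
    rw [Fintype.card_sum, Fintype.card_fin, ← finrank_eq_card_basis e.toBasis,
      Nat.add_sub_cancel' hv.fintype_card_le_finrank]
  let σ := Fintype.equivOfCardEq hc
  have h1 := gvol_map_full e T fun i => Sum.elim v f (σ i)
  rw [gvol_reindex σ (Sum.elim v f), gvol_reindex σ fun i => T (Sum.elim v f i), e1] at h1
  have e2 : (fun i => T (Sum.elim v f i)) = Sum.elim (fun i => T (v i)) fun j => T (f j) :=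
    funext fun i => by cases i <;> rfl
  rw [← h1, e2]
  exact (gvol_sum_le _ _).trans (mul_le_mul_of_nonneg_left (gvol_le_prod _) (gvol_nonneg _))

end

end Crest.Agent.R152
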