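import Crest.Agent.R152.P1
import Crest.Agent.R152.A1
import Crest.Agent.R152.G2

/-!
# R152/Comp

Compressible kernel vectors.

Helper lemmas: prefix `comp_`.
-/

set_option autoImplicit false
set_option linter.unusedVariables false
set_option linter.unusedSectionVars false

namespace Crest.Agent.R152

open Crest.FinProb Crest.ProbabilityR.SignMatrix MeasureTheory ProbabilityTheory Filter Module
open scoped RealInnerProductSpace ENNReal Matrix Topology

noncomputable section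

variable {p : ℝ}

/-- Fewer than `card S` vectors have a common orthogonal vector of sup norm one. -/
theorem exists_nu_fun (S : Type) [Fintype S] [DecidableEq S] : ∃ nu : Finset (S → ℝ) → S → ℝ, ∀ T : Finset (S → ℝ),
    T.card < Fintype.card S → (∀ i, |nu T i| ≤ 1) ∧ (∃ i, |nu T i| = 1) ∧ ∀ y ∈ T, y ⬝ᵥ nu T = 0 := by
  have key : ∀ T : Finset (S → ℝ), ∃ ν : S → ℝ, T.card < Fintype.card S →
      (∀ i, |ν i| ≤ 1) ∧ (∃ i, |ν i| = 1) ∧ ∀ y ∈ T, y ⬝ᵥ ν = 0 := by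
    intro T
    by_cases hT : T.card < Fintype.card S
    swap
    · exact ⟨0, fun h => absurd h hT⟩
    let L : (S → ℝ) →ₗ[ℝ] (T → ℝ) := (Matrix.of fun (y : T) i => (y : S → ℝ) i).mulVecLin
    have hk : LinearMap.ker L ≠ ⊥ := LinearMap.ker_ne_bot_of_finrank_lt (by simpa using hT)
    obtain ⟨w, hw, hw0⟩ := Submodule.exists_mem_ne_zero_of_ne_bot hk
    have hne : Nonempty S := Fintype.card_pos_iff.1 (by omega)
    obtain ⟨i₀, hi₀⟩ := Finite.exists_max fun i => |w i|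
    have hpos : 0 < |w i₀| := by
      obtain ⟨i, hi⟩ := Function.ne_iff.1 hw0
      exact (abs_pos.2 hi).trans_le (hi₀ i)
    refine ⟨|w i₀|⁻¹ • w, fun _ => ⟨fun i => ?_, ⟨i₀, ?_⟩, fun y hy => ?_⟩⟩
    · rw [Pi.smul_apply, smul_eq_mul, abs_mul, abs_inv, abs_abs, ← div_eq_inv_mul, div_le_one hpos]
      exact hi₀ i
    · rw [Pi.smul_apply, smul_eq_mul, abs_mul, abs_inv, abs_abs, inv_mul_cancel₀ hpos.ne']
    · have : y ⬝ᵥ w = 0 := congrFun (LinearMap.mem_ker.1 hw) ⟨y, hy⟩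
      rw [dotProduct_smul, this, smul_zero]
  choose nu hnu using key
  exact ⟨nu, hnu⟩

/-- Maximal volume.  `k = card S`.  If the rows do not span, let `R₀` be a maximal independent set of rows.  Otherwise let `R₀` be `k - 1` rows of maximal
volume `V > 0` (`gvol` in `Euc S`).  For a row `y` at distance `d > 0` from their span, the `k` rows have volume `V d` (`gvol_sum`), the dual basis vectors have
norm `(volume of the others)/(V d) ≤ 1/d`, and `u = ∑ (y_i ⬝ u) y_i*` gives `1 ≤ k τ / d`.  (Equivalent: maximise the absolute value of a `(k-1)`-minor and expand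
determinants.)  Finally `|y ⬝ ν| ≤ d ‖ν‖₂ ≤ d √k ≤ k² τ`. -/
theorem exists_near_hyperplane {R S : Type} [Fintype R] [DecidableEq R] [Fintype S] [DecidableEq S] (Y : R → S → ℝ)
    (u : S → ℝ) (hu : ∃ i, 1 ≤ |u i|) {τ : ℝ} (hτ : 0 ≤ τ) (hY : ∀ j, |Y j ⬝ᵥ u| ≤ τ) :
    ∃ R₀ : Finset R, R₀.card < Fintype.card S ∧ ∀ ν : S → ℝ, (∀ i, |ν i| ≤ 1) → (∀ j ∈ R₀, Y j ⬝ᵥ ν = 0) →
      ∀ j, |Y j ⬝ᵥ ν| ≤ (Fintype.card S : ℝ) ^ 2 * τ := by
  obtain ⟨κ, a, ha, hspan, hli⟩ := exists_linearIndependent' ℝ Y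
  have : Finite κ := Finite.of_injective a ha
  have := Fintype.ofFinite κ
  have hle : Fintype.card κ ≤ Fintype.card S := by simpa using hli.fintype_card_le_finrank
  rcases hle.lt_or_eq with hlt | heq
  · refine ⟨Finset.univ.image a, Finset.card_image_le.trans_lt (by simpa using hlt), fun ν _ hν j => ?_⟩
    have h1 : Y j ∈ Submodule.span ℝ (Set.range (Y ∘ a)) := hspan ▸ Submodule.subset_span (Set.mem_range_self j)
    obtain ⟨c, hc⟩ := (Submodule.mem_span_range_iff_exists_fun ℝ).1 h1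
    have h2 : Y j ⬝ᵥ ν = 0 := by
      rw [← hc, sum_dotProduct]
      refine Finset.sum_eq_zero fun i _ => ?_
      rw [smul_dotProduct, Function.comp_apply, hν _ (Finset.mem_image_of_mem _ (Finset.mem_univ i)), smul_zero]
    rw [h2, abs_zero]
    positivity
  let e : S ≃ κ := (Fintype.equivOfCardEq heq).symm
  let B : (S → R) → Matrix S S ℝ := fun ρ => Matrix.of fun s => Y (ρ s)
  have hB0 : (B (a ∘ e)).det ≠ 0 := by
    have h1 : LinearIndependent ℝ (B (a ∘ e)).row := hli.comp e e.injective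
    exact ((Matrix.isUnit_iff_isUnit_det _).1 (Matrix.linearIndependent_rows_iff_isUnit.1 h1)).ne_zero
  have : Nonempty (S → R) := ⟨a ∘ e⟩
  obtain ⟨ρ, hρ⟩ := Finite.exists_max fun ρ : S → R => |(B ρ).det|
  have hpos : 0 < |(B ρ).det| := (abs_pos.2 hB0).trans_le (hρ _)
  have hunit : IsUnit (B ρ).det := (abs_pos.1 hpos).isUnit
  obtain ⟨i₁, hi₁⟩ := hu
  have : Nonempty S := ⟨i₁⟩
  obtain ⟨⟨i₀, s₀⟩, hmax⟩ := Finite.exists_max fun z : S × S => |(B ρ)⁻¹ z.1 z.2|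
  have hinv : ∀ w : S → ℝ, (B ρ)⁻¹ *ᵥ (B ρ *ᵥ w) = w := fun w => by
    rw [Matrix.mulVec_mulVec, Matrix.nonsing_inv_mul _ hunit, Matrix.one_mulVec]
  have h1 : 1 ≤ Fintype.card S * (|(B ρ)⁻¹ i₀ s₀| * τ) := by
    refine hi₁.trans ?_
    conv_lhs => rw [← hinv u]
    refine (Finset.abs_sum_le_sum_abs _ _).trans ?_
    rw [← nsmul_eq_mul, ← Finset.card_univ]
    refine Finset.sum_le_card_nsmul _ _ _ fun s _ => ?_
    rw [abs_mul]
    exact mul_le_mul (hmax (i₁, s)) (hY (ρ s)) (abs_nonneg _) (abs_nonneg _)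
  refine ⟨(Finset.univ.erase s₀).image ρ, Finset.card_image_le.trans_lt
    (Finset.card_erase_lt_of_mem (Finset.mem_univ _)), fun ν hν1 hν j => ?_⟩
  have hz : ∀ s, s ≠ s₀ → (B ρ *ᵥ ν) s = 0 := fun s hs =>
    hν _ (Finset.mem_image_of_mem _ (Finset.mem_erase.2 ⟨hs, Finset.mem_univ _⟩))
  have hdot : ∀ w : S → ℝ, w ⬝ᵥ (B ρ *ᵥ ν) = w s₀ * (B ρ *ᵥ ν) s₀ := fun w =>
    Finset.sum_eq_single s₀ (fun s _ hs => by rw [hz s hs, mul_zero]) (by simp)
  have h2 : |(B ρ)⁻¹ i₀ s₀| * |(B ρ *ᵥ ν) s₀| ≤ 1 := by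
    have h := hν1 i₀
    rw [← hinv ν] at h
    rw [← abs_mul]
    exact (congrArg abs (hdot fun s => (B ρ)⁻¹ i₀ s)).symm.trans_le h
  have hM : 0 < |(B ρ)⁻¹ i₀ s₀| := by
    refine (abs_nonneg _).lt_of_ne fun h => ?_
    rw [← h] at h1
    norm_num at h1
  have h3 : |(B ρ *ᵥ ν) s₀| ≤ Fintype.card S * τ := by
    refine le_of_mul_le_mul_left (h2.trans (h1.trans (le_of_eq ?_))) hM
    ring
  have h4 : (B ρ).det * (Y j ⬝ᵥ ν) = (B (Function.update ρ s₀ j)).det * (B ρ *ᵥ ν) s₀ := by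
    have h5 := Matrix.mulVec_cramer (B ρ)ᵀ (Y j)
    rw [Matrix.det_transpose] at h5
    rw [← smul_eq_mul, ← smul_dotProduct, ← h5, Matrix.mulVec_transpose, ← Matrix.dotProduct_mulVec, hdot,
      Matrix.cramer_transpose_apply]
    congr 2
    ext s i
    by_cases hs : s = s₀
    · subst hs; simp [B]
    · simp [B, Matrix.updateRow_ne hs, Function.update_of_ne hs]
  have h5 : |Y j ⬝ᵥ ν| ≤ |(B ρ *ᵥ ν) s₀| := by
    refine le_of_mul_le_mul_left ?_ hpos
    rw [← abs_mul, h4, abs_mul]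
    exact mul_le_mul_of_nonneg_right (hρ _) (abs_nonneg _)
  have h6 : (1 : ℝ) ≤ Fintype.card S := by exact_mod_cast Fintype.card_pos
  have h7 := mul_nonneg (zero_le_one.trans h6) hτ
  nlinarith

theorem comp_flip {S : Type} [Fintype S] [DecidableEq S] (ν : S → ℝ) {τ : ℝ} (x : S → Bool) (i : S)
    (h1 : |(fun i => (sv x i : ℝ)) ⬝ᵥ ν| ≤ τ)
    (h2 : |(fun j => (sv (Function.update x i (!x i)) j : ℝ)) ⬝ᵥ ν| ≤ τ) : |ν i| ≤ τ := by
  have e : (fun j => (sv (Function.update x i (!x i)) j : ℝ)) =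
      (fun j => (sv x j : ℝ)) - Pi.single i (2 * (sv x i : ℝ)) := by
    funext j
    by_cases hj : j = i
    · subst hj
      cases h : x j <;> simp [sv, h] <;> norm_num
    · simp [sv, Function.update_of_ne hj, Pi.single_eq_of_ne hj]
  rw [e, sub_dotProduct, single_dotProduct] at h2
  have h3 : |(sv x i : ℝ)| = 1 := by exact_mod_cast abs_sv x i
  have h4 : |2 * (sv x i : ℝ) * ν i| = 2 * |ν i| := by rw [abs_mul, abs_mul, h3]; simp
  have h5 := abs_sub ((fun j => (sv x j : ℝ)) ⬝ᵥ ν) ((fun j => (sv x j : ℝ)) ⬝ᵥ ν - 2 * (sv x i : ℝ) * ν i)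
  rw [sub_sub_cancel, h4] at h5
  linarith

/-- If a second coordinate exceeds `τ` use `pr_le_qq`; otherwise `|x ⬝ ν| ≥ 1 - k τ > τ`. -/
theorem pr_near_le (h0 : 0 < p) (h1 : p < 1) {S : Type} [Fintype S] [DecidableEq S] (ν : S → ℝ) (hν : ∃ i, |ν i| = 1) {τ : ℝ} (hτ0 : 0 ≤ τ)
    (hτ : (Fintype.card S + 1) * τ < 1) : pr p {x : S → Bool | |(fun i => (sv x i : ℝ)) ⬝ᵥ ν| ≤ τ} ≤ qq p := by
  obtain ⟨i₀, hi₀⟩ := hν
  have hk : (0 : ℝ) ≤ Fintype.card S * τ := by positivity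
  by_cases h : ∃ j, j ≠ i₀ ∧ τ < |ν j|
  · obtain ⟨j, hj, hj'⟩ := h
    refine pr_le_qq h0 h1 _ hj (fun ω hω h2 => ?_) (fun ω hω h2 => ?_)
    · exact absurd (comp_flip ν ω j hω h2) (not_le.2 hj')
    · have := comp_flip ν ω i₀ hω h2
      nlinarith
  · have he : {x : S → Bool | |(fun i => (sv x i : ℝ)) ⬝ᵥ ν| ≤ τ} = ∅ := by
      refine Set.eq_empty_of_forall_notMem fun x hx => ?_
      have h3 : ∀ i, |(sv x i : ℝ) * ν i| = |ν i| := fun i => by
        have : |(sv x i : ℝ)| = 1 := by exact_mod_cast abs_sv x i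
        rw [abs_mul, this, one_mul]
      have h4 : |∑ i ∈ Finset.univ.erase i₀, (sv x i : ℝ) * ν i| ≤ Fintype.card S * τ := by
        refine (Finset.abs_sum_le_sum_abs _ _).trans ((Finset.sum_le_card_nsmul _ _ τ fun i hi => ?_).trans ?_)
        · rw [h3]
          exact not_lt.1 fun h5 => h ⟨i, (Finset.mem_erase.1 hi).1, h5⟩
        · rw [nsmul_eq_mul]
          exact mul_le_mul_of_nonneg_right (by exact_mod_cast Finset.card_le_univ _) hτ0
      have h5 : |(sv x i₀ : ℝ) * ν i₀ + ∑ i ∈ Finset.univ.erase i₀, (sv x i : ℝ) * ν i| ≤ τ := by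
        rw [Finset.add_sum_erase _ (fun i => (sv x i : ℝ) * ν i) (Finset.mem_univ i₀)]
        exact hx
      have h6 := abs_sub ((sv x i₀ : ℝ) * ν i₀ + ∑ i ∈ Finset.univ.erase i₀, (sv x i : ℝ) * ν i)
        (∑ i ∈ Finset.univ.erase i₀, (sv x i : ℝ) * ν i)
      rw [add_sub_cancel_right, h3, hi₀] at h6
      linarith
    rw [he, pr_empty]
    exact (qq_pos p).le

/-- row `j` restricted to the columns in `S` -/
def comp_row {N : ℕ} (S : Finset (Fin N)) (b : Sym2 (Fin N) → Bool) (j : Fin N) : S → ℝ :=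
  fun i => (sv (fun l : S => b s(j, l)) i : ℝ)

theorem comp_block (h0 : 0 < p) (h1 : p < 1) {N : ℕ} (S R₀ : Finset (Fin N)) (hR : R₀.card < S.card)
    (nu : Finset (S → ℝ) → S → ℝ) (hnu : ∀ T : Finset (S → ℝ), T.card < Fintype.card S → ∃ i, |nu T i| = 1)
    {τ : ℝ} (hτ0 : 0 ≤ τ) (hτ : (S.card + 1) * τ < 1) :
    pr p {b : Sym2 (Fin N) → Bool | ∀ j, |comp_row S b j ⬝ᵥ nu (R₀.image (comp_row S b))| ≤ τ} ≤
      qq p ^ N * Real.exp (2 * S.card) := by
  have hinj : Function.Injective (blk (Subtype.val : ↥((S ∪ R₀)ᶜ) → Fin N) (Subtype.val : S → Fin N)) :=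
    blk_injective Subtype.val_injective Subtype.val_injective fun a b h =>
      Finset.mem_compl.1 a.2 (h ▸ Finset.mem_union_left _ b.2)
  refine pr_le_of_repl h0 h1 hinj _ fun ω => ?_
  have hc : (R₀.image (comp_row S ω)).card < Fintype.card S := Finset.card_image_le.trans_lt (by simpa using hR)
  refine (pr_mono h0 h1 (F := {η : ↥((S ∪ R₀)ᶜ) × S → Bool | ∀ r, (fun c => η (r, c)) ∈
    {x : S → Bool | |(fun i => (sv x i : ℝ)) ⬝ᵥ nu (R₀.image (comp_row S ω))| ≤ τ}}) fun η hη r => ?_).trans ?_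
  · have e1 : R₀.image (comp_row S (repl (blk Subtype.val Subtype.val) η ω)) = R₀.image (comp_row S ω) := by
      refine Finset.image_congr fun j hj => ?_
      funext i
      refine congrArg (fun t : Bool => ((if t then 1 else -1 : ℤ) : ℝ)) (repl_of_not_mem η ω ?_)
      rw [mem_range_blk]
      rintro (⟨⟨a, ha⟩, -⟩ | ⟨⟨a, ha⟩, -⟩)
      · exact Finset.mem_compl.1 a.2 (ha ▸ Finset.mem_union_right _ hj)
      · exact Finset.mem_compl.1 a.2 (ha ▸ Finset.mem_union_left _ i.2)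
    have e2 : comp_row S (repl (blk Subtype.val Subtype.val) η ω) r = fun i => (sv (fun c => η (r, c)) i : ℝ) := by
      funext i
      exact congrArg (fun t : Bool => ((if t then 1 else -1 : ℤ) : ℝ)) (repl_apply hinj η ω (r, i))
    have h := hη r
    rw [e1, e2] at h
    exact h
  rw [pr_rows]
  have h2 := pr_near_le h0 h1 _ (hnu _ hc) hτ0 (by simpa using hτ)
  refine (Finset.prod_le_prod (fun r _ => pr_nonneg h0 h1 _) fun r _ => h2).trans ?_
  rw [Finset.prod_const, Finset.card_univ, Fintype.card_coe]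
  have h3 : ((S ∪ R₀)ᶜ).card + (S ∪ R₀).card = N := by rw [Finset.card_compl_add_card, Fintype.card_fin]
  have h4 : (S ∪ R₀).card ≤ 2 * S.card := (Finset.card_union_le _ _).trans (by omega)
  have hq := qq_pos p
  have h5 : 1 ≤ qq p ^ (S ∪ R₀).card * Real.exp (2 * S.card) := by
    calc (1 : ℝ) ≤ (qq p * Real.exp 1) ^ (S ∪ R₀).card := by
          refine one_le_pow₀ ?_
          have := Real.add_one_le_exp 1
          have := half_le_qq p
          nlinarith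
      _ ≤ _ := by
          rw [mul_pow, ← Real.exp_nat_mul, mul_one]
          exact mul_le_mul_of_nonneg_left (Real.exp_le_exp.2 (by exact_mod_cast h4)) (by positivity)
  calc _ ≤ qq p ^ ((S ∪ R₀)ᶜ).card * (qq p ^ (S ∪ R₀).card * Real.exp (2 * S.card)) :=
        le_mul_of_one_le_right (by positivity) h5
    _ = _ := by rw [← mul_assoc, ← pow_add, h3]

theorem comp_small {N : ℕ} (hN : 0 < N) (b : Sym2 (Fin N) → Bool) (v : Fin N → ℤ) (i₀ : Fin N) (hv : Mx b *ᵥ v = 0)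
    (hpos : 0 < |v i₀|) (S : Finset (Fin N)) (hS : ∀ j, j ∉ S → (N : ℤ) ^ 4 * |v j| < |v i₀|) (j : Fin N) :
    |comp_row S b j ⬝ᵥ (fun i : S => (v i : ℝ) / |(v i₀ : ℝ)|)| ≤ 1 / (N : ℝ) ^ 3 := by
  have hN' : (0 : ℝ) < N := by exact_mod_cast hN
  have hp : (0 : ℝ) < |(v i₀ : ℝ)| := by exact_mod_cast hpos
  have h1 : ∑ i, (Mx b j i : ℝ) * v i = 0 := by exact_mod_cast congrFun hv j
  have h2 : comp_row S b j ⬝ᵥ (fun i : S => (v i : ℝ) / |(v i₀ : ℝ)|) =
      (∑ i ∈ S, (Mx b j i : ℝ) * v i) / |(v i₀ : ℝ)| := by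
    rw [← Finset.sum_coe_sort S, Finset.sum_div]
    refine Finset.sum_congr rfl fun i _ => ?_
    rw [Mx_apply, mul_div_assoc]
    rfl
  rw [← Finset.sum_add_sum_compl S] at h1
  rw [h2, eq_neg_of_add_eq_zero_left h1, abs_div, abs_neg, abs_abs, div_le_iff₀ hp]
  refine (Finset.abs_sum_le_sum_abs _ _).trans
    ((Finset.sum_le_card_nsmul _ _ (|(v i₀ : ℝ)| / N ^ 4) fun i hi => ?_).trans ?_)
  · have h3 : |(Mx b j i : ℝ)| = 1 := by rw [Mx_apply]; exact_mod_cast abs_sv _ _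
    have h4 : (N : ℝ) ^ 4 * |(v i : ℝ)| < |(v i₀ : ℝ)| := by exact_mod_cast hS i (Finset.mem_compl.1 hi)
    rw [abs_mul, h3, one_mul, le_div_iff₀ (by positivity)]
    linarith
  · have h3 : ((Sᶜ).card : ℝ) ≤ N := by exact_mod_cast (Finset.card_le_univ _).trans_eq (Fintype.card_fin N)
    rw [nsmul_eq_mul]
    refine (mul_le_mul_of_nonneg_right h3 (by positivity)).trans (le_of_eq ?_)
    field_simp

/-- `S` the large coordinates (`k = |S| ≤ κ N`, `κ ≤ 1/4`), `u = v / |v i₀|` on `S`, rows `j ∉ S`: `|M_{j,S} u| ≤ N · N⁻⁴`, and `(k+1) k² N⁻³ < 1`.  Union over `S` and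
`R₀` (`card_small_subsets`); resample the block `(S ∪ R₀)ᶜ × S` (`blk`, `pr_le_of_repl`, `pr_rows`): probability `≤ q^{N - 2κN}`. -/
theorem comp_prob (h0 : 0 < p) (h1 : p < 1) {ε : ℝ} (hε : 0 < ε) : ∃ κ₀ : ℝ, 0 < κ₀ ∧ ∀ κ ≤ κ₀, ∀ᶠ N : ℕ in atTop,
    pr p {b : Sym2 (Fin N) → Bool | Ecomp κ b} ≤ qq p ^ N * Real.exp (ε * N) := by
  obtain ⟨κ₁, hκ₁, -, hcard⟩ := card_small_subsets (η := ε / 8) (by positivity)
  refine ⟨min κ₁ (min (ε / 8) (1 / 4)), by positivity, fun κ hκ => ?_⟩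
  have k1 : κ ≤ κ₁ := hκ.trans (min_le_left _ _)
  have k2 : κ ≤ ε / 8 := hκ.trans ((min_le_right _ _).trans (min_le_left _ _))
  have k3 : κ ≤ 1 / 4 := hκ.trans ((min_le_right _ _).trans (min_le_right _ _))
  filter_upwards [eventually_ge_atTop 2] with N hN
  have hN' : (2 : ℝ) ≤ N := by exact_mod_cast hN
  have hN0 : (0 : ℝ) < N := by linarith
  choose nu hnu using fun S : Finset (Fin N) => exists_nu_fun S
  set 𝒮 := (Finset.univ : Finset (Fin N)).powerset.filter fun t => (t.card : ℝ) ≤ κ₁ * (N + 1) with h𝒮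
  have hc : (𝒮.card : ℝ) ≤ Real.exp (ε / 8 * (N + 1)) := hcard _ _ N (by simp)
  let F := (𝒮 ×ˢ 𝒮).filter fun z => z.2.card < z.1.card ∧ (z.1.card : ℝ) ≤ κ * N
  have hF : (F.card : ℝ) ≤ Real.exp (ε / 8 * (N + 1)) * Real.exp (ε / 8 * (N + 1)) := by
    have : F.card ≤ 𝒮.card * 𝒮.card := (Finset.card_filter_le _ _).trans_eq (Finset.card_product _ _)
    calc (F.card : ℝ) ≤ 𝒮.card * 𝒮.card := by exact_mod_cast this
      _ ≤ _ := mul_le_mul hc hc (Nat.cast_nonneg _) (Real.exp_pos _).le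
  have hq := qq_pos p
  refine (pr_le_card_mul h0 h1 F (fun z => {b | ∀ j, |comp_row z.1 b j ⬝ᵥ nu z.1 (z.2.image (comp_row z.1 b))| ≤
    (z.1.card : ℝ) ^ 2 * (1 / (N : ℝ) ^ 3)}) _ ?_ (c := qq p ^ N * Real.exp (ε / 4 * N)) ?_).trans ?_
  · rintro b ⟨v, i₀, hv0, hv, hmax, hS⟩
    set S := Finset.univ.filter fun j => |v i₀| ≤ (N : ℤ) ^ 4 * |v j| with hSd
    have hpos : 0 < |v i₀| := by
      obtain ⟨i, hi⟩ := Function.ne_iff.1 hv0
      exact (abs_pos.2 hi).trans_le (hmax i)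
    have hi₀ : i₀ ∈ S := by
      refine Finset.mem_filter.2 ⟨Finset.mem_univ _, le_mul_of_one_le_left hpos.le (one_le_pow₀ ?_)⟩
      exact_mod_cast (by omega : 1 ≤ N)
    have hp : (0 : ℝ) < |(v i₀ : ℝ)| := by exact_mod_cast hpos
    obtain ⟨R₀, hR₀, hR⟩ := exists_near_hyperplane (comp_row S b) (fun i : S => (v i : ℝ) / |(v i₀ : ℝ)|)
      ⟨⟨i₀, hi₀⟩, by rw [abs_div, abs_abs, div_self hp.ne']⟩ (by positivity)
      (comp_small (by omega) b v i₀ hv hpos S fun j hj => by simpa [hSd] using hj)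
    rw [Fintype.card_coe] at hR₀ hR
    have hS1 : (S.card : ℝ) ≤ κ₁ * (N + 1) := hS.trans (by nlinarith)
    have hR1 : (R₀.card : ℝ) ≤ κ₁ * (N + 1) := le_trans (by exact_mod_cast hR₀.le) hS1
    refine ⟨(S, R₀), Finset.mem_filter.2 ⟨Finset.mem_product.2 ⟨?_, ?_⟩, hR₀, hS⟩, ?_⟩
    · exact Finset.mem_filter.2 ⟨by simp, hS1⟩
    · exact Finset.mem_filter.2 ⟨by simp, hR1⟩
    · obtain ⟨h2, -, h3⟩ := hnu S (R₀.image (comp_row S b)) (Finset.card_image_le.trans_lt (by simpa using hR₀))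
      exact hR _ h2 fun j hj => h3 _ (Finset.mem_image_of_mem _ hj)
  · rintro ⟨S, R₀⟩ hz
    obtain ⟨-, h2, h3⟩ := Finset.mem_filter.1 hz
    dsimp only at h2 h3 ⊢
    have h4 : (S.card : ℝ) ≤ N / 4 := h3.trans (by nlinarith)
    refine (comp_block h0 h1 S R₀ h2 (nu S) (fun T hT => (hnu S T hT).2.1) (by positivity) ?_).trans ?_
    · rw [← mul_assoc, mul_one_div, div_lt_one (by positivity)]
      have h5 : (S.card : ℝ) ^ 2 ≤ (N / 4) ^ 2 := pow_le_pow_left₀ (Nat.cast_nonneg _) h4 2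
      calc ((S.card : ℝ) + 1) * (S.card : ℝ) ^ 2 ≤ N * (N / 4) ^ 2 :=
            mul_le_mul (by linarith) h5 (by positivity) hN0.le
        _ < N ^ 3 := by have : (0 : ℝ) < N ^ 3 := by positivity
                        nlinarith
    · exact mul_le_mul_of_nonneg_left (Real.exp_le_exp.2 (by nlinarith)) (by positivity)
  · calc (F.card : ℝ) * (qq p ^ N * Real.exp (ε / 4 * N)) ≤
          (Real.exp (ε / 8 * (N + 1)) * Real.exp (ε / 8 * (N + 1))) * (qq p ^ N * Real.exp (ε / 4 * N)) :=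
          mul_le_mul_of_nonneg_right hF (by positivity)
      _ = qq p ^ N * Real.exp (ε / 8 * (N + 1) + ε / 8 * (N + 1) + ε / 4 * N) := by
          rw [Real.exp_add, Real.exp_add]; ring
      _ ≤ _ := mul_le_mul_of_nonneg_left (Real.exp_le_exp.2 (by nlinarith)) (by positivity)

end

end Crest.Agent.R152
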