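import Crest.Agent.R152.P1
import Crest.Agent.R152.A1

/-!
# R152/Pat

Kernel vectors that are sparse modulo a prime; atypical columns.

Helper lemmas: prefix `pat_`.
-/

set_option autoImplicit false
set_option linter.unusedVariables false
set_option linter.unusedSectionVars false

namespace Crest.Agent.R152

open Crest.FinProb Crest.ProbabilityR.SignMatrix MeasureTheory ProbabilityTheory Filter Module
open scoped RealInnerProductSpace ENNReal Matrix Topology

noncomputable section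

variable {p : ℝ}

theorem pat_flip {α : Type} [Fintype α] [DecidableEq α] (y : α → Bool) (v : α → ℤ) (i : α) :
    ∑ j, sv y j * v j - ∑ j, sv (Function.update y i (!y i)) j * v j = 2 * sv y i * v i := by
  rw [← Finset.sum_sub_distrib, Finset.sum_eq_single i]
  · unfold sv
    rw [Function.update_self]
    cases y i <;> simp <;> ring
  · intro j _ hj
    unfold sv
    rw [Function.update_of_ne hj, sub_self]
  · simp

theorem pat_poly (C : ℝ) (k : ℕ) {ε : ℝ} (hε : 0 < ε) : ∀ᶠ n : ℕ in atTop,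
    C * ((n : ℝ) + 1) ^ k ≤ Real.exp (ε * n) := by
  have hc : 0 < (|C| + 1) * Real.exp ε := by positivity
  have h := ((isLittleO_pow_exp_pos_mul_atTop k hε).comp_tendsto
    (tendsto_atTop_add_const_right _ 1 tendsto_natCast_atTop_atTop)).bound (inv_pos.2 hc)
  filter_upwards [h] with n hn
  simp only [Function.comp, Real.norm_eq_abs] at hn
  rw [abs_of_nonneg (by positivity), abs_of_nonneg (Real.exp_pos _).le, inv_mul_eq_div,
    le_div_iff₀ hc, mul_add ε, mul_one, Real.exp_add, ← mul_assoc] at hn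
  have h2 := le_of_mul_le_mul_right hn (Real.exp_pos ε)
  have h3 : (0 : ℝ) ≤ ((n : ℝ) + 1) ^ k := by positivity
  nlinarith [le_abs_self C]

theorem pat_qq (h0 : 0 < p) (h1 : p < 1) {m n k : ℕ} (h : n ≤ m + k) : qq p ^ m ≤ qq p ^ n * 2 ^ k := by
  have h2 : qq p ^ (m + k) ≤ qq p ^ n := pow_le_pow_of_le_one (qq_pos p).le (qq_lt_one h0 h1).le h
  have h3 : 1 ≤ qq p ^ k * 2 ^ k := by
    rw [← mul_pow]
    exact one_le_pow₀ (by linarith [half_le_qq p])
  calc qq p ^ m ≤ qq p ^ m * (qq p ^ k * 2 ^ k) := le_mul_of_one_le_right (pow_pos (qq_pos p) _).le h3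
    _ = qq p ^ (m + k) * 2 ^ k := by ring
    _ ≤ _ := by gcongr

theorem pat_blk {N : ℕ} (S : Finset (Fin N)) :
    Function.Injective (blk (Subtype.val : ↥Sᶜ → Fin N) (Subtype.val : S → Fin N)) :=
  blk_injective Subtype.val_injective Subtype.val_injective fun a b e =>
    Finset.mem_compl.1 a.2 (e ▸ b.2)

theorem pat_blk' {N : ℕ} (S : Finset (Fin N)) :
    Function.Injective (blk (Subtype.val : S → Fin N) (Subtype.val : ↥Sᶜ → Fin N)) :=
  blk_injective Subtype.val_injective Subtype.val_injective fun a b e =>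
    Finset.mem_compl.1 b.2 (e ▸ a.2)

/-- `S = {j | l ∤ v j}` is nonempty.  For odd `l` let `Y = {y | l ∣ sv y ⬝ v_S}`, for `l = 2` let `Y = {y | 4 ∣ sv y ⬝ v_S + ∑_{i ∉ S} v i}` (for even `v i`,
`-v i ≡ v i mod 4`).  Every row lies in `Y`; flipping a coordinate leaves `Y`; `Y = ∅` if `|S| = 1`; `pr_le_qq`. -/
theorem pat_reduce (h0 : 0 < p) (h1 : p < 1) {N K₀ : ℕ} (b : Sym2 (Fin N) → Bool) (h : Epat K₀ b) :
    ∃ S : Finset (Fin N), S.card < K₀ ∧ ∃ Y : Set (S → Bool), pr p Y ≤ qq p ∧ ∀ j, (fun i : S => b s(j, i)) ∈ Y := by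
  obtain ⟨l, v, hl, hv, ⟨j₀, hj₀⟩, hc⟩ := h
  set S := Finset.univ.filter fun j => ¬ (l : ℤ) ∣ v j with hS
  have hm : ∀ j, j ∈ S ↔ ¬ (l : ℤ) ∣ v j := fun j => by simp [hS]
  refine ⟨S, hc, {y | (2 * l : ℤ) ∣ ∑ i : S, sv y i * v i + ∑ i ∈ Sᶜ, v i}, ?_, fun j => ?_⟩
  · have flip : ∀ i : S, ∀ y ∈ {y : S → Bool | (2 * l : ℤ) ∣ ∑ i : S, sv y i * v i + ∑ i ∈ Sᶜ, v i},
        Function.update y i (!y i) ∉
          {y : S → Bool | (2 * l : ℤ) ∣ ∑ i : S, sv y i * v i + ∑ i ∈ Sᶜ, v i} := by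
      intro i y hy hy'
      have e := pat_flip y (fun i => v i) i
      have h2 := dvd_sub hy hy'
      rw [add_sub_add_right_eq_sub, e, mul_assoc] at h2
      have h3 := (mul_dvd_mul_iff_left (two_ne_zero' ℤ)).1 h2
      refine (hm i).1 i.2 ?_
      unfold sv at h3
      split_ifs at h3 <;> simpa using h3
    by_cases h2 : ∃ i : S, i ≠ ⟨j₀, (hm _).2 hj₀⟩
    · obtain ⟨i, hi⟩ := h2
      exact pr_le_qq h0 h1 _ hi (flip _) (flip _)
    · push Not at h2
      refine (pr_mono h0 h1 (F := ∅) fun y hy => hj₀ ?_).trans ((pr_empty p).trans_le (qq_pos p).le)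
      have h3 : (l : ℤ) ∣ ∑ i : S, sv y i * v i + ∑ i ∈ Sᶜ, v i := (Dvd.intro_left _ rfl).trans hy
      rw [dvd_add_left (Finset.dvd_sum fun i hi => by simpa [hS] using hi),
        Finset.sum_eq_single ⟨j₀, (hm _).2 hj₀⟩ (fun i _ hi => absurd (h2 i) hi) (by simp)] at h3
      unfold sv at h3
      split_ifs at h3 <;> simpa using h3
  · have e : ∑ i, sv (fun l => b s(j, l)) i * v i = 0 := congrFun hv j
    rw [← Finset.sum_add_sum_compl S, ← Finset.sum_coe_sort S] at e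
    change (2 * l : ℤ) ∣ ∑ i : S, sv (fun l => b s(j, l)) i * v i + ∑ i ∈ Sᶜ, v i
    rw [eq_neg_of_add_eq_zero_left e, neg_add_eq_sub, ← Finset.sum_sub_distrib]
    refine Finset.dvd_sum fun i hi => ?_
    obtain ⟨c, hc⟩ : (l : ℤ) ∣ v i := by simpa [hS] using hi
    rw [hc]
    unfold sv
    split_ifs
    · simp
    · exact ⟨c, by ring⟩

/-- Union over `S` (at most `(N+1)^K₀`) and `Y` (at most `2^2^K₀`); the block `Sᶜ × S` (`blk`, `pr_comp`, `pr_rows`) gives `q^{N - K₀}`. -/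
theorem pat_prob (h0 : 0 < p) (h1 : p < 1) (K₀ : ℕ) {ε : ℝ} (hε : 0 < ε) : ∀ᶠ N : ℕ in atTop,
    pr p {b : Sym2 (Fin N) → Bool | Epat K₀ b} ≤ qq p ^ N * Real.exp (ε * N) := by
  classical
  filter_upwards [pat_poly (K₀ * 2 ^ 2 ^ K₀ * 2 ^ K₀) K₀ hε] with N hN
  have hq : 0 ≤ qq p ^ N * 2 ^ K₀ := by have := qq_pos p; positivity
  have key : pr p {b : Sym2 (Fin N) → Bool | Epat K₀ b} ≤
      (Finset.range K₀).card * (((N : ℝ) + 1) ^ K₀ * (2 ^ 2 ^ K₀ * (qq p ^ N * 2 ^ K₀))) := by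
    refine pr_le_card_mul h0 h1 (Finset.range K₀) (fun k => {b | ∃ S : Finset (Fin N), S.card = k ∧
      ∃ Y : Set (S → Bool), pr p Y ≤ qq p ∧ ∀ j, (fun i : S => b s(j, i)) ∈ Y}) _ (fun b hb => ?_)
      fun k hk => ?_
    · obtain ⟨S, hS, h⟩ := pat_reduce h0 h1 b hb
      exact ⟨_, Finset.mem_range.2 hS, S, rfl, h⟩
    have hk' := (Finset.mem_range.1 hk).le
    refine (pr_le_card_mul h0 h1 (Finset.univ.powersetCard k) (fun S => {b : Sym2 (Fin N) → Bool |
      ∃ Y : Set (S → Bool), pr p Y ≤ qq p ∧ ∀ j, (fun i : S => b s(j, i.1)) ∈ Y}) _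
      (fun b hb => hb.imp fun S h => ⟨by simp [h.1], h.2⟩) (c := 2 ^ 2 ^ K₀ * (qq p ^ N * 2 ^ K₀))
      fun S hS => ?_).trans (mul_le_mul_of_nonneg_right ?_ (by positivity))
    · have hS' : S.card = k := (Finset.mem_powersetCard.1 hS).2
      refine (pr_le_card_mul h0 h1 (Finset.univ.filter fun Y : Set (S → Bool) => pr p Y ≤ qq p)
        (fun Y => {b : Sym2 (Fin N) → Bool | ∀ j, (fun i : S => b s(j, i.1)) ∈ Y}) _
        (fun b hb => hb.imp fun Y h => ⟨by simpa using h.1, h.2⟩) (c := qq p ^ N * 2 ^ K₀)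
        fun Y hY => ?_).trans (mul_le_mul_of_nonneg_right ?_ hq)
      · have hY' : pr p Y ≤ qq p := (Finset.mem_filter.1 hY).2
        refine le_trans (pr_mono h0 h1 (F := {b | (fun x => b (blk (Subtype.val : ↥Sᶜ → Fin N)
          (Subtype.val : S → Fin N) x)) ∈ {η : ↥Sᶜ × S → Bool | ∀ r, (fun c => η (r, c)) ∈ Y}})
          fun b hb r => hb r.1) ?_
        rw [pr_comp p (pat_blk S), pr_rows p (fun _ => Y), Finset.prod_const, Finset.card_univ,
          Fintype.card_coe, Finset.card_compl, Fintype.card_fin]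
        exact (pow_le_pow_left₀ (pr_nonneg h0 h1 _) hY' _).trans (pat_qq h0 h1 (by omega))
      · have : (Finset.univ.filter fun Y : Set (S → Bool) => pr p Y ≤ qq p).card ≤ 2 ^ 2 ^ K₀ := by
          refine (Finset.card_filter_le _ _).trans ?_
          rw [Finset.card_univ, Fintype.card_set, Fintype.card_fun, Fintype.card_bool,
            Fintype.card_coe, hS']
          gcongr <;> norm_num
        exact_mod_cast this
    · rw [Finset.card_powersetCard, Finset.card_univ, Fintype.card_fin]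
      have : N.choose k ≤ (N + 1) ^ K₀ :=
        (Nat.choose_le_pow _ _).trans ((Nat.pow_le_pow_left (Nat.le_succ N) k).trans
          (Nat.pow_le_pow_right (Nat.succ_pos N) hk'))
      exact_mod_cast this
  refine key.trans ?_
  rw [Finset.card_range]
  calc _ = qq p ^ N * (K₀ * 2 ^ 2 ^ K₀ * 2 ^ K₀ * ((N : ℝ) + 1) ^ K₀) := by ring
    _ ≤ _ := mul_le_mul_of_nonneg_left hN (pow_pos (qq_pos p) _).le

theorem pat_col (h0 : 0 < p) (h1 : p < 1) {n : ℕ} (b : Sym2 (Fin (n + 1)) → Bool)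
    (I : Finset (Fin (n + 1))) {i : Fin (n + 1)} (hi : i ∈ I) :
    wgt p (colx b i) ≤ wgt p (fun c : ↥Iᶜ => b s(i, c)) := by
  rw [p1_wgt, p1_wgt, Finset.prod_coe_sort Iᶜ (fun c => p1_c p (b s(i, c)))]
  have e : ∏ j, p1_c p (colx b i j) = ∏ c ∈ ({i}ᶜ : Finset (Fin (n + 1))), p1_c p (b s(i, c)) := by
    rw [← Fin.image_succAbove_univ, Finset.prod_image fun a _ b _ h =>
      Fin.succAbove_right_injective h]
    rfl
  rw [e]
  refine Finset.prod_le_prod_of_subset_of_le_one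
    (Finset.compl_subset_compl.2 (Finset.singleton_subset_iff.2 hi)) (fun c _ => ?_) fun c _ _ => ?_
  · unfold p1_c; split_ifs <;> linarith
  · unfold p1_c; split_ifs <;> linarith

/-- For a set `I` of `k` indices, `wgt (colx b i) ≤ wgt (j ↦ b s(i, j), j ∉ I)`; these are independent (`blk`, `ex_comp`, `ex_rows`) with mean
`q^{n+1-k}` (`ex_wgt`); Markov for the product: probability `≤ (q^{-k} e^{-η n})^k`.  Union over `≤ (n+1)^k` sets; `k = ⌈(K+1)/η⌉`. -/
theorem row_prob (h0 : 0 < p) (h1 : p < 1) {η : ℝ} (hη : 0 < η) (K : ℝ) : ∃ k : ℕ, ∀ᶠ n : ℕ in atTop,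
    pr p {b : Sym2 (Fin (n + 1)) → Bool | Erow p η k b} ≤ Real.exp (-K * n) := by
  obtain ⟨k, hk⟩ := exists_nat_ge ((K + 1) / η)
  rw [div_le_iff₀ hη] at hk
  refine ⟨k, ?_⟩
  filter_upwards [pat_poly ((2 ^ k) ^ k) k one_pos] with n hn
  have hq := qq_pos p
  refine (pr_le_card_mul h0 h1 (Finset.univ.powersetCard k) (fun I => {b | ∀ i ∈ I,
    qq p ^ n * Real.exp (η * n) < wgt p (colx b i)}) _ (fun b hb => ?_)
    (c := (2 ^ k / Real.exp (η * n)) ^ k) fun I hI => ?_).trans ?_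
  · classical
    obtain ⟨I, h2, h3⟩ := Finset.exists_subset_card_eq hb
    exact ⟨I, by simp [h3], fun i hi => (Finset.mem_filter.1 (h2 hi)).2⟩
  · have hI' : I.card = k := (Finset.mem_powersetCard.1 hI).2
    refine (pr_mono h0 h1 (F := {b | (qq p ^ n * Real.exp (η * n)) ^ k ≤
      ∏ r : I, wgt p (fun c : ↥Iᶜ => b (blk Subtype.val Subtype.val (r, c)))}) fun b hb => ?_).trans
      ((markov h0 h1 (fun b => Finset.prod_nonneg fun r _ => (wgt_pos h0 h1 _).le)
        (by positivity)).trans ?_)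
    · rw [Set.mem_ofPred_eq, ← hI', ← Fintype.card_coe I, ← Finset.card_univ, ← Finset.prod_const]
      exact Finset.prod_le_prod (fun _ _ => by positivity) fun i _ =>
        (hb i.1 i.2).le.trans (pat_col h0 h1 b I i.2)
    · rw [ex_comp p (pat_blk' I) (fun η => ∏ r : I, wgt p (fun c : ↥Iᶜ => η (r, c))),
        ex_rows p (fun _ η => wgt p η), Finset.prod_const, ex_wgt, Finset.card_univ,
        Fintype.card_coe, Fintype.card_coe, Finset.card_compl, Fintype.card_fin, hI', ← div_pow]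
      refine pow_le_pow_left₀ (by positivity) ?_ _
      rw [← mul_div_mul_left (2 ^ k) _ (pow_pos hq n).ne']
      exact div_le_div_of_nonneg_right (pat_qq h0 h1 (by omega)) (by positivity)
  · rw [Finset.card_powersetCard, Finset.card_univ, Fintype.card_fin, div_pow, ← mul_div_assoc,
      div_le_iff₀ (by positivity), ← Real.exp_nat_mul, ← Real.exp_add]
    have h2 : (((n + 1).choose k : ℕ) : ℝ) ≤ ((n : ℝ) + 1) ^ k := by
      exact_mod_cast Nat.choose_le_pow _ _
    calc _ ≤ (2 ^ k) ^ k * ((n : ℝ) + 1) ^ k := by rw [mul_comm]; gcongr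
      _ ≤ _ := hn.trans (Real.exp_le_exp.2 (by nlinarith [n.cast_nonneg (α := ℝ)]))

end

end Crest.Agent.R152
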