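import Crest.Agent.R152.B1

/-!
# R152/Pick

Choice of a good index.

Helper lemmas: prefix `pick_`.
-/

set_option autoImplicit false
set_option linter.unusedVariables false
set_option linter.unusedSectionVars false

namespace Crest.Agent.R152

open Crest.FinProb Crest.ProbabilityR.SignMatrix MeasureTheory ProbabilityTheory Filter Module
open scoped RealInnerProductSpace ENNReal Matrix Topology

noncomputable section

variable {n : ℕ}

theorem pick_det_ne {m : ℕ} (A : Matrix (Fin m) (Fin m) ℤ) (h : (A.map (Int.cast : ℤ → ℚ)).rank = m) :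
    A.det ≠ 0 := by
  intro hb
  have hd : (A.map (Int.cast : ℤ → ℚ)).det = 0 := by
    have := (Int.castRingHom ℚ).map_det A
    simp only [eq_intCast, RingHom.mapMatrix_apply, Int.coe_castRingHom] at this
    rw [← this]
    exact_mod_cast hb
  obtain ⟨v, hv0, hv⟩ := Matrix.exists_mulVec_eq_zero_iff.2 hd
  have h2 := LinearMap.finrank_range_add_finrank_ker (A.map (Int.cast : ℤ → ℚ)).mulVecLin
  have h3 : 0 < finrank ℚ (LinearMap.ker (A.map (Int.cast : ℤ → ℚ)).mulVecLin) := by
    rw [Module.finrank_pos_iff_exists_ne_zero]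
    exact ⟨⟨v, hv⟩, fun h => hv0 (congrArg Subtype.val h)⟩
  rw [Module.finrank_fintype_fun_eq_card, Fintype.card_fin] at h2
  unfold Matrix.rank at h
  omega

theorem pick_det_zero {m : ℕ} (A : Matrix (Fin m) (Fin m) ℤ) (h : (A.map (Int.cast : ℤ → ℚ)).rank < m) :
    A.det = 0 := by
  by_contra hb
  have hd : (A.map (Int.cast : ℤ → ℚ)).det ≠ 0 := by
    have := (Int.castRingHom ℚ).map_det A
    simp only [eq_intCast, RingHom.mapMatrix_apply, Int.coe_castRingHom] at this
    rw [← this]
    exact_mod_cast hb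
  have := Matrix.rank_of_det_ne_zero hd
  rw [Fintype.card_fin] at this
  omega

/-- The kernel over `ℚ` is a line; take a primitive integer generator `v`.  `M * adj M = 0` and symmetry give `adj M = λ v vᵀ`, `λ ∈ ℤ` by Bezout;
`Matrix.adjugate_fin_succ_eq_det_submatrix` at `(i, i)`; `λ ≠ 0` by `ker_minor` (full rank minor). -/
theorem corank_one_struct (b : Sym2 (Fin (n + 1)) → Bool) (h : rk b = n) :
    ∃ (v : Fin (n + 1) → ℤ) (c : ℕ), v ≠ 0 ∧ Mx b *ᵥ v = 0 ∧ (∀ l : ℕ, l.Prime → ∃ j, ¬ (l : ℤ) ∣ v j) ∧ 0 < c ∧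
      ∀ i, (Mx (minr b i)).det.natAbs = c * (v i).natAbs ^ 2 := by
  classical
  have hdet : (Mx b).det = 0 := pick_det_zero _ (by unfold rk at h; omega)
  obtain ⟨u, hu0, hu⟩ := Matrix.exists_mulVec_eq_zero_iff.2 hdet
  obtain ⟨v, hv1, hv2⟩ := Finset.extract_gcd (s := Finset.univ) u Finset.univ_nonempty
  have hg : Finset.univ.gcd u ≠ 0 := fun h0 => hu0 (funext fun j => by
    rw [hv1 j (Finset.mem_univ _), h0, zero_mul]; rfl)
  have huv : u = Finset.univ.gcd u • v := funext fun j => hv1 j (Finset.mem_univ _)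
  have hv : Mx b *ᵥ v = 0 := by
    rw [huv, Matrix.mulVec_smul] at hu
    exact (smul_eq_zero.1 hu).resolve_left hg
  have hv0 : v ≠ 0 := fun h0 => hu0 (by rw [huv, h0, smul_zero])
  obtain ⟨f, hf⟩ := Finset.gcd_eq_sum_mul Finset.univ v
  rw [hv2] at hf
  obtain ⟨i, hi⟩ : ∃ i, v i ≠ 0 := Function.ne_iff.1 hv0
  have hvq : (Mx b).map (Int.cast : ℤ → ℚ) *ᵥ (fun j => (v j : ℚ)) = 0 := by
    funext j
    have := congrFun hv j
    simp only [Matrix.mulVec, dotProduct, Matrix.map_apply, Pi.zero_apply] at this ⊢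
    exact_mod_cast this
  have hA : (Mx (minr b i)).det ≠ 0 := by
    refine pick_det_ne _ ?_
    have e1 := (ker_minor _ ((Mx_symm b).map (Int.cast : ℤ → ℚ)) _ hvq i (by exact_mod_cast hi)).1
    rw [Mx_minr]
    exact e1.trans h
  have hline : ∀ w : Fin (n + 1) → ℤ, Mx b *ᵥ w = 0 → ∀ j, w j = (∑ l, w l * f l) * v j := by
    intro w hw
    have hz : Mx b *ᵥ (v i • w - w i • v) = 0 := by
      rw [Matrix.mulVec_sub, Matrix.mulVec_smul, Matrix.mulVec_smul, hw, hv, smul_zero, smul_zero, sub_zero]
    have hz' : Mx (minr b i) *ᵥ (fun j => (v i • w - w i • v) (i.succAbove j)) = 0 := by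
      funext m
      have := congrFun hz (i.succAbove m)
      simp only [Matrix.mulVec, dotProduct, Pi.zero_apply] at this ⊢
      rw [Fin.sum_univ_succAbove _ i] at this
      rw [Mx_minr]
      simp only [Matrix.submatrix_apply]
      have e : (v i • w - w i • v) i = 0 := by simp [mul_comm]
      rw [e, mul_zero, zero_add] at this
      exact this
    have hz0 := Matrix.eq_zero_of_mulVec_eq_zero hA hz'
    have e1 : ∀ j, v i * w j = w i * v j := fun j => by
      induction j using Fin.succAboveCases i with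
      | x => ring
      | p j =>
        have := congrFun hz0 j
        simp only [Pi.sub_apply, Pi.smul_apply, smul_eq_mul, Pi.zero_apply] at this
        linarith
    have e2 : ∀ j l, v l * w j = w l * v j := fun j l => by
      apply mul_left_cancel₀ hi
      linear_combination v l * e1 j - v j * e1 l
    intro j
    calc w j = (∑ l, v l * f l) * w j := by rw [← hf, one_mul]
      _ = _ := by
        rw [Finset.sum_mul, Finset.sum_mul]
        exact Finset.sum_congr rfl fun l _ => by linear_combination f l * e2 j l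
  have hadj : ∀ l, Mx b *ᵥ (fun j => (Mx b).adjugate j l) = 0 := fun l => by
    funext m
    have := congrFun (congrFun (Matrix.mul_adjugate (Mx b)) m) l
    rw [hdet, zero_smul] at this
    exact this
  let t : Fin (n + 1) → ℤ := fun l => ∑ m, (Mx b).adjugate m l * f m
  have ht : ∀ j l, (Mx b).adjugate j l = t l * v j := fun j l => hline _ (hadj l) j
  have ht2 : ∀ j, t j = (∑ l, t l * f l) * v j := fun j => by
    calc t j = (∑ l, v l * f l) * t j := by rw [← hf, one_mul]
      _ = _ := by
        rw [Finset.sum_mul, Finset.sum_mul]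
        refine Finset.sum_congr rfl fun l _ => ?_
        have := (Mx_symm b).adjugate.apply j l
        rw [ht, ht] at this
        linear_combination f l * this
  have hmin : ∀ j, (Mx (minr b j)).det = (∑ l, t l * f l) * v j ^ 2 := fun j => by
    have := Matrix.adjugate_fin_succ_eq_det_submatrix (Mx b) j j
    rw [ht, ht2 j, ← two_mul, pow_mul] at this
    rw [Mx_minr]
    linear_combination -this
  refine ⟨v, (∑ l, t l * f l).natAbs, hv0, hv, fun l hl => ?_, ?_, fun j => ?_⟩
  · by_contra hcon
    push Not at hcon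
    have : (l : ℤ) ∣ 1 := by
      rw [hf]
      exact Finset.dvd_sum fun j _ => (hcon j).mul_right _
    exact hl.one_lt.ne' (by exact_mod_cast Int.eq_one_of_dvd_one (by positivity) this)
  · rw [Int.natAbs_pos]
    intro h0
    exact hA (by rw [hmin, h0, zero_mul])
  · rw [hmin, Int.natAbs_mul, Int.natAbs_pow]

/-- Double counting of `∑_i ∑_{l ∈ P i} v_l(c) log l ≤ m log c`; a bad `i` contributes more than `(log c)/2` (and then `c > 1`). -/
theorem card_bad_le {ι : Type} [Fintype ι] [DecidableEq ι] {c : ℕ} (hc : 0 < c) (P : ι → ℕ → Prop) [∀ i, DecidablePred (P i)]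
    {m : ℝ} (hm0 : 0 ≤ m) (hm : ∀ l : ℕ, l.Prime → ((Finset.univ.filter fun i => P i l).card : ℝ) ≤ m) :
    ((Finset.univ.filter fun i => c < (∏ l ∈ c.primeFactors.filter (P i), l ^ c.factorization l) ^ 2).card : ℝ) ≤ 2 * m := by
  classical
  rcases Nat.eq_or_lt_of_le (Nat.succ_le_of_lt hc) with h1 | h1
  · have : c = 1 := h1.symm
    subst this
    simp only [Nat.primeFactors_one, Finset.filter_empty, Finset.prod_empty, one_pow, lt_self_iff_false,
      Finset.filter_false, Finset.card_empty, Nat.cast_zero]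
    positivity
  have hlog : 0 < Real.log c := Real.log_pos (by exact_mod_cast h1)
  have hsum : Real.log c = ∑ l ∈ c.primeFactors, (c.factorization l : ℝ) * Real.log l := by
    rw [Real.log_nat_eq_sum_factorization, Finsupp.sum, Nat.support_factorization]
  have hw : ∀ l : ℕ, 0 ≤ (c.factorization l : ℝ) * Real.log l := fun l =>
    mul_nonneg (Nat.cast_nonneg _) (Real.log_natCast_nonneg _)
  set Bd := Finset.univ.filter fun i => c < (∏ l ∈ c.primeFactors.filter (P i), l ^ c.factorization l) ^ 2
  have hbad : ∀ i ∈ Bd, Real.log c ≤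
      2 * ∑ l ∈ c.primeFactors.filter (P i), (c.factorization l : ℝ) * Real.log l := by
    intro i hi
    have hi' := (Finset.mem_filter.1 hi).2
    have e : ∑ l ∈ c.primeFactors.filter (P i), (c.factorization l : ℝ) * Real.log l =
        Real.log ((∏ l ∈ c.primeFactors.filter (P i), l ^ c.factorization l : ℕ) : ℝ) := by
      push_cast
      rw [Real.log_prod]
      · exact Finset.sum_congr rfl fun l _ => by rw [Real.log_pow]
      · intro l hl
        have := (Nat.prime_of_mem_primeFactors (Finset.mem_filter.1 hl).1).pos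
        positivity
    rw [e]
    have e2 : (2 : ℝ) = ((2 : ℕ) : ℝ) := by norm_num
    rw [e2, ← Real.log_pow]
    exact Real.log_le_log (by exact_mod_cast hc) (by exact_mod_cast hi'.le)
  have key : (Bd.card : ℝ) * Real.log c ≤ 2 * m * Real.log c := by
    calc (Bd.card : ℝ) * Real.log c = ∑ i ∈ Bd, Real.log c := by simp
      _ ≤ ∑ i ∈ Bd, 2 * ∑ l ∈ c.primeFactors.filter (P i), (c.factorization l : ℝ) * Real.log l :=
          Finset.sum_le_sum hbad
      _ ≤ ∑ i, 2 * ∑ l ∈ c.primeFactors.filter (P i), (c.factorization l : ℝ) * Real.log l :=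
          Finset.sum_le_sum_of_subset_of_nonneg (Finset.subset_univ _) fun i _ _ =>
            mul_nonneg (by norm_num) (Finset.sum_nonneg fun l _ => hw l)
      _ = 2 * ∑ l ∈ c.primeFactors, ((Finset.univ.filter fun i => P i l).card : ℝ) *
            ((c.factorization l : ℝ) * Real.log l) := by
          rw [← Finset.mul_sum]
          congr 1
          simp only [Finset.sum_filter]
          rw [Finset.sum_comm]
          refine Finset.sum_congr rfl fun l _ => ?_
          rw [← Finset.sum_filter]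
          simp
      _ ≤ 2 * ∑ l ∈ c.primeFactors, m * ((c.factorization l : ℝ) * Real.log l) := by
          gcongr with l hl
          exact hm l (Nat.prime_of_mem_primeFactors hl)
      _ = _ := by rw [← Finset.mul_sum, ← hsum]; ring
  exact le_of_mul_le_mul_right key hlog

/-- `T` the top `⌊κ(n+1)⌋ + 1` indices for `|v i|` (`exists_top`); they are all large since `¬ Ecomp`.  Remove the `≤ κ(n+1)/2` arithmetically bad (`¬ Epat`, `¬ Ezero`,
`card_bad_le`) and the `< k ≤ κ(n+1)/4` atypical ones.  With `s = |v i|`, `y = -sign (v i) • (v ∘ succAbove)`: `A y = s x`, and row `i` gives `s ∣ x ⬝ y`. -/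
theorem pick {p κ η : ℝ} {K₀ p₀ k : ℕ} (hκ : 0 < κ) (hk : (k : ℝ) ≤ κ * (n + 1) / 4) (b : Sym2 (Fin (n + 1)) → Bool)
    (h : rk b = n) (h1 : ¬ Ecomp κ b) (h2 : ¬ Epat K₀ b) (h3 : ¬ Ezero (κ / 4) K₀ p₀ b) (h4 : ¬ Erow p η k b) :
    ∃ i, (Mx (minr b i)).det ≠ 0 ∧ Adm κ p₀ (Mx (minr b i)) (colx b i) ∧
      wgt p (colx b i) ≤ qq p ^ n * Real.exp (η * n) := by
  classical
  obtain ⟨v, c, hv0, hv, hprim, hc, hdet⟩ := corank_one_struct b h
  obtain ⟨i₀, -, hi₀⟩ := Finset.exists_max_image Finset.univ (fun j => |v j|) Finset.univ_nonempty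
  have hi₀' : ∀ j, |v j| ≤ |v i₀| := fun j => hi₀ j (Finset.mem_univ _)
  have hκN : 0 < κ * ((n : ℝ) + 1) := by positivity
  set Lg := Finset.univ.filter fun j => |v i₀| ≤ ((n + 1 : ℕ) : ℤ) ^ 4 * |v j| with hLg
  have hL : κ * ((n : ℝ) + 1) < (Lg.card : ℝ) := by
    by_contra hcon
    push Not at hcon
    exact h1 ⟨v, i₀, hv0, hv, hi₀', by push_cast; push_cast at hLg; rw [← hLg]; exact hcon⟩
  set t := ⌊κ * ((n : ℝ) + 1)⌋₊ with ht
  have ht1 : (t : ℝ) ≤ κ * ((n : ℝ) + 1) := Nat.floor_le hκN.le
  have ht2 : κ * ((n : ℝ) + 1) < (t : ℝ) + 1 := Nat.lt_floor_add_one _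
  have ht3 : t < Lg.card := by exact_mod_cast ht1.trans_lt hL
  obtain ⟨T, -, hT, hTtop⟩ := exists_top (Finset.univ : Finset (Fin (n + 1))) (fun j => |v j|) (k := t + 1)
    (le_trans ht3 (Finset.card_le_univ _ |>.trans (by simp)))
  have hbig : ∀ i ∈ T, ∀ j, |v i| < |v j| → j ∈ T.erase i := fun i hi j hj => by
    refine Finset.mem_erase.2 ⟨fun e => by rw [e] at hj; exact lt_irrefl _ hj, ?_⟩
    by_contra hj'
    exact absurd (hTtop i hi j (Finset.mem_univ _) hj') (not_le.2 hj)
  have hlarge : ∀ i ∈ T, |v i₀| ≤ ((n : ℤ) + 1) ^ 4 * |v i| := fun i hi => by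
    by_contra hcon
    push Not at hcon
    have hsub : Lg ⊆ T.erase i := fun j hj => by
      refine hbig i hi j ?_
      have := (Finset.mem_filter.1 hj).2
      push_cast at this
      exact lt_of_mul_lt_mul_left (hcon.trans_le this) (by positivity)
    have := Finset.card_le_card hsub
    rw [Finset.card_erase_of_mem hi, hT] at this
    omega
  have hm : ∀ l : ℕ, l.Prime → ((Finset.univ.filter fun i => mdl p₀ l ∣ (v i).natAbs).card : ℝ) ≤
      κ / 4 * ((n : ℝ) + 1) := fun l hl => by
    by_contra hcon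
    push Not at hcon
    refine h3 ⟨l, v, hl, hv, ?_, ?_⟩
    · by_contra hK
      push Not at hK
      exact h2 ⟨l, v, hl, hv, hprim l hl, hK⟩
    · push_cast
      refine hcon.le.trans (le_of_eq ?_)
      congr 2
      ext i
      simp [Int.natCast_dvd]
  have hB := card_bad_le hc (fun i l => mdl p₀ l ∣ (v i).natAbs) (by positivity) hm
  have hR : (Finset.univ.filter fun i => qq p ^ n * Real.exp (η * n) < wgt p (colx b i)).card < k := by
    by_contra hcon
    push Not at hcon
    exact h4 (by unfold Erow; convert hcon)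
  obtain ⟨i, hiT, hi⟩ : ∃ i ∈ T, i ∉ (Finset.univ.filter fun i => c < (∏ l ∈ c.primeFactors.filter
      (fun l => mdl p₀ l ∣ (v i).natAbs), l ^ c.factorization l) ^ 2) ∪
      (Finset.univ.filter fun i => qq p ^ n * Real.exp (η * n) < wgt p (colx b i)) := by
    refine Finset.exists_mem_notMem_of_card_lt_card ?_
    refine (Finset.card_union_le _ _).trans_lt ?_
    have hR' : (((Finset.univ.filter fun i => qq p ^ n * Real.exp (η * n) < wgt p (colx b i)).card : ℕ) : ℝ) < k := by
      exact_mod_cast hR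
    rw [hT]
    have : ((((Finset.univ.filter fun i => c < (∏ l ∈ c.primeFactors.filter
        (fun l => mdl p₀ l ∣ (v i).natAbs), l ^ c.factorization l) ^ 2).card +
        (Finset.univ.filter fun i => qq p ^ n * Real.exp (η * n) < wgt p (colx b i)).card : ℕ)) : ℝ) <
        ((t + 1 : ℕ) : ℝ) := by
      push_cast
      linarith
    exact_mod_cast this
  simp only [Finset.mem_union, Finset.mem_filter, Finset.mem_univ, true_and, not_or, not_lt] at hi
  have hvi : v i ≠ 0 := fun h0 => by
    have := hlarge i hiT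
    rw [h0, abs_zero, mul_zero] at this
    exact hv0 (funext fun j => abs_nonpos_iff.1 ((hi₀' j).trans this))
  have hs : 0 < (v i).natAbs := Int.natAbs_pos.2 hvi
  let y : Fin n → ℤ := fun j => -(v i).sign * v (i.succAbove j)
  have hsg : |(v i).sign| = 1 := by
    rw [Int.abs_eq_natAbs, Int.natAbs_sign_of_ne_zero hvi]; rfl
  have hy : ∀ j, |y j| = |v (i.succAbove j)| := fun j => by
    simp only [y, abs_mul, abs_neg, hsg, one_mul]
  have hsv : (v i).sign * v i = ((v i).natAbs : ℤ) := by
    rw [Int.sign_mul_self_eq_natAbs]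
  have hx : ∀ j, Mx b i (i.succAbove j) = sv (colx b i) j := fun j => by
    rw [Mx_apply]; rfl
  have hAy : Mx (minr b i) *ᵥ y = ((v i).natAbs : ℤ) • sv (colx b i) := by
    funext m
    have := congrFun hv (i.succAbove m)
    simp only [Matrix.mulVec, dotProduct, Pi.zero_apply] at this
    rw [Fin.sum_univ_succAbove _ i, (Mx_symm b).apply, hx] at this
    rw [Mx_minr]
    simp only [Matrix.mulVec, dotProduct, Matrix.submatrix_apply, Pi.smul_apply, smul_eq_mul, y]
    have e : ∑ j, Mx b (i.succAbove m) (i.succAbove j) * (-(v i).sign * v (i.succAbove j)) =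
        -(v i).sign * ∑ j, Mx b (i.succAbove m) (i.succAbove j) * v (i.succAbove j) := by
      rw [Finset.mul_sum]
      exact Finset.sum_congr rfl fun j _ => by ring
    rw [e, ← hsv]
    linear_combination -(v i).sign * this
  refine ⟨i, ?_, ⟨⟨(v i).natAbs, y, hs, hAy, fun j => ?_, ?_⟩, (v i).natAbs, c, y, hs, hAy, fun l hl hls => ?_,
    ?_, hdet i, hi.1⟩, hi.2⟩
  · rw [← Int.natAbs_ne_zero, hdet i]
    positivity
  · rw [hy, Int.natCast_natAbs]
    exact (hi₀' _).trans (hlarge i hiT)
  · refine le_trans ?_ ht1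
    have : (Finset.univ.filter fun j => (((v i).natAbs : ℕ) : ℤ) < |y j|).card ≤ (T.erase i).card := by
      refine Finset.card_le_card_of_injOn i.succAbove (fun j hj => ?_) (Fin.succAbove_right_injective.injOn)
      have := (Finset.mem_filter.1 hj).2
      rw [hy, Int.natCast_natAbs] at this
      exact hbig i hiT _ this
    rw [Finset.card_erase_of_mem hiT, hT, Nat.add_sub_cancel] at this
    exact_mod_cast this
  · obtain ⟨j, hj⟩ := hprim l hl
    induction j using Fin.succAboveCases i with
    | x => exact absurd (Int.natCast_dvd.2 hls) hj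
    | p j =>
      refine ⟨j, fun hd => hj ?_⟩
      rw [← dvd_abs, hy, dvd_abs] at hd
      exact hd
  · have := congrFun hv i
    simp only [Matrix.mulVec, dotProduct, Pi.zero_apply] at this
    rw [Fin.sum_univ_succAbove _ i] at this
    simp only [hx] at this
    have e : sv (colx b i) ⬝ᵥ y = -(v i).sign * ∑ j, sv (colx b i) j * v (i.succAbove j) := by
      rw [Finset.mul_sum]
      exact Finset.sum_congr rfl fun j _ => by simp only [y]; ring
    refine ⟨Mx b i i, ?_⟩
    rw [e, ← hsv]
    linear_combination -(v i).sign * this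

end

end Crest.Agent.R152
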