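import Crest.Agent.R152.P1

/-!
# R152/P3

Littlewood-Offord in an arbitrary abelian group (qualitative), and sequential exposure of rows.

Helper lemmas: prefix `p3_`.
-/

set_option autoImplicit false
set_option linter.unusedVariables false
set_option linter.unusedSectionVars false

namespace Crest.Agent.R152

open Crest.FinProb Crest.ProbabilityR.SignMatrix MeasureTheory ProbabilityTheory Filter Module
open scoped RealInnerProductSpace ENNReal Matrix Topology

noncomputable section

variable {ι κ : Type} [Fintype ι] [DecidableEq ι] [Fintype κ] [DecidableEq κ] {p : ℝ}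

theorem p3_upd (p : ℝ) (a : ι) (f : (ι → Bool) → ℝ) :
    ex p f = (1 - p) * ex p (fun ω => f (Function.update ω a false)) +
      p * ex p (fun ω => f (Function.update ω a true)) := by
  have he : Function.Injective fun _ : Unit => a := fun _ _ _ => rfl
  have h1 : ∀ (b : Bool) (ω : ι → Bool), repl (fun _ : Unit => a) (fun _ => b) ω = Function.update ω a b :=
    fun b ω => funext fun i => by
      by_cases h : i = a
      · rw [h, Function.update_self]
        exact repl_apply he _ _ ()
      · rw [Function.update_of_ne h]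
        exact repl_of_not_mem _ _ fun ⟨_, h'⟩ => h h'.symm
  rw [ex_repl p he f, ← ex_const_mul, ← ex_const_mul, ← ex_add]
  congr 1
  funext ω
  rw [ex, ← (Equiv.funUnique Unit Bool).symm.sum_comp, Fintype.sum_bool, ← h1, ← h1, add_comm]
  simp [bernoulliWeight]
  rfl

section
variable {G : Type} [AddCommGroup G] {f : G → ℝ}

theorem p3_sq (h0 : ∀ x, 0 ≤ f x) (h : HasSum f 1) : Summable fun x => f x ^ 2 :=
  Summable.of_nonneg_of_le (fun x => sq_nonneg _) (fun x => by
    have := le_hasSum h x fun y _ => h0 y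
    nlinarith [h0 x]) h.summable

theorem p3_step (h0 : ∀ x, 0 ≤ f x) (h : HasSum f 1) (g : G) :
    HasSum (fun x => (1 - p) * f x + p * f (x - g)) 1 ∧ Summable (fun x => (f x - f (x - g)) ^ 2) ∧
      ∑' x, ((1 - p) * f x + p * f (x - g)) ^ 2 = ∑' x, f x ^ 2 - p * (1 - p) * ∑' x, (f x - f (x - g)) ^ 2 := by
  have h1 : HasSum (fun x => f (x - g)) 1 := (Equiv.subRight g).hasSum_iff.2 h
  have h2 := (p3_sq h0 h).hasSum
  have h3 : HasSum (fun x => f (x - g) ^ 2) (∑' x, f x ^ 2) := (Equiv.subRight g).hasSum_iff.2 h2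
  have h4 : Summable fun x => (f x - f (x - g)) ^ 2 :=
    Summable.of_nonneg_of_le (fun x => sq_nonneg _) (fun x => by nlinarith [mul_nonneg (h0 x) (h0 (x - g))])
      (h2.add h3).summable
  refine ⟨by simpa using (h.mul_left (1 - p)).add (h1.mul_left p), h4, HasSum.tsum_eq ?_⟩
  have h5 := ((h2.mul_left (1 - p)).add (h3.mul_left p)).sub (h4.hasSum.mul_left (p * (1 - p)))
  rw [← add_mul, sub_add_cancel, one_mul] at h5
  exact h5.congr_fun fun x => by ring

theorem p3_gap (h0 : ∀ x, 0 ≤ f x) (h : HasSum f 1) {g : G} {r : ℝ} (hr : 0 < r) {L : ℕ} (hL : 2 ≤ L * r)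
    (hg : ∀ i : ℕ, 0 < i → i < L → i • g ≠ 0) (hN : r < ∑' x, f x ^ 2) :
    ∃ x, r / (2 * L) ≤ f (x - g) - f x := by
  have hL0 : (0 : ℝ) < L := by
    by_contra hn
    nlinarith [Nat.cast_nonneg (α := ℝ) L]
  obtain ⟨x0, hx0⟩ : ∃ x0, r < f x0 := by
    by_contra hn
    push Not at hn
    have := hasSum_le (fun x => (by nlinarith [h0 x, hn x] : f x ^ 2 ≤ r * f x)) (p3_sq h0 h).hasSum (h.mul_left r)
    linarith
  obtain ⟨i, hi, hi'⟩ : ∃ i < L, f (x0 + i • g) ≤ r / 2 := by
    by_contra hn
    push Not at hn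
    classical
    have hinj : Set.InjOn (fun i : ℕ => x0 + i • g) (Finset.range L) := fun i hi j hj hij => by
      have hi' := Finset.mem_range.1 hi
      have hj' := Finset.mem_range.1 hj
      have e : i • g = j • g := add_left_cancel hij
      rcases lt_trichotomy i j with h1 | h1 | h1
      · exact absurd (by rw [sub_nsmul g h1.le, e, add_neg_cancel]) (hg (j - i) (by omega) (by omega))
      · exact h1
      · exact absurd (by rw [sub_nsmul g h1.le, e, add_neg_cancel]) (hg (i - j) (by omega) (by omega))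
    have h1 := sum_le_hasSum ((Finset.range L).image fun i : ℕ => x0 + i • g) (fun y _ => h0 y) h
    rw [Finset.sum_image hinj] at h1
    have h2 := Finset.sum_lt_sum_of_nonempty (s := Finset.range L) (f := fun _ => r / 2)
      (Finset.nonempty_range_iff.2 (by exact_mod_cast hL0.ne')) fun i hi => hn i (Finset.mem_range.1 hi)
    rw [Finset.sum_const, Finset.card_range, nsmul_eq_mul] at h2
    linarith
  by_contra hn
  push Not at hn
  have key : ∀ k : ℕ, f x0 - f (x0 + k • g) ≤ k * (r / (2 * L)) := fun k => by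
    induction k with
    | zero => simp
    | succ k ih =>
      have := hn (x0 + (k + 1) • g)
      rw [succ_nsmul, ← add_assoc, add_sub_cancel_right] at this
      rw [succ_nsmul, ← add_assoc]
      push_cast
      linarith
  have h1 := key i
  have h2 : (i : ℝ) * (r / (2 * L)) ≤ L * (r / (2 * L)) :=
    mul_le_mul_of_nonneg_right (by exact_mod_cast hi.le) (by positivity)
  have h3 : (L : ℝ) * (r / (2 * L)) = r / 2 := by field_simp
  linarith

open Classical in
/-- the law of a partial sum -/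
def p3law (p : ℝ) (g : ι → G) (s : Finset ι) (x : G) : ℝ :=
  ex p fun ξ => if ∑ j ∈ s, zo ξ j • g j = x then 1 else 0

open Classical in
theorem p3law_empty (g : ι → G) (x : G) : p3law p g ∅ x = if x = 0 then 1 else 0 := by
  simp only [p3law, Finset.sum_empty, ex_const, eq_comm]

theorem p3law_insert (g : ι → G) {s : Finset ι} {a : ι} (ha : a ∉ s) (x : G) :
    p3law p g (insert a s) x = (1 - p) * p3law p g s x + p * p3law p g s (x - g a) := by
  have e : ∀ (b : Bool) (ω : ι → Bool), ∑ j ∈ s, zo (Function.update ω a b) j • g j = ∑ j ∈ s, zo ω j • g j :=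
    fun b ω => Finset.sum_congr rfl fun j hj => by
      rw [zo, zo, Function.update_of_ne fun h : j = a => ha (h ▸ hj)]
  have e' : ∀ F : ι → G, ∑ j ∈ insert a s, F j = F a + ∑ j ∈ s, F j := fun F => Finset.sum_insert ha
  rw [p3law, p3_upd p a, p3law, p3law]
  classical
  congr 3
  · funext ω
    refine if_congr ?_ rfl rfl
    rw [e', e]
    simp [zo]
  · funext ω
    refine if_congr ?_ rfl rfl
    rw [e', e, eq_sub_iff_add_eq']
    simp [zo]

end

/-- Let `f` be the law of a partial sum (a finitely supported probability vector on `G`, e.g. a `Finsupp`), `‖f‖² = ∑ f(x)²`.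
Adding `ξ • g` gives `f' = (1-p) f + p τ_g f` with `‖f'‖² = ‖f‖² - p(1-p) ‖f - τ_g f‖²`.  If `‖f‖² ≥ ρ²` then `f x₀ ≥ ρ²` for some `x₀`;
if `g` has order `≥ L ≥ 2/ρ² + 1` the points `x₀ + i g`, `i < L`, are distinct, one of them has `f ≤ ρ²/2`, so (Cauchy-Schwarz along
the orbit) `‖f - τ_g f‖² ≥ ρ⁴/(4L)`.  After `K₀ > 4L/(p(1-p)ρ⁴)` such steps `‖f‖ < ρ`, and `f τ ≤ ‖f‖`.  First resample only `K₀` good
coordinates (`pr_le_of_repl`), or induct over all coordinates. -/
theorem elo (h0 : 0 < p) (h1 : p < 1) {ρ : ℝ} (hρ : 0 < ρ) : ∃ L K₀ : ℕ, ∀ (G : Type) [AddCommGroup G] (ι : Type) [Fintype ι] [DecidableEq ι]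
    (g : ι → G) (τ : G) (T : Finset ι), K₀ ≤ T.card → (∀ j ∈ T, ∀ i : ℕ, 0 < i → i < L → i • g j ≠ 0) →
    pr p {ξ : ι → Bool | ∑ j, zo ξ j • g j = τ} ≤ ρ := by
  obtain ⟨L, hL⟩ := exists_nat_ge (2 / ρ ^ 2)
  have hr : 0 < ρ ^ 2 := by positivity
  have hL' : 2 ≤ L * ρ ^ 2 := (div_le_iff₀ hr).1 hL
  have hL0 : (0 : ℝ) < L := lt_of_lt_of_le (by positivity) hL
  have hpp : 0 < p * (1 - p) := mul_pos h0 (by linarith)
  set δ := p * (1 - p) * (ρ ^ 2 / (2 * L)) ^ 2 with hδ
  have hδ0 : 0 < δ := by positivity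
  obtain ⟨K₀, hK⟩ := exists_nat_ge (1 / δ)
  refine ⟨L, K₀, fun G _ ι _ _ g τ T hT hg => ?_⟩
  classical
  have key : ∀ s : Finset ι, (∀ x, 0 ≤ p3law p g s x) ∧ HasSum (p3law p g s) 1 ∧
      (∑' x, p3law p g s x ^ 2 ≤ ρ ^ 2 ∨ ∑' x, p3law p g s x ^ 2 ≤ 1 - δ * (s ∩ T).card) := fun s => by
    refine ⟨fun x => ex_nonneg h0 h1 fun ξ => by positivity, ?_⟩
    induction s using Finset.induction_on with
    | empty =>
      refine ⟨?_, Or.inr ?_⟩
      · rw [funext (p3law_empty g)]
        exact hasSum_ite_eq 0 1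
      · simp [p3law_empty]
    | insert a s ha ih =>
      have hn : ∀ x, 0 ≤ p3law p g s x := fun x => ex_nonneg h0 h1 fun ξ => by positivity
      obtain ⟨a1, a2, a3⟩ := p3_step (p := p) hn ih.1 (g a)
      have a4 : 0 ≤ ∑' x, (p3law p g s x - p3law p g s (x - g a)) ^ 2 := tsum_nonneg fun x => sq_nonneg _
      have a5 := mul_nonneg hpp.le a4
      rw [funext (p3law_insert g ha)]
      refine ⟨a1, ?_⟩
      simp only [a3]
      by_cases hN : ∑' x, p3law p g s x ^ 2 ≤ ρ ^ 2
      · exact Or.inl (by linarith)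
      have h2 := ih.2.resolve_left hN
      refine Or.inr ?_
      by_cases haT : a ∈ T
      · obtain ⟨x, hx⟩ := p3_gap hn ih.1 hr hL' (hg a haT) (not_le.1 hN)
        have b1 := a2.le_tsum x fun y _ => sq_nonneg _
        have b2 : (ρ ^ 2 / (2 * L)) ^ 2 ≤ (p3law p g s x - p3law p g s (x - g a)) ^ 2 := by
          rw [← neg_sub, neg_sq]
          exact pow_le_pow_left₀ (by positivity) hx 2
        have b3 := mul_le_mul_of_nonneg_left (b2.trans b1) hpp.le
        rw [Finset.insert_inter_of_mem haT, Finset.card_insert_of_notMem fun h => ha (Finset.mem_inter.1 h).1]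
        push_cast
        linarith
      · rw [Finset.insert_inter_of_notMem haT]
        linarith
  obtain ⟨a1, a2, a3⟩ := key Finset.univ
  have b1 := (p3_sq a1 a2).le_tsum τ fun y _ => sq_nonneg _
  have b2 : 1 ≤ δ * T.card := by
    rw [div_le_iff₀ hδ0, mul_comm] at hK
    exact hK.trans (mul_le_mul_of_nonneg_left (by exact_mod_cast hT) hδ0.le)
  rw [Finset.univ_inter] at a3
  have b3 : p3law p g Finset.univ τ ^ 2 ≤ ρ ^ 2 := by
    rcases a3 with h | h <;> linarith
  refine le_of_eq_of_le ?_ (le_of_sq_le_sq b3 hρ.le)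
  rw [pr_eq_ex, p3law]
  congr 1

/-- Running a state machine on the rows of an array. -/
def runS {St Q : Type} (step : St → (Q → Bool) → St) : (m : ℕ) → St → (Fin m → Q → Bool) → St
  | 0, s, _ => s
  | m + 1, s, η => runS step m (step s (η 0)) fun i => η i.succ

theorem p3_good {St : Type} {step : St → (κ → Bool) → St} {Good : St → Prop} (hG : ∀ s ξ, Good (step s ξ) → Good s)
    (m : ℕ) : ∀ (s : St) (η : Fin m → κ → Bool), Good (runS step m s η) → Good s := by
  induction m with
  | zero => exact fun _ _ h => h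
  | succ m ih => exact fun s η h => hG s _ (ih _ _ h)

theorem p3_split (p : ℝ) (m : ℕ) (f : (Fin (m + 1) → κ → Bool) → ℝ) :
    ex p (fun η : Fin (m + 1) × κ → Bool => f fun r c => η (r, c)) =
      ex p fun a : κ → Bool => ex p fun b : Fin m × κ → Bool => f (Fin.cons a fun r c => b (r, c)) := by
  let φ : Fin (m + 1) × κ → κ ⊕ Fin m × κ := fun x => Fin.cases (Sum.inl x.2) (fun r => Sum.inr (r, x.2)) x.1
  have hφ : Function.Injective φ := by
    rintro ⟨r, c⟩ ⟨r', c'⟩ h
    induction r using Fin.cases <;> induction r' using Fin.cases <;> simp_all [φ]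
  rw [← ex_comp p hφ, ex_sum]
  congr 1
  funext a
  congr 1
  funext b
  congr 1
  funext r c
  induction r using Fin.cases <;> simp [φ]

/-- Induction on `m` (split off the first row with `ex_repl` or an equivalence `Fin (m+1) × Q ≃ Q ⊕ Fin m × Q` and `ex_sum`):
`f (m+1, ℓ) ≤ ρ f (m, ℓ) + f (m, ℓ - 1)`; if the state after the first step is not good, the final state is not good. -/
theorem seq_bound (h0 : 0 < p) (h1 : p < 1) {St : Type} (step : St → (κ → Bool) → St) (Good : St → Prop) (len : St → ℕ) {ρ : ℝ} (hρ0 : 0 ≤ ρ)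
    (hρ1 : ρ ≤ 1) (hG : ∀ s ξ, Good (step s ξ) → Good s) (hl : ∀ s ξ, len (step s ξ) ≤ len s)
    (hρ : ∀ s, Good s → pr p {ξ : κ → Bool | Good (step s ξ) ∧ len (step s ξ) = len s} ≤ ρ) (m : ℕ) (s : St) :
    pr p {η : Fin m × κ → Bool | Good (runS step m s fun r c => η (r, c))} ≤ 2 ^ m * ρ ^ (m - len s) := by
  classical
  induction m generalizing s with
  | zero => simpa using pr_le_one h0 h1 _
  | succ m ih =>
    by_cases hs : Good s
    swap
    · refine le_trans (pr_mono h0 h1 (F := ∅) fun η hη => hs (p3_good hG _ _ _ hη)) ?_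
      rw [pr_empty]
      positivity
    have e := p3_split p m fun η => if Good (runS step (m + 1) s η) then (1 : ℝ) else 0
    have e1 : ∀ (m : ℕ) (s : St), pr p {η : Fin m × κ → Bool | Good (runS step m s fun r c => η (r, c))} =
        ex p fun η : Fin m × κ → Bool => if Good (runS step m s fun r c => η (r, c)) then (1 : ℝ) else 0 :=
      fun m s => by
        rw [pr_eq_ex]
        congr 1
    simp only [runS, Fin.cons_zero, Fin.cons_succ, ← e1] at e
    rw [e1]
    simp only [runS]
    rw [e]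
    have b : ∀ a : κ → Bool, pr p {η : Fin m × κ → Bool | Good (runS step m (step s a) fun r c => η (r, c))} ≤
        2 ^ m * ρ ^ (m - len s) * Set.indicator {ξ : κ → Bool | Good (step s ξ) ∧ len (step s ξ) = len s}
          (fun _ => (1 : ℝ)) a + 2 ^ m * ρ ^ (m + 1 - len s) := fun a => by
      have c0 : (0 : ℝ) ≤ 2 ^ m * ρ ^ (m + 1 - len s) := by positivity
      by_cases ha : Good (step s a) ∧ len (step s a) = len s
      · rw [Set.indicator_of_mem (show a ∈ {ξ : κ → Bool | Good (step s ξ) ∧ len (step s ξ) = len s} from ha),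
          mul_one, ← ha.2]
        exact (ih _).trans (le_add_of_nonneg_right (by positivity))
      rw [Set.indicator_of_notMem (show a ∉ {ξ : κ → Bool | Good (step s ξ) ∧ len (step s ξ) = len s} from ha),
        mul_zero, zero_add]
      by_cases hg : Good (step s a)
      · have c1 : len (step s a) < len s := lt_of_le_of_ne (hl s a) fun h => ha ⟨hg, h⟩
        exact (ih _).trans (mul_le_mul_of_nonneg_left (pow_le_pow_of_le_one hρ0 hρ1 (by omega)) (by positivity))
      · refine le_trans (pr_mono h0 h1 (F := ∅) fun η hη => hg (p3_good hG _ _ _ hη)) ?_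
        rwa [pr_empty]
    refine (ex_mono h0 h1 b).trans ?_
    rw [ex_add, ex_const, ex_const_mul, ← pr_eq_ex]
    have c1 : 2 ^ m * ρ ^ (m - len s) * pr p {ξ : κ → Bool | Good (step s ξ) ∧ len (step s ξ) = len s} ≤
        2 ^ m * ρ ^ (m + 1 - len s) := by
      refine (mul_le_mul_of_nonneg_left (hρ s hs) (by positivity)).trans ?_
      rw [mul_assoc, ← pow_succ]
      exact mul_le_mul_of_nonneg_left (pow_le_pow_of_le_one hρ0 hρ1 (by omega)) (by positivity)
    rw [pow_succ 2]
    linarith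

theorem p3_run {R S : Type} [CommRing R] [Fintype S] (m : ℕ) : ∀ (K : Submodule R ((S → R) × R))
    (η : Fin m → S → Bool), K ⊓ ⨅ r, cut (η r) ≤ runS (fun K ξ => K ⊓ cut ξ) m K η := by
  induction m with
  | zero => exact fun _ _ => inf_le_left
  | succ m ih =>
    intro K η
    refine le_trans ?_ (ih _ _)
    exact le_inf (inf_le_inf_left _ (iInf_le _ 0)) (inf_le_right.trans (le_iInf fun r => iInf_le _ r.succ))

theorem p3_mono {R S : Type} [CommRing R] [Fintype S] {L K₀ : ℕ} {K K' : Submodule R ((S → R) × R)} (h : K ≤ K')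
    (hK : GoodK L K₀ K) : GoodK L K₀ K' :=
  let ⟨u, hu, hu'⟩ := hK
  ⟨u, h hu, hu'⟩

/-- `seq_bound` with `step K ξ = K ⊓ cut ξ`: if the length does not drop then `K ≤ cut ξ`, which by `elo` (applied to a witness of
`GoodK`) has probability `≤ ρ`.  Reindex the rows by `Fin (card ι)` (`pr_comp`). -/
theorem seq_cut (h0 : 0 < p) (h1 : p < 1) {ρ : ℝ} (hρ0 : 0 < ρ) (hρ1 : ρ ≤ 1) : ∃ L K₀ : ℕ, ∀ (R : Type) [CommRing R] (X S : Type) [Fintype X]
    [DecidableEq X] [Fintype S] [DecidableEq S] (len : Submodule R ((S → R) × R) → ℕ), StrictMono len →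
    ∀ K : Submodule R ((S → R) × R),
    pr p {η : X × S → Bool | GoodK L K₀ (K ⊓ ⨅ r, cut fun c => η (r, c))} ≤
      2 ^ Fintype.card X * ρ ^ (Fintype.card X - len K) := by
  obtain ⟨L, K₀, hE⟩ := elo h0 h1 hρ0
  refine ⟨L, K₀, fun R _ X S _ _ _ _ len hlen K => ?_⟩
  classical
  have h := seq_bound h0 h1 (fun (K : Submodule R ((S → R) × R)) (ξ : S → Bool) => K ⊓ cut ξ) (GoodK L K₀) len
    hρ0.le hρ1 (fun _ _ => p3_mono inf_le_left) (fun _ _ => hlen.monotone inf_le_left) (fun K hK => by
      obtain ⟨u, hu, hu'⟩ := hK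
      refine le_trans (pr_mono h0 h1 fun ξ hξ => ?_) (hE R S u.1 u.2 _ hu' fun j hj => (Finset.mem_filter.1 hj).2)
      have h2 : K ⊓ cut ξ = K := eq_of_le_of_not_lt inf_le_left fun h => (hlen h).ne hξ.2
      have h3 : u ∈ cut ξ := (h2.ge hu).2
      simp only [Set.mem_ofPred_eq, zsmul_eq_mul]
      exact h3) (Fintype.card X) K
  have he : Function.Injective (Prod.map (Fintype.equivFin X).symm id : Fin (Fintype.card X) × S → X × S) :=
    (Fintype.equivFin X).symm.injective.prodMap Function.injective_id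
  rw [← pr_comp p he] at h
  refine le_trans (pr_mono h0 h1 fun η hη => ?_) h
  refine p3_mono (le_trans ?_ (p3_run _ _ _)) hη
  exact inf_le_inf_left _ (le_iInf fun r => iInf_le _ ((Fintype.equivFin X).symm r))

end

end Crest.Agent.R152
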