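import Crest.Agent.R152.Z2
import Crest.Agent.R152.P3
import Crest.Agent.R152.B1

/-!
# R152/Z3

The zeros lemma.

Helper lemmas: prefix `z3_`.
-/

set_option autoImplicit false
set_option linter.unusedVariables false
set_option linter.unusedSectionVars false

namespace Crest.Agent.R152

open Crest.FinProb Crest.ProbabilityR.SignMatrix MeasureTheory ProbabilityTheory Filter Module
open scoped RealInnerProductSpace ENNReal Matrix Topology

noncomputable section

variable {p : ℝ}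

/-- The modulus used for the zero-one matrix. -/
def mdl' (p₀ l : ℕ) : ℕ := if l < p₀ then l ^ (p₀ - 1) else l

/-- The event for fixed sets of zeros. -/
def EZ {N : ℕ} (L K₀ p₀ : ℕ) (Z : Finset (Fin N)) (b : Sym2 (Fin N) → Bool) : Prop :=
  ∃ l : ℕ, l.Prime ∧ GoodK L K₀ (kerB (ZMod (mdl' p₀ l)) fun (r : Fin N) (c : ↥Zᶜ) => b s(r, c))

theorem z3_dvd {p₀ l : ℕ} (hp : 3 ≤ p₀) (hl : l.Prime) {x : ℤ} (h : (mdl p₀ l : ℤ) ∣ 2 * x) :
    (mdl' p₀ l : ℤ) ∣ x := by
  have hc : l ≠ 2 → ∀ a : ℕ, IsCoprime ((l : ℤ) ^ a) 2 := fun h2 a => by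
    refine IsCoprime.pow_left ?_
    have : Nat.Coprime l 2 := (Nat.coprime_primes hl Nat.prime_two).mpr h2
    exact_mod_cast Nat.isCoprime_iff_coprime.mpr this
  unfold mdl at h
  unfold mdl'
  split_ifs at h ⊢ with h1
  · push_cast at h ⊢
    by_cases h2 : l = 2
    · subst h2
      obtain ⟨q, rfl⟩ : ∃ q, p₀ = q + 1 := ⟨p₀ - 1, by omega⟩
      rw [pow_succ'] at h
      push_cast at h ⊢
      exact (mul_dvd_mul_iff_left two_ne_zero).mp h
    · exact (pow_dvd_pow _ (Nat.sub_le _ _)).trans ((hc h2 _).dvd_of_dvd_mul_left h)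
  · have := hc (by omega) 1
    rw [pow_one] at this
    exact this.dvd_of_dvd_mul_left h

theorem z3_pow (p₀ l : ℕ) : mdl' p₀ l = l ^ (if l < p₀ then p₀ - 1 else 1) := by
  unfold mdl'
  split_ifs <;> simp

theorem z3_le {p₀ l : ℕ} (hp : 3 ≤ p₀) (hl : l.Prime) : p₀ ≤ mdl' p₀ l := by
  unfold mdl'
  split_ifs with h1
  · have h2 : p₀ - 1 < 2 ^ (p₀ - 1) := Nat.lt_two_pow_self
    have h3 := Nat.pow_le_pow_left hl.two_le (p₀ - 1)
    omega
  · omega

theorem z3_dvd_mdl {p₀ l : ℕ} (hp : 3 ≤ p₀) : l ∣ mdl p₀ l := by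
  unfold mdl
  split_ifs with h1
  · exact dvd_pow_self l (by omega)
  · exact dvd_rfl

/-- `Z₁`, `Z₂` disjoint `m`-subsets of the zero set, `S = (Z₁ ∪ Z₂)ᶜ` contains all unit coordinates.  `M = 2ξ - 1`, so `2 ξ_r · v_S ≡ ∑_S v mod mdl` for every row `r`, hence
all `ξ_r · v_S` agree modulo `mdl'` (`mdl ∣ 2x → mdl' ∣ x`).  A unit modulo `l` has additive order `mdl' ≥ L` (`2^(p₀-1) ≥ p₀`). -/
theorem zero_reduce {N L K₀ p₀ m : ℕ} {κ : ℝ} (hN : 0 < N) (hp : 3 ≤ p₀) (hL : L ≤ p₀) (hm : 2 * (m : ℝ) ≤ κ * N)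
    (b : Sym2 (Fin N) → Bool) (h : Ezero κ K₀ p₀ b) :
    ∃ Z₁ Z₂ : Finset (Fin N), Disjoint Z₁ Z₂ ∧ Z₁.card = m ∧ Z₂.card = m ∧ EZ L K₀ p₀ (Z₁ ∪ Z₂) b := by
  classical
  obtain ⟨l, v, hl, hv, h1, h2⟩ := h
  set Z0 := Finset.univ.filter fun j => (mdl p₀ l : ℤ) ∣ v j with hZ0
  have hc : 2 * m ≤ Z0.card := by exact_mod_cast hm.trans h2
  obtain ⟨Z₁, hZ₁, hc₁⟩ := Finset.exists_subset_card_eq (s := Z0) (n := m) (by omega)
  obtain ⟨Z₂, hZ₂, hc₂⟩ := Finset.exists_subset_card_eq (s := Z0 \ Z₁) (n := m)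
    (by rw [Finset.card_sdiff_of_subset hZ₁]; omega)
  refine ⟨Z₁, Z₂, Finset.disjoint_of_subset_right hZ₂ Finset.disjoint_sdiff, hc₁, hc₂, l, hl, ?_⟩
  set Z := Z₁ ∪ Z₂ with hZ
  have hZs : Z ⊆ Z0 := Finset.union_subset hZ₁ (hZ₂.trans Finset.sdiff_subset)
  set x : Fin N → ℤ := fun r => ∑ c : ↥Zᶜ, zo (fun c : ↥Zᶜ => b s(r, c)) c * v c with hx
  have hrow : ∀ r, (mdl p₀ l : ℤ) ∣ 2 * x r - ∑ c : ↥Zᶜ, v c := fun r => by
    have e1 : ∑ j, sv (fun j => b s(r, j)) j * v j = 0 := by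
      have := congrFun hv r
      simp only [Matrix.mulVec, dotProduct, Mx_apply, Pi.zero_apply] at this
      exact this
    rw [← Finset.sum_add_sum_compl Z] at e1
    have e2 : (mdl p₀ l : ℤ) ∣ ∑ j ∈ Z, sv (fun j => b s(r, j)) j * v j :=
      Finset.dvd_sum fun j hj => Dvd.dvd.mul_left (Finset.mem_filter.mp (hZs hj)).2 _
    have e3 : 2 * x r - ∑ c : ↥Zᶜ, v c = ∑ j ∈ Zᶜ, sv (fun j => b s(r, j)) j * v j := by
      rw [← Finset.sum_coe_sort Zᶜ, hx, Finset.mul_sum, ← Finset.sum_sub_distrib]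
      refine Finset.sum_congr rfl fun c _ => ?_
      simp only [sv, zo]
      split_ifs <;> ring
    rw [e3, ← dvd_add_right e2, e1]
    exact dvd_zero _
  refine ⟨(fun c => (v c : ZMod (mdl' p₀ l)), (x ⟨0, hN⟩ : ZMod (mdl' p₀ l))), mem_kerB.mpr fun r => ?_, ?_⟩
  · have e1 : (mdl' p₀ l : ℤ) ∣ x ⟨0, hN⟩ - x r := by
      refine z3_dvd hp hl ?_
      have := dvd_sub (hrow ⟨0, hN⟩) (hrow r)
      rwa [sub_sub_sub_cancel_right, ← mul_sub] at this
    have e2 := (ZMod.intCast_eq_intCast_iff_dvd_sub _ _ _).mpr e1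
    show _ = ((x ⟨0, hN⟩ : ℤ) : ZMod (mdl' p₀ l))
    rw [← e2, hx]
    push_cast
    rfl
  · refine h1.trans ?_
    have hnot : ∀ j, ¬ (l : ℤ) ∣ v j → j ∈ Zᶜ := fun j hj => Finset.mem_compl.mpr fun hjZ =>
      hj ((Int.natCast_dvd_natCast.mpr (z3_dvd_mdl hp)).trans (Finset.mem_filter.mp (hZs hjZ)).2)
    refine Finset.card_le_card_of_surjOn (fun c : ↥Zᶜ => (c : Fin N)) fun j hj => ?_
    have hj' : ¬ (l : ℤ) ∣ v j := (Finset.mem_filter.mp hj).2
    refine ⟨⟨j, hnot j hj'⟩, Finset.mem_filter.mpr ⟨Finset.mem_univ _, fun i hi hiL h0 => ?_⟩, rfl⟩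
    have e1 : (((i : ℤ) * v j : ℤ) : ZMod (mdl' p₀ l)) = 0 := by
      push_cast
      simpa using h0
    rw [ZMod.intCast_zmod_eq_zero_iff_dvd] at e1
    have e2 : IsCoprime ((mdl' p₀ l : ℕ) : ℤ) (v j) := by
      rw [z3_pow]
      push_cast
      exact IsCoprime.pow_left ((Nat.prime_iff_prime_int.mp hl).irreducible.coprime_iff_not_dvd.mpr hj')
    have e3 := Nat.le_of_dvd hi (Int.natCast_dvd_natCast.mp (e2.dvd_of_dvd_mul_right e1))
    have e4 := z3_le hp hl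
    omega

theorem z3_ker_mono {R X X' S : Type} [CommRing R] [Fintype X] [DecidableEq X] [Fintype X'] [DecidableEq X']
    [Fintype S] [DecidableEq S] (B : X → S → Bool) (B' : X' → S → Bool) (h : ∀ r', ∃ r, B r = B' r') :
    kerB R B ≤ kerB R B' := by
  refine le_iInf fun r' => ?_
  obtain ⟨r, hr⟩ := h r'
  rw [← hr]
  exact iInf_le (fun r => cut (B r)) r

/-- The block `S × S` has large corank over `F`. -/
def z3_Low (F : Type) [Field F] {N : ℕ} (S : Finset (Fin N)) (k : ℕ) (b : Sym2 (Fin N) → Bool) : Prop :=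
  (Matrix.of fun i j : ↥S => if b s(i, j) then (1 : F) else 0).rank + k ≤ Fintype.card ↥S

theorem z3_low_prob (h0 : 0 < p) (h1 : p < 1) (F : Type) [Field F] {N : ℕ} (S : Finset (Fin N)) (k : ℕ) :
    pr p {b | z3_Low F S k b} ≤ 2 ^ N * pm p ^ (k * k / 2) := by
  have e1 := pr_comp p (e := Sym2.map (Subtype.val : ↥S → Fin N)) (Sym2.map.injective Subtype.val_injective)
    {a : Sym2 ↥S → Bool | (Matrix.of fun i j => if a s(i, j) then (1 : F) else 0).rank + k ≤ Fintype.card ↥S}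
  have e2 := corank_bound h0 h1 (ι := ↥S) (F := F) (u := 1) (w := 0) one_ne_zero k
  rw [← e1] at e2
  refine le_trans (le_of_eq rfl) (e2.trans ?_)
  refine mul_le_mul_of_nonneg_right (pow_le_pow_right₀ one_le_two ?_) (pow_pos (pm_pos p) _).le
  simpa using S.card_le_univ

theorem z3_finrank (F : Type) [Field F] {N : ℕ} (S S' : Finset (Fin N)) (hS : S ⊆ S') {k : ℕ}
    {b : Sym2 (Fin N) → Bool} (h : ¬ z3_Low F S k b) :
    finrank F (kerB F fun (r : ↥S') (c : ↥S) => b s(r, c)) ≤ k := by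
  have e1 := finrank_kerB_le F fun (r c : ↥S) => b s(r, c)
  have e2 := Submodule.finrank_mono (z3_ker_mono (R := F) (fun (r : ↥S') (c : ↥S) => b s(r, c))
    (fun (r c : ↥S) => b s(r, c)) fun r => ⟨⟨r, hS r.2⟩, rfl⟩)
  unfold z3_Low at h
  omega

theorem z3_blk_inj {N : ℕ} {Y S : Finset (Fin N)} (h : Disjoint Y S) :
    Function.Injective (blk (Subtype.val : ↥Y → Fin N) (Subtype.val : ↥S → Fin N)) :=
  blk_injective Subtype.val_injective Subtype.val_injective fun a c hac =>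
    Finset.disjoint_left.mp h a.2 (hac ▸ c.2)

theorem z3_repl_in {N : ℕ} {Y S : Finset (Fin N)} (h : Disjoint Y S) (η : ↥Y × ↥S → Bool)
    (ω : Sym2 (Fin N) → Bool) (r : ↥Y) (c : ↥S) :
    repl (blk Subtype.val Subtype.val) η ω s((r : Fin N), (c : Fin N)) = η (r, c) :=
  repl_apply (z3_blk_inj h) η ω (r, c)

theorem z3_repl_out {N : ℕ} {Y S : Finset (Fin N)} (h : Disjoint Y S) (η : ↥Y × ↥S → Bool)
    (ω : Sym2 (Fin N) → Bool) {r : Fin N} (hr : r ∉ Y) (c : ↥S) :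
    repl (blk Subtype.val Subtype.val) η ω s(r, (c : Fin N)) = ω s(r, c) := by
  refine repl_of_not_mem η ω fun hm => ?_
  rcases mem_range_blk.mp hm with ⟨⟨a, ha⟩, -⟩ | ⟨⟨a, ha⟩, -⟩
  · exact hr (ha ▸ a.2)
  · exact Finset.disjoint_left.mp h a.2 (ha ▸ c.2)

/-- `S = (Z₁ ∪ Z₂)ᶜ`.  `F₀`: the block `S × S` has corank `≥ k` over `ℚ` or over `ZMod l` for a prime `l ≤ T` (`corank_bound`, `pr_comp`).  `F₁`: the rational kernel of the
rows outside `Z₂` is good; resample `Z₁ × S`: off `F₀`, `seq_cut` with `len = finrank ≤ k` (`finrank_kerB_le`).  Off `F₀ ∪ F₁` resample `Z₂ × S`: the relevant primes are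
`l < p₀` or `l ∣ Δ` (`exists_delta` for the rows outside `Z₂`; at most `p₀ + N + 1`, `card_primeFactors_le`); the length of the starting state is `≤ p₀ k` for `l < p₀`,
`≤ k` for `p₀ ≤ l ≤ T` (`len_le`), and `≤ k + j` for `l > T` since `T^j ≥ (N+1)!`.  `H` is the conclusion of `seq_cut`. -/
theorem EZ_prob (h0 : 0 < p) (h1 : p < 1) {ρ : ℝ} (hρ0 : 0 < ρ) (hρ1 : ρ ≤ 1) {L K₀ p₀ : ℕ} (hL : 2 ≤ L)
    (H : ∀ (R : Type) [CommRing R] (X S : Type) [Fintype X] [DecidableEq X] [Fintype S] [DecidableEq S]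
      (len : Submodule R ((S → R) × R) → ℕ), StrictMono len → ∀ K : Submodule R ((S → R) × R),
      pr p {η : X × S → Bool | GoodK L K₀ (K ⊓ ⨅ r, cut fun c => η (r, c))} ≤
        2 ^ Fintype.card X * ρ ^ (Fintype.card X - len K))
    {N m k j T d : ℕ} (hpT : p₀ ≤ T) (hT : (N + 1).factorial ≤ T ^ j) (hd1 : p₀ * k ≤ d) (hd2 : k + j ≤ d) (Z₁ Z₂ : Finset (Fin N))
    (hZ : Disjoint Z₁ Z₂) (hZ₁ : Z₁.card = m) (hZ₂ : Z₂.card = m) :
    pr p {b : Sym2 (Fin N) → Bool | EZ L K₀ p₀ (Z₁ ∪ Z₂) b} ≤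
      2 * (T + 2) * (2 ^ N * pm p ^ (k * k / 2)) + (p₀ + N + 2) * (2 ^ m * ρ ^ (m - d)) := by
  classical
  set S := (Z₁ ∪ Z₂)ᶜ with hS
  have d1 : Disjoint Z₁ S := Finset.disjoint_left.mpr fun a ha h =>
    Finset.mem_compl.mp h (Finset.mem_union_left _ ha)
  have d2 : Disjoint Z₂ S := Finset.disjoint_left.mpr fun a ha h =>
    Finset.mem_compl.mp h (Finset.mem_union_right _ ha)
  have s2 : S ⊆ Z₂ᶜ := Finset.compl_subset_compl.mpr Finset.subset_union_right
  set a₀ : ℝ := 2 ^ N * pm p ^ (k * k / 2) with ha₀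
  set a : ℝ := 2 ^ m * ρ ^ (m - d) with ha
  have ha₀0 : 0 ≤ a₀ := mul_nonneg (by positivity) (pow_pos (pm_pos p) _).le
  have ha0 : 0 ≤ a := by positivity
  have H' : ∀ (R : Type) [CommRing R] (Y : Finset (Fin N)), Y.card = m →
      ∀ (len : Submodule R ((↥S → R) × R) → ℕ), StrictMono len → ∀ K : Submodule R ((↥S → R) × R), len K ≤ d →
      pr p {η : ↥Y × ↥S → Bool | GoodK L K₀ (K ⊓ ⨅ r, cut fun c => η (r, c))} ≤ a := by
    intro R _ Y hY len hlen K hK
    refine (H R Y S len hlen K).trans ?_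
    rw [Fintype.card_coe, hY]
    exact mul_le_mul_of_nonneg_left (pow_le_pow_of_le_one hρ0.le hρ1 (by omega)) (by positivity)
  set F₀ : Set (Sym2 (Fin N) → Bool) := {b | z3_Low ℚ S k b} ∪
    {b | ∃ (l : ℕ) (_ : Fact l.Prime), l ≤ T ∧ z3_Low (ZMod l) S k b} with hF₀
  have p0 : pr p F₀ ≤ (T + 2) * a₀ := by
    refine (pr_union_le h0 h1 _ _).trans ?_
    have e1 := z3_low_prob h0 h1 ℚ S k
    have e2 := pr_le_card_mul h0 h1 (Finset.range (T + 1))
      (fun l => {b | ∃ _ : Fact l.Prime, z3_Low (ZMod l) S k b})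
      {b | ∃ (l : ℕ) (_ : Fact l.Prime), l ≤ T ∧ z3_Low (ZMod l) S k b}
      (fun b ⟨l, hl, h2, h3⟩ => ⟨l, Finset.mem_range.mpr (by omega), hl, h3⟩) (c := a₀) fun l _ => by
        by_cases hl : l.Prime
        · have := Fact.mk hl
          refine le_trans (pr_mono h0 h1 ?_) (z3_low_prob h0 h1 (ZMod l) S k)
          rintro b ⟨_, hb⟩
          exact hb
        · refine (pr_mono h0 h1 (F := ∅) ?_).trans ?_
          · rintro b ⟨h2, _⟩
            exact (hl h2.out).elim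
          · rw [pr_empty]; exact ha₀0
    rw [Finset.card_range] at e2
    push_cast at e2
    linarith
  set F₁ : Set (Sym2 (Fin N) → Bool) :=
    {b | GoodK L K₀ (kerB ℚ fun (r : ↥Z₂ᶜ) (c : ↥S) => b s(r, c))} with hF₁
  have p1 : pr p F₁ ≤ pr p F₀ + a := by
    refine pr_le_add_of_repl h0 h1 (z3_blk_inj d1) F₁ F₀ ha0 fun ω hω => ?_
    have e1 : ¬ z3_Low ℚ S k ω := fun h => hω (Or.inl h)
    refine le_trans (pr_mono h0 h1 fun η hη => ?_) (H' ℚ Z₁ hZ₁ (fun K => finrank ℚ K)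
      Submodule.finrank_strictMono (kerB ℚ fun (r c : ↥S) => ω s(r, c))
      ((z3_finrank ℚ S S subset_rfl e1).trans (by omega)))
    refine GoodK.mono (le_inf ?_ ?_) hη
    · refine z3_ker_mono _ _ fun r => ⟨⟨r, s2 r.2⟩, funext fun c => ?_⟩
      exact z3_repl_out d1 η ω (fun h => Finset.disjoint_left.mp d1 h r.2) c
    · refine z3_ker_mono _ (fun (r : ↥Z₁) (c : ↥S) => η (r, c)) fun r =>
        ⟨⟨r, Finset.mem_compl.mpr (Finset.disjoint_left.mp hZ r.2)⟩, funext fun c => ?_⟩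
      exact z3_repl_in d1 η ω r c
  have p2 : pr p {b : Sym2 (Fin N) → Bool | EZ L K₀ p₀ (Z₁ ∪ Z₂) b} ≤ pr p (F₀ ∪ F₁) + (p₀ + N + 1) * a := by
    refine pr_le_add_of_repl h0 h1 (z3_blk_inj d2) _ _ (by positivity) fun ω hω => ?_
    have e1 : ¬ z3_Low ℚ S k ω := fun h => hω (Or.inl (Or.inl h))
    have e2 : ∀ (l : ℕ) [Fact l.Prime], l ≤ T → ¬ z3_Low (ZMod l) S k ω := fun l hl h2 h3 =>
      hω (Or.inl (Or.inr ⟨l, hl, h2, h3⟩))
    set B' : ↥Z₂ᶜ → ↥S → Bool := fun r c => ω s(r, c) with hB'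
    have e3 : ¬ GoodK L K₀ (kerB ℚ B') := fun h => hω (Or.inr h)
    obtain ⟨Δ, hΔ0, hΔ1, hΔ⟩ := exists_delta B'
    have hΔ2 : Δ ≤ (N + 1).factorial := hΔ1.trans (Nat.factorial_le (by simpa using S.card_le_univ))
    set P := (Finset.range p₀).filter Nat.Prime ∪ Δ.primeFactors with hP
    have hPc : P.card ≤ p₀ + N + 1 := by
      have c1 := Finset.card_union_le ((Finset.range p₀).filter Nat.Prime) Δ.primeFactors
      have c2 := Finset.card_filter_le (Finset.range p₀) Nat.Prime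
      have c3 := card_primeFactors_le hΔ0.ne' hΔ2
      rw [Finset.card_range] at c2
      rw [← hP] at c1
      omega
    refine le_trans (pr_le_card_mul h0 h1 P (fun l => {η : ↥Z₂ × ↥S → Bool |
      GoodK L K₀ (kerB (ZMod (mdl' p₀ l)) B' ⊓ ⨅ r, cut fun c => η (r, c))}) _ ?_ (c := a) ?_) ?_
    · rintro η ⟨l, hl, hη⟩
      have hη' : GoodK L K₀ (kerB (ZMod (mdl' p₀ l)) B' ⊓ ⨅ r, cut fun c => η (r, c)) := by
        refine GoodK.mono (le_inf ?_ ?_) hη
        · refine z3_ker_mono _ _ fun r => ⟨r, funext fun c => ?_⟩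
          exact z3_repl_out d2 η ω (Finset.mem_compl.mp r.2) c
        · refine z3_ker_mono _ (fun (r : ↥Z₂) (c : ↥S) => η (r, c)) fun r => ⟨r, funext fun c => ?_⟩
          exact z3_repl_in d2 η ω r c
      refine ⟨l, ?_, hη'⟩
      by_contra hlP
      rw [hP, Finset.mem_union, not_or, Finset.mem_filter, Finset.mem_range, Nat.mem_primeFactors] at hlP
      have c1 : ¬ l < p₀ := fun h => hlP.1 ⟨h, hl⟩
      have c2 : ¬ l ∣ Δ := fun h => hlP.2 ⟨hl, h, hΔ0.ne'⟩
      have c3 : mdl' p₀ l = l := if_neg c1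
      have c4 := GoodK.mono inf_le_left hη'
      rw [c3] at c4
      have := Fact.mk hl
      exact e3 ((hΔ l).1 c2 L L K₀ hL c4)
    · intro l hlP
      have hl : l.Prime := by
        rcases Finset.mem_union.mp hlP with h | h
        · exact (Finset.mem_filter.mp h).2
        · exact Nat.prime_of_mem_primeFactors h
      have := Fact.mk hl
      refine H' _ Z₂ hZ₂ _ (len_strictMono hl (z3_pow p₀ l)) _ ((len_le (z3_pow p₀ l) B').trans ?_)
      by_cases hlT : l ≤ T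
      · have c1 := z3_finrank (ZMod l) S Z₂ᶜ s2 (e2 l hlT)
        split_ifs with c2
        · exact (Nat.mul_le_mul (Nat.sub_le _ _) c1).trans hd1
        · rw [one_mul]; exact c1.trans (by omega)
      · rw [if_neg (by omega), one_mul]
        have c1 := z3_finrank ℚ S Z₂ᶜ s2 e1
        have c2 := (Nat.le_of_dvd hΔ0 (hΔ l).2).trans (hΔ2.trans (hT.trans
          (Nat.pow_le_pow_left (by omega : T ≤ l) j)))
        have c3 := (Nat.pow_le_pow_iff_right hl.one_lt).mp c2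
        have c4 : finrank ℚ (kerB ℚ B') ≤ k := c1
        omega
    · exact mul_le_mul_of_nonneg_right (by exact_mod_cast hPc) ha0
  have p3 := pr_union_le h0 h1 F₀ F₁
  linarith

/-- `ρ` with `ρ^{κ/5} ≤ e^{-(K+4)}`, `L, K₀` from `seq_cut` (`GoodK` is antitone in `L`, so wlog `L ≥ 2`; enlarge via `max`), `p₀ = max L 3`, `m = ⌊κ N/2⌋` (`κ ≤ 1` wlog, else the
event is empty), `d = m/2`, `k = m/(4 p₀)`, `j = m/4`, `T = (N+1)^C` with `C j ≥ N + 1`; union over `≤ 4^N` pairs `(Z₁, Z₂)`. -/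
theorem zero_prob (h0 : 0 < p) (h1 : p < 1) {κ : ℝ} (hκ : 0 < κ) (K : ℝ) : ∃ K₀ p₀ : ℕ, ∀ᶠ N : ℕ in atTop,
    pr p {b : Sym2 (Fin N) → Bool | Ezero κ K₀ p₀ b} ≤ Real.exp (-K * N) := by
  classical
  set K' := |K| with hK'
  have hK0 : 0 ≤ K' := abs_nonneg K
  set ρ := Real.exp (-((K' + 5) * 5 / κ)) with hρ
  have hρ0 : 0 < ρ := Real.exp_pos _
  have hρ1 : ρ ≤ 1 := Real.exp_le_one_iff.mpr (neg_nonpos.mpr (by positivity))
  obtain ⟨L, K₀, H⟩ := seq_cut h0 h1 hρ0 hρ1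
  set p₀ := max L 3 with hp₀
  have hp3 : 3 ≤ p₀ := le_max_right _ _
  have hp3' : (3 : ℝ) ≤ p₀ := by exact_mod_cast hp3
  have H' : ∀ (R : Type) [CommRing R] (X S : Type) [Fintype X] [DecidableEq X] [Fintype S] [DecidableEq S]
      (len : Submodule R ((S → R) × R) → ℕ), StrictMono len → ∀ K : Submodule R ((S → R) × R),
      pr p {η : X × S → Bool | GoodK p₀ K₀ (K ⊓ ⨅ r, cut fun c => η (r, c))} ≤
        2 ^ Fintype.card X * ρ ^ (Fintype.card X - len K) := by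
    intro R _ X S _ _ _ _ len hlen K
    refine (pr_mono h0 h1 ?_).trans (H R X S len hlen K)
    rintro η ⟨u, hu, hc⟩
    refine ⟨u, hu, hc.trans (Finset.card_le_card fun j hj => ?_)⟩
    simp only [Finset.mem_filter, Finset.mem_univ, true_and] at hj ⊢
    exact fun i hi hiL => hj i hi (hiL.trans_le (le_max_left _ _))
  refine ⟨K₀, p₀, ?_⟩
  set C := ⌈32 / κ⌉₊ with hC
  have hC1 : 32 / κ ≤ C := Nat.le_ceil _
  have hC2 : 1 ≤ C := Nat.one_le_iff_ne_zero.mpr (Nat.ceil_pos.mpr (by positivity)).ne'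
  set lam := -Real.log (pm p) with hlam
  have hlam0 : 0 < lam := neg_pos.mpr (Real.log_neg (pm_pos p) (pm_lt_one h0 h1))
  have ev1 := eventually_mul_exp_le (c := lam * (κ / (16 * p₀)) ^ 2 / 4) (by positivity) 12 (K' + 3 + C)
  have ev2 : ∀ᶠ N : ℕ in atTop, 32 * p₀ / κ ≤ (N : ℝ) := tendsto_natCast_atTop_atTop.eventually_ge_atTop _
  filter_upwards [ev1, ev2, eventually_ge_atTop (p₀ + 2)] with N hN1 hN2 hN3
  have hN3' : (p₀ : ℝ) + 2 ≤ N := by exact_mod_cast hN3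
  have hx : 32 * (p₀ : ℝ) ≤ κ * N := by rw [div_le_iff₀ hκ] at hN2; linarith
  set m := ⌊κ * N / 2⌋₊ with hm
  have hm1 : (m : ℝ) ≤ κ * N / 2 := Nat.floor_le (by positivity)
  have hm2 : κ * N / 2 < m + 1 := Nat.lt_floor_add_one _
  set k := m / (4 * p₀) with hk
  set j := m / 4 with hj
  have hk1 : (m : ℝ) < 4 * p₀ * (k + 1) := by exact_mod_cast Nat.lt_mul_div_succ m (by omega : 0 < 4 * p₀)
  have hj1 : (m : ℝ) < 4 * (j + 1) := by exact_mod_cast Nat.lt_mul_div_succ m (by omega : 0 < 4)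
  have hk2 : κ / (16 * p₀) * N ≤ k := by
    rw [div_mul_eq_mul_div, div_le_iff₀ (by positivity)]
    nlinarith
  have hk3 : 2 ≤ k := by
    have : (2 : ℝ) ≤ κ / (16 * p₀) * N := by
      rw [div_mul_eq_mul_div, le_div_iff₀ (by positivity)]; linarith
    exact_mod_cast this.trans hk2
  have hk4 : 4 * (p₀ * k) ≤ m := by rw [← mul_assoc]; exact Nat.mul_div_le _ _
  have hk5 : k ≤ p₀ * k := Nat.le_mul_of_pos_left _ (by omega)
  have hCj : N + 1 ≤ C * j := by
    have e1 : κ * N / 16 ≤ j := by linarith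
    have e2 : 32 / κ * (κ * N / 16) ≤ C * j := mul_le_mul hC1 e1 (by positivity) (by positivity)
    have e3 : 32 / κ * (κ * N / 16) = 2 * N := by field_simp; ring
    have e4 : (N : ℝ) + 1 ≤ C * j := by linarith
    exact_mod_cast e4
  have hT : (N + 1).factorial ≤ ((N + 1) ^ C) ^ j := by
    rw [← pow_mul]
    exact (Nat.factorial_le_pow _).trans (Nat.pow_le_pow_right (by omega) hCj)
  have hpT : p₀ ≤ (N + 1) ^ C := le_trans (by omega) (Nat.le_self_pow (by omega) _)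
  have hexp2 : (2 : ℝ) ≤ Real.exp 1 := by have := Real.add_one_le_exp 1; linarith
  have h2N : (2 : ℝ) ^ N ≤ Real.exp N := by
    rw [← Real.exp_one_pow]; exact pow_le_pow_left₀ two_pos.le hexp2 N
  have key := pr_le_card_mul h0 h1
    (Finset.univ.filter fun Z : Finset (Fin N) × Finset (Fin N) => Disjoint Z.1 Z.2 ∧ Z.1.card = m ∧ Z.2.card = m)
    (fun Z => {b | EZ p₀ K₀ p₀ (Z.1 ∪ Z.2) b}) {b : Sym2 (Fin N) → Bool | Ezero κ K₀ p₀ b}
    (fun b hb => by
      obtain ⟨Z₁, Z₂, c1, c2, c3, c4⟩ := zero_reduce (m := m) (by omega) hp3 le_rfl (by linarith) b hb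
      exact ⟨(Z₁, Z₂), Finset.mem_filter.mpr ⟨Finset.mem_univ _, c1, c2, c3⟩, c4⟩)
    (c := Real.exp (-(K' + 2) * N)) fun Z hZ => by
      obtain ⟨-, c1, c2, c3⟩ := Finset.mem_filter.mp hZ
      have hmN : m ≤ N := by simpa [c2] using Z.1.card_le_univ
      refine (EZ_prob h0 h1 hρ0 hρ1 (by omega) H' (k := k) (d := m / 2) hpT hT (by omega) (by omega)
        Z.1 Z.2 c1 c2 c3).trans ?_
      have t1 : 2 * ((((N + 1) ^ C : ℕ) : ℝ) + 2) * (2 ^ N * pm p ^ (k * k / 2)) ≤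
          Real.exp (-(K' + 2) * N) / 2 := by
        have e1 : (((N + 1) ^ C : ℕ) : ℝ) ≤ Real.exp (C * N) := by
          push_cast
          rw [Real.exp_nat_mul]
          exact pow_le_pow_left₀ (by positivity) (Real.add_one_le_exp _) C
        have e2 : 1 ≤ Real.exp (C * N) := Real.one_le_exp (by positivity)
        have e3 : pm p ^ (k * k / 2) ≤ Real.exp (-(lam * (κ / (16 * p₀)) ^ 2 / 4) * N ^ 2) := by
          rw [← Real.exp_log (pm_pos p), ← Real.exp_nat_mul, Real.exp_le_exp]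
          have f1 : k * k ≤ 4 * (k * k / 2) := by
            have := Nat.mul_le_mul hk3 hk3
            omega
          have f2 : (k : ℝ) * k ≤ 4 * ((k * k / 2 : ℕ) : ℝ) := by exact_mod_cast f1
          have f3 := pow_le_pow_left₀ (by positivity) hk2 2
          have f4 : Real.log (pm p) = -lam := by rw [hlam, neg_neg]
          rw [f4]
          have f5 : lam * ((κ / (16 * p₀) * N) ^ 2 / 4) ≤ lam * ((k * k / 2 : ℕ) : ℝ) :=
            mul_le_mul_of_nonneg_left (by nlinarith) hlam0.le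
          nlinarith
        have e4 : 2 * ((((N + 1) ^ C : ℕ) : ℝ) + 2) * (2 ^ N * pm p ^ (k * k / 2)) ≤
            6 * Real.exp (C * N) * (Real.exp N * Real.exp (-(lam * (κ / (16 * p₀)) ^ 2 / 4) * N ^ 2)) :=
          mul_le_mul (by linarith) (mul_le_mul h2N e3 (pow_pos (pm_pos p) _).le (Real.exp_pos _).le)
            (mul_nonneg (by positivity) (pow_pos (pm_pos p) _).le) (by positivity)
        have e5 : Real.exp (-(K' + 2) * N) = Real.exp (C * N) * Real.exp N * Real.exp (-(K' + 3 + C) * N) := by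
          rw [← Real.exp_add, ← Real.exp_add]; congr 1; ring
        have e6 := mul_le_mul_of_nonneg_left hN1
          (mul_pos (Real.exp_pos (C * N)) (Real.exp_pos N)).le
        rw [e5]
        linarith
      have t2 : ((p₀ : ℝ) + N + 2) * (2 ^ m * ρ ^ (m - m / 2)) ≤ Real.exp (-(K' + 2) * N) / 2 := by
        have e1 : (p₀ : ℝ) + N + 2 ≤ Real.exp N := by
          have f1 := pow_le_pow_left₀ (by positivity) (Real.add_one_le_exp ((N : ℝ) / 2)) 2
          rw [← Real.exp_nat_mul, show ((2 : ℕ) : ℝ) * ((N : ℝ) / 2) = N by push_cast; ring] at f1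
          nlinarith [sq_nonneg ((N : ℝ) / 2 - 1)]
        have e2 : (2 : ℝ) ^ m ≤ Real.exp N := (pow_le_pow_right₀ one_le_two hmN).trans h2N
        have e3 : ρ ^ (m - m / 2) ≤ Real.exp (-(K' + 5) * N) := by
          rw [hρ, ← Real.exp_nat_mul, Real.exp_le_exp]
          have f1 : m ≤ 2 * (m - m / 2) := by omega
          have f2 : (m : ℝ) ≤ 2 * ((m - m / 2 : ℕ) : ℝ) := by exact_mod_cast f1
          have f3 : κ * N / 5 ≤ ((m - m / 2 : ℕ) : ℝ) := by linarith
          have f4 := mul_le_mul_of_nonneg_right f3 (by positivity : 0 ≤ (K' + 5) * 5 / κ)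
          have f5 : κ * N / 5 * ((K' + 5) * 5 / κ) = (K' + 5) * N := by field_simp
          linarith
        have e4 : ((p₀ : ℝ) + N + 2) * (2 ^ m * ρ ^ (m - m / 2)) ≤
            Real.exp N * (Real.exp N * Real.exp (-(K' + 5) * N)) :=
          mul_le_mul e1 (mul_le_mul e2 e3 (by positivity) (Real.exp_pos _).le) (by positivity)
            (Real.exp_pos _).le
        have e5 : Real.exp (-(K' + 2) * N) =
            Real.exp N * (Real.exp N * (Real.exp N * Real.exp (-(K' + 5) * N))) := by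
          rw [← Real.exp_add, ← Real.exp_add, ← Real.exp_add]; congr 1; ring
        have e6 : 2 ≤ Real.exp N := hexp2.trans (Real.exp_le_exp.mpr (by linarith))
        have e7 := mul_le_mul_of_nonneg_right e6
          (by positivity : 0 ≤ Real.exp N * (Real.exp N * Real.exp (-(K' + 5) * N)))
        rw [e5]
        linarith
      linarith
  refine key.trans ?_
  have c1 : ((Finset.univ.filter fun Z : Finset (Fin N) × Finset (Fin N) =>
      Disjoint Z.1 Z.2 ∧ Z.1.card = m ∧ Z.2.card = m).card : ℝ) ≤ Real.exp N * Real.exp N := by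
    refine le_trans ?_ (mul_le_mul h2N h2N (by positivity) (Real.exp_pos _).le)
    have := Finset.card_filter_le (Finset.univ : Finset (Finset (Fin N) × Finset (Fin N)))
      fun Z => Disjoint Z.1 Z.2 ∧ Z.1.card = m ∧ Z.2.card = m
    rw [Finset.card_univ, Fintype.card_prod, Fintype.card_finset, Fintype.card_fin] at this
    exact_mod_cast this
  refine (mul_le_mul_of_nonneg_right c1 (Real.exp_pos _).le).trans ?_
  rw [← Real.exp_add, ← Real.exp_add, Real.exp_le_exp]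
  have c2 : K * N ≤ K' * N := mul_le_mul_of_nonneg_right (le_abs_self K) (Nat.cast_nonneg N)
  linarith

end

end Crest.Agent.R152
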