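import Crest.Agent.R152.N
import Crest.Agent.R152.Comp
import Crest.Agent.R152.Pat
import Crest.Agent.R152.Z3
import Crest.Agent.R152.Pick
import Crest.Agent.R152.B2

/-!
# R152/B3

Assembly.

Helper lemmas: prefix `b3_`.
-/

set_option autoImplicit false
set_option linter.unusedVariables false
set_option linter.unusedSectionVars false

namespace Crest.Agent.R152

open Crest.FinProb Crest.ProbabilityR.SignMatrix MeasureTheory ProbabilityTheory Filter Module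
open scoped RealInnerProductSpace ENNReal Matrix Topology

noncomputable section

variable {p : ℝ}

/-- `ex_minr_colx`, `pr_le_ncard_mul`. -/
theorem pr_adm_le (h0 : 0 < p) (h1 : p < 1) {n p₀ : ℕ} {κ a c : ℝ} (ha : 0 ≤ a) (hc : 0 ≤ c) (i : Fin (n + 1)) :
    pr p {b : Sym2 (Fin (n + 1)) → Bool | (Mx (minr b i)).det ≠ 0 ∧ Adm κ p₀ (Mx (minr b i)) (colx b i) ∧ wgt p (colx b i) ≤ c} ≤
      pr p {ω : Sym2 (Fin n) → Bool | (Mx ω).det ≠ 0 ∧ a < {x : Fin n → Bool | Adm κ p₀ (Mx ω) x}.ncard} + a * c := by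
  set S : (Sym2 (Fin n) → Bool) → Set (Fin n → Bool) := fun ω =>
    {x | (Mx ω).det ≠ 0 ∧ Adm κ p₀ (Mx ω) x ∧ wgt p x ≤ c} with hS
  have h2 := ex_minr_colx p i fun ω x => (S ω).indicator (fun _ => (1 : ℝ)) x
  rw [pr_eq_ex, pr_eq_ex, ← ex_const p (a * c) (ι := Sym2 (Fin n)), ← ex_add]
  refine le_trans (le_of_eq (Eq.trans ?_ h2)) (ex_mono h0 h1 fun ω => ?_)
  · rfl
  · rw [← pr_eq_ex]
    by_cases h : ω ∈ {ω : Sym2 (Fin n) → Bool | (Mx ω).det ≠ 0 ∧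
        a < {x : Fin n → Bool | Adm κ p₀ (Mx ω) x}.ncard}
    · rw [Set.indicator_of_mem h]
      exact (pr_le_one h0 h1 _).trans (le_add_of_nonneg_right (mul_nonneg ha hc))
    · rw [Set.indicator_of_notMem h, zero_add]
      refine (pr_le_ncard_mul h0 h1 _ hc fun x hx => hx.2.2).trans (mul_le_mul_of_nonneg_right ?_ hc)
      by_cases hd : (Mx ω).det = 0
      · rw [Set.eq_empty_of_forall_notMem (s := S ω) fun x hx => hx.1 hd, Set.ncard_empty, Nat.cast_zero]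
        exact ha
      · refine le_trans ?_ (not_lt.1 fun k => h ⟨hd, k⟩)
        exact_mod_cast Set.ncard_le_ncard (s := S ω) (fun x hx => hx.2.1) (Set.toFinite _)

theorem Adm.mono {n p₀ : ℕ} {κ κ' : ℝ} (h : κ ≤ κ') {A : Matrix (Fin n) (Fin n) ℤ} {x : Fin n → Bool} (hx : Adm κ p₀ A x) :
    Adm κ' p₀ A x := by
  obtain ⟨⟨s, y, k1, k2, k3, k4⟩, k5⟩ := hx
  exact ⟨⟨s, y, k1, k2, k3, k4.trans (mul_le_mul_of_nonneg_right h (by positivity))⟩, k5⟩

theorem b3_exp (p : ℝ) (n : ℕ) : Real.exp (-1 * (n : ℝ)) ≤ qq p ^ n := by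
  rw [mul_comm, Real.exp_nat_mul]
  refine pow_le_pow_left₀ (Real.exp_pos _).le (le_trans ?_ (half_le_qq p)) n
  rw [Real.exp_neg, one_div]
  exact inv_anti₀ two_pos (by linarith [Real.add_one_le_exp (1 : ℝ)])

/-- `σ = η = ε/4`, `κ = min (κ of thmN) (κ₀ of comp_prob)`, `K = 1` (`e^{-1} ≤ 1/2 ≤ q`), `K₀, p₀` from `zero_prob` for `κ/4`; `pick`. -/
theorem corank_one_le (h0 : 0 < p) (h1 : p < 1) {ε : ℝ} (hε : 0 < ε) : ∀ᶠ n : ℕ in atTop,
    pr p {b : Sym2 (Fin (n + 1)) → Bool | rk b = n} ≤ qq p ^ n * Real.exp (ε * n) := by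
  set δ := ε / 4 with hδ
  have hδ0 : 0 < δ := by positivity
  obtain ⟨κ₁, hκ₁, hN⟩ := thmN h0 h1 hδ0
  obtain ⟨κ₀, hκ₀, hC⟩ := comp_prob h0 h1 hδ0
  set κ := min κ₁ κ₀ with hκ
  have hκ0 : 0 < κ := lt_min hκ₁ hκ₀
  obtain ⟨K₀, p₀, hZ⟩ := zero_prob h0 h1 (κ := κ / 4) (by positivity) 1
  obtain ⟨k, hR⟩ := row_prob h0 h1 hδ0 1
  have hs := tendsto_add_atTop_nat 1
  have hq0 := qq_pos p
  have hq1 := (qq_lt_one h0 h1).le
  filter_upwards [hN p₀ 1, hs.eventually (hC κ (min_le_right _ _)), hs.eventually hZ, hR,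
    hs.eventually (pat_prob h0 h1 K₀ hδ0), eventually_ge_atTop 1,
    tendsto_natCast_atTop_atTop.eventually_ge_atTop (4 * (k : ℝ) / κ),
    tendsto_natCast_atTop_atTop.eventually_ge_atTop ((3 + Real.exp δ) / δ ^ 2)]
    with n e1 e2 e3 e4 e5 e6 e7 e8
  have hk : (k : ℝ) ≤ κ * (n + 1) / 4 := by
    rw [div_le_iff₀ hκ0] at e7
    nlinarith
  set Q := qq p ^ n with hQ
  have hQ0 : 0 < Q := pow_pos hq0 n
  set E := Real.exp (δ * n) with hE
  have hE1 : 1 ≤ E := Real.one_le_exp (by positivity)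
  have f1 : Real.exp (-1 * (n : ℝ)) ≤ Q := b3_exp p n
  have f2 : Real.exp (-1 * ((n + 1 : ℕ) : ℝ)) ≤ Q :=
    (Real.exp_le_exp.2 (by push_cast; linarith)).trans f1
  have f3 : qq p ^ (n + 1) * Real.exp (δ * ((n + 1 : ℕ) : ℝ)) ≤ Q * (E * Real.exp δ) := by
    rw [hE, ← Real.exp_add, Nat.cast_succ, mul_add, mul_one, pow_succ]
    exact mul_le_mul_of_nonneg_right (mul_le_of_le_one_right hQ0.le hq1) (Real.exp_pos _).le
  have f4 : pr p {b : Sym2 (Fin (n + 1)) → Bool | ∃ i, (Mx (minr b i)).det ≠ 0 ∧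
      Adm κ p₀ (Mx (minr b i)) (colx b i) ∧ wgt p (colx b i) ≤ Q * E} ≤ (n + 1) * (Q + E * (Q * E)) := by
    refine (pr_le_card_mul h0 h1 Finset.univ (fun i => {b | (Mx (minr b i)).det ≠ 0 ∧
      Adm κ p₀ (Mx (minr b i)) (colx b i) ∧ wgt p (colx b i) ≤ Q * E}) _
      (fun b hb => ?_) (c := Q + E * (Q * E)) fun i _ => ?_).trans_eq (by simp)
    · obtain ⟨i, hi⟩ := hb
      exact ⟨i, Finset.mem_univ _, hi⟩
    refine (pr_adm_le h0 h1 (a := E) (by positivity) (by positivity) i).trans (add_le_add_left ?_ _)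
    refine le_trans (pr_mono h0 h1 ?_) (e1.trans f1)
    refine fun ω hω => ⟨hω.1, hω.2.trans_le ?_⟩
    exact_mod_cast Set.ncard_le_ncard (fun x hx => Adm.mono (min_le_left _ _) hx) (Set.toFinite _)
  have f5 := pr_mono h0 h1 (E := {b : Sym2 (Fin (n + 1)) → Bool | rk b = n})
    (F := {b | Ecomp κ b} ∪ ({b | Epat K₀ b} ∪ ({b | Ezero (κ / 4) K₀ p₀ b} ∪ ({b | Erow p δ k b} ∪
      {b | ∃ i, (Mx (minr b i)).det ≠ 0 ∧ Adm κ p₀ (Mx (minr b i)) (colx b i) ∧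
        wgt p (colx b i) ≤ Q * E})))) fun b hb => by
    by_contra hn
    simp only [Set.mem_union, not_or] at hn
    exact hn.2.2.2.2 (pick hκ0 hk b hb hn.1 hn.2.1 hn.2.2.1 hn.2.2.2.1)
  replace f5 := f5.trans ((pr_union_le h0 h1 _ _).trans (add_le_add (e2.trans f3)
    ((pr_union_le h0 h1 _ _).trans (add_le_add (e5.trans f3) ((pr_union_le h0 h1 _ _).trans
      (add_le_add (e3.trans f2) ((pr_union_le h0 h1 _ _).trans (add_le_add (e4.trans f1) f4))))))))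
  have f6 : Real.exp (ε * n) = E ^ 2 * E ^ 2 := by
    rw [← pow_add, hE, ← Real.exp_nat_mul, hδ]
    congr 1
    push_cast
    ring
  have hn1 : (1 : ℝ) ≤ n := by exact_mod_cast e6
  have hx := Real.exp_pos δ
  have f7 : 2 * Real.exp δ + 4 + 2 * n ≤ E ^ 2 := by
    have k1 := Real.quadratic_le_exp_of_nonneg (x := 2 * (δ * n)) (by positivity)
    have k2 : Real.exp (2 * (δ * n)) = E ^ 2 := by
      rw [hE, ← Real.exp_nat_mul]
      norm_num
    rw [div_le_iff₀ (by positivity)] at e8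
    have k3 : 0 ≤ δ * n := by positivity
    have k4 := mul_le_mul_of_nonneg_left e8 (by positivity : (0 : ℝ) ≤ 2 * n)
    nlinarith
  have f8 : 1 ≤ E ^ 2 := one_le_pow₀ hE1
  have f9 : E ≤ E ^ 2 := le_self_pow₀ hE1 two_ne_zero
  refine f5.trans ?_
  rw [f6]
  calc _ = Q * (E * (2 * Real.exp δ) + 1 * (n + 3) + E ^ 2 * (n + 1)) := by ring
    _ ≤ Q * (E ^ 2 * (2 * Real.exp δ) + E ^ 2 * (n + 3) + E ^ 2 * (n + 1)) := by gcongr
    _ = Q * (E ^ 2 * (2 * Real.exp δ + 4 + 2 * n)) := by ring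
    _ ≤ _ := by gcongr

theorem main (h0 : 0 < p) (h1 : p < 1) : Tendsto (fun n : ℕ => singularProb n p ^ (1 / (n : ℝ))) atTop (𝓝 (qq p)) :=
  tendsto_root (qq_pos p) (pow_pos h0 3) _ (le_sing h0 h1) fun _ hε =>
    sing_le_of_corank_one h0 h1 (fun _ h => corank_one_le h0 h1 h) hε

end

end Crest.Agent.R152
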