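import Crest.Agent.R152.G2

/-!
# R152/G3

Counting lattice points (Blichfeldt) and Minkowski's theorem, for the lattice spanned by an independent family.

Helper lemmas: prefix `g3_`.
-/

set_option autoImplicit false
set_option linter.unusedVariables false
set_option linter.unusedSectionVars false

namespace Crest.Agent.R152

open Crest.FinProb Crest.ProbabilityR.SignMatrix MeasureTheory ProbabilityTheory Filter Module
open scoped RealInnerProductSpace ENNReal Matrix Topology

noncomputable section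

variable {E E' : Type} [NormedAddCommGroup E] [InnerProductSpace ℝ E] [NormedAddCommGroup E'] [InnerProductSpace ℝ E']
  {κ κ' : Type} [Fintype κ] [DecidableEq κ] [Fintype κ'] [DecidableEq κ']

theorem g3_blich {k : ℕ} (β : Basis (Fin k) ℝ (Fin k → ℝ)) {C : Set (Fin k → ℝ)} (hC : MeasurableSet C) (n : ℕ)
    (h : n * volume (ZSpan.fundamentalDomain β) < volume C) :
    ∃ (x : Fin k → ℝ) (T : Finset (Submodule.span ℤ (Set.range β))), n < T.card ∧ ∀ g ∈ T, (g : Fin k → ℝ) + x ∈ C := by
  classical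
  by_contra hcon
  push Not at hcon
  refine h.not_ge ?_
  have hF := ZSpan.isAddFundamentalDomain' β (volume : Measure (Fin k → ℝ))
  haveI : Countable (Submodule.span ℤ (Set.range β)).toAddSubgroup :=
    inferInstanceAs (Countable (Submodule.span ℤ (Set.range β)))
  have hm : ∀ g : (Submodule.span ℤ (Set.range β)).toAddSubgroup,
      Measurable fun x : Fin k → ℝ => C.indicator (1 : (Fin k → ℝ) → ℝ≥0∞) (g +ᵥ x) := fun g =>
    (measurable_one.indicator hC).comp (measurable_const_vadd g)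
  rw [← lintegral_indicator_one hC, hF.lintegral_eq_tsum'', ← lintegral_tsum fun g => (hm g).aemeasurable,
    ← setLIntegral_const]
  refine lintegral_mono fun x => ?_
  rw [ENNReal.tsum_eq_iSup_sum]
  refine iSup_le fun T => ?_
  have h1 : (T.filter fun g => g.1 + x ∈ C).card ≤ n := not_lt.1 fun h2 => by
    obtain ⟨g, hg, hg'⟩ := hcon x _ h2
    exact hg' (Finset.mem_filter.1 hg).2
  refine le_trans (le_of_eq ?_) (Nat.cast_le.2 h1)
  rw [Finset.card_filter, Nat.cast_sum]
  refine Finset.sum_congr rfl fun g _ => ?_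
  by_cases h2 : (g : Fin k → ℝ) + x ∈ C
  · rw [if_pos h2, Nat.cast_one]
    exact Set.indicator_of_mem h2 _
  · rw [if_neg h2, Nat.cast_zero]
    exact Set.indicator_of_notMem h2 _

theorem g3_coord {k : ℕ} (B : Matrix (Fin k) (Fin k) ℝ) (hB : B.det ≠ 0) {a : ℝ} (ha : 0 ≤ a) :
    ∃ S : Finset (Fin k → ℤ), (∀ c ∈ S, ∀ j, |∑ i, (c i : ℝ) * B i j| ≤ a) ∧ a ^ k / |B.det| ≤ S.card := by
  classical
  have hli := Matrix.linearIndependent_rows_of_det_ne_zero hB
  let β : Basis (Fin k) ℝ (Fin k → ℝ) := Basis.mk hli (hli.span_eq_top_of_card_eq_finrank' (by simp)).ge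
  have hβ : ∀ i, β i = B i := fun i => Basis.mk_apply _ _ i
  have hd := abs_pos.2 hB
  rcases Nat.eq_zero_or_pos ⌈a ^ k / |B.det|⌉₊ with h0 | h0
  · exact ⟨∅, by simp, by simpa using Nat.ceil_eq_zero.1 h0⟩
  obtain ⟨x, T, h1, h2⟩ := g3_blich β (C := Set.pi Set.univ fun _ => Set.Ico 0 a)
    (MeasurableSet.univ_pi fun _ => measurableSet_Ico) (⌈a ^ k / |B.det|⌉₊ - 1) (by
      have e : Matrix.of β = B := by ext i j; simp [hβ]
      have h3 : ((⌈a ^ k / |B.det|⌉₊ - 1 : ℕ) : ℝ) < a ^ k / |B.det| := Nat.lt_ceil.1 (by omega)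
      rw [lt_div_iff₀ hd] at h3
      rw [ZSpan.volume_fundamentalDomain, e, Real.volume_pi_Ico, Finset.prod_const, Finset.card_univ,
        Fintype.card_fin, sub_zero, ← ENNReal.ofReal_pow ha, ← ENNReal.ofReal_natCast,
        ← ENNReal.ofReal_mul (Nat.cast_nonneg _)]
      exact (ENNReal.ofReal_lt_ofReal_iff (lt_of_le_of_lt (by positivity) h3)).2 h3)
  obtain ⟨g₀, hg₀⟩ := Finset.card_pos.1 ((Nat.zero_le _).trans_lt h1)
  choose c hc using fun g : Submodule.span ℤ (Set.range β) =>
    (Submodule.mem_span_range_iff_exists_fun ℤ).1 (g - g₀).2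
  have hinj : Function.Injective c := fun g g' e =>
    sub_left_injective (Subtype.ext ((hc g).symm.trans (e ▸ hc g')))
  refine ⟨T.image c, fun d hd j => ?_, ?_⟩
  · obtain ⟨g, hg, rfl⟩ := Finset.mem_image.1 hd
    have h3 : ∑ i, (c g i : ℝ) * B i j = g.1 j - g₀.1 j := by
      have := congrFun (hc g) j
      rw [Finset.sum_apply] at this
      refine Eq.trans (Finset.sum_congr rfl fun i _ => ?_) this
      rw [Pi.smul_apply, hβ, zsmul_eq_mul]
    have h4 := h2 g hg j trivial
    have h5 := h2 g₀ hg₀ j trivial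
    simp only [Pi.add_apply, Set.mem_Ico] at h4 h5
    rw [h3, abs_le]
    constructor <;> linarith [h4.1, h4.2, h5.1, h5.2]
  · rw [Finset.card_image_of_injective _ hinj]
    exact (Nat.le_ceil _).trans (Nat.cast_le.2 (by omega))

/-- Blichfeldt.  Choose an isometry of the span of `b` with `EuclideanSpace ℝ (Fin k)` (or work with coordinates in an
orthonormal basis of the span: a matrix `B` with `|det B| = gvol b`, `gvol_eq_abs_det`).  Let `C = [0, R/√k)^k` (diameter
`≤ R`), `F` the fundamental parallelepiped (`ZSpan.fundamentalDomain`, `ZSpan.isAddFundamentalDomain`,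
`ZSpan.volume_fundamentalDomain`).  `vol C = ∑_c vol ((C - B c) ∩ F) = ∫_F #{c | x + B c ∈ C} dx`, so some `x` has at least
`vol C / vol F` lattice translates in `C`; subtract one of them.  For `k = 0` the bound is `1` (`S = {0}`). -/
theorem exists_many_points {k : ℕ} (b : Fin k → E) (hb : LinearIndependent ℝ b) {R : ℝ} (hR : 0 < R) :
    ∃ S : Finset (Fin k → ℤ), (∀ c ∈ S, ‖∑ i, (c i : ℝ) • b i‖ ≤ R) ∧ (R / √k) ^ k / gvol b ≤ S.card := by
  classical
  have hk : finrank ℝ (Submodule.span ℝ (Set.range b)) = k := by rw [finrank_span_eq_card hb, Fintype.card_fin]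
  haveI : FiniteDimensional ℝ (Submodule.span ℝ (Set.range b)) :=
    FiniteDimensional.span_of_finite ℝ (Set.finite_range b)
  let e := (stdOrthonormalBasis ℝ (Submodule.span ℝ (Set.range b))).reindex (finCongr hk)
  let b' : Fin k → Submodule.span ℝ (Set.range b) := fun i => ⟨b i, Submodule.subset_span ⟨i, rfl⟩⟩
  have hg : gvol b = |(Matrix.of fun i j => ⟪e j, b' i⟫).det| :=
    (gvol_isometry (Submodule.span ℝ (Set.range b)).subtypeₗᵢ b').trans (gvol_eq_abs_det e b')
  have hpos := (gvol_pos_iff b).2 hb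
  obtain ⟨S, h1, h2⟩ := g3_coord (Matrix.of fun i j => ⟪e j, b' i⟫) (abs_pos.1 (hg ▸ hpos))
    (a := R / √k) (by positivity)
  refine ⟨S, fun c hc => ?_, hg ▸ h2⟩
  have h3 : ‖∑ i, (c i : ℝ) • b i‖ = ‖∑ i, (c i : ℝ) • b' i‖ := by
    rw [Submodule.coe_norm]
    simp [b']
  rw [h3, ← abs_norm, ← abs_of_pos hR, ← sq_le_sq, ← e.sum_sq_inner_right]
  refine (Finset.sum_le_sum (g := fun _ => (R / √k) ^ 2) fun j _ => ?_).trans ?_
  · have := h1 c hc j
    rw [← abs_of_nonneg (by positivity : 0 ≤ R / √k), ← sq_le_sq] at this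
    simpa only [inner_sum, real_inner_smul_right, Matrix.of_apply] using this
  · rw [Finset.sum_const, Finset.card_univ, Fintype.card_fin, nsmul_eq_mul, div_pow,
      Real.sq_sqrt (Nat.cast_nonneg k)]
    rcases Nat.eq_zero_or_pos k with rfl | h
    · simpa using sq_nonneg R
    · rw [mul_div_cancel₀ _ (Nat.cast_ne_zero.2 h.ne')]

/-- Minkowski (from `exists_many_points`: more than one point). -/
theorem exists_short (b : κ → E) (hb : LinearIndependent ℝ b) {R : ℝ} (hR : 0 < R)
    (h : gvol b < (R / √(Fintype.card κ)) ^ Fintype.card κ) :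
    ∃ c : κ → ℤ, c ≠ 0 ∧ ‖∑ i, (c i : ℝ) • b i‖ ≤ R := by
  let e := (Fintype.equivFin κ).symm
  obtain ⟨S, h1, h2⟩ := exists_many_points (fun i => b (e i)) (hb.comp _ e.injective) hR
  rw [gvol_reindex] at h2
  have h3 : (1 : ℝ) < S.card := ((one_lt_div ((gvol_pos_iff b).2 hb)).2 h).trans_le h2
  obtain ⟨c, hc, h0⟩ := Finset.exists_mem_ne (by exact_mod_cast h3 : 1 < S.card) 0
  refine ⟨fun i => c (e.symm i), fun h4 => h0 (funext fun i => by simpa using congrFun h4 (e i)), ?_⟩
  rw [← e.sum_comp]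
  simpa using h1 c hc

/-- Contrapositive form: no short vector implies large volume. -/
theorem le_gvol_of_long (b : κ → E) (hb : LinearIndependent ℝ b) {R : ℝ} (hR : 0 < R)
    (h : ∀ c : κ → ℤ, c ≠ 0 → R < ‖∑ i, (c i : ℝ) • b i‖) :
    (R / √(Fintype.card κ)) ^ Fintype.card κ ≤ gvol b := by
  refine not_lt.1 fun h1 => ?_
  obtain ⟨c, h2, h3⟩ := exists_short b hb hR h1
  exact (h c h2).not_ge h3

end

end Crest.Agent.R152
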