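import Crest.Agent.R152.L2
import Crest.Agent.R152.G3

/-!
# R152/C1

One step of the container algorithm.  States are minimisers of `pot lam` among their superspaces.

Helper lemmas: prefix `c1_`.
-/

set_option autoImplicit false
set_option linter.unusedVariables false
set_option linter.unusedSectionVars false

namespace Crest.Agent.R152

open Crest.FinProb Crest.ProbabilityR.SignMatrix MeasureTheory ProbabilityTheory Filter Module
open scoped RealInnerProductSpace ENNReal Matrix Topology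

noncomputable section

variable {ι : Type} [Fintype ι] [DecidableEq ι]

/-- `D` minimises the potential among its superspaces. -/
def IsMinP (lam : ℝ) (D : Submodule ℚ (ι → ℚ)) : Prop := ∀ D', D ≤ D' → pot lam D ≤ pot lam D'

open Classical in
/-- A canonical minimiser of the potential above `W`. -/
def nxt (lam : ℝ) (W : Submodule ℚ (ι → ℚ)) : Submodule ℚ (ι → ℚ) :=
  if h : 0 ≤ lam then Classical.choose (exists_pot_min h W) else W

/-- The projection of `ℤ^ι` orthogonal to `D`. -/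
def quo (D : Submodule ℚ (ι → ℚ)) : AddSubgroup (Euc ι) :=
  (zc : (ι → ℤ) →ₗ[ℤ] Euc ι).toAddMonoidHom.range.map (prj D : Euc ι →ₗ[ℝ] Euc ι).toAddMonoidHom

/-- States reachable by adding a vector whose projection has length at most `l`. -/
def succs (lam l : ℝ) (D : Submodule ℚ (ι → ℚ)) : Set (Submodule ℚ (ι → ℚ)) :=
  {D' | ∃ y : ι → ℤ, ‖prj D (zc y)‖ ≤ l ∧ D' = nxt lam (D ⊔ qsp fun _ : Unit => y)}

theorem nxt_spec {lam : ℝ} (hl : 0 ≤ lam) (W : Submodule ℚ (ι → ℚ)) :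
    W ≤ nxt lam W ∧ (∀ D', W ≤ D' → pot lam (nxt lam W) ≤ pot lam D') ∧ IsMinP lam (nxt lam W) := by
  have h := Classical.choose_spec (exists_pot_min hl W)
  rw [nxt, dif_pos hl]
  exact ⟨h.1, h.2, fun D' hD' => h.2 D' (h.1.trans hD')⟩

theorem isMinP_bot {lam : ℝ} (hl : 0 ≤ lam) : IsMinP lam (⊥ : Submodule ℚ (ι → ℚ)) := by
  intro D' _
  have := Real.log_nonneg (one_le_cov D')
  rw [pot, pot, cov_bot, Real.log_one, finrank_bot, Nat.cast_zero, mul_zero, add_zero]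
  positivity

/-- `cov_sup_le` and minimality. -/
theorem IsMinP.stable {lam : ℝ} {D : Submodule ℚ (ι → ℚ)} (h : IsMinP lam D) : Stable (quo D) (Real.exp (-lam)) := by
  intro k v hv hi
  have hy : ∀ i, ∃ y : ι → ℤ, prj D (zc y) = v i := fun i => by
    obtain ⟨_, ⟨y, rfl⟩, h2⟩ := hv i
    exact ⟨y, h2⟩
  choose y hy using hy
  obtain rfl : v = fun i => prj D (zc (y i)) := funext fun i => (hy i).symm
  obtain ⟨h1, h2⟩ := cov_sup_le D y hi
  have h3 := h _ (le_sup_left : D ≤ D ⊔ qsp y)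
  have g0 := (gvol_pos_iff _).2 hi
  have c0 := one_pos.trans_le (one_le_cov D)
  have h4 := Real.log_le_log (one_pos.trans_le (one_le_cov _)) h1
  rw [Real.log_mul c0.ne' g0.ne'] at h4
  rw [pot, pot, h2, Fintype.card_fin] at h3
  rw [← Real.exp_nat_mul, ← Real.le_log_iff_exp_le g0]
  push_cast at h3
  linarith

theorem c1_mem (y : ι → ℤ) : qc y ∈ qsp fun _ : Unit => y := Submodule.subset_span ⟨(), rfl⟩

theorem c1_le {W : Submodule ℚ (ι → ℚ)} {y : ι → ℤ} (h : y ∈ lat W) : (qsp fun _ : Unit => y) ≤ W :=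
  Submodule.span_le.2 (by rintro _ ⟨_, rfl⟩; exact h)

theorem c1_sup_le {D : Submodule ℚ (ι → ℚ)} {y y' : ι → ℤ} (h : prj D (zc y) = prj D (zc y')) :
    (D ⊔ qsp fun _ : Unit => y) ≤ D ⊔ qsp fun _ : Unit => y' := by
  have h1 : y - y' ∈ lat D := prj_zc_eq_zero.1 (by rw [map_sub, map_sub, h, sub_self])
  refine sup_le le_sup_left (c1_le ?_)
  rw [mem_lat, ← sub_add_cancel y y', map_add]
  exact Submodule.add_mem_sup h1 (c1_mem y')

/-- If `y`, `y'` have the same projection then `y - y' ∈ lat D` (`prj_zc_eq_zero`), so `D ⊔ qsp y = D ⊔ qsp y'`: the successor is a function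
of the projection.  A set all of whose finite subsets have at most `N` elements is finite. -/
theorem ncard_succs (lam l : ℝ) (D : Submodule ℚ (ι → ℚ)) {N : ℝ}
    (H : ∀ S : Finset (Euc ι), (∀ y ∈ S, y ∈ quo D ∧ ‖y‖ ≤ l) → (S.card : ℝ) ≤ N) :
    (succs lam l D).Finite ∧ ((succs lam l D).ncard : ℝ) ≤ N := by
  classical
  set T : Set (Euc ι) := {x | x ∈ quo D ∧ ‖x‖ ≤ l} with hT
  have hf : T.Finite := by
    by_contra h
    obtain ⟨S, hS, hc⟩ := Set.Infinite.exists_subset_card_eq h (⌈N⌉₊ + 1)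
    have h1 := H S fun y hy => hS hy
    rw [hc] at h1
    push_cast at h1
    linarith [Nat.le_ceil N]
  set g : Euc ι → Submodule ℚ (ι → ℚ) := fun x =>
    if h : ∃ y : ι → ℤ, prj D (zc y) = x then nxt lam (D ⊔ qsp fun _ : Unit => h.choose) else ⊥ with hg
  have hs : succs lam l D ⊆ g '' T := by
    rintro _ ⟨y, hy, rfl⟩
    refine ⟨prj D (zc y), ⟨⟨zc y, ⟨y, rfl⟩, rfl⟩, hy⟩, ?_⟩
    have h : ∃ y' : ι → ℤ, prj D (zc y') = prj D (zc y) := ⟨y, rfl⟩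
    simp only [hg, dif_pos h]
    rw [le_antisymm (c1_sup_le h.choose_spec) (c1_sup_le h.choose_spec.symm)]
  refine ⟨(hf.image g).subset hs, ?_⟩
  have h1 : (succs lam l D).ncard ≤ T.ncard :=
    (Set.ncard_le_ncard hs (hf.image g)).trans (Set.ncard_image_le hf)
  rw [Set.ncard_eq_toFinset_card T hf] at h1
  exact (Nat.cast_le.2 h1).trans (H _ fun y hy => hf.mem_toFinset.1 hy)

/-- Let `y ∈ lat (D ⊔ U)` have nonzero projection, `D' = nxt (D ⊔ qsp y)`, `E = D' ⊓ (D ⊔ U) ≥ D ⊔ qsp y`.  Then `pot D' ≤ pot E` and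
`pot_submod` for `D'`, `D ⊔ U` give `pot (D' ⊔ U) ≤ pot (D ⊔ U)` and `pot D' - pot (D' ⊔ U) ≥ pot E - pot (D ⊔ U)`. -/
theorem step_basic {lam : ℝ} (hl : 0 ≤ lam) {D U : Submodule ℚ (ι → ℚ)} {y : ι → ℤ} (hy : y ∈ lat (D ⊔ U))
    (h0 : prj D (zc y) ≠ 0) :
    let D' := nxt lam (D ⊔ qsp fun _ : Unit => y)
    D < D' ⊓ (D ⊔ U) ∧ pot lam (D' ⊔ U) ≤ pot lam (D ⊔ U) ∧
      pot lam (D' ⊓ (D ⊔ U)) - pot lam (D ⊔ U) ≤ pot lam D' - pot lam (D' ⊔ U) := by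
  intro D'
  obtain ⟨h1, h2, -⟩ := nxt_spec hl (D ⊔ qsp fun _ : Unit => y)
  have h3 : (D ⊔ qsp fun _ : Unit => y) ≤ D' ⊓ (D ⊔ U) := le_inf h1 (sup_le le_sup_left (c1_le hy))
  have h4 := h2 _ h3
  have h5 := pot_submod lam D' (D ⊔ U)
  have h6 : D' ⊔ (D ⊔ U) = D' ⊔ U := by
    rw [← sup_assoc, sup_eq_left.2 (le_sup_left.trans h1)]
  rw [h6] at h5
  refine ⟨lt_of_le_of_ne (le_sup_left.trans h3) fun h => h0 (prj_zc_eq_zero.2 ?_), ?_, ?_⟩
  · rw [mem_lat, h]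
    exact h3 (Submodule.mem_sup_right (c1_mem y))
  · change pot lam D' ≤ _ at h4
    linarith
  · linarith

theorem c1_comb {κ κ' : Type} [Fintype κ] [DecidableEq κ] [Fintype κ'] [DecidableEq κ']
    {W₀ W₁ : Submodule ℚ (ι → ℚ)} {a : κ → ι → ℤ} {b : κ' → ι → ℤ} (ha : IsBas (lat W₀) a)
    (hb : IsBas (lat W₁) (Sum.elim a b)) {c : κ' → ℤ} (hc : c ≠ 0) :
    ∃ y ∈ lat W₁, prj W₀ (zc y) ≠ 0 ∧ prj W₀ (zc y) = ∑ j, (c j : ℝ) • prj W₀ (zc (b j)) := by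
  have e : prj W₀ (zc (∑ j, c j • b j)) = ∑ j, (c j : ℝ) • prj W₀ (zc (b j)) := by
    rw [map_sum, map_sum]
    refine Finset.sum_congr rfl fun j _ => ?_
    rw [map_zsmul, map_zsmul, Int.cast_smul_eq_zsmul]
  refine ⟨∑ j, c j • b j, Submodule.sum_mem _ fun j _ => Submodule.smul_mem _ _ (hb.mem (Sum.inr j)),
    fun h => hc (funext fun j => ?_), e⟩
  rw [e] at h
  exact Int.cast_eq_zero.1 (Fintype.linearIndependent_iff.1 (adapted_prj ha hb).2.1 _ h j)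

theorem c1_num {ε K l₂ : ℝ} (hε : 0 < ε) (hK : 1 ≤ K) {n j : ℕ} (hl₂ : 2 * √n * K ^ (1 / ε) ≤ l₂)
    (hj : ε * n < j) (hjn : j ≤ n) : 0 < l₂ ∧ K ^ n < (l₂ / √j) ^ j := by
  have K0 : 0 < K := one_pos.trans_le hK
  have j0 : (0 : ℝ) < j := lt_of_le_of_lt (by positivity) hj
  have j1 : j ≠ 0 := by exact_mod_cast j0.ne'
  have s0 : 0 < √(j : ℝ) := Real.sqrt_pos.2 j0
  have s1 : √(j : ℝ) ≤ √n := Real.sqrt_le_sqrt (Nat.cast_le.2 hjn)
  have k0 : 0 < K ^ (1 / ε) := Real.rpow_pos_of_pos K0 _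
  have h1 : 2 * K ^ (1 / ε) ≤ l₂ / √j := by
    rw [le_div_iff₀ s0]
    nlinarith
  refine ⟨lt_of_lt_of_le (by have := s0.trans_le s1; positivity) hl₂, ?_⟩
  refine lt_of_lt_of_le ?_ (pow_le_pow_left₀ (by positivity) h1 j)
  have h2 : K ^ n ≤ (K ^ (1 / ε)) ^ j := by
    rw [← Real.rpow_natCast, ← Real.rpow_natCast, ← Real.rpow_mul K0.le]
    refine Real.rpow_le_rpow_of_exponent_le hK ?_
    rw [one_div, ← div_eq_inv_mul, le_div_iff₀ hε]
    linarith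
  rw [mul_pow]
  exact h2.trans_lt (lt_mul_of_one_lt_left (pow_pos k0 _) (one_lt_pow₀ one_lt_two j1))

/-- If some `y ∈ lat (D ⊔ U)` has nonzero projection of length `≤ l₁`, take it (cheap step; `pot D ≤ pot E` by minimality).  Otherwise take
`y` from `exists_short` for an adapted basis of `D ≤ D ⊔ U` (`exists_adapted`, `adapted_prj`: the volume is
`cov (D ⊔ U) / cov D ≤ cov U ≤ K^n < (l₂/√j)^j`, `j > ε n`), and apply `le_gvol_of_long` to an adapted basis of `D ≤ E`,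
`k = finrank E - finrank D`. -/
theorem step_exists {lam ε K l₁ l₂ : ℝ} (hl : 0 ≤ lam) (hε : 0 < ε) (hK : 1 ≤ K) (hl₁ : 0 < l₁)
    (hl₂ : 2 * √(Fintype.card ι) * K ^ (1 / ε) ≤ l₂) {D U : Submodule ℚ (ι → ℚ)} (hD : IsMinP lam D)
    (hU : cov U ≤ K ^ Fintype.card ι) (hinv : pot lam (D ⊔ U) ≤ pot lam U)
    (hj : (finrank ℚ D : ℝ) + ε * Fintype.card ι < finrank ℚ ↥(D ⊔ U)) :
    ∃ D' : Submodule ℚ (ι → ℚ), finrank ℚ D + 1 ≤ finrank ℚ D' ∧ pot lam (D' ⊔ U) ≤ pot lam U ∧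
      pot lam D - pot lam (D ⊔ U) ≤ pot lam D' - pot lam (D' ⊔ U) ∧
      (D' ∈ succs lam l₁ D ∨ (D' ∈ succs lam l₂ D ∧ ∃ k : ℕ, 1 ≤ k ∧ finrank ℚ D + k ≤ finrank ℚ D' ∧
        pot lam D - pot lam (D ⊔ U) + k * Real.log (l₁ * Real.exp lam / √k) ≤ pot lam D' - pot lam (D' ⊔ U))) := by
  have base : ∀ y ∈ lat (D ⊔ U), prj D (zc y) ≠ 0 → ∀ D', D' = nxt lam (D ⊔ qsp fun _ : Unit => y) →
      D < D' ⊓ (D ⊔ U) ∧ finrank ℚ D + 1 ≤ finrank ℚ D' ∧ pot lam (D' ⊔ U) ≤ pot lam U ∧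
      pot lam D - pot lam (D ⊔ U) ≤ pot lam D' - pot lam (D' ⊔ U) ∧
      pot lam (D' ⊓ (D ⊔ U)) - pot lam (D ⊔ U) ≤ pot lam D' - pot lam (D' ⊔ U) := by
    rintro y hy h0 _ rfl
    obtain ⟨h1, h2, h3⟩ := step_basic hl hy h0
    exact ⟨h1, Submodule.finrank_lt_finrank_of_lt (h1.trans_le inf_le_left), h2.trans hinv,
      (sub_le_sub_right (hD _ h1.le) _).trans h3, h3⟩
  by_cases hA : ∃ y ∈ lat (D ⊔ U), prj D (zc y) ≠ 0 ∧ ‖prj D (zc y)‖ ≤ l₁
  · obtain ⟨y, hy, h0, h1⟩ := hA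
    obtain ⟨-, h2, h3, h4, -⟩ := base y hy h0 _ rfl
    exact ⟨_, h2, h3, h4, Or.inl ⟨y, h1, rfl⟩⟩
  push Not at hA
  obtain ⟨a, ha⟩ := exists_isBas (lat D)
  obtain ⟨b, hb⟩ := exists_adapted (le_sup_left : D ≤ D ⊔ U) ha
  have c0 := one_pos.trans_le (one_le_cov D)
  have hle : finrank ℚ D ≤ finrank ℚ ↥(D ⊔ U) := Submodule.finrank_mono le_sup_left
  have hn : finrank ℚ ↥(D ⊔ U) ≤ Fintype.card ι :=
    (Submodule.finrank_le _).trans_eq (Module.finrank_fintype_fun_eq_card ℚ)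
  obtain ⟨l0, hnum⟩ := c1_num (j := finrank ℚ ↥(D ⊔ U) - finrank ℚ D) hε hK hl₂
    (by rw [Nat.cast_sub hle]; linarith) ((Nat.sub_le _ _).trans hn)
  obtain ⟨b1, b2, -⟩ := adapted_prj ha hb
  have hg : gvol (fun j => prj D (zc (b j))) ≤ K ^ Fintype.card ι := by
    have h1 := cov_submod D U
    have h2 := one_le_cov (D ⊓ U)
    have h3 := one_le_cov (D ⊔ U)
    refine le_trans (le_of_mul_le_mul_left ?_ c0) hU
    rw [← b1]
    nlinarith
  obtain ⟨c, hc, hcl⟩ := exists_short _ b2 l0 (by rw [Fintype.card_fin]; exact hg.trans_lt hnum)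
  obtain ⟨y, hy, h0, e⟩ := c1_comb ha hb hc
  obtain ⟨h1, h2, h3, h4, h5⟩ := base y hy h0 _ rfl
  refine ⟨_, h2, h3, h4, Or.inr ⟨⟨y, e ▸ hcl, rfl⟩, ?_⟩⟩
  generalize nxt lam (D ⊔ qsp fun _ : Unit => y) = D' at *
  have hlt := Submodule.finrank_lt_finrank_of_lt h1
  have hE : finrank ℚ ↥(D' ⊓ (D ⊔ U)) ≤ finrank ℚ D' := Submodule.finrank_mono inf_le_left
  obtain ⟨b', hb'⟩ := exists_adapted h1.le ha
  obtain ⟨d1, d2, -⟩ := adapted_prj ha hb'
  have hlong := le_gvol_of_long _ d2 hl₁ fun c hc => by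
    obtain ⟨y', hy', h0', e'⟩ := c1_comb ha hb' hc
    rw [← e']
    exact hA y' (mem_lat.2 (mem_lat.1 hy').2) h0'
  rw [Fintype.card_fin] at hlong
  obtain ⟨k, hk⟩ : ∃ k, finrank ℚ ↥(D' ⊓ (D ⊔ U)) - finrank ℚ D = k := ⟨_, rfl⟩
  have g0 := (gvol_pos_iff _).2 d2
  generalize (gvol fun j => prj D (zc (b' j))) = G at hlong g0 d1
  rw [hk] at hlong
  have k1 : 1 ≤ k := by omega
  have k2 : finrank ℚ ↥(D' ⊓ (D ⊔ U)) = finrank ℚ D + k := by omega
  refine ⟨k, k1, by omega, le_trans ?_ h5⟩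
  have s0 : 0 < √(k : ℝ) := Real.sqrt_pos.2 (by exact_mod_cast k1)
  have h6 := Real.log_le_log (by positivity) hlong
  rw [Real.log_pow] at h6
  have h7 : Real.log (l₁ * Real.exp lam / √k) = Real.log (l₁ / √k) + lam := by
    rw [mul_div_right_comm, Real.log_mul (by positivity) (Real.exp_pos _).ne', Real.log_exp]
  have h8 : pot lam (D' ⊓ (D ⊔ U)) =
      pot lam D + Real.log G + lam * k := by
    rw [pot, pot, d1, Real.log_mul c0.ne' g0.ne', k2]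
    push_cast
    ring
  rw [h7, h8]
  linarith

end

end Crest.Agent.R152
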