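import Crest.Agent.R152.C1

/-!
# R152/C2

Counting the states of the container algorithm.

Helper lemmas: prefix `c2_`.
-/

set_option autoImplicit false
set_option linter.unusedVariables false
set_option linter.unusedSectionVars false

namespace Crest.Agent.R152

open Crest.FinProb Crest.ProbabilityR.SignMatrix MeasureTheory ProbabilityTheory Filter Module
open scoped RealInnerProductSpace ENNReal Matrix Topology

noncomputable section

variable {ι : Type} [Fintype ι] [DecidableEq ι]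

open Classical in
/-- the reachable states -/
def c2_R {St : Type} (f₁ f₂ : St → Finset St) (s₀ : St) : ℕ → ℕ → Finset St
  | 0, _ => {s₀}
  | i + 1, 0 => c2_R f₁ f₂ s₀ i 0 ∪ (c2_R f₁ f₂ s₀ i 0).biUnion f₁
  | i + 1, j + 1 => c2_R f₁ f₂ s₀ i (j + 1) ∪ (c2_R f₁ f₂ s₀ i (j + 1)).biUnion f₁ ∪
      (c2_R f₁ f₂ s₀ i j).biUnion f₂

open Classical in
theorem c2_card {St : Type} {A : Finset St} {f : St → Finset St} {c N : ℝ} (hN : 0 ≤ N) (hA : (A.card : ℝ) ≤ c)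
    (hf : ∀ s ∈ A, ((f s).card : ℝ) ≤ N) : ((A.biUnion f).card : ℝ) ≤ c * N := by
  calc ((A.biUnion f).card : ℝ) ≤ ∑ s ∈ A, ((f s).card : ℝ) := by exact_mod_cast Finset.card_biUnion_le
    _ ≤ ∑ _s ∈ A, N := Finset.sum_le_sum hf
    _ = A.card * N := by rw [Finset.sum_const, nsmul_eq_mul]
    _ ≤ _ := mul_le_mul_of_nonneg_right hA hN

open Classical in
theorem c2_card_union {St : Type} (A B : Finset St) : ((A ∪ B).card : ℝ) ≤ A.card + B.card := by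
  exact_mod_cast Finset.card_union_le A B

theorem c2_R_spec {St : Type} (P : St → Prop) (f₁ f₂ : St → Finset St) {N₁ N₂ : ℝ} (hN₁ : 1 ≤ N₁) (hN₂ : 1 ≤ N₂)
    (h₁ : ∀ s, P s → ((f₁ s).card : ℝ) ≤ N₁ ∧ ∀ s' ∈ f₁ s, P s')
    (h₂ : ∀ s, P s → ((f₂ s).card : ℝ) ≤ N₂ ∧ ∀ s' ∈ f₂ s, P s') (s₀ : St) (h₀ : P s₀) (i : ℕ) :
    ∀ j, (∀ s ∈ c2_R f₁ f₂ s₀ i j, P s) ∧ ((c2_R f₁ f₂ s₀ i j).card : ℝ) ≤ 3 ^ i * N₁ ^ i * N₂ ^ j := by
  classical
  induction i with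
  | zero =>
    intro j
    simp only [c2_R, Finset.mem_singleton, forall_eq, Finset.card_singleton, Nat.cast_one, pow_zero, one_mul]
    exact ⟨h₀, one_le_pow₀ hN₂⟩
  | succ i ih =>
    intro j
    have hc : 0 ≤ (3 : ℝ) ^ i * N₁ ^ i * N₂ ^ j := by positivity
    have a1 := (ih j).2
    have a2 := c2_card (f := f₁) (by linarith) a1 fun s hs => (h₁ s ((ih j).1 s hs)).1
    have a3 := le_mul_of_one_le_right hc hN₁
    have e : (3 : ℝ) ^ (i + 1) * N₁ ^ (i + 1) * N₂ ^ j = 3 * (3 ^ i * N₁ ^ i * N₂ ^ j * N₁) := by ring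
    rw [e]
    cases j with
    | zero =>
      rw [c2_R]
      refine ⟨fun s hs => ?_, (c2_card_union _ _).trans (by linarith)⟩
      rcases Finset.mem_union.1 hs with hs | hs
      · exact (ih 0).1 s hs
      · obtain ⟨t, ht, hs⟩ := Finset.mem_biUnion.1 hs
        exact (h₁ t ((ih 0).1 t ht)).2 s hs
    | succ j =>
      rw [c2_R]
      have a4 := c2_card (f := f₂) (by linarith) (ih j).2 fun s hs => (h₂ s ((ih j).1 s hs)).1
      rw [mul_assoc _ _ N₂, ← pow_succ] at a4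
      refine ⟨fun s hs => ?_, (c2_card_union _ _).trans ?_⟩
      · rcases Finset.mem_union.1 hs with hs | hs
        · rcases Finset.mem_union.1 hs with hs | hs
          · exact (ih _).1 s hs
          · obtain ⟨t, ht, hs⟩ := Finset.mem_biUnion.1 hs
            exact (h₁ t ((ih _).1 t ht)).2 s hs
        · obtain ⟨t, ht, hs⟩ := Finset.mem_biUnion.1 hs
          exact (h₂ t ((ih _).1 t ht)).2 s hs
      · have := c2_card_union (c2_R f₁ f₂ s₀ i (j + 1)) ((c2_R f₁ f₂ s₀ i (j + 1)).biUnion f₁)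
        linarith

/-- `R (i+1) j = R i j ∪ n₁ (R i j) ∪ n₂ (R i (j-1))`. -/
theorem exists_reach {St : Type} (P : St → Prop) (n₁ n₂ : St → Set St) {N₁ N₂ : ℝ} (hN₁ : 1 ≤ N₁) (hN₂ : 1 ≤ N₂)
    (h₁ : ∀ s, P s → (n₁ s).Finite ∧ ((n₁ s).ncard : ℝ) ≤ N₁ ∧ ∀ s' ∈ n₁ s, P s')
    (h₂ : ∀ s, P s → (n₂ s).Finite ∧ ((n₂ s).ncard : ℝ) ≤ N₂ ∧ ∀ s' ∈ n₂ s, P s') (s₀ : St) (h₀ : P s₀) :
    ∃ R : ℕ → ℕ → Finset St, (∀ j, s₀ ∈ R 0 j) ∧ (∀ i j, ((R i j).card : ℝ) ≤ 3 ^ i * N₁ ^ i * N₂ ^ j) ∧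
      ∀ i j, ∀ s ∈ R i j, s ∈ R (i + 1) j ∧ (∀ s' ∈ n₁ s, s' ∈ R (i + 1) j) ∧ ∀ s' ∈ n₂ s, s' ∈ R (i + 1) (j + 1) := by
  classical
  obtain ⟨f₁, hf₁⟩ : ∃ f : St → Finset St, ∀ s, P s → (f s : Set St) = n₁ s :=
    ⟨fun s => if h : (n₁ s).Finite then h.toFinset else ∅, fun s hs => by
      simp only [dif_pos (h₁ s hs).1, Set.Finite.coe_toFinset]⟩
  obtain ⟨f₂, hf₂⟩ : ∃ f : St → Finset St, ∀ s, P s → (f s : Set St) = n₂ s :=
    ⟨fun s => if h : (n₂ s).Finite then h.toFinset else ∅, fun s hs => by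
      simp only [dif_pos (h₂ s hs).1, Set.Finite.coe_toFinset]⟩
  have key := c2_R_spec P f₁ f₂ hN₁ hN₂
    (fun s hs => ⟨by rw [← Set.ncard_coe_finset, hf₁ s hs]; exact (h₁ s hs).2.1,
      fun s' h => (h₁ s hs).2.2 s' (hf₁ s hs ▸ Finset.mem_coe.2 h)⟩)
    (fun s hs => ⟨by rw [← Set.ncard_coe_finset, hf₂ s hs]; exact (h₂ s hs).2.1,
      fun s' h => (h₂ s hs).2.2 s' (hf₂ s hs ▸ Finset.mem_coe.2 h)⟩) s₀ h₀
  refine ⟨c2_R f₁ f₂ s₀, fun j => by simp [c2_R], fun i j => (key i j).2, fun i j s hs => ?_⟩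
  have hP := (key i j).1 s hs
  refine ⟨?_, fun s' h => ?_, fun s' h => ?_⟩
  · cases j <;> simp only [c2_R, Finset.mem_union, hs, true_or]
  · have : s' ∈ (c2_R f₁ f₂ s₀ i j).biUnion f₁ :=
      Finset.mem_biUnion.2 ⟨s, hs, Finset.mem_coe.1 ((hf₁ s hP).symm ▸ h)⟩
    cases j <;> simp only [c2_R, Finset.mem_union, this, true_or, or_true]
  · have : s' ∈ (c2_R f₁ f₂ s₀ i j).biUnion f₂ :=
      Finset.mem_biUnion.2 ⟨s, hs, Finset.mem_coe.1 ((hf₂ s hP).symm ▸ h)⟩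
    simp only [c2_R, Finset.mem_union, this, or_true]

theorem c2_succs {lam l N : ℝ} (hl : 0 ≤ lam)
    (H : ∀ L : AddSubgroup (Euc ι), Stable L (Real.exp (-lam)) → ∀ S : Finset (Euc ι),
      (∀ y ∈ S, y ∈ L ∧ ‖y‖ ≤ l) → (S.card : ℝ) ≤ N) (D : Submodule ℚ (ι → ℚ)) (hD : IsMinP lam D) :
    (succs lam l D).Finite ∧ ((succs lam l D).ncard : ℝ) ≤ N ∧ ∀ D' ∈ succs lam l D, IsMinP lam D' := by
  obtain ⟨a, b⟩ := ncard_succs lam l D (H _ hD.stable)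
  refine ⟨a, b, ?_⟩
  rintro _ ⟨y, -, rfl⟩
  exact (nxt_spec hl _).2.2

theorem c2_finrank_le (W : Submodule ℚ (ι → ℚ)) : finrank ℚ W ≤ Fintype.card ι :=
  W.finrank_le.trans (Module.finrank_fintype_fun_eq_card ℚ).le

/-- `𝓕 = R n b`.  Induction on `i`: there are `D`, `j` with `D ∈ R i (j + x)` for all `x`, `IsMinP D`, `pot (D ⊔ U) ≤ pot U`,
`j ≤ (pot D - pot (D ⊔ U) + pot U)/g + finrank D / k₁`, and either finished or `i ≤ finrank D`.  At `i = n`, `finrank D = n` also means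
finished.  `pot D ≤ pot (D ⊔ U)` and `pot U ≤ n (log K + lam)` give `j ≤ b`. -/
theorem cheap_quant {lam ε K l₁ l₂ N₁ N₂ g k₁ : ℝ} (hl : 0 ≤ lam) (hε : 0 < ε) (hK : 1 ≤ K) (hl₁ : 0 < l₁)
    (hl₂ : 2 * √(Fintype.card ι) * K ^ (1 / ε) ≤ l₂) (hN₁ : 1 ≤ N₁) (hN₂ : 1 ≤ N₂) (hg : 0 < g) (hk₁ : 0 < k₁)
    (H₁ : ∀ L : AddSubgroup (Euc ι), Stable L (Real.exp (-lam)) → ∀ S : Finset (Euc ι),
      (∀ y ∈ S, y ∈ L ∧ ‖y‖ ≤ l₁) → (S.card : ℝ) ≤ N₁)
    (H₂ : ∀ L : AddSubgroup (Euc ι), Stable L (Real.exp (-lam)) → ∀ S : Finset (Euc ι),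
      (∀ y ∈ S, y ∈ L ∧ ‖y‖ ≤ l₂) → (S.card : ℝ) ≤ N₂)
    (hgain : ∀ k : ℕ, 1 ≤ k → g ≤ k * Real.log (l₁ * Real.exp lam / √k) ∨ k₁ ≤ k) (b : ℕ)
    (hb : Fintype.card ι * (Real.log K + lam) / g + Fintype.card ι / k₁ ≤ b) :
    ∃ F : Finset (Submodule ℚ (ι → ℚ)), (F.card : ℝ) ≤ 3 ^ Fintype.card ι * N₁ ^ Fintype.card ι * N₂ ^ b ∧
      ∀ U, cov U ≤ K ^ Fintype.card ι → ∃ D ∈ F, (finrank ℚ ↥(D ⊔ U) : ℝ) ≤ finrank ℚ D + ε * Fintype.card ι ∧
        pot lam (D ⊔ U) ≤ pot lam U ∧ pot lam D ≤ pot lam (D ⊔ U) := by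
  obtain ⟨R, R0, Rc, Rs⟩ := exists_reach (IsMinP (ι := ι) lam) (succs lam l₁) (succs lam l₂) hN₁ hN₂
    (c2_succs hl H₁) (c2_succs hl H₂) ⊥ (isMinP_bot hl)
  refine ⟨R (Fintype.card ι) b, Rc _ _, fun U hU => ?_⟩
  have key : ∀ i : ℕ, ∃ (D : Submodule ℚ (ι → ℚ)) (j : ℕ), (∀ x, D ∈ R i (j + x)) ∧ IsMinP lam D ∧
      pot lam (D ⊔ U) ≤ pot lam U ∧
      (j : ℝ) ≤ (pot lam D - pot lam (D ⊔ U) + pot lam U) / g + finrank ℚ D / k₁ ∧
      ((finrank ℚ ↥(D ⊔ U) : ℝ) ≤ finrank ℚ D + ε * Fintype.card ι ∨ i ≤ finrank ℚ D) := by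
    intro i
    induction i with
    | zero =>
      refine ⟨⊥, 0, fun x => R0 _, isMinP_bot hl, by rw [bot_sup_eq], ?_, Or.inr (Nat.zero_le _)⟩
      rw [bot_sup_eq, sub_add_cancel, pot, cov_bot]
      simp
    | succ i ih =>
      obtain ⟨D, j, d1, d2, d3, d4, d5⟩ := ih
      by_cases hf : (finrank ℚ ↥(D ⊔ U) : ℝ) ≤ finrank ℚ D + ε * Fintype.card ι
      · exact ⟨D, j, fun x => (Rs _ _ _ (d1 x)).1, d2, d3, d4, Or.inl hf⟩
      have d6 := d5.resolve_left hf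
      obtain ⟨D', e1, e2, e3, e4⟩ := step_exists hl hε hK hl₁ hl₂ d2 hU d3 (not_le.1 hf)
      have m1 : (pot lam D - pot lam (D ⊔ U) + pot lam U) / g ≤
          (pot lam D' - pot lam (D' ⊔ U) + pot lam U) / g :=
        div_le_div_of_nonneg_right (by linarith) hg.le
      have m2 : (finrank ℚ D : ℝ) / k₁ ≤ finrank ℚ D' / k₁ :=
        div_le_div_of_nonneg_right (by exact_mod_cast (by omega : finrank ℚ D ≤ finrank ℚ D')) hk₁.le
      rcases e4 with e4 | ⟨e4, k, k1, k2, k3⟩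
      · exact ⟨D', j, fun x => (Rs _ _ _ (d1 x)).2.1 _ e4, (c2_succs hl H₁ D d2).2.2 _ e4, e2, by linarith,
          Or.inr (by omega)⟩
      · refine ⟨D', j + 1, fun x => ?_, (c2_succs hl H₂ D d2).2.2 _ e4, e2, ?_, Or.inr (by omega)⟩
        · rw [Nat.add_right_comm]
          exact (Rs _ _ _ (d1 x)).2.2 _ e4
        · push_cast
          rcases hgain k k1 with h | h
          · have m3 : (pot lam D - pot lam (D ⊔ U) + pot lam U) / g + 1 ≤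
                (pot lam D' - pot lam (D' ⊔ U) + pot lam U) / g := by
              rw [div_add_one hg.ne']
              exact div_le_div_of_nonneg_right (by linarith) hg.le
            linarith
          · have m3 : (finrank ℚ D : ℝ) / k₁ + 1 ≤ finrank ℚ D' / k₁ := by
              rw [div_add_one hk₁.ne']
              have : (finrank ℚ D : ℝ) + k ≤ finrank ℚ D' := by exact_mod_cast k2
              exact div_le_div_of_nonneg_right (by linarith) hk₁.le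
            linarith
  obtain ⟨D, j, d1, d2, d3, d4, d5⟩ := key (Fintype.card ι)
  have d6 : pot lam D ≤ pot lam (D ⊔ U) := d2 _ le_sup_left
  have hj : j ≤ b := by
    have a1 : Real.log (cov U) ≤ Fintype.card ι * Real.log K := by
      rw [← Real.log_pow]
      exact Real.log_le_log (by linarith [one_le_cov U]) hU
    have a2 : (finrank ℚ U : ℝ) ≤ Fintype.card ι := by exact_mod_cast c2_finrank_le U
    have a3 : (finrank ℚ D : ℝ) ≤ Fintype.card ι := by exact_mod_cast c2_finrank_le D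
    have a4 : pot lam U ≤ Fintype.card ι * (Real.log K + lam) := by
      rw [pot]; nlinarith
    have a5 : (pot lam D - pot lam (D ⊔ U) + pot lam U) / g ≤ Fintype.card ι * (Real.log K + lam) / g :=
      div_le_div_of_nonneg_right (by linarith) hg.le
    have a6 := div_le_div_of_nonneg_right a3 hk₁.le
    exact_mod_cast (show (j : ℝ) ≤ b by linarith)
  obtain ⟨x, rfl⟩ := Nat.exists_eq_add_of_le hj
  refine ⟨D, d1 x, ?_, d3, d6⟩
  rcases d5 with d5 | d5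
  · exact d5
  · have a1 : (finrank ℚ ↥(D ⊔ U) : ℝ) ≤ finrank ℚ D := by exact_mod_cast (c2_finrank_le _).trans d5
    have a2 : 0 ≤ ε * Fintype.card ι := by positivity
    linarith

end

end Crest.Agent.R152
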