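import Crest.Agent.R152.Defs
import Crest.Agent.Lib.Prekopa.Basic
import Crest.Agent.R285.Gauss

/-!
# R152/KUry

Gaussian Urysohn inequality (Tsirelson / McMullen) and a measurable selection.
`Crest.Agent.R285.gam_eq` is the density of the Gaussian; `pl_euclidean` in `Lib/Prekopa/Basic.lean` is midpoint Prékopa-Leindler.

Helper lemmas: prefix `kury_`.
-/

set_option autoImplicit false
set_option linter.unusedVariables false
set_option linter.unusedSectionVars false

namespace Crest.Agent.R152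

open Crest.FinProb Crest.ProbabilityR.SignMatrix MeasureTheory ProbabilityTheory Filter Module
open scoped RealInnerProductSpace ENNReal Matrix Topology

noncomputable section

variable {m : ℕ}

open scoped Pointwise

theorem kury_bdd {K : Set (Euc (Fin m))} {R : ℝ} (hR : ∀ w ∈ K, ‖w‖ ≤ R) (x : Euc (Fin m)) :
    BddAbove (Set.range fun w : K => ⟪(w : Euc (Fin m)), x⟫) := by
  refine ⟨R * ‖x‖, ?_⟩
  rintro _ ⟨w, rfl⟩
  exact (real_inner_le_norm _ _).trans (mul_le_mul_of_nonneg_right (hR w w.2) (norm_nonneg _))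

theorem kury_le {K : Set (Euc (Fin m))} {R : ℝ} (hR : ∀ w ∈ K, ‖w‖ ≤ R) (x : Euc (Fin m))
    {w : Euc (Fin m)} (hw : w ∈ K) : ⟪w, x⟫ ≤ supp K x :=
  le_ciSup (kury_bdd hR x) ⟨w, hw⟩

theorem kury_bound {K : Set (Euc (Fin m))} (hK : IsCompact K) : ∃ R : ℝ, 0 ≤ R ∧ ∀ w ∈ K, ‖w‖ ≤ R := by
  obtain ⟨R, hR⟩ := hK.isBounded.exists_norm_le
  exact ⟨max R 0, le_max_right _ _, fun w hw => (hR w hw).trans (le_max_left _ _)⟩

theorem kury_attain {K : Set (Euc (Fin m))} (hK : IsCompact K) (hne : K.Nonempty) (x : Euc (Fin m)) :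
    ∃ w ∈ K, supp K x = ⟪w, x⟫ := by
  obtain ⟨R, -, hR⟩ := kury_bound hK
  obtain ⟨w, hw, hmax⟩ := hK.exists_isMaxOn hne
    (f := fun w : Euc (Fin m) => ⟪w, x⟫) (Continuous.continuousOn (by fun_prop))
  refine ⟨w, hw, le_antisymm ?_ (kury_le hR x hw)⟩
  have : Nonempty K := hne.to_subtype
  exact ciSup_le fun v => hmax v.2

theorem supp_continuous {K : Set (Euc (Fin m))} (hK : IsCompact K) (hne : K.Nonempty) : Continuous (supp K) := by
  obtain ⟨R, hR0, hR⟩ := kury_bound hK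
  have key : ∀ x y, supp K x ≤ supp K y + R * dist x y := by
    intro x y
    obtain ⟨w, hw, e⟩ := kury_attain hK hne x
    have h1 := kury_le hR y hw
    have h2 : ⟪w, x - y⟫ ≤ R * dist x y := by
      rw [dist_eq_norm]
      exact (real_inner_le_norm _ _).trans (mul_le_mul_of_nonneg_right (hR w hw) (norm_nonneg _))
    rw [inner_sub_right] at h2
    linarith
  exact (LipschitzWith.of_le_add_mul ⟨R, hR0⟩ key).continuous

theorem abs_supp_le {K : Set (Euc (Fin m))} (hne : K.Nonempty) {R : ℝ} (hR : ∀ w ∈ K, ‖w‖ ≤ R) (x : Euc (Fin m)) :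
    |supp K x| ≤ R * ‖x‖ := by
  have : Nonempty K := hne.to_subtype
  have h : ∀ w ∈ K, |⟪w, x⟫| ≤ R * ‖x‖ := fun w hw =>
    (abs_real_inner_le_norm _ _).trans (mul_le_mul_of_nonneg_right (hR w hw) (norm_nonneg _))
  rw [abs_le]
  constructor
  · obtain ⟨w, hw⟩ := hne
    exact (abs_le.1 (h w hw)).1.trans (kury_le hR x hw)
  · exact ciSup_le fun w => (abs_le.1 (h w w.2)).2

theorem kury_exp_le (u : ℝ) : Real.exp u ≤ 1 + u + u ^ 2 * Real.exp |u| := by
  have h1 : Real.exp u * (1 - u) ≤ 1 := by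
    have h := Real.add_one_le_exp (-u)
    have h2 : Real.exp u * Real.exp (-u) = 1 := by rw [← Real.exp_add]; simp
    nlinarith [Real.exp_pos u]
  have h3 := Real.add_one_le_exp u
  rcases le_total 0 u with h | h
  · rw [abs_of_nonneg h]
    nlinarith [Real.exp_pos u, mul_le_mul_of_nonneg_left h1 h]
  · have h4 : 1 ≤ Real.exp |u| := Real.one_le_exp (abs_nonneg u)
    nlinarith [sq_nonneg u, mul_le_mul_of_nonneg_left h3 (neg_nonneg.2 h)]

theorem kury_int_exp (R : ℝ) : Integrable (fun x : Euc (Fin m) => Real.exp (R * ‖x‖)) (gam m) := by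
  obtain ⟨C, hC, hi⟩ := IsGaussian.exists_integrable_exp_sq (gam m)
  refine (hi.mul_const (Real.exp (R ^ 2 / (4 * C)))).mono' (Continuous.aestronglyMeasurable (by fun_prop))
    (ae_of_all _ fun x => ?_)
  rw [Real.norm_of_nonneg (Real.exp_pos _).le, ← Real.exp_add]
  apply Real.exp_le_exp.2
  have h : R ^ 2 / (4 * C) = C * (R / (2 * C)) ^ 2 := by field_simp; ring
  have h2 : R * ‖x‖ = 2 * C * (R / (2 * C)) * ‖x‖ := by field_simp
  rw [h, h2]
  nlinarith [mul_nonneg hC.le (sq_nonneg (‖x‖ - R / (2 * C)))]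

theorem kury_int_supp {K : Set (Euc (Fin m))} (hK : IsCompact K) (hne : K.Nonempty) :
    Integrable (supp K) (gam m) := by
  obtain ⟨R, -, hR⟩ := kury_bound hK
  exact ((R285.integrable_norm_gam (d := m)).const_mul R).mono' (supp_continuous hK hne).aestronglyMeasurable
    (ae_of_all _ fun x => abs_supp_le hne hR x)

/-- second order bound for the exponential moment of the support function -/
theorem kury_mgf {K : Set (Euc (Fin m))} (hK : IsCompact K) (hne : K.Nonempty) :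
    ∃ C : ℝ, ∀ ε : ℝ, 0 ≤ ε → ε ≤ 1 → Integrable (fun x => Real.exp (ε * supp K x)) (gam m) ∧
      ∫ x, Real.exp (ε * supp K x) ∂gam m ≤ Real.exp (ε * ∫ x, supp K x ∂gam m + C * ε ^ 2) := by
  obtain ⟨R, hR0, hR⟩ := kury_bound hK
  have hc := supp_continuous hK hne
  have hi := kury_int_exp (m := m) (3 * R)
  refine ⟨∫ x, Real.exp (3 * R * ‖x‖) ∂gam m, fun ε h0 h1 => ?_⟩
  have hb : ∀ x, |ε * supp K x| ≤ R * ‖x‖ := by
    intro x
    rw [abs_mul, abs_of_nonneg h0]
    have := abs_supp_le hne hR x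
    nlinarith [abs_nonneg (supp K x)]
  have hI : Integrable (fun x => Real.exp (ε * supp K x)) (gam m) :=
    (kury_int_exp R).mono' (Continuous.aestronglyMeasurable (by fun_prop)) (ae_of_all _ fun x => by
      rw [Real.norm_of_nonneg (Real.exp_pos _).le]
      exact Real.exp_le_exp.2 ((le_abs_self _).trans (hb x)))
  refine ⟨hI, ?_⟩
  have hs := kury_int_supp hK hne
  have hpt : ∀ x, Real.exp (ε * supp K x) ≤ 1 + ε * supp K x + ε ^ 2 * Real.exp (3 * R * ‖x‖) := by
    intro x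
    refine (kury_exp_le _).trans ?_
    have h2 : (supp K x) ^ 2 ≤ Real.exp (2 * (R * ‖x‖)) := by
      have h3 := abs_supp_le hne hR x
      have h4 := Real.add_one_le_exp (R * ‖x‖)
      rw [← sq_abs, two_mul, Real.exp_add, ← sq]
      exact pow_le_pow_left₀ (abs_nonneg _) (by linarith) 2
    have h5 : Real.exp |ε * supp K x| ≤ Real.exp (R * ‖x‖) := Real.exp_le_exp.2 (hb x)
    have h6 : (supp K x) ^ 2 * Real.exp |ε * supp K x| ≤ Real.exp (3 * R * ‖x‖) := by
      calc _ ≤ Real.exp (2 * (R * ‖x‖)) * Real.exp (R * ‖x‖) :=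
            mul_le_mul h2 h5 (Real.exp_pos _).le (Real.exp_pos _).le
        _ = _ := by rw [← Real.exp_add]; congr 1; ring
    have h7 := mul_le_mul_of_nonneg_left h6 (sq_nonneg ε)
    rw [mul_pow]
    nlinarith
  calc _ ≤ ∫ x, (1 + ε * supp K x + ε ^ 2 * Real.exp (3 * R * ‖x‖)) ∂gam m :=
        integral_mono hI (((integrable_const _).add (hs.const_mul ε)).add (hi.const_mul _)) hpt
    _ = 1 + ε * ∫ x, supp K x ∂gam m + ε ^ 2 * ∫ x, Real.exp (3 * R * ‖x‖) ∂gam m := by
        have h8 : Integrable (fun x => 1 + ε * supp K x) (gam m) := (integrable_const _).add (hs.const_mul ε)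
        rw [integral_add h8 (hi.const_mul _),
          integral_add (integrable_const _) (hs.const_mul ε), integral_const_mul, integral_const_mul]
        simp
    _ ≤ _ := by
        have := Real.add_one_le_exp (ε * ∫ x, supp K x ∂gam m + (∫ x, Real.exp (3 * R * ‖x‖) ∂gam m) * ε ^ 2)
        linarith

/-- the Wills functional -/
def kury_W (K : Set (Euc (Fin m))) (s : ℝ) : ℝ≥0∞ :=
  ∫⁻ x, ENNReal.ofReal (Real.exp (-(Metric.infDist x (s • K)) ^ 2 / 2))

theorem kury_meas (K : Set (Euc (Fin m))) :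
    Measurable fun x : Euc (Fin m) => ENNReal.ofReal (Real.exp (-(Metric.infDist x K) ^ 2 / 2)) := by
  have := Metric.continuous_infDist_pt K
  exact ENNReal.measurable_ofReal.comp (Continuous.measurable (by fun_prop))

theorem kury_Z : ∫⁻ x : Euc (Fin m), ENNReal.ofReal (Real.exp (-‖x‖ ^ 2 / 2)) =
    ENNReal.ofReal (√(2 * Real.pi) ^ m) := by
  have hpi := Real.pi_pos
  have hZ : 0 < √(2 * Real.pi) ^ m := by positivity
  have h := R285.gauss_int (d := m) one_pos
  have e : (fun z : Euc (Fin m) => Real.exp (-(1 / 2) * ‖z‖ ^ 2)) = fun z => Real.exp (-‖z‖ ^ 2 / 2) := by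
    funext z; congr 1; ring
  rw [div_one, e] at h
  rw [← h, ofReal_integral_eq_lintegral_ofReal _ (ae_of_all _ fun x => (Real.exp_pos _).le)]
  by_contra hi
  rw [integral_undef hi] at h
  exact hZ.ne h

theorem kury_half {K : Set (Euc (Fin m))} (hK : IsCompact K) (hne : K.Nonempty) (s : ℝ) :
    ENNReal.ofReal (√(2 * Real.pi) ^ m) * kury_W K s ≤ kury_W K (s / 2) ^ 2 := by
  rw [← kury_Z]
  refine Lib.Prekopa.pl_euclidean (ENNReal.measurable_ofReal.comp (Continuous.measurable (by fun_prop)))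
    (kury_meas _) (kury_meas _) fun x y => ?_
  rw [← ENNReal.ofReal_mul (Real.exp_pos _).le, ← ENNReal.ofReal_pow (Real.exp_pos _).le, ← Real.exp_add,
    ← Real.exp_nat_mul]
  refine ENNReal.ofReal_le_ofReal (Real.exp_le_exp.2 ?_)
  obtain ⟨_, ⟨w, hw, rfl⟩, e⟩ := (hK.smul s).exists_infDist_eq_dist (hne.smul_set) y
  have h1 : Metric.infDist ((1 / 2 : ℝ) • x + (1 / 2 : ℝ) • y) ((s / 2) • K) ≤
      dist ((1 / 2 : ℝ) • x + (1 / 2 : ℝ) • y) ((s / 2) • w) :=
    Metric.infDist_le_dist_of_mem (Set.smul_mem_smul_set hw)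
  have h2 : dist ((1 / 2 : ℝ) • x + (1 / 2 : ℝ) • y) ((s / 2) • w) ≤ (‖x‖ + dist y (s • w)) / 2 := by
    have : (1 / 2 : ℝ) • x + (1 / 2 : ℝ) • y - (s / 2) • w = (1 / 2 : ℝ) • (x + (y - s • w)) := by
      module
    rw [dist_eq_norm, dist_eq_norm, this, norm_smul, Real.norm_of_nonneg (by norm_num)]
    have := norm_add_le x (y - s • w)
    linarith
  have h3 := pow_le_pow_left₀ Metric.infDist_nonneg (h1.trans h2) 2
  rw [e]
  push_cast
  nlinarith [sq_nonneg (‖x‖ - dist y (s • w))]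

theorem kury_W_le {K : Set (Euc (Fin m))} (hK : IsCompact K) (hne : K.Nonempty) {ε : ℝ} (h0 : 0 ≤ ε)
    (hI : Integrable (fun x => Real.exp (ε * supp K x)) (gam m)) :
    kury_W K ε ≤ ENNReal.ofReal (√(2 * Real.pi) ^ m) * ENNReal.ofReal (∫ x, Real.exp (ε * supp K x) ∂gam m) := by
  have hpi := Real.pi_pos
  have hZ : 0 < √(2 * Real.pi) ^ m := by positivity
  obtain ⟨R, -, hR⟩ := kury_bound hK
  have hc := supp_continuous hK hne
  have hg := R285.continuous_gdens (d := m)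
  rw [ofReal_integral_eq_lintegral_ofReal hI (ae_of_all _ fun x => (Real.exp_pos _).le)]
  have hge : gam m = volume.withDensity fun z => ENNReal.ofReal (R285.gdens z) := R285.gam_eq m
  have m1 : Measurable fun z : Euc (Fin m) => ENNReal.ofReal (R285.gdens z) :=
    ENNReal.measurable_ofReal.comp hg.measurable
  have m2 : Measurable fun x : Euc (Fin m) => ENNReal.ofReal (Real.exp (ε * supp K x)) :=
    ENNReal.measurable_ofReal.comp (Continuous.measurable (by fun_prop))
  rw [hge, lintegral_withDensity_eq_lintegral_mul _ m1 m2,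
    ← lintegral_const_mul' _ _ ENNReal.ofReal_ne_top]
  refine lintegral_mono fun x => ?_
  simp only [Pi.mul_apply]
  rw [← ENNReal.ofReal_mul (R285.gdens_pos x).le, ← ENNReal.ofReal_mul hZ.le]
  refine ENNReal.ofReal_le_ofReal ?_
  have e1 : √(2 * Real.pi) ^ m * (R285.gdens x * Real.exp (ε * supp K x)) =
      Real.exp (-‖x‖ ^ 2 / 2 + ε * supp K x) := by
    unfold R285.gdens
    rw [Real.exp_add, inv_pow]
    field_simp
  rw [e1]
  apply Real.exp_le_exp.2
  obtain ⟨_, ⟨w, hw, rfl⟩, e⟩ := (hK.smul ε).exists_infDist_eq_dist (hne.smul_set) x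
  rw [e, dist_eq_norm, norm_sub_sq_real, inner_smul_right, real_inner_comm]
  have h1 := mul_le_mul_of_nonneg_left (kury_le hR x hw) h0
  nlinarith [sq_nonneg ‖ε • w‖]

theorem kury_iter {K : Set (Euc (Fin m))} (hK : IsCompact K) (hne : K.Nonempty) (j : ℕ) :
    ∀ (s : ℝ) (B : ℝ≥0∞), kury_W K (s / 2 ^ j) ≤ ENNReal.ofReal (√(2 * Real.pi) ^ m) * B →
      kury_W K s ≤ ENNReal.ofReal (√(2 * Real.pi) ^ m) * B ^ (2 ^ j) := by
  have hpi := Real.pi_pos
  have hZ : 0 < √(2 * Real.pi) ^ m := by positivity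
  induction j with
  | zero => intro s B h; simpa using h
  | succ j ih =>
    intro s B h
    have e : s / 2 ^ (j + 1) = s / 2 / 2 ^ j := by rw [pow_succ]; field_simp
    rw [e] at h
    have h1 := (kury_half hK hne s).trans (pow_le_pow_left' (ih _ _ h) 2)
    rw [mul_pow, ← pow_mul, ← pow_succ, sq, mul_assoc] at h1
    exact (ENNReal.mul_le_mul_iff_right (ENNReal.ofReal_pos.2 hZ).ne' ENNReal.ofReal_ne_top).1 h1

theorem kury_vol {K : Set (Euc (Fin m))} (hK : IsCompact K) {t : ℝ} (ht : 0 < t) :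
    ENNReal.ofReal (t ^ m) * volume K ≤ kury_W K t := by
  have h := Measure.addHaar_smul_of_nonneg (volume : Measure (Euc (Fin m))) ht.le K
  rw [finrank_euclideanSpace_fin] at h
  rw [← h, ← lintegral_indicator_one (hK.smul t).measurableSet]
  refine lintegral_mono fun x => ?_
  by_cases hx : x ∈ t • K
  · simp [Set.indicator_of_mem hx, Metric.infDist_zero_of_mem hx]
  · simp [Set.indicator_of_notMem hx]

/-- `W s = ∫ exp (-(infDist x (s • K))² / 2) dx`.  Since `K` is convex, `infDist ((x+y)/2) ((s/2) • K) ≤ (‖x‖ + infDist y (s • K))/2`,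
so midpoint Prékopa-Leindler gives `W 0 * W s ≤ W (s/2)²`, `W 0 = √(2π)^m`; hence `W t / W 0 ≤ (W (t/2^j) / W 0)^(2^j)`.
Also `-(infDist x (ε K))²/2 ≤ -‖x‖²/2 + ε supp K x`, so `W ε / W 0 ≤ ∫ exp (ε supp K x) dγ ≤ 1 + ε ∫ supp K + C ε²` for
`ε ≤ 1` (`e^u ≤ 1 + u + u² e^{|u|}`, Gaussian integrability of `‖x‖² exp (R ‖x‖)`).  Let `j → ∞`; `W t ≥ vol (t • K)`. -/
theorem urysohn_gauss {K : Set (Euc (Fin m))} (hK : IsCompact K) (hc : Convex ℝ K) (hne : K.Nonempty) {t : ℝ}
    (ht : 0 < t) : t ^ m * (volume K).toReal ≤ √(2 * Real.pi) ^ m * Real.exp (t * ∫ x, supp K x ∂gam m) := by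
  have hpi := Real.pi_pos
  have hZ : 0 < √(2 * Real.pi) ^ m := by positivity
  obtain ⟨C, hC⟩ := kury_mgf hK hne
  set I := ∫ x, supp K x ∂gam m with hI
  have key : ∀ j : ℕ, t / 2 ^ j ≤ 1 →
      t ^ m * (volume K).toReal ≤ √(2 * Real.pi) ^ m * Real.exp (t * I + C * t ^ 2 * (1 / 2) ^ j) := by
    intro j hj
    have h0 : 0 ≤ t / 2 ^ j := by positivity
    obtain ⟨h1, h2⟩ := hC _ h0 hj
    have h3 := (kury_W_le hK hne h0 h1).trans (mul_le_mul_right (ENNReal.ofReal_le_ofReal h2) _)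
    have h4 := (kury_vol hK ht).trans (kury_iter hK hne j t _ h3)
    rw [← ENNReal.ofReal_pow (Real.exp_pos _).le, ← ENNReal.ofReal_mul hZ.le, ← Real.exp_nat_mul] at h4
    have h5 := ENNReal.toReal_mono ENNReal.ofReal_ne_top h4
    rw [ENNReal.toReal_mul, ENNReal.toReal_ofReal (by positivity), ENNReal.toReal_ofReal (by positivity)] at h5
    refine h5.trans (le_of_eq ?_)
    congr 2
    push_cast
    rw [one_div, inv_pow]
    field_simp
  have hlim : Tendsto (fun j : ℕ => (1 / 2 : ℝ) ^ j) atTop (𝓝 0) :=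
    tendsto_pow_atTop_nhds_zero_of_lt_one (by norm_num) (by norm_num)
  have h1 : Tendsto (fun j : ℕ => √(2 * Real.pi) ^ m * Real.exp (t * I + C * t ^ 2 * (1 / 2) ^ j)) atTop
      (𝓝 (√(2 * Real.pi) ^ m * Real.exp (t * I + C * t ^ 2 * 0))) :=
    ((Real.continuous_exp.tendsto _).comp ((hlim.const_mul _).const_add _)).const_mul _
  rw [mul_zero, add_zero] at h1
  refine ge_of_tendsto h1 ?_
  have h2 : Tendsto (fun j : ℕ => t * (1 / 2 : ℝ) ^ j) atTop (𝓝 (t * 0)) := hlim.const_mul t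
  rw [mul_zero] at h2
  filter_upwards [h2.eventually (Iio_mem_nhds one_pos)] with j hj
  refine key j ?_
  rw [one_div, inv_pow, ← div_eq_mul_inv] at hj
  exact le_of_lt hj

/-- Take a finite `η'`-net `w 0, …, w k` of `K` inside `K`, and let `f x` be the first `w i` maximising `⟪w i, x⟫`;
`⟪f x, x⟫ ≥ supp K x - η' ‖x‖`. -/
theorem exists_select {K : Set (Euc (Fin m))} (hK : IsCompact K) (hne : K.Nonempty) {η : ℝ} (hη : 0 < η) :
    ∃ f : Euc (Fin m) → Euc (Fin m), Measurable f ∧ (∀ x, f x ∈ K) ∧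
      ∫ x, supp K x ∂gam m ≤ ∫ x, ⟪f x, x⟫ ∂gam m + η := by
  classical
  obtain ⟨R, hR0, hR⟩ := kury_bound hK
  have hc := supp_continuous hK hne
  have hn := R285.integrable_norm_gam (d := m)
  set A := ∫ x, ‖x‖ ∂gam m with hA
  have hA0 : 0 ≤ A := integral_nonneg fun x => norm_nonneg _
  set δ := η / (A + 1) with hδ
  have hδ0 : 0 < δ := by positivity
  obtain ⟨T, hTK, hTf, hcov⟩ := Metric.finite_approx_of_totallyBounded hK.totallyBounded δ hδ0
  have hTne : T.Nonempty := by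
    obtain ⟨w, hw⟩ := hne
    obtain ⟨y, hy, -⟩ := Set.mem_iUnion₂.1 (hcov hw)
    exact ⟨y, hy⟩
  obtain ⟨w, hw⟩ := hTf.countable.exists_eq_range hTne
  have hwK : ∀ n, w n ∈ K := fun n => hTK (hw ▸ Set.mem_range_self n)
  have hex : ∀ x, ∃ n, supp K x ≤ ⟪w n, x⟫ + δ * ‖x‖ := by
    intro x
    obtain ⟨v, hv, e⟩ := kury_attain hK hne x
    obtain ⟨y, hy, hvy⟩ := Set.mem_iUnion₂.1 (hcov hv)
    rw [hw] at hy
    obtain ⟨n, rfl⟩ := hy
    refine ⟨n, ?_⟩
    have h2 : ⟪v - w n, x⟫ ≤ δ * ‖x‖ := by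
      refine (real_inner_le_norm _ _).trans (mul_le_mul_of_nonneg_right ?_ (norm_nonneg _))
      rw [← dist_eq_norm]
      exact (Metric.mem_ball.1 hvy).le
    rw [inner_sub_left] at h2
    linarith
  have hm : Measurable fun x => w (Nat.find (hex x)) :=
    (measurable_from_nat (f := w)).comp (measurable_find hex fun k =>
      (isClosed_le hc (by fun_prop)).measurableSet)
  refine ⟨fun x => w (Nat.find (hex x)), hm, fun x => hwK _, ?_⟩
  have hi : Integrable (fun x => ⟪w (Nat.find (hex x)), x⟫) (gam m) :=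
    (hn.const_mul R).mono' (Measurable.aestronglyMeasurable (hm.inner measurable_id)) (ae_of_all _ fun x =>
      (abs_real_inner_le_norm _ _).trans (mul_le_mul_of_nonneg_right (hR _ (hwK _)) (norm_nonneg _)))
  calc _ ≤ ∫ x, (⟪w (Nat.find (hex x)), x⟫ + δ * ‖x‖) ∂gam m :=
        integral_mono (kury_int_supp hK hne) (hi.add (hn.const_mul δ)) fun x => Nat.find_spec (hex x)
    _ = ∫ x, ⟪w (Nat.find (hex x)), x⟫ ∂gam m + δ * A := by
        rw [integral_add hi (hn.const_mul δ), integral_const_mul]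
    _ ≤ _ := by
        have : δ * (A + 1) = η := by rw [hδ]; field_simp
        nlinarith

end

end Crest.Agent.R152
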