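import Crest.Agent.R152.RVor
import Crest.Agent.R152.G2

/-!
# R152/RVar

The variational step: one small move in the direction opposite to a good position.

Helper lemmas: prefix `rvar_`.
-/

set_option autoImplicit false
set_option linter.unusedVariables false
set_option linter.unusedSectionVars false

namespace Crest.Agent.R152

open Crest.FinProb Crest.ProbabilityR.SignMatrix MeasureTheory ProbabilityTheory Filter Module
open scoped RealInnerProductSpace ENNReal Matrix Topology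

noncomputable section

variable {m : ℕ}

theorem diagOp_apply (e : OrthonormalBasis (Fin m) ℝ (Euc (Fin m))) (d : Fin m → ℝ) (x : Euc (Fin m)) :
    diagOp e d x = ∑ i, (d i * ⟪e i, x⟫) • e i := by
  simp [diagOp, smul_smul]

theorem rvar_inner_diagOp (e : OrthonormalBasis (Fin m) ℝ (Euc (Fin m))) (d : Fin m → ℝ) (x : Euc (Fin m))
    (j : Fin m) : ⟪e j, diagOp e d x⟫ = d j * ⟪e j, x⟫ := by
  rw [diagOp_apply, e.orthonormal.inner_right_fintype]

theorem norm_diagOp_sq (e : OrthonormalBasis (Fin m) ℝ (Euc (Fin m))) (d : Fin m → ℝ) (x : Euc (Fin m)) :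
    ‖diagOp e d x‖ ^ 2 = ∑ i, (d i * ⟪e i, x⟫) ^ 2 := by
  rw [← e.sum_sq_inner_right]
  exact Finset.sum_congr rfl fun i _ => by rw [rvar_inner_diagOp]

theorem det_diagOp (e : OrthonormalBasis (Fin m) ℝ (Euc (Fin m))) (d : Fin m → ℝ) :
    LinearMap.det (diagOp e d : Euc (Fin m) →ₗ[ℝ] Euc (Fin m)) = ∏ i, d i := by
  rw [← LinearMap.det_toMatrix e.toBasis, ← Matrix.det_diagonal]
  congr 1
  ext i j
  rw [LinearMap.toMatrix_apply]
  simp only [OrthonormalBasis.coe_toBasis, OrthonormalBasis.coe_toBasis_repr_apply,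
    OrthonormalBasis.repr_apply_apply, ContinuousLinearMap.coe_coe]
  rw [rvar_inner_diagOp, Matrix.diagonal_apply, orthonormal_iff_ite.mp e.orthonormal]
  split_ifs <;> simp

theorem rvar_ext (e : OrthonormalBasis (Fin m) ℝ (Euc (Fin m))) {x y : Euc (Fin m)}
    (h : ∀ j, ⟪e j, x⟫ = ⟪e j, y⟫) : x = y := by
  rw [← e.sum_repr' x, ← e.sum_repr' y]
  exact Finset.sum_congr rfl fun j _ => by rw [h]

theorem rvar_norm_le (e : OrthonormalBasis (Fin m) ℝ (Euc (Fin m))) (d : Fin m → ℝ) {c : ℝ} (hc : 0 ≤ c)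
    (h : ∀ i, |d i| ≤ c) (x : Euc (Fin m)) : ‖diagOp e d x‖ ≤ c * ‖x‖ := by
  refine le_of_pow_le_pow_left₀ two_ne_zero (by positivity) ?_
  rw [norm_diagOp_sq, mul_pow, ← e.sum_sq_inner_right, Finset.mul_sum]
  refine Finset.sum_le_sum fun i _ => ?_
  rw [mul_pow]
  refine mul_le_mul_of_nonneg_right ?_ (sq_nonneg _)
  rw [← sq_abs]
  exact pow_le_pow_left₀ (abs_nonneg _) (h i) 2

theorem rvar_one_le_prod {τ : ℝ} (hτ0 : 0 < τ) (hτ1 : τ ≤ 1) (d : Fin m → ℝ) (hd0 : ∀ i, 0 < d i)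
    (hd1 : ∏ i, d i = 1) : 1 ≤ ∏ i, (1 - τ + τ * d i) := by
  have h1 : ∏ i, d i ^ τ = 1 := by
    rw [Real.finsetProd_rpow _ _ (fun i _ => (hd0 i).le), hd1, Real.one_rpow]
  refine h1.symm.trans_le ?_
  refine Finset.prod_le_prod (fun i _ => Real.rpow_nonneg (hd0 i).le _) fun i _ => ?_
  have := Real.geom_mean_le_arith_mean2_weighted (w₁ := 1 - τ) (w₂ := τ) (p₁ := 1) (p₂ := d i)
    (by linarith) hτ0.le zero_le_one (hd0 i).le (by ring)
  simpa using this

/-- Let `s i = 1 - τ + τ d i`, `c = (∏ s i)^(1/m)`; `1 ≤ c ≤ 1 + τ B` (`s i ≥ (d i)^τ`, weighted AM-GM), `T = diagOp e (s / c)`,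
`L' = L.map T`.  The entries of `T` lie in `[σ, 1 + τ B]`, `σ = (1-τ)/(1+τ B) ≥ 1 - δ`, `δ = τ (1 + B)`, so `‖T x - x‖ ≤ δ ‖x‖`.
`L'` is stable: for `0 < k < m` by `le_gvol_map` and `hτ`; for `k = m` by `gvol_map_full`, `gvol_map_det` (`det T = 1`);
`k > m` is impossible.  The seminorm `N x = gau L' (T x)` is `≥ 2` on `L \ 0`, so by `PhiL_le`, `c ≥ 1` and convexity of
`u ↦ max (gau L' u - a) 0` applied to `(1-τ) x + τ (diagOp e d x)`:
`PhiL a L ≤ (1-τ) PhiL a L' + τ ∫ max (gau L' (diagOp e d x) - a) 0`; finish with `gau_map_le`, `‖diagOp e d x‖ ≤ B ‖x‖`. -/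
theorem var_step (hm : 0 < m) {a ε B η τ : ℝ} (ha : 0 ≤ a) (hB : 1 ≤ B) (hτ0 : 0 < τ) (hτ1 : τ * (1 + B) ≤ 1 / 2)
    (hτ : 1 ≤ (1 - τ * (1 + B)) ^ m * (1 + η)) (L : AddSubgroup (Euc (Fin m))) (h : Stable L 1)
    (hbig : ∀ (k : ℕ) (v : Fin k → Euc (Fin m)), 0 < k → k < m → (∀ i, v i ∈ L) → LinearIndependent ℝ v →
      1 + η ≤ gvol v)
    (e : OrthonormalBasis (Fin m) ℝ (Euc (Fin m))) (d : Fin m → ℝ) (hd0 : ∀ i, 0 < d i) (hdB : ∀ i, d i ≤ B)
    (hd1 : ∏ i, d i = 1) (hε : ∫ x, max (gau L (diagOp e d x) - a) 0 ∂gam m ≤ ε) :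
    ∃ L' : AddSubgroup (Euc (Fin m)), Stable L' 1 ∧
      PhiL a L ≤ (1 - τ) * PhiL a L' + τ * (ε + 20 * (τ * (1 + B)) * B * √m) := by
  set δ := τ * (1 + B) with hδ
  have hδ0 : 0 < δ := by positivity
  have hτ1' : τ ≤ 1 / 2 := by nlinarith
  set s : Fin m → ℝ := fun i => 1 - τ + τ * d i with hs
  have hs0 : ∀ i, 1 - τ ≤ s i := fun i => by
    have := mul_pos hτ0 (hd0 i)
    simp only [hs]; linarith
  have hs1 : ∀ i, s i ≤ 1 + τ * B := fun i => by
    have := mul_le_mul_of_nonneg_left (hdB i) hτ0.le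
    simp only [hs]; linarith
  have hP : 1 ≤ ∏ i, s i := rvar_one_le_prod hτ0 (by linarith) d hd0 hd1
  set c : ℝ := (∏ i, s i) ^ ((m : ℝ)⁻¹) with hc
  have hcm : c ^ m = ∏ i, s i := Real.rpow_inv_natCast_pow (by linarith) hm.ne'
  have hc1 : 1 ≤ c := Real.one_le_rpow hP (by positivity)
  have hc0 : 0 < c := by linarith
  have hcB : c ≤ 1 + τ * B := by
    have hb : 0 ≤ 1 + τ * B := by positivity
    refine le_of_pow_le_pow_left₀ hm.ne' hb ?_
    rw [hcm]
    calc ∏ i, s i ≤ ∏ _i : Fin m, (1 + τ * B) :=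
          Finset.prod_le_prod (fun i _ => by linarith [hs0 i]) fun i _ => hs1 i
      _ = _ := by simp
  set t : Fin m → ℝ := fun i => s i / c with ht
  have ht1 : ∀ i, |t i - 1| ≤ δ := fun i => by
    have a1 : t i ≤ 1 + δ := by
      simp only [ht]
      rw [div_le_iff₀ hc0]
      have := hs1 i
      nlinarith
    have a2 : 1 - δ ≤ t i := by
      simp only [ht]
      rw [le_div_iff₀ hc0]
      have h1 := hs0 i
      have h2 : (1 - δ) * c ≤ (1 - δ) * (1 + τ * B) := mul_le_mul_of_nonneg_left hcB (by linarith)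
      have h3 : 0 ≤ δ * (τ * B) := by positivity
      nlinarith
    rw [abs_le]; constructor <;> linarith
  set T : Euc (Fin m) →ₗ[ℝ] Euc (Fin m) := (diagOp e t : Euc (Fin m) →ₗ[ℝ] Euc (Fin m)) with hT
  have hTa : ∀ x, T x = diagOp e t x := fun x => rfl
  have hTx : ∀ x, ‖T x - x‖ ≤ δ * ‖x‖ := fun x => by
    have : T x - x = diagOp e (fun i => t i - 1) x := rvar_ext e fun j => by
      rw [inner_sub_right, hTa, rvar_inner_diagOp, rvar_inner_diagOp]; ring
    rw [this]
    exact rvar_norm_le e _ hδ0.le ht1 x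
  have hTlow : ∀ x, (1 - δ) * ‖x‖ ≤ ‖T x‖ := fun x => by
    have h1 := hTx x
    have h2 : ‖x‖ ≤ ‖T x‖ + ‖T x - x‖ := by
      calc ‖x‖ = ‖T x - (T x - x)‖ := by congr 1; abel
        _ ≤ _ := norm_sub_le _ _
    linarith
  have hdet : LinearMap.det T = 1 := by
    rw [hT, det_diagOp]
    simp only [ht]
    rw [Finset.prod_div_distrib, ← hcm]
    simp [hc0.ne']
  set L' := L.map T.toAddMonoidHom with hL'
  have hδ1 : 0 < 1 - δ := by linarith
  have hst : Stable L' 1 := by
    intro k v hv hi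
    choose w hw hwv using hv
    have hwv' : v = fun i => T (w i) := funext fun i => (hwv i).symm
    subst hwv'
    have hwi : LinearIndependent ℝ w := LinearIndependent.of_comp T hi
    rw [one_pow]
    rcases Nat.eq_zero_or_pos k with rfl | hk
    · rw [gvol_empty]
    have hkm : k ≤ m := by simpa using hwi.fintype_card_le_finrank
    rcases hkm.lt_or_eq with hkm | rfl
    · have h1 := le_gvol_map T hδ1.le hTlow w
      have h2 := hbig k w hk hkm hw hwi
      rw [Fintype.card_fin] at h1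
      have h3 : (1 - δ) ^ m ≤ (1 - δ) ^ k := pow_le_pow_of_le_one hδ1.le (by linarith) hkm.le
      have h4 : 0 < (1 - δ) ^ m := pow_pos hδ1 m
      have h5 : 0 < 1 + η := by
        by_contra h5
        nlinarith
      calc (1 : ℝ) ≤ (1 - δ) ^ m * (1 + η) := hτ
        _ ≤ (1 - δ) ^ k * gvol w := mul_le_mul h3 h2 h5.le (pow_nonneg hδ1.le _)
        _ ≤ _ := h1
    · rw [gvol_map_full e T w, gvol_map_det e T, hdet, abs_one, mul_one]
      simpa using h k w hw hwi
  refine ⟨L', hst, ?_⟩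
  have hsep : Sep L 1 := h.sep
  have hsep' : Sep L' 1 := hst.sep
  obtain ⟨N, hN⟩ := exists_gauSN one_pos hsep'
  have hN2 : ∀ x, N x ≤ 2 * ‖x‖ := fun x => by
    rw [hN]; simpa using gau_le one_pos hsep' x
  have key := PhiL_le (a := a) one_pos hsep (N.comp T) (C := 4) (fun x => by
    rw [Seminorm.comp_apply]
    have h1 := hN2 (T x)
    have h2 := hTx x
    have h3 : ‖T x‖ ≤ ‖T x - x‖ + ‖x‖ := by
      calc ‖T x‖ = ‖(T x - x) + x‖ := by congr 1; abel
        _ ≤ _ := norm_add_le _ _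
    have h4 : δ * ‖x‖ ≤ 1 / 2 * ‖x‖ := mul_le_mul_of_nonneg_right hτ1 (norm_nonneg _)
    have := norm_nonneg x
    linarith) (fun y hy hy0 => by
    rw [Seminorm.comp_apply, hN]
    refine two_le_gau one_pos hsep' ⟨y, hy, rfl⟩ fun h0 => hy0 ?_
    have h1 := hTlow y
    rw [h0, norm_zero] at h1
    have h2 : ‖y‖ ≤ 0 := by
      by_contra h2
      have := mul_pos hδ1 (not_le.mp h2)
      linarith
    exact norm_le_zero_iff.mp h2) ha
  have hDB : ∀ x, ‖diagOp e d x‖ ≤ B * ‖x‖ :=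
    rvar_norm_le e d (by linarith) fun i => by rw [abs_of_pos (hd0 i)]; exact hdB i
  have i1 : Integrable (fun x => max (gau L' x - a) 0) (gam m) :=
    integrable_posPart _ (continuous_gau one_pos hsep') (C := 2) (fun x => by
      rw [abs_of_nonneg (gau_nonneg one_pos hsep' x), ← hN]; exact hN2 x) a
  have i2 : Integrable (fun x => max (gau L (diagOp e d x) - a) 0) (gam m) :=
    integrable_posPart (fun x => gau L (diagOp e d x))
      ((continuous_gau one_pos hsep).comp (diagOp e d).continuous) (C := 2 * B) (fun x => by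
      rw [abs_of_nonneg (gau_nonneg one_pos hsep _)]
      have h1 := gau_le one_pos hsep (diagOp e d x)
      have h2 := hDB x
      rw [div_one] at h1
      linarith) a
  have i3 : Integrable (fun x : Euc (Fin m) => ‖x‖) (gam m) := R285.integrable_norm_gam
  have i4 : ∫ x, ‖x‖ ∂(gam m) ≤ √m := R285.integral_norm_gam_le
  have hpt : ∀ x, max ((N.comp T) x - a) 0 ≤ (1 - τ) * max (gau L' x - a) 0 +
      τ * (max (gau L (diagOp e d x) - a) 0 + 20 * δ * B * ‖x‖) := fun x => by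
    have e1 : T x = c⁻¹ • ((1 - τ) • x + τ • diagOp e d x) := rvar_ext e fun j => by
      rw [hTa, rvar_inner_diagOp, inner_smul_right, inner_add_right, inner_smul_right, inner_smul_right,
        rvar_inner_diagOp]
      simp only [ht, hs]
      field_simp
    have e2 : N (T x) ≤ (1 - τ) * N x + τ * N (diagOp e d x) := by
      rw [e1, map_smul_eq_mul, Real.norm_eq_abs, abs_of_pos (inv_pos.mpr hc0)]
      have h1 := map_add_le_add N ((1 - τ) • x) (τ • diagOp e d x)
      rw [map_smul_eq_mul, map_smul_eq_mul, Real.norm_eq_abs, Real.norm_eq_abs,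
        abs_of_nonneg (by linarith : 0 ≤ 1 - τ), abs_of_pos hτ0] at h1
      have h2 : c⁻¹ ≤ 1 := inv_le_one_of_one_le₀ hc1
      have h3 := apply_nonneg N ((1 - τ) • x + τ • diagOp e d x)
      nlinarith
    have e3 : N (diagOp e d x) ≤ gau L (diagOp e d x) + 20 * δ * B * ‖x‖ := by
      rw [hN]
      have h1 := gau_map_le hsep T hδ0.le hτ1 hTx (diagOp e d x)
      have h2 : 20 * δ * ‖diagOp e d x‖ ≤ 20 * δ * (B * ‖x‖) :=
        mul_le_mul_of_nonneg_left (hDB x) (by positivity)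
      linarith
    rw [Seminorm.comp_apply, ← hN x]
    have m1 := le_max_left (N x - a) 0
    have m2 := le_max_right (N x - a) 0
    have m3 := le_max_left (gau L (diagOp e d x) - a) 0
    have m4 := le_max_right (gau L (diagOp e d x) - a) 0
    have m5 : 0 ≤ 20 * δ * B * ‖x‖ := by positivity
    have m6 : 0 ≤ 1 - τ := by linarith
    refine max_le ?_ (by positivity)
    nlinarith
  have i6 : Integrable (fun x => max (gau L (diagOp e d x) - a) 0 + 20 * δ * B * ‖x‖) (gam m) :=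
    i2.add (i3.const_mul _)
  have i5 : Integrable (fun x => (1 - τ) * max (gau L' x - a) 0 +
      τ * (max (gau L (diagOp e d x) - a) 0 + 20 * δ * B * ‖x‖)) (gam m) :=
    (i1.const_mul _).add (i6.const_mul τ)
  refine key.trans ((integral_mono_of_nonneg (ae_of_all _ fun x => le_max_right _ _) i5
    (ae_of_all _ hpt)).trans ?_)
  rw [integral_add (i1.const_mul _) (i6.const_mul τ), integral_const_mul,
    integral_const_mul, integral_add i2 (i3.const_mul _), integral_const_mul]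
  have h1 : 20 * δ * B * ∫ x, ‖x‖ ∂(gam m) ≤ 20 * δ * B * √m :=
    mul_le_mul_of_nonneg_left i4 (by positivity)
  have h2 := mul_le_mul_of_nonneg_left (add_le_add hε h1) hτ0.le
  unfold PhiL
  linarith

end

end Crest.Agent.R152
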