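import Crest.Agent.R152.KConv
import Crest.Agent.R152.KUry
import Crest.Agent.R152.RVar

/-!
# R152/KLew

Lewis' lemma and the `ℓ`-position.

Helper lemmas: prefix `klew_`.
-/

set_option autoImplicit false
set_option linter.unusedVariables false
set_option linter.unusedSectionVars false

namespace Crest.Agent.R152

open Crest.FinProb Crest.ProbabilityR.SignMatrix MeasureTheory ProbabilityTheory Filter Module
open scoped RealInnerProductSpace ENNReal Matrix Topology

noncomputable section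

variable {m : ℕ}

theorem klew_cont (N : Seminorm ℝ (Euc (Fin m))) {C : ℝ} (hC : ∀ x, N x ≤ C * ‖x‖) : Continuous N := by
  refine (LipschitzWith.of_dist_le' (K := C) fun x y => ?_).continuous
  rw [Real.dist_eq, dist_eq_norm]
  exact (abs_sub_map_le_sub N x y).trans (hC _)

theorem klew_le (N : Seminorm ℝ (Euc (Fin m))) {C : ℝ} (hC : ∀ x, N x ≤ C * ‖x‖)
    (S : Euc (Fin m) →L[ℝ] Euc (Fin m)) {B : ℝ} (hB : ‖S‖ ≤ B) (x : Euc (Fin m)) :
    N (S x) ≤ |C| * B * ‖x‖ := by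
  refine (hC _).trans ?_
  rw [mul_assoc]
  exact mul_le_mul (le_abs_self C) (S.le_of_opNorm_le hB x) (norm_nonneg _) (abs_nonneg _)

theorem klew_sq (N : Seminorm ℝ (Euc (Fin m))) {C : ℝ} (hC : ∀ x, N x ≤ C * ‖x‖)
    (S : Euc (Fin m) →L[ℝ] Euc (Fin m)) {B : ℝ} (hB : ‖S‖ ≤ B) (x : Euc (Fin m)) :
    ‖N (S x) ^ 2‖ ≤ (|C| * B) ^ 2 * ‖x‖ ^ 2 := by
  rw [Real.norm_of_nonneg (sq_nonneg _), ← mul_pow]
  exact pow_le_pow_left₀ (apply_nonneg _ _) (klew_le N hC S hB x) 2

theorem klew_int (N : Seminorm ℝ (Euc (Fin m))) {C : ℝ} (hC : ∀ x, N x ≤ C * ‖x‖)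
    (S : Euc (Fin m) →L[ℝ] Euc (Fin m)) : Integrable (fun x => N (S x) ^ 2) (gam m) :=
  ((R285.integrable_norm_pow_gam 2).const_mul _).mono'
    (((klew_cont N hC).comp S.continuous).pow 2).aestronglyMeasurable
    (Eventually.of_forall (klew_sq N hC S le_rfl))

theorem klew_smul (N : Seminorm ℝ (Euc (Fin m))) (S : Euc (Fin m) →L[ℝ] Euc (Fin m)) (c : ℝ) :
    ∫ x, N ((c • S) x) ^ 2 ∂gam m = c ^ 2 * ∫ x, N (S x) ^ 2 ∂gam m := by
  simp only [smul_apply, map_smul_eq_mul, mul_pow, Real.norm_eq_abs, sq_abs,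
    integral_const_mul]

theorem klew_deriv (T : Euc (Fin m) →L[ℝ] Euc (Fin m)) :
    HasDerivAt (fun ε : ℝ => LinearMap.det (1 + ε • T : Euc (Fin m) →ₗ[ℝ] Euc (Fin m)))
      (LinearMap.trace ℝ _ (T : Euc (Fin m) →ₗ[ℝ] Euc (Fin m))) 0 := by
  let b := (EuclideanSpace.basisFun (Fin m) ℝ).toBasis
  simp only [← LinearMap.det_toMatrix b, map_add, map_smul, LinearMap.toMatrix_one,
    LinearMap.trace_eq_matrix_trace ℝ b]
  rw [funext fun ε => Matrix.det_one_add_smul ε _]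
  refine ((((hasDerivAt_id' (0 : ℝ)).const_mul _).const_add 1).add
    ((Polynomial.hasDerivAt _ 0).mul (hasDerivAt_pow 2 0))).congr_deriv ?_
  simp

/-- `ℓ S = √(∫ N (S x)²)` is a continuous seminorm on operators with `‖S‖ ≤ R ℓ S` (`∫ ‖S x‖² ≥ ‖S‖²`), so `{ℓ ≤ 1}` is compact;
maximise `det` on it (the maximum is positive).  For any `T` and small `ε > 0`: `S (1 + ε T) / (1 + ε ℓ (S T))` is in the set, so
`det (1 + ε T) ≤ (1 + ε ℓ (S T))^m`; differentiate at `ε = 0` (`Matrix.det_one_add_smul` or `LinearMap.det` via a basis). -/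
theorem exists_lewis (hm : 0 < m) (N : Seminorm ℝ (Euc (Fin m))) {R C : ℝ} (hR : ∀ x, ‖x‖ ≤ R * N x)
    (hC : ∀ x, N x ≤ C * ‖x‖) :
    ∃ S : Euc (Fin m) →L[ℝ] Euc (Fin m), 0 < LinearMap.det (S : Euc (Fin m) →ₗ[ℝ] Euc (Fin m)) ∧
      ∫ x, N (S x) ^ 2 ∂gam m ≤ 1 ∧ ∀ T : Euc (Fin m) →L[ℝ] Euc (Fin m),
        LinearMap.trace ℝ _ (T : Euc (Fin m) →ₗ[ℝ] Euc (Fin m)) ≤ m * √(∫ x, N (S (T x)) ^ 2 ∂gam m) := by
  have hN := klew_cont N hC
  have hq : Continuous fun S : Euc (Fin m) →L[ℝ] Euc (Fin m) => ∫ x, N (S x) ^ 2 ∂gam m :=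
    continuous_iff_continuousAt.2 fun S₀ => continuousAt_of_dominated
      (Eventually.of_forall fun S => (klew_int N hC S).aestronglyMeasurable)
      ((continuous_norm.continuousAt.eventually_le_const (lt_add_one ‖S₀‖)).mono fun S hS =>
        Eventually.of_forall (klew_sq N hC S hS))
      ((R285.integrable_norm_pow_gam 2).const_mul _) (Eventually.of_forall fun x => by fun_prop)
  have hK : IsCompact {S : Euc (Fin m) →L[ℝ] Euc (Fin m) | ∫ x, N (S x) ^ 2 ∂gam m ≤ 1} := by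
    refine Metric.isCompact_of_isClosed_isBounded (isClosed_le hq continuous_const)
      (isBounded_iff_forall_norm_le.2 ⟨|R|, fun S hS => ?_⟩)
    rw [← ContinuousLinearMap.adjoint.norm_map]
    refine ContinuousLinearMap.opNorm_le_bound _ (abs_nonneg R) fun w => ?_
    rw [← sq_le_sq₀ (norm_nonneg _) (by positivity), ← real_inner_self_eq_norm_sq,
      ← integral_inner_mul_inner]
    refine (integral_mono_of_nonneg (Eventually.of_forall fun x => mul_self_nonneg _)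
      ((klew_int N hC S).const_mul ((|R| * ‖w‖) ^ 2)) (Eventually.of_forall fun x => ?_)).trans ?_
    · have h1 : |⟪w, S x⟫| ≤ ‖w‖ * (|R| * N (S x)) := (abs_real_inner_le_norm _ _).trans
        (mul_le_mul_of_nonneg_left ((hR _).trans (mul_le_mul_of_nonneg_right (le_abs_self R)
          (apply_nonneg _ _))) (norm_nonneg _))
      simp only [ContinuousLinearMap.adjoint_inner_left]
      rw [← sq, ← sq_abs]
      exact (pow_le_pow_left₀ (abs_nonneg _) h1 2).trans_eq (by ring)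
    · rw [integral_const_mul]
      exact mul_le_of_le_one_right (sq_nonneg _) hS
  obtain ⟨S, hS, hmax⟩ := hK.exists_isMaxOn ⟨0, by simp⟩
    ContinuousLinearMap.continuous_det.continuousOn
  have h1 : ∀ (S' : Euc (Fin m) →L[ℝ] Euc (Fin m)) (b : ℝ), 0 < b →
      ∫ x, N (S' x) ^ 2 ∂gam m ≤ b ^ 2 → S'.det ≤ b ^ m * S.det := fun S' b hb h => by
    have h2 : (b⁻¹ • S').det ≤ S.det := hmax ((klew_smul N S' b⁻¹).trans_le (by
      rw [inv_pow]
      exact inv_mul_le_one_of_le₀ h (sq_nonneg _)))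
    rwa [ContinuousLinearMap.det, ContinuousLinearMap.toLinearMap_smul, LinearMap.det_smul,
      finrank_euclideanSpace_fin, inv_pow, inv_mul_le_iff₀ (by positivity)] at h2
  have h0 : 0 < S.det := by
    have h2 : 0 ≤ ∫ x, N ((1 : Euc (Fin m) →L[ℝ] Euc (Fin m)) x) ^ 2 ∂gam m :=
      integral_nonneg fun _ => sq_nonneg _
    have h3 := h1 1 _ (add_pos_of_nonneg_of_pos h2 one_pos) (by nlinarith)
    rw [show (1 : Euc (Fin m) →L[ℝ] Euc (Fin m)).det = 1 from map_one LinearMap.det] at h3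
    exact (mul_pos_iff_of_pos_left (by positivity)).1 (one_pos.trans_le h3)
  refine ⟨S, h0, hS, fun T => ?_⟩
  have hm' : (0 : ℝ) < m := by exact_mod_cast hm
  refine le_of_forall_pos_le_add fun η hη => ?_
  obtain ⟨b, hb, h2, h3⟩ : ∃ b : ℝ, 0 < b ∧ ∫ x, N (S (T x)) ^ 2 ∂gam m ≤ b ^ 2 ∧
      m * b = m * √(∫ x, N (S (T x)) ^ 2 ∂gam m) + η :=
    ⟨√(∫ x, N (S (T x)) ^ 2 ∂gam m) + η / m, by positivity,
      (Real.sqrt_le_left (by positivity)).1 (le_add_of_nonneg_right (by positivity)), by field_simp⟩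
  have d2 : HasDerivAt (fun ε : ℝ => (1 + ε * b) ^ m) (m * b) 0 :=
    ((((hasDerivAt_id' (0 : ℝ)).mul_const b).const_add 1).pow m).congr_deriv (by simp)
  rw [← h3]
  refine le_of_tendsto_of_tendsto (klew_deriv T).tendsto_slope_zero_right d2.tendsto_slope_zero_right
    (eventually_mem_nhdsWithin.mono fun ε (hε : 0 < ε) => ?_)
  simp only [zero_add, zero_smul, add_zero, map_one, zero_mul, one_pow, smul_eq_mul]
  gcongr
  refine le_of_mul_le_mul_right (le_of_eq_of_le ?_ (h1 (S * (1 + ε • T)) _ (by positivity) ?_)) h0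
  · rw [mul_comm]
    exact (map_mul LinearMap.det _ _).symm
  · have i1 := klew_int N hC S
    have i2 := (klew_int N hC (S * T)).const_mul (ε / b)
    refine (integral_mono (klew_int N hC _) ((i1.add i2).const_mul (1 + ε * b)) fun x => ?_).trans ?_
    · have h4 : N (S (x + ε • T x)) ≤ N (S x) + ε * N (S (T x)) := by
        rw [map_add, map_smul]
        refine (map_add_le_add N _ _).trans_eq ?_
        rw [map_smul_eq_mul, Real.norm_of_nonneg hε.le]
      refine (pow_le_pow_left₀ (apply_nonneg _ _) h4 2).trans ?_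
      change _ ≤ (1 + ε * b) * (N (S x) ^ 2 + ε / b * N (S (T x)) ^ 2)
      rw [← sub_nonneg, show (1 + ε * b) * (N (S x) ^ 2 + ε / b * N (S (T x)) ^ 2) -
        (N (S x) + ε * N (S (T x))) ^ 2 = ε / b * (b * N (S x) - N (S (T x))) ^ 2 by
          field_simp
          ring]
      positivity
    · rw [integral_const_mul, integral_add' i1 i2, integral_const_mul, sq]
      refine mul_le_mul_of_nonneg_left (add_le_add hS ?_) (by positivity)
      exact (mul_le_mul_of_nonneg_left h2 (by positivity)).trans_eq (by field_simp)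

theorem klew_adj (e : OrthonormalBasis (Fin m) ℝ (Euc (Fin m))) (d : Fin m → ℝ) :
    ContinuousLinearMap.adjoint (diagOp e d) = diagOp e d := by
  refine ((ContinuousLinearMap.eq_adjoint_iff _ _).2 fun x y => ?_).symm
  simp only [diagOp_apply, sum_inner, inner_sum, real_inner_smul_left, real_inner_smul_right]
  exact Finset.sum_congr rfl fun i _ => by rw [real_inner_comm x]; ring

/-- Polar decomposition in law: `e` an eigenbasis of `S S*` (`LinearMap.IsSymmetric.eigenvectorBasis`), `d i = ‖S* (e i)‖`;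
`S g` and `diagOp e d g` have the same characteristic function (`Crest.Agent.R285.gauss_lin` or directly). -/
theorem exists_polar (S : Euc (Fin m) →L[ℝ] Euc (Fin m)) (hS : 0 < LinearMap.det (S : Euc (Fin m) →ₗ[ℝ] Euc (Fin m))) :
    ∃ (e : OrthonormalBasis (Fin m) ℝ (Euc (Fin m))) (d : Fin m → ℝ), (∀ i, 0 < d i) ∧
      ∏ i, d i = LinearMap.det (S : Euc (Fin m) →ₗ[ℝ] Euc (Fin m)) ∧ (gam m).map S = (gam m).map (diagOp e d) := by
  have hsym : (S * ContinuousLinearMap.adjoint S : Euc (Fin m) →ₗ[ℝ] Euc (Fin m)).IsSymmetric :=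
    fun x y => by
      change ⟪S (ContinuousLinearMap.adjoint S x), y⟫ = ⟪x, S (ContinuousLinearMap.adjoint S y)⟫
      rw [← ContinuousLinearMap.adjoint_inner_right, ContinuousLinearMap.adjoint_inner_left]
  have hn : finrank ℝ (Euc (Fin m)) = m := finrank_euclideanSpace_fin
  have h1 := hsym.det_eq_prod_eigenvalues hn
  have h2 : ∀ i, S (ContinuousLinearMap.adjoint S (hsym.eigenvectorBasis hn i)) =
      hsym.eigenvalues hn i • hsym.eigenvectorBasis hn i := hsym.apply_eigenvectorBasis hn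
  generalize hsym.eigenvectorBasis hn = e at h2
  generalize hsym.eigenvalues hn = l at h1 h2
  have h3 : ∀ i, 0 ≤ l i := fun i => by
    have := real_inner_self_nonneg (x := ContinuousLinearMap.adjoint S (e i))
    rwa [ContinuousLinearMap.adjoint_inner_left, h2, real_inner_smul_right, e.inner_eq_one,
      mul_one] at this
  have h4 : ∏ i, l i = LinearMap.det (S : Euc (Fin m) →ₗ[ℝ] Euc (Fin m)) ^ 2 := by
    have : LinearMap.det (LinearMap.adjoint (S : Euc (Fin m) →ₗ[ℝ] Euc (Fin m))) =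
        LinearMap.det (S : Euc (Fin m) →ₗ[ℝ] Euc (Fin m)) := by
      rw [← LinearMap.det_toMatrix e.toBasis, LinearMap.toMatrix_adjoint, Matrix.det_conjTranspose,
        LinearMap.det_toMatrix, star_trivial]
    rw [map_mul] at h1
    rw [sq]
    exact h1.symm.trans (congrArg _ this)
  have h5 : ∀ w, ‖ContinuousLinearMap.adjoint S w‖ ^ 2 = ‖diagOp e (fun i => √(l i)) w‖ ^ 2 := fun w => by
    rw [norm_diagOp_sq, ← real_inner_self_eq_norm_sq, ContinuousLinearMap.adjoint_inner_left]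
    conv_lhs => enter [3]; rw [← e.sum_repr' w]
    simp only [map_sum, map_smul, h2, inner_sum, real_inner_smul_right, mul_pow, Real.sq_sqrt (h3 _)]
    exact Finset.sum_congr rfl fun i _ => by rw [real_inner_comm w]; ring
  refine ⟨e, fun i => √(l i), fun i => Real.sqrt_pos.2 ((h3 i).lt_of_ne' ?_), ?_, ?_⟩
  · exact Finset.prod_ne_zero_iff.1 (h4 ▸ (pow_pos hS 2).ne') i (Finset.mem_univ i)
  · rw [← Real.sqrt_prod _ fun i _ => h3 i, h4, Real.sqrt_sq hS.le]
  · exact (R285.gauss_lin S 0 S fun w => by simp).symm.trans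
      (R285.gauss_lin S 0 _ fun w => by rw [klew_adj, ← h5]; simp)

theorem klew_rank {E : Type*} [NormedAddCommGroup E] [InnerProductSpace ℝ E] {α : Type*}
    [MeasurableSpace α] {μ : Measure α} {f g : α → E} (hf : AEStronglyMeasurable f μ)
    (hg : AEStronglyMeasurable g μ) :
    AEStronglyMeasurable (fun y => InnerProductSpace.rankOne ℝ (f y) (g y)) μ :=
  (ContinuousLinearMap.smulRightL ℝ E E).aestronglyMeasurable_comp₂
    ((innerSL ℝ (E := E)).continuous.comp_aestronglyMeasurable hg) hf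

theorem klew_trace (f : Euc (Fin m) → Euc (Fin m)) (hf : Measurable f) {R : ℝ} (hR : ∀ x, ‖f x‖ ≤ R) :
    ∃ T : Euc (Fin m) →L[ℝ] Euc (Fin m), (∀ x, T x = ∫ y, ⟪y, x⟫ • f y ∂gam m) ∧
      LinearMap.trace ℝ _ (T : Euc (Fin m) →ₗ[ℝ] Euc (Fin m)) = ∫ y, ⟪f y, y⟫ ∂gam m := by
  have hi : Integrable (fun y => InnerProductSpace.rankOne ℝ (f y) y) (gam m) :=
    (R285.integrable_norm_gam.const_mul R).mono'
      (klew_rank hf.aestronglyMeasurable aestronglyMeasurable_id) (Eventually.of_forall fun y => by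
          rw [InnerProductSpace.norm_rankOne]
          exact mul_le_mul_of_nonneg_right (hR y) (norm_nonneg _))
  refine ⟨_, fun x => ContinuousLinearMap.integral_apply hi x, ?_⟩
  refine ((LinearMap.toContinuousLinearMap ((LinearMap.trace ℝ _).comp
    (ContinuousLinearMap.coeLM ℝ))).integral_comp_comm hi).symm.trans ?_
  exact integral_congr_ae (Eventually.of_forall fun y =>
    (InnerProductSpace.trace_rankOne _ _).trans (real_inner_comm _ _))

/-- Let `S` be as in `exists_lewis`, `Δ = det S`, `N' = N ∘ S`, `K = {N' ≤ 1}` (compact, convex, `vol K ≥ 1/Δ`,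
`Measure.addHaar_preimage_linearMap`).  For `f` of `exists_select` and `T x = ∫ ⟪y, x⟫ f y` one has `trace T = ∫ ⟪f y, y⟫`, so
`∫ supp K ≤ m C₀ log (m+2)²` by Lewis and `kconvex` for `N'`.  `urysohn_gauss` with `t = e √(2π) Δ^(1/m)` gives `m ≤ t ∫ supp K`, i.e.
`Δ^(-1/m) ≤ e √(2π) C₀ log (m+2)²`.  Rescale the `d` of `exists_polar` by `Δ^(-1/m)`. -/
theorem ell_position : ∃ C₁ : ℝ, 0 < C₁ ∧ ∀ (m : ℕ), 0 < m → ∀ (N : Seminorm ℝ (Euc (Fin m))) (R C : ℝ),
    (∀ x, ‖x‖ ≤ R * N x) → (∀ x, N x ≤ C * ‖x‖) → 1 ≤ volume {x | N x ≤ 1} →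
    ∃ (e : OrthonormalBasis (Fin m) ℝ (Euc (Fin m))) (d : Fin m → ℝ), (∀ i, 0 < d i) ∧ ∏ i, d i = 1 ∧
      ∫ x, N (diagOp e d x) ^ 2 ∂gam m ≤ (C₁ * Real.log (m + 2) ^ 2) ^ 2 := by
  obtain ⟨C₀, hC₀, hk⟩ := kconvex
  have hπ : 0 < √(2 * Real.pi) := Real.sqrt_pos.2 Real.two_pi_pos
  refine ⟨Real.exp 1 * √(2 * Real.pi) * C₀, by positivity, fun m hm N R C hR hC hv => ?_⟩
  obtain ⟨S, h0, h1, h2⟩ := exists_lewis hm N hR hC
  obtain ⟨e, d, d0, d1, d2⟩ := exists_polar S h0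
  have hN := klew_cont N hC
  have hm' : (0 : ℝ) < m := by exact_mod_cast hm
  obtain ⟨R', hR'⟩ : ∃ R', ∀ x, ‖x‖ ≤ R' * N (S x) := by
    refine ⟨‖((S.toContinuousLinearEquivOfDetNeZero h0.ne').symm : Euc (Fin m) →L[ℝ] Euc (Fin m))‖ * R,
      fun x => ?_⟩
    conv_lhs => rw [← (S.toContinuousLinearEquivOfDetNeZero h0.ne').symm_apply_apply x]
    rw [mul_assoc]
    exact ((S.toContinuousLinearEquivOfDetNeZero h0.ne').symm :
      Euc (Fin m) →L[ℝ] Euc (Fin m)).le_of_opNorm_le_of_le le_rfl (hR (S x))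
  have hb : ∀ x ∈ {x | N (S x) ≤ 1}, ‖x‖ ≤ |R'| := fun x hx => (hR' x).trans
    ((mul_le_mul_of_nonneg_right (le_abs_self _) (apply_nonneg _ _)).trans
      (mul_le_of_le_one_right (abs_nonneg _) hx))
  have hK : IsCompact {x | N (S x) ≤ 1} := Metric.isCompact_of_isClosed_isBounded
    (isClosed_le (by fun_prop) continuous_const) (isBounded_iff_forall_norm_le.2 ⟨_, hb⟩)
  have hc : Convex ℝ {x | N (S x) ≤ 1} := by
    simpa using (N.comp (S : Euc (Fin m) →ₗ[ℝ] Euc (Fin m))).convexOn.convex_le 1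
  have hne : {x | N (S x) ≤ 1}.Nonempty := ⟨0, by simp⟩
  have h3 : ∫ x, supp {x | N (S x) ≤ 1} x ∂gam m ≤ m * (C₀ * Real.log (m + 2) ^ 2) := by
    refine le_of_forall_pos_le_add fun η hη => ?_
    obtain ⟨f, f1, f2, f3⟩ := exists_select hK hne hη
    obtain ⟨T, t1, t2⟩ := klew_trace f f1 fun x => hb _ (f2 x)
    refine f3.trans (add_le_add (t2 ▸ (h2 T).trans (mul_le_mul_of_nonneg_left ?_ hm'.le)) le_rfl)
    simp only [t1]
    exact (Real.sqrt_le_left (by positivity)).2 (hk m (N.comp (S : Euc (Fin m) →ₗ[ℝ] Euc (Fin m)))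
      R' _ hR' (klew_le N hC S le_rfl) f f1 f2)
  have h4 : (LinearMap.det (S : Euc (Fin m) →ₗ[ℝ] Euc (Fin m)))⁻¹ ≤
      (volume {x | N (S x) ≤ 1}).toReal := by
    rw [← ENNReal.ofReal_le_iff_le_toReal hK.measure_lt_top.ne]
    refine le_of_le_of_eq ?_ (Measure.addHaar_preimage_continuousLinearMap volume h0.ne'
      {x | N x ≤ 1}).symm
    rw [abs_of_pos (inv_pos.2 h0)]
    exact le_mul_of_one_le_right' hv
  obtain ⟨r, hr, hrm⟩ : ∃ r : ℝ, 0 < r ∧ r ^ m = LinearMap.det (S : Euc (Fin m) →ₗ[ℝ] Euc (Fin m)) :=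
    ⟨_, Real.rpow_pos_of_pos h0 _, Real.rpow_inv_natCast_pow h0.le hm.ne'⟩
  have h5 := urysohn_gauss hK hc hne (t := Real.exp 1 * √(2 * Real.pi) * r) (by positivity)
  have h6 : (m : ℝ) ≤ Real.exp 1 * √(2 * Real.pi) * r * (m * (C₀ * Real.log (m + 2) ^ 2)) := by
    refine le_trans ?_ (mul_le_mul_of_nonneg_left h3 (by positivity))
    rw [← Real.exp_le_exp]
    refine le_of_mul_le_mul_left (le_trans ?_ h5) (pow_pos hπ m)
    refine le_of_eq_of_le ?_ (mul_le_mul_of_nonneg_left h4 (by positivity))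
    rw [mul_pow, mul_pow, hrm, mul_inv_cancel_right₀ h0.ne', Real.exp_one_pow, mul_comm]
  refine ⟨e, fun i => r⁻¹ * d i, fun i => mul_pos (inv_pos.2 hr) (d0 i), ?_, ?_⟩
  · rw [Finset.prod_mul_distrib, d1, Finset.prod_const, Finset.card_fin, inv_pow, hrm,
      inv_mul_cancel₀ h0.ne']
  · have e1 : diagOp e (fun i => r⁻¹ * d i) = r⁻¹ • diagOp e d := by
      simp only [diagOp, Finset.smul_sum, smul_smul]
    have e2 : ∀ T : Euc (Fin m) →L[ℝ] Euc (Fin m),
        ∫ x, N x ^ 2 ∂(gam m).map T = ∫ x, N (T x) ^ 2 ∂gam m := fun T =>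
      integral_map T.continuous.aemeasurable (hN.pow 2).aestronglyMeasurable
    rw [e1, klew_smul, ← e2, ← d2, e2]
    refine (mul_le_of_le_one_right (sq_nonneg _) h1).trans (pow_le_pow_left₀ (by positivity) ?_ 2)
    rw [inv_le_iff_one_le_mul₀ hr]
    exact le_of_mul_le_mul_left (by linarith) hm'

end

end Crest.Agent.R152
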