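import Crest.Agent.R152.RVor

/-!
# R152/KTail

Fernique-type tail bound for a seminorm of a Gaussian vector.

Helper lemmas: prefix `ktail_`.
-/

set_option autoImplicit false
set_option linter.unusedVariables false
set_option linter.unusedSectionVars false

namespace Crest.Agent.R152

open Crest.FinProb Crest.ProbabilityR.SignMatrix MeasureTheory ProbabilityTheory Filter Module
open scoped RealInnerProductSpace ENNReal Matrix Topology

noncomputable section

variable {m : ℕ}

/-- `((x - y)/√2, (x + y)/√2)` has the law of `(x, y)` (`IsGaussian.map_rotation_eq_self`, or characteristic functions, see the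
proof of `measure_le_mul_measure_gt_le_of_map_rotation_eq_self` in `Mathlib/Probability/Distributions/Fernique.lean`). -/
theorem tail_step (N : Seminorm ℝ (Euc (Fin m))) (hN : Continuous N) (s t : ℝ) :
    gam m {x | N x ≤ s} * gam m {x | t < N x} ≤ gam m {x | (t - s) / √2 < N x} ^ 2 := by
  have h := IsGaussian.map_rotation_eq_self (μ := gam m) (by simp)
    (-(Real.pi / 4))
  have hs2 : (0 : ℝ) < √2 := by positivity
  have hsq : √2 * √2 = 2 := Real.mul_self_sqrt (by norm_num)
  calc gam m {x | N x ≤ s} * gam m {x | t < N x}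
      = ((gam m).prod (gam m)) ({x | N x ≤ s} ×ˢ {y | t < N y}) := by rw [Measure.prod_prod]
    _ = (((gam m).prod (gam m)).map (ContinuousLinearMap.rotation (-(Real.pi / 4))))
        ({x | N x ≤ s} ×ˢ {y | t < N y}) := by rw [h]
    _ = ((gam m).prod (gam m)) (ContinuousLinearMap.rotation (-(Real.pi / 4)) ⁻¹'
        ({x | N x ≤ s} ×ˢ {y | t < N y})) := by
      refine Measure.map_apply (by fun_prop) (MeasurableSet.prod ?_ ?_)
      · exact measurableSet_le hN.measurable measurable_const
      · exact measurableSet_lt measurable_const hN.measurable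
    _ ≤ ((gam m).prod (gam m)) ({x | (t - s) / √2 < N x} ×ˢ {y | (t - s) / √2 < N y}) := by
      refine measure_mono fun p hp => ?_
      simp only [Set.mem_preimage, ContinuousLinearMap.rotation_apply, Real.cos_neg,
        Real.cos_pi_div_four, Real.sin_neg, Real.sin_pi_div_four, neg_smul, neg_neg, Set.mem_prod,
        Set.mem_ofPred_eq] at hp
      obtain ⟨h1, h2⟩ := hp
      rw [← sub_eq_add_neg, ← smul_sub, map_smul_eq_mul, Real.norm_of_nonneg (by positivity)] at h1
      rw [← smul_add, map_smul_eq_mul, Real.norm_of_nonneg (by positivity)] at h2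
      have e1 : N (p.1 + p.2) ≤ N (p.1 - p.2) + 2 * N p.2 := by
        have : p.1 + p.2 = (p.1 - p.2) + (p.2 + p.2) := by abel
        rw [this]
        have a1 := map_add_le_add N (p.1 - p.2) (p.2 + p.2)
        have a2 := map_add_le_add N p.2 p.2
        linarith
      have e2 : N (p.1 + p.2) ≤ N (p.1 - p.2) + 2 * N p.1 := by
        have : p.1 + p.2 = -(p.1 - p.2) + (p.1 + p.1) := by abel
        rw [this]
        have a1 := map_add_le_add N (-(p.1 - p.2)) (p.1 + p.1)
        have a2 := map_add_le_add N p.1 p.1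
        rw [map_neg_eq_map] at a1
        linarith
      constructor
      · simp only [Set.mem_ofPred_eq]
        rw [div_lt_iff₀ hs2]
        nlinarith
      · simp only [Set.mem_ofPred_eq]
        rw [div_lt_iff₀ hs2]
        nlinarith
    _ = gam m {x | (t - s) / √2 < N x} ^ 2 := by rw [Measure.prod_prod, pow_two]

theorem ktail_cont (N : Seminorm ℝ (Euc (Fin m))) {C : ℝ} (hC : ∀ x, N x ≤ C * ‖x‖) :
    Continuous N := by
  refine (LipschitzWith.of_dist_le' (K := C) fun x y => ?_).continuous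
  rw [Real.dist_eq, dist_eq_norm]
  exact (abs_sub_map_le_sub N x y).trans (hC _)

theorem ktail_int (N : Seminorm ℝ (Euc (Fin m))) {C : ℝ} (hC : ∀ x, N x ≤ C * ‖x‖) :
    Integrable (fun x => N x ^ 2) (gam m) := by
  have h1 : Integrable (fun x : Euc (Fin m) => ‖x‖ ^ 2) (gam m) :=
    (memLp_two_iff_integrable_sq_norm (by fun_prop)).1 (IsGaussian.memLp_two_id (μ := gam m))
  refine (h1.const_mul (C ^ 2)).mono' ((ktail_cont N hC).pow 2).aestronglyMeasurable
    (Eventually.of_forall fun x => ?_)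
  rw [Real.norm_of_nonneg (sq_nonneg _), ← mul_pow]
  exact pow_le_pow_left₀ (apply_nonneg N x) (hC x) 2

/-- the iteration of `tail_step` -/
theorem ktail_iter (N : Seminorm ℝ (Euc (Fin m))) (hN : Continuous N) {s : ℝ}
    (hs : (gam m).real {x | s < N x} ≤ 1 / 16) (k : ℕ) :
    (gam m).real {x | s * (√2 + 1) * (√2 ^ (k + 1) - 1) < N x} ≤ (1 / 15) ^ 2 ^ k := by
  have hs2 : (0 : ℝ) < √2 := by positivity
  have hsq : √2 * √2 = 2 := Real.mul_self_sqrt (by norm_num)
  have hq : (gam m).real {x | N x ≤ s} = 1 - (gam m).real {x | s < N x} := by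
    rw [← probReal_compl_eq_one_sub (measurableSet_lt measurable_const hN.measurable)]
    congr 1
    ext x
    simp
  have hq1 : 15 / 16 ≤ (gam m).real {x | N x ≤ s} := by linarith
  have hq2 : (gam m).real {x | N x ≤ s} ≤ 1 := measureReal_le_one
  have key : ∀ k : ℕ, (gam m).real {x | s * (√2 + 1) * (√2 ^ (k + 1) - 1) < N x} ≤
      (gam m).real {x | N x ≤ s} * (1 / 15) ^ 2 ^ k := by
    intro k
    induction k with
    | zero =>
      have : s * (√2 + 1) * (√2 ^ (0 + 1) - 1) = s := by
        rw [zero_add, pow_one]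
        linear_combination s * hsq
      rw [this]
      norm_num
      linarith
    | succ k ih =>
      have h := tail_step N hN s (s * (√2 + 1) * (√2 ^ (k + 1 + 1) - 1))
      have e : (s * (√2 + 1) * (√2 ^ (k + 1 + 1) - 1) - s) / √2 = s * (√2 + 1) * (√2 ^ (k + 1) - 1) := by
        rw [div_eq_iff hs2.ne', pow_succ _ (k + 1)]
        linear_combination s * hsq
      rw [e] at h
      have h' := ENNReal.toReal_mono (by finiteness) h
      rw [ENNReal.toReal_mul, ENNReal.toReal_pow] at h'
      simp only [← measureReal_def] at h'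
      have h3 := pow_le_pow_left₀ measureReal_nonneg ih 2
      rw [mul_pow, ← pow_mul, ← pow_succ] at h3
      refine le_of_mul_le_mul_left ?_ (by linarith : 0 < (gam m).real {x | N x ≤ s})
      rw [← mul_assoc, ← sq]
      exact h'.trans h3
  exact (key k).trans (mul_le_of_le_one_left (by positivity) hq2)

theorem ktail_prob (N : Seminorm ℝ (Euc (Fin m))) {C : ℝ} (hC : ∀ x, N x ≤ C * ‖x‖) {l Λ a : ℝ}
    (hl : 0 < l) (h2 : ∫ x, N x ^ 2 ∂gam m ≤ l ^ 2) (hΛ : 1 ≤ Λ) (ha : 20 * l * √Λ ≤ a) :
    (gam m).real {x | a < N x} ≤ Real.exp (-(2 * Λ)) := by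
  have hN := ktail_cont N hC
  have hs : (gam m).real {x | 4 * l < N x} ≤ 1 / 16 := by
    have h1 := mul_meas_ge_le_integral_of_nonneg (μ := gam m) (f := fun x => N x ^ 2)
      (Eventually.of_forall fun x => sq_nonneg _) (ktail_int N hC) ((4 * l) ^ 2)
    have h3 : (gam m).real {x | 4 * l < N x} ≤ (gam m).real {x | (4 * l) ^ 2 ≤ N x ^ 2} :=
      measureReal_mono fun x hx =>
        pow_le_pow_left₀ (show (0 : ℝ) ≤ 4 * l by positivity) (le_of_lt hx) 2
    have h4 : (4 * l) ^ 2 * (gam m).real {x | 4 * l < N x} ≤ (4 * l) ^ 2 * (1 / 16) := by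
      have := mul_le_mul_of_nonneg_left h3 (sq_nonneg (4 * l))
      nlinarith
    exact le_of_mul_le_mul_left h4 (by positivity)
  obtain ⟨n, hn1, hn2⟩ := exists_nat_pow_near hΛ (one_lt_two (α := ℝ))
  have h1 := ktail_iter N hN hs (n + 1)
  have hsq : √2 * √2 = 2 := Real.mul_self_sqrt (by norm_num)
  have hs2 : (0 : ℝ) < √2 := by positivity
  have hs3 : √2 ≤ 3 / 2 := by nlinarith
  have hp : √2 ^ (n + 1 + 1) ≤ 2 * √Λ := by
    refine le_of_sq_le_sq ?_ (by positivity)
    rw [← pow_mul, mul_comm _ 2, pow_mul, sq √2, hsq, mul_pow, Real.sq_sqrt (by linarith), pow_succ,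
      pow_succ]
    linarith
  have ht : 4 * l * (√2 + 1) * (√2 ^ (n + 1 + 1) - 1) ≤ a := by
    refine le_trans ?_ ha
    have hL : 0 ≤ √Λ := Real.sqrt_nonneg _
    calc 4 * l * (√2 + 1) * (√2 ^ (n + 1 + 1) - 1) ≤ 4 * l * (√2 + 1) * (2 * √Λ) := by
          gcongr
          linarith
      _ ≤ 4 * l * (3 / 2 + 1) * (2 * √Λ) := by gcongr
      _ = 20 * l * √Λ := by ring
  have he : (1 / 15 : ℝ) ≤ Real.exp (-2) := by
    rw [Real.exp_neg, one_div]
    refine inv_anti₀ (Real.exp_pos _) ?_
    have h1 := Real.exp_one_lt_d9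
    have h2 : Real.exp 2 = Real.exp 1 * Real.exp 1 := by
      rw [← Real.exp_add]
      norm_num
    have h3 := Real.exp_pos 1
    nlinarith
  calc (gam m).real {x | a < N x}
      ≤ (gam m).real {x | 4 * l * (√2 + 1) * (√2 ^ (n + 1 + 1) - 1) < N x} :=
        measureReal_mono fun x hx => lt_of_le_of_lt ht hx
    _ ≤ (1 / 15) ^ 2 ^ (n + 1) := h1
    _ ≤ Real.exp (-2) ^ 2 ^ (n + 1) := by gcongr
    _ = Real.exp (-(2 * 2 ^ (n + 1))) := by
        rw [← Real.exp_nat_mul]
        congr 1
        push_cast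
        ring
    _ ≤ Real.exp (-(2 * Λ)) := Real.exp_le_exp.2 (by linarith)

/-- `s = 4 ℓ`: `γ {N > s} ≤ 1/16` (Chebyshev).  `t 0 = s`, `t (k+1) = s + √2 t k`, `x k = γ {N > t k} / γ {N ≤ s}` satisfies
`x (k+1) ≤ (x k)²`, `x 0 ≤ 1/15`, so `γ {N > t k} ≤ exp (-2 · 2^k)`, and `t k ≤ 2.42 s √2^(k+1)`.  Take `k` with `Λ ≤ 2^k ≤ 2Λ`:
`t k ≤ 20 ℓ √Λ`.  Finally `∫ max (N - a) 0 ≤ ∫ N 1_{N > a} ≤ ℓ √(γ {N > a})` (Cauchy-Schwarz). -/
theorem tail_bound (N : Seminorm ℝ (Euc (Fin m))) {C : ℝ} (hC : ∀ x, N x ≤ C * ‖x‖) {l Λ a : ℝ} (hl : 0 < l)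
    (h2 : ∫ x, N x ^ 2 ∂gam m ≤ l ^ 2) (hΛ : 1 ≤ Λ) (ha : 20 * l * √Λ ≤ a) :
    ∫ x, max (N x - a) 0 ∂gam m ≤ l * Real.exp (-Λ) := by
  have hN := ktail_cont N hC
  have hP := ktail_prob N hC hl h2 hΛ ha
  have ha0 : 0 ≤ a := le_trans (by positivity) ha
  have hm : MeasurableSet {x | a < N x} := measurableSet_lt measurable_const hN.measurable
  set E := Real.exp (-Λ) with hE
  have hE0 : 0 < E := Real.exp_pos _
  have hE2 : Real.exp (-(2 * Λ)) = E ^ 2 := by
    rw [hE, ← Real.exp_nat_mul]
    congr 1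
    push_cast
    ring
  have hI1 : Integrable (fun x => E / (2 * l) * N x ^ 2) (gam m) := (ktail_int N hC).const_mul _
  have hI2 : Integrable ({x | a < N x}.indicator fun _ => l / (2 * E)) (gam m) :=
    (integrable_const _).indicator hm
  calc ∫ x, max (N x - a) 0 ∂gam m
      ≤ ∫ x, (E / (2 * l) * N x ^ 2 + {x | a < N x}.indicator (fun _ => l / (2 * E)) x) ∂gam m := by
        refine integral_mono_of_nonneg (Eventually.of_forall fun x => le_max_right _ _) (hI1.add hI2)
          (Eventually.of_forall fun x => ?_)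
        dsimp only
        by_cases hx : a < N x
        · rw [Set.indicator_of_mem (by exact hx)]
          refine max_le ?_ (by positivity)
          have : E / (2 * l) * N x ^ 2 + l / (2 * E) - N x = (E * N x - l) ^ 2 / (2 * l * E) := by
            field_simp
            ring
          have h3 : 0 ≤ (E * N x - l) ^ 2 / (2 * l * E) := by positivity
          linarith
        · rw [Set.indicator_of_notMem (by exact hx), max_eq_right (by linarith [not_lt.1 hx])]
          positivity
    _ = E / (2 * l) * ∫ x, N x ^ 2 ∂gam m + (gam m).real {x | a < N x} * (l / (2 * E)) := by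
        rw [integral_add hI1 hI2, integral_const_mul, integral_indicator_const _ hm, smul_eq_mul]
    _ ≤ E / (2 * l) * l ^ 2 + E ^ 2 * (l / (2 * E)) := by
        rw [← hE2]
        gcongr
    _ = l * E := by
        field_simp
        ring

end

end Crest.Agent.R152
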