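import Crest.Agent.R152.RVor

/-!
# R152/RSplit

Transfer to a subspace and splitting along a nearly tight sublattice.

Helper lemmas: prefix `rsplit_`.
-/

set_option autoImplicit false
set_option linter.unusedVariables false
set_option linter.unusedSectionVars false

namespace Crest.Agent.R152

open Crest.FinProb Crest.ProbabilityR.SignMatrix MeasureTheory ProbabilityTheory Filter Module
open scoped RealInnerProductSpace ENNReal Matrix Topology

noncomputable section

variable {m : ℕ}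

/-- The adjoint of a linear isometry maps the standard Gaussian to the standard Gaussian (`Measure.ext_of_charFun`,
`charFun_stdGaussian`). -/
theorem gam_map_adjoint {k : ℕ} (j : Euc (Fin k) →ₗᵢ[ℝ] Euc (Fin m)) :
    (gam m).map (ContinuousLinearMap.adjoint j.toContinuousLinearMap) = gam k := by
  refine Measure.ext_of_charFun (funext fun t => ?_)
  rw [charFun_apply, integral_map (Measurable.aemeasurable (by fun_prop))
    (Continuous.aestronglyMeasurable (by fun_prop))]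
  simp_rw [ContinuousLinearMap.adjoint_inner_left]
  have h1 := charFun_stdGaussian (j t)
  rw [charFun_apply, j.norm_map] at h1
  rw [charFun_stdGaussian, ← h1]
  refine integral_congr_ae (Eventually.of_forall fun x => ?_)
  rfl

theorem rsplit_le_mul {E : Type} [NormedAddCommGroup E] [InnerProductSpace ℝ E] {L : AddSubgroup E} {r : ℝ}
    (hr : 0 < r) (h : Sep L r) (x : E) {y : E} (hy : y ∈ L) (h0 : y ≠ 0) : 2 * ⟪x, y⟫ ≤ gau L x * ‖y‖ ^ 2 :=
  (div_le_iff₀ (pow_pos (norm_pos_iff.2 h0) 2)).1 (le_gau hr h x hy)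

/-- Let `j` be a linear isometry from `ℝ^k` onto `W` (`stdOrthonormalBasis ℝ W`), `L' = L.comap j`; `gau L x = gau L' (j* x)`. -/
theorem exists_transfer (a : ℝ) (L : AddSubgroup (Euc (Fin m))) (h : Stable L 1) (W : Submodule ℝ (Euc (Fin m)))
    (hW : ∀ y ∈ L, y ∈ W) :
    ∃ L' : AddSubgroup (Euc (Fin (finrank ℝ W))), Stable L' 1 ∧ PhiL a L' = PhiL a L := by
  obtain ⟨j, hj⟩ : ∃ j : Euc (Fin (finrank ℝ W)) →ₗᵢ[ℝ] Euc (Fin m), ∀ y ∈ W, ∃ y', j y' = y :=
    ⟨W.subtypeₗᵢ.comp (stdOrthonormalBasis ℝ W).repr.symm.toLinearIsometry, fun y hy =>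
      ⟨(stdOrthonormalBasis ℝ W).repr ⟨y, hy⟩, by simp⟩⟩
  set L' := L.comap j.toLinearMap.toAddMonoidHom with hL'
  have hmem : ∀ y, y ∈ L' ↔ j y ∈ L := fun y => Iff.rfl
  have hs : Stable L' 1 := fun k v hv hi => by
    rw [← gvol_isometry j v]
    exact h k _ (fun i => (hmem _).1 (hv i)) (hi.map' j.toLinearMap (LinearMap.ker_eq_bot.2 j.injective))
  have hg : ∀ x, gau L' (ContinuousLinearMap.adjoint j.toContinuousLinearMap x) = gau L x := by
    intro x
    have hin : ∀ y, ⟪ContinuousLinearMap.adjoint j.toContinuousLinearMap x, y⟫ = ⟪x, j y⟫ := fun y =>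
      ContinuousLinearMap.adjoint_inner_left _ _ _
    refine le_antisymm (gau_le_of _ _ (gau_nonneg one_pos h.sep x) fun y hy h0 => ?_)
      (gau_le_of _ _ (gau_nonneg one_pos hs.sep _) fun y hy h0 => ?_)
    · rw [hin, ← j.norm_map]
      exact rsplit_le_mul one_pos h.sep x ((hmem y).1 hy) ((map_ne_zero_iff j j.injective).2 h0)
    · obtain ⟨y', rfl⟩ := hj y (hW y hy)
      rw [← hin, j.norm_map]
      exact rsplit_le_mul one_pos hs.sep _ ((hmem y').2 hy) ((map_ne_zero_iff j j.injective).1 h0)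
  refine ⟨L', hs, ?_⟩
  have hc := continuous_gau one_pos hs.sep
  rw [PhiL, ← gam_map_adjoint j, integral_map (Measurable.aemeasurable (by fun_prop))
    (Continuous.aestronglyMeasurable (by fun_prop))]
  simp_rw [hg]
  rfl

/-- Splitting.  `W = span v`, `P` the projection on `Wᗮ`, `L₁ = L ⊓ W`, `L'' = L.map P`, `L₂ = (1+η) L''`.  If `P w` is an
independent family then `(v, w)` is independent (`gvol_sum`, `gvol_pos_iff`), so `1 ≤ gvol v * gvol (P w)`; hence `L₂` is
stable (`gvol_smul`; the empty family is trivial).  The seminorm `N = max (gau L₁) (gau L'')` is `≥ 2` on `L \ 0`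
(`⟪y, P y⟫ = ‖P y‖²`), so `PhiL_le` applies; `max (N - a) 0 ≤ max (gau L₁ - a) 0 + max (gau L₂ - a) 0 + 2 η ‖x‖` since
`gau L'' = (1+η) gau L₂` (`gau_map_smul`) and `gau L₂ ≤ 2‖x‖`; `R285.integral_norm_gam_le`. -/
theorem exists_split {a η : ℝ} (ha : 0 ≤ a) (hη : 0 ≤ η) (L : AddSubgroup (Euc (Fin m))) (h : Stable L 1) {k : ℕ}
    (v : Fin k → Euc (Fin m)) (hv : ∀ i, v i ∈ L) (hi : LinearIndependent ℝ v) (hg : gvol v ≤ 1 + η) :
    ∃ L₁ L₂ : AddSubgroup (Euc (Fin m)), Stable L₁ 1 ∧ Stable L₂ 1 ∧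
      (∀ y ∈ L₁, y ∈ Submodule.span ℝ (Set.range v)) ∧ (∀ y ∈ L₂, y ∈ (Submodule.span ℝ (Set.range v))ᗮ) ∧
      PhiL a L ≤ PhiL a L₁ + PhiL a L₂ + 2 * η * √m := by
  set W := Submodule.span ℝ (Set.range v) with hW
  set P := Wᗮ.starProjection with hP
  set L₁ := L ⊓ W.toAddSubgroup with hL₁
  set L'' := L.map P.toLinearMap.toAddMonoidHom with hL''
  have hc : 0 < 1 + η := by positivity
  set L₂ := L''.map ((1 + η) • LinearMap.id : Euc (Fin m) →ₗ[ℝ] Euc (Fin m)).toAddMonoidHom with hL₂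
  have hs₁ : Stable L₁ 1 := fun k u hu hi => h k u (fun i => (hu i).1) hi
  have key : ∀ (k' : ℕ) (u : Fin k' → Euc (Fin m)), (∀ i, u i ∈ L'') → 0 < gvol u → 1 ≤ (1 + η) * gvol u := by
    intro k' u hu hpos
    choose w hw hw' using hu
    have e : gvol (Sum.elim v w) = gvol v * gvol u := by
      rw [gvol_sum]
      congr 2
      exact funext hw'
    have h1 := h.le_gvol (Sum.elim v w) (fun i => by rcases i with i | i; exacts [hv i, hw i])
      ((gvol_pos_iff _).1 (e ▸ mul_pos ((gvol_pos_iff v).2 hi) hpos))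
    rw [one_pow, e] at h1
    exact h1.trans (mul_le_mul_of_nonneg_right hg hpos.le)
  have hs₂ : Stable L₂ 1 := by
    intro k' u hu hi'
    choose w hw hw' using hu
    obtain rfl : u = fun i => (1 + η) • w i := funext fun i => (hw' i).symm
    rcases Nat.eq_zero_or_pos k' with rfl | hk
    · rw [gvol_empty, pow_zero]
    have h1 := (gvol_pos_iff _).2 hi'
    rw [gvol_smul, Fintype.card_fin, abs_of_pos hc] at h1 ⊢
    have h2 : 0 < gvol w := (mul_pos_iff_of_pos_left (pow_pos hc _)).1 h1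
    rw [one_pow]
    exact (key k' w hw h2).trans (mul_le_mul_of_nonneg_right (le_self_pow₀ (by linarith) hk.ne') h2.le)
  have hr : 0 < (1 + η)⁻¹ := inv_pos.2 hc
  have hs'' : Sep L'' (1 + η)⁻¹ := fun y hy h0 => by
    have h1 := hs₂.sep ((1 + η) • y) ⟨y, hy, rfl⟩ (smul_ne_zero hc.ne' h0)
    rw [norm_smul, Real.norm_of_nonneg hc.le] at h1
    rwa [inv_le_iff_one_le_mul₀' hc]
  have hg₁ : ∀ x, gau L₁ x ≤ 2 * ‖x‖ := fun x => by simpa using gau_le one_pos hs₁.sep x
  have hg₂ : ∀ x, gau L₂ x ≤ 2 * ‖x‖ := fun x => by simpa using gau_le one_pos hs₂.sep x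
  have hg'' : ∀ x, gau L'' x ≤ gau L₂ x + 2 * η * ‖x‖ := fun x => by
    have h1 : gau L₂ x = gau L'' x / (1 + η) := gau_map_smul hr hs'' hc x
    rw [eq_div_iff hc.ne'] at h1
    have h2 := mul_le_mul_of_nonneg_left (hg₂ x) hη
    linarith
  obtain ⟨N₁, hN₁⟩ := exists_gauSN one_pos hs₁.sep
  obtain ⟨N₂, hN₂⟩ := exists_gauSN hr hs''
  have hN : ∀ x, (N₁ ⊔ N₂) x = max (gau L₁ x) (gau L'' x) := fun x => by rw [Seminorm.sup_apply, hN₁, hN₂]
  have hC : ∀ x, (N₁ ⊔ N₂) x ≤ (2 + 2 * η) * ‖x‖ := fun x => by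
    have h1 := mul_nonneg hη (norm_nonneg x)
    rw [hN]
    exact max_le (by linarith [hg₁ x]) (by linarith [hg₂ x, hg'' x])
  have h2 : ∀ y ∈ L, y ≠ 0 → 2 ≤ (N₁ ⊔ N₂) y := by
    intro y hy h0
    rw [hN]
    by_cases hy0 : P y = 0
    · refine le_max_of_le_left (two_le_gau one_pos hs₁.sep ⟨hy, ?_⟩ h0)
      have h1 := (Submodule.starProjection_apply_eq_zero_iff _).1 hy0
      rwa [Submodule.orthogonal_orthogonal] at h1
    · refine le_max_of_le_right (le_trans (le_of_eq ?_) (le_gau hr hs'' y (y := P y) ⟨y, hy, rfl⟩))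
      have h1 := Wᗮ.starProjection_inner_eq_zero y (P y) (Wᗮ.starProjection_apply_mem y)
      rw [inner_sub_left, sub_eq_zero, real_inner_self_eq_norm_sq] at h1
      rw [h1, mul_div_assoc, div_self (pow_pos (norm_pos_iff.2 hy0) 2).ne', mul_one]
  refine ⟨L₁, L₂, hs₁, hs₂, fun y hy => hy.2, ?_, (PhiL_le one_pos h.sep _ hC h2 ha).trans ?_⟩
  · rintro _ ⟨_, ⟨y, -, rfl⟩, rfl⟩
    exact Wᗮ.smul_mem _ (Wᗮ.starProjection_apply_mem y)
  have i₁ := integrable_posPart (gau L₁) (continuous_gau one_pos hs₁.sep) (C := 2)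
    (fun x => by rw [abs_of_nonneg (gau_nonneg one_pos hs₁.sep x)]; exact hg₁ x) a
  have i₂ := integrable_posPart (gau L₂) (continuous_gau one_pos hs₂.sep) (C := 2)
    (fun x => by rw [abs_of_nonneg (gau_nonneg one_pos hs₂.sep x)]; exact hg₂ x) a
  have i₃ : Integrable (fun x : Euc (Fin m) => 2 * η * ‖x‖) (gam m) := R285.integrable_norm_gam.const_mul _
  refine (integral_mono_of_nonneg (Eventually.of_forall fun x => le_max_right _ _) ((i₁.add i₂).add i₃)
    (Eventually.of_forall fun x => ?_)).trans ?_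
  · have h1 := mul_nonneg hη (norm_nonneg x)
    have h3 := le_max_left (gau L₁ x - a) 0
    have h4 := le_max_right (gau L₁ x - a) 0
    have h5 := le_max_left (gau L₂ x - a) 0
    have h6 := le_max_right (gau L₂ x - a) 0
    show max ((N₁ ⊔ N₂) x - a) 0 ≤ max (gau L₁ x - a) 0 + max (gau L₂ x - a) 0 + 2 * η * ‖x‖
    rw [hN]
    refine max_le (sub_le_iff_le_add.2 (max_le ?_ ?_)) ?_ <;> linarith [hg'' x]
  · rw [integral_add' (i₁.add i₂) i₃, integral_add' i₁ i₂, integral_const_mul]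
    exact add_le_add le_rfl (mul_le_mul_of_nonneg_left R285.integral_norm_gam_le (by positivity))

end

end Crest.Agent.R152
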