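import Crest.Agent.R152.RVol
import Crest.Agent.R152.RSplit
import Crest.Agent.R152.RVar
import Crest.Agent.R152.KTail
import Crest.Agent.R152.KLew

/-!
# R152/RMain

The reverse Minkowski theorem (Regev, Stephens-Davidowitz) with a polylogarithmic constant.

Helper lemmas: prefix `rmain_`.
-/

set_option autoImplicit false
set_option linter.unusedVariables false
set_option linter.unusedSectionVars false

namespace Crest.Agent.R152

open Crest.FinProb Crest.ProbabilityR.SignMatrix MeasureTheory ProbabilityTheory Filter Module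
open scoped RealInnerProductSpace ENNReal Matrix Topology

noncomputable section

theorem rmain_log {n : ℕ} (hn : 1 ≤ n) : 1 ≤ Real.log (n + 2) := by
  rw [Real.le_log_iff_exp_le (by positivity)]
  have h1 := Real.exp_one_lt_d9
  have h2 : (1 : ℝ) ≤ n := by exact_mod_cast hn
  linarith

theorem rmain_int_sq {m : ℕ} (N : Euc (Fin m) → ℝ) (hN : Continuous N) {C : ℝ} (hC : ∀ x, |N x| ≤ C * ‖x‖) :
    Integrable (fun x => N x ^ 2) (gam m) := by
  refine ((R285.integrable_norm_pow_gam (d := m) 2).const_mul (C ^ 2)).mono'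
    (hN.pow 2).aestronglyMeasurable (ae_of_all _ fun x => ?_)
  rw [Real.norm_eq_abs, abs_pow, ← mul_pow]
  exact pow_le_pow_left₀ (abs_nonneg _) (hC x) 2

theorem rmain_cont {m : ℕ} (N : Seminorm ℝ (Euc (Fin m))) {C : ℝ} (hC : ∀ x, N x ≤ C * ‖x‖) :
    Continuous N := by
  refine Seminorm.continuous_of_le (q := (Real.toNNReal C) • normSeminorm ℝ _) ?_ fun x => ?_
  · have : ((Real.toNNReal C • normSeminorm ℝ (Euc (Fin m)) : Seminorm ℝ _) : Euc (Fin m) → ℝ) =
        fun x => (Real.toNNReal C : ℝ) * ‖x‖ := by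
      ext x; simp [NNReal.smul_def]
    rw [this]; fun_prop
  · refine (hC x).trans ?_
    simp only [smul_apply, coe_normSeminorm, NNReal.smul_def, smul_eq_mul]
    exact mul_le_mul_of_nonneg_right (Real.le_coe_toNNReal C) (norm_nonneg x)

/-- Good positions, uniformly.  `R` from `exists_trunc`, `N = max (gau L) (‖·‖/R)` (a seminorm with `‖x‖ ≤ R N x`, `N x ≤ 2‖x‖`),
`ell_position` with `l = C₁ log (n+2)²`; `(d i)² ≤ ∫ ‖diagOp e d x‖² ≤ R² l²` (`norm_diagOp_sq`, `integral_inner_mul_inner`); `tail_bound`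
for the seminorm `gau L ∘ diagOp e d` with `Λ = max 1 (log (2 (n+1) l))`, which is `≤ C log (n+2)`. -/
theorem good_position : ∃ C₂ : ℝ, 0 < C₂ ∧ ∀ n m : ℕ, 0 < m → m ≤ n → ∃ B : ℝ, 1 ≤ B ∧
    ∀ L : AddSubgroup (Euc (Fin m)), Stable L 1 → Submodule.span ℝ (L : Set (Euc (Fin m))) = ⊤ →
    ∃ (e : OrthonormalBasis (Fin m) ℝ (Euc (Fin m))) (d : Fin m → ℝ), (∀ i, 0 < d i) ∧ (∀ i, d i ≤ B) ∧ ∏ i, d i = 1 ∧
      ∫ x, max (gau L (diagOp e d x) - C₂ * Real.log (n + 2) ^ 3) 0 ∂gam m ≤ 1 / (2 * (n + 1)) := by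
  obtain ⟨C₁, hC₁, hell⟩ := ell_position
  set K := |Real.log (2 * C₁)| + 3 with hK
  have hK1 : 1 ≤ K := by have := abs_nonneg (Real.log (2 * C₁)); linarith
  refine ⟨20 * C₁ * K, by positivity, fun n m hm hmn => ?_⟩
  obtain ⟨R, hR1, hR⟩ := exists_trunc m
  have hR0 : 0 < R := by linarith
  set lam := Real.log (n + 2) with hlam
  have hlam1 : 1 ≤ lam := rmain_log (by omega)
  set l := C₁ * lam ^ 2 with hl
  have hl0 : 0 < l := by positivity
  refine ⟨max 1 (R * l), le_max_left _ _, fun L hL hsp => ?_⟩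
  have hsep : Sep L 1 := hL.sep
  obtain ⟨N₀, hN₀⟩ := exists_gauSN one_pos hsep
  have hN2 : ∀ x, N₀ x ≤ 2 * ‖x‖ := fun x => by
    rw [hN₀]; simpa using gau_le one_pos hsep x
  set N : Seminorm ℝ (Euc (Fin m)) := N₀ ⊔ (Real.toNNReal R⁻¹) • normSeminorm ℝ _ with hN
  have hNa : ∀ x, N x = max (N₀ x) (R⁻¹ * ‖x‖) := fun x => by
    simp only [hN, Seminorm.sup_apply, smul_apply, coe_normSeminorm, NNReal.smul_def, smul_eq_mul]
    rw [Real.coe_toNNReal _ (inv_nonneg.mpr hR0.le)]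
  have hN1 : ∀ x, ‖x‖ ≤ R * N x := fun x => by
    rw [hNa]
    calc ‖x‖ = R * (R⁻¹ * ‖x‖) := by field_simp
      _ ≤ _ := mul_le_mul_of_nonneg_left (le_max_right _ _) hR0.le
  have hN3 : ∀ x, N x ≤ 2 * ‖x‖ := fun x => by
    rw [hNa]
    refine max_le (hN2 x) (mul_le_mul_of_nonneg_right ?_ (norm_nonneg x))
    have : R⁻¹ ≤ 1 := inv_le_one_of_one_le₀ hR1
    linarith
  obtain ⟨e, d, hd0, hd1, hint⟩ := hell m hm N R 2 hN1 hN3 (by
    refine (hR L hL hsp).trans (measure_mono fun x hx => ?_)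
    obtain ⟨h1, h2⟩ := hx
    show N x ≤ 1
    rw [hNa, hN₀]
    refine max_le h1 ?_
    rw [inv_mul_le_iff₀ hR0, mul_one]
    exact h2)
  have hint' : ∫ x, N (diagOp e d x) ^ 2 ∂gam m ≤ l ^ 2 := by
    refine hint.trans (pow_le_pow_left₀ (by positivity) ?_ 2)
    have h0 : (m : ℝ) ≤ n := by exact_mod_cast hmn
    have h1 : Real.log (m + 2) ≤ lam := Real.log_le_log (by positivity) (by linarith)
    have h2 : 0 ≤ Real.log (m + 2) := Real.log_nonneg (by have : (0 : ℝ) ≤ m := Nat.cast_nonneg m; linarith)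
    exact mul_le_mul_of_nonneg_left (pow_le_pow_left₀ h2 h1 2) hC₁.le
  have hD : ∀ x, ‖diagOp e d x‖ ≤ ‖diagOp e d‖ * ‖x‖ := (diagOp e d).le_opNorm
  have iN : Integrable (fun x => N (diagOp e d x) ^ 2) (gam m) :=
    rmain_int_sq (fun x => N (diagOp e d x)) ((rmain_cont N hN3).comp (diagOp e d).continuous)
      (C := 2 * ‖diagOp e d‖) fun x => by
        rw [abs_of_nonneg (apply_nonneg N _)]
        have h1 := hN3 (diagOp e d x)
        have h2 := hD x
        linarith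
  have hdB : ∀ i, d i ≤ R * l := fun i => by
    refine le_of_pow_le_pow_left₀ two_ne_zero (by positivity) ?_
    have h1 : ∫ x, ⟪e i, x⟫ * ⟪e i, x⟫ ∂gam m = 1 := by
      rw [integral_inner_mul_inner, real_inner_self_eq_norm_sq, e.orthonormal.1 i, one_pow]
    calc d i ^ 2 = ∫ x, d i ^ 2 * (⟪e i, x⟫ * ⟪e i, x⟫) ∂gam m := by rw [integral_const_mul, h1, mul_one]
      _ ≤ ∫ x, R ^ 2 * N (diagOp e d x) ^ 2 ∂gam m := by
          refine integral_mono_of_nonneg (ae_of_all _ fun x => mul_nonneg (sq_nonneg _) (mul_self_nonneg _))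
            (iN.const_mul _) (ae_of_all _ fun x => ?_)
          have h2 : (d i * ⟪e i, x⟫) ^ 2 ≤ ‖diagOp e d x‖ ^ 2 := by
            rw [norm_diagOp_sq]
            exact Finset.single_le_sum (f := fun i => (d i * ⟪e i, x⟫) ^ 2) (fun _ _ => sq_nonneg _)
              (Finset.mem_univ i)
          have h3 := pow_le_pow_left₀ (norm_nonneg _) (hN1 (diagOp e d x)) 2
          show d i ^ 2 * (⟪e i, x⟫ * ⟪e i, x⟫) ≤ R ^ 2 * N (diagOp e d x) ^ 2
          nlinarith
      _ ≤ (R * l) ^ 2 := by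
          rw [integral_const_mul, mul_pow]
          exact mul_le_mul_of_nonneg_left hint' (sq_nonneg _)
  refine ⟨e, d, hd0, fun i => (hdB i).trans (le_max_right _ _), hd1, ?_⟩
  have hΛ : 1 ≤ K * lam := by nlinarith
  have key := tail_bound (N₀.comp (diagOp e d : Euc (Fin m) →ₗ[ℝ] Euc (Fin m))) (C := 2 * ‖diagOp e d‖)
    (l := l) (Λ := K * lam) (a := 20 * C₁ * K * lam ^ 3) (fun x => by
      have h1 := hN2 (diagOp e d x)
      have h2 := hD x
      simp only [Seminorm.comp_apply, ContinuousLinearMap.coe_coe]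
      linarith) hl0 (by
      refine le_trans (integral_mono_of_nonneg (ae_of_all _ fun x => sq_nonneg _) iN
        (ae_of_all _ fun x => ?_)) hint'
      simp only [Seminorm.comp_apply, ContinuousLinearMap.coe_coe]
      refine pow_le_pow_left₀ (apply_nonneg _ _) ?_ 2
      rw [hNa]; exact le_max_left _ _) hΛ (by
      have h1 : √(K * lam) ≤ K * lam := by
        rw [Real.sqrt_le_left (by linarith)]; nlinarith
      calc 20 * l * √(K * lam) ≤ 20 * l * (K * lam) := mul_le_mul_of_nonneg_left h1 (by positivity)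
        _ = _ := by rw [hl]; ring)
  simp only [Seminorm.comp_apply, ContinuousLinearMap.coe_coe, hN₀] at key
  refine key.trans ?_
  have e1 : 2 * C₁ ≤ Real.exp (|Real.log (2 * C₁)| * lam) := by
    calc 2 * C₁ = Real.exp (Real.log (2 * C₁)) := (Real.exp_log (by positivity)).symm
      _ ≤ _ := Real.exp_le_exp.mpr (by
          have h1 := le_abs_self (Real.log (2 * C₁))
          have h2 := abs_nonneg (Real.log (2 * C₁))
          nlinarith)
  have e2 : Real.exp lam = n + 2 := Real.exp_log (by positivity)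
  have e3 : lam ≤ Real.exp lam := by have := Real.add_one_le_exp lam; linarith
  have e4 : Real.exp (K * lam) = Real.exp (|Real.log (2 * C₁)| * lam) * Real.exp lam * Real.exp lam ^ 2 := by
    rw [← Real.exp_nat_mul, ← Real.exp_add, ← Real.exp_add, hK]; congr 1; push_cast; ring
  have e5 : 2 * C₁ * (n + 1) * lam ^ 2 ≤ Real.exp (K * lam) := by
    rw [e4]
    refine mul_le_mul (mul_le_mul e1 (by linarith) (by positivity) (Real.exp_pos _).le)
      (pow_le_pow_left₀ (by linarith) e3 2) (by positivity) (by positivity)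
  rw [Real.exp_neg, ← div_eq_mul_inv, div_le_div_iff₀ (Real.exp_pos _) (by positivity), hl]
  linarith

/-- Strong induction on `m`.  `m = 0`: `gau = 0`.  Let `Φ*` be the supremum of `PhiL a L` over stable `L` (`PhiL_le_sqrt`).  A stable `L`
inside a proper subspace has `PhiL ≤ (m-1) ε` (`exists_transfer`).  Fix small `η`, then `τ` (as in `var_step`, `τ → 0`), then `L` with
`PhiL a L > Φ* - τ²`.  Either `L` does not span, or some proper family has volume `≤ 1 + η` (`exists_split`, `exists_transfer`,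
`Submodule.finrank_add_finrank_orthogonal`: `Φ* - τ² ≤ m ε + 2η√m`), or `var_step` gives `Φ* ≤ ε + C τ + τ`. -/
theorem PhiL_le_of_position {a ε : ℝ} (ha : 0 ≤ a) (hε : 0 ≤ ε) (n : ℕ)
    (H : ∀ m : ℕ, 0 < m → m ≤ n → ∃ B : ℝ, 1 ≤ B ∧
      ∀ L : AddSubgroup (Euc (Fin m)), Stable L 1 → Submodule.span ℝ (L : Set (Euc (Fin m))) = ⊤ →
      ∃ (e : OrthonormalBasis (Fin m) ℝ (Euc (Fin m))) (d : Fin m → ℝ), (∀ i, 0 < d i) ∧ (∀ i, d i ≤ B) ∧
        ∏ i, d i = 1 ∧ ∫ x, max (gau L (diagOp e d x) - a) 0 ∂gam m ≤ ε) :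
    ∀ m : ℕ, m ≤ n → ∀ L : AddSubgroup (Euc (Fin m)), Stable L 1 → PhiL a L ≤ m * ε := by
  intro m
  induction m using Nat.strong_induction_on with
  | _ m ih =>
  intro hmn L₀ hL₀
  rcases Nat.eq_zero_or_pos m with rfl | hm
  · simpa using PhiL_le_sqrt hL₀.sep ha
  obtain ⟨B, hB, hpos⟩ := H m hm hmn
  have sub : ∀ (W : Submodule ℝ (Euc (Fin m))), finrank ℝ W < m → ∀ L : AddSubgroup (Euc (Fin m)),
      Stable L 1 → (∀ y ∈ L, y ∈ W) → PhiL a L ≤ finrank ℝ W * ε := fun W hW L hL hLW => by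
    obtain ⟨L', h1, h2⟩ := exists_transfer a L hL W hLW
    rw [← h2]
    exact ih _ hW (by omega) L' h1
  set Φ := sSup {t | ∃ L : AddSubgroup (Euc (Fin m)), Stable L 1 ∧ PhiL a L = t} with hΦ
  have hbdd : BddAbove {t | ∃ L : AddSubgroup (Euc (Fin m)), Stable L 1 ∧ PhiL a L = t} :=
    ⟨2 * √m, fun t ⟨L, h1, h2⟩ => h2 ▸ PhiL_le_sqrt h1.sep ha⟩
  have hle : ∀ L : AddSubgroup (Euc (Fin m)), Stable L 1 → PhiL a L ≤ Φ := fun L hL =>
    le_csSup hbdd ⟨L, hL, rfl⟩
  refine (hle L₀ hL₀).trans (le_of_forall_pos_le_add fun θ hθ => ?_)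
  have hm1 : (1 : ℝ) ≤ m := by exact_mod_cast hm
  have hsq : 0 < √(m : ℝ) := Real.sqrt_pos.mpr (by linarith)
  set η := θ / (4 * √m) with hη
  have hη0 : 0 < η := by positivity
  have hη1 : 2 * η * √m = θ / 2 := by rw [hη]; field_simp; ring
  obtain ⟨τ, hτ0, hτ1, hτ2, hτ3, hτ4⟩ : ∃ τ : ℝ, 0 < τ ∧ τ * (1 + B) ≤ 1 / 2 ∧
      1 ≤ (1 - τ * (1 + B)) ^ m * (1 + η) ∧ τ ^ 2 ≤ θ / 2 ∧ τ + 20 * (τ * (1 + B)) * B * √m ≤ θ := by
    have c1 : ∀ᶠ τ : ℝ in 𝓝 0, τ * (1 + B) < 1 / 2 :=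
      (ContinuousAt.eventually_lt (f := fun τ : ℝ => τ * (1 + B)) (g := fun _ => 1 / 2)
        (by fun_prop) (by fun_prop) (by simp))
    have c2 : ∀ᶠ τ : ℝ in 𝓝 0, 1 < (1 - τ * (1 + B)) ^ m * (1 + η) :=
      (ContinuousAt.eventually_lt (g := fun τ : ℝ => (1 - τ * (1 + B)) ^ m * (1 + η)) (f := fun _ => 1)
        (by fun_prop) (by fun_prop) (by simpa using hη0))
    have c3 : ∀ᶠ τ : ℝ in 𝓝 0, τ ^ 2 < θ / 2 :=
      (ContinuousAt.eventually_lt (f := fun τ : ℝ => τ ^ 2) (g := fun _ => θ / 2)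
        (by fun_prop) (by fun_prop) (by simpa using hθ))
    have c4 : ∀ᶠ τ : ℝ in 𝓝 0, τ + 20 * (τ * (1 + B)) * B * √m < θ :=
      (ContinuousAt.eventually_lt (f := fun τ : ℝ => τ + 20 * (τ * (1 + B)) * B * √m) (g := fun _ => θ)
        (by fun_prop) (by fun_prop) (by simpa using hθ))
    have c5 : ∀ᶠ τ : ℝ in 𝓝[>] 0, 0 < τ := self_mem_nhdsWithin
    obtain ⟨τ, h0, h1, h2, h3, h4⟩ :=
      (c5.and ((c1.and (c2.and (c3.and c4))).filter_mono nhdsWithin_le_nhds)).exists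
    exact ⟨τ, h0, h1.le, h2.le, h3.le, h4.le⟩
  obtain ⟨t, ⟨L, hL, rfl⟩, ht⟩ := exists_lt_of_lt_csSup
    (s := {t | ∃ L : AddSubgroup (Euc (Fin m)), Stable L 1 ∧ PhiL a L = t}) ⟨_, L₀, hL₀, rfl⟩
    (show Φ - τ ^ 2 < Φ by nlinarith)
  have hfin : finrank ℝ (Euc (Fin m)) = m := by simp
  by_cases hsp : Submodule.span ℝ (L : Set (Euc (Fin m))) = ⊤
  swap
  · have h1 : finrank ℝ (Submodule.span ℝ (L : Set (Euc (Fin m)))) < m := by
      have := Submodule.finrank_lt hsp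
      rwa [hfin] at this
    have h2 := sub _ h1 L hL fun y hy => Submodule.subset_span hy
    have h3 : (finrank ℝ (Submodule.span ℝ (L : Set (Euc (Fin m)))) : ℝ) ≤ m := by exact_mod_cast h1.le
    have h4 := mul_le_mul_of_nonneg_right h3 hε
    linarith
  by_cases hbig : ∀ (k : ℕ) (v : Fin k → Euc (Fin m)), 0 < k → k < m → (∀ i, v i ∈ L) →
      LinearIndependent ℝ v → 1 + η ≤ gvol v
  · obtain ⟨e, d, hd0, hdB, hd1, hint⟩ := hpos L hL hsp
    obtain ⟨L', hL', h1⟩ := var_step hm ha hB hτ0 hτ1 hτ2 L hL hbig e d hd0 hdB hd1 hint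
    have h2 : (1 - τ) * PhiL a L' ≤ (1 - τ) * Φ :=
      mul_le_mul_of_nonneg_left (hle L' hL') (by nlinarith)
    have h3 : τ * Φ ≤ τ * (τ + ε + 20 * (τ * (1 + B)) * B * √m) := by nlinarith
    have h4 := le_of_mul_le_mul_left h3 hτ0
    have h5 : ε ≤ m * ε := by nlinarith
    linarith
  · push Not at hbig
    obtain ⟨k, v, hk0, hkm, hv, hi, hg⟩ := hbig
    obtain ⟨L₁, L₂, h1, h2, h3, h4, h5⟩ := exists_split ha hη0.le L hL v hv hi hg.le
    have f1 : finrank ℝ (Submodule.span ℝ (Set.range v)) = k := by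
      rw [finrank_span_eq_card hi, Fintype.card_fin]
    have f2 := Submodule.finrank_add_finrank_orthogonal (Submodule.span ℝ (Set.range v))
    rw [hfin] at f2
    have g1 := sub _ (by omega) L₁ h1 h3
    have g2 := sub _ (by omega) L₂ h2 h4
    have f3 : (finrank ℝ (Submodule.span ℝ (Set.range v)) : ℝ) +
        finrank ℝ (Submodule.span ℝ (Set.range v))ᗮ = m := by exact_mod_cast f2
    have f4 : (m : ℝ) * ε = finrank ℝ (Submodule.span ℝ (Set.range v)) * ε +
        finrank ℝ (Submodule.span ℝ (Set.range v))ᗮ * ε := by rw [← f3]; ring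
    linarith

/-- Reverse Minkowski, counting form.  Move `E` to `ℝ^m` (`stdOrthonormalBasis`, `gvol_isometry`), scale `L` by `1/r`, apply
`sum_exp_le` with `a + 1 ≤ C log (n+2)³`; each point of `S` contributes at least `exp (-(c t lam / r)²/2)`; `c^n ≤ c^m`. -/
theorem rm_count : ∃ C : ℝ, 0 < C ∧ ∀ (n : ℕ) (E : Type) [NormedAddCommGroup E] [InnerProductSpace ℝ E]
    [FiniteDimensional ℝ E], finrank ℝ E ≤ n → ∀ (L : AddSubgroup E) (r : ℝ), 0 < r → Stable L r →
    ∀ c lam : ℝ, 0 < c → c ≤ 1 → ∀ S : Finset E, (∀ y ∈ S, y ∈ L ∧ ‖y‖ ≤ lam) →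
    (S.card : ℝ) ≤ 2 / c ^ n * Real.exp ((c * (C * Real.log (n + 2) ^ 3) * lam / r) ^ 2 / 2) := by
  obtain ⟨C₂, hC₂, hgood⟩ := good_position
  refine ⟨C₂ + 8, by positivity, fun n E _ _ _ hE L r hr hL c lam hc0 hc1 S hS => ?_⟩
  set lg := Real.log (n + 2) with hlg
  have hlg1 : 1 / 2 ≤ lg := by
    have h1 := Real.log_two_gt_d9
    have h2 : Real.log 2 ≤ lg := Real.log_le_log two_pos (by have : (0 : ℝ) ≤ n := Nat.cast_nonneg n; linarith)
    linarith
  have ha : 0 ≤ C₂ * lg ^ 3 := by positivity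
  set m := finrank ℝ E with hm
  set f : E ≃ₗᵢ[ℝ] Euc (Fin m) := (stdOrthonormalBasis ℝ E).repr with hf
  set T : E →ₗ[ℝ] Euc (Fin m) := r⁻¹ • (f.toLinearEquiv : E →ₗ[ℝ] Euc (Fin m)) with hT
  have hTa : ∀ x, T x = r⁻¹ • f x := fun x => rfl
  have hst : Stable (L.map T.toAddMonoidHom) 1 := by
    intro k v hv hi
    choose w hw hwv using hv
    have hwv' : v = fun i => T (w i) := funext fun i => (hwv i).symm
    subst hwv'
    have hwi : LinearIndependent ℝ w := LinearIndependent.of_comp T hi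
    have h1 := hL k w hw hwi
    have h2 : gvol (fun i => f (w i)) = gvol w := gvol_isometry f.toLinearIsometry w
    simp only [hTa]
    rw [gvol_smul, h2, abs_of_pos (inv_pos.mpr hr), Fintype.card_fin, one_pow, inv_pow,
      le_inv_mul_iff₀ (pow_pos hr k), mul_one]
    exact h1
  have hP : PhiL (C₂ * lg ^ 3) (L.map T.toAddMonoidHom) ≤ 1 / 2 := by
    refine (PhiL_le_of_position ha (by positivity) n (hgood n) m hE _ hst).trans ?_
    have h0 : (m : ℝ) ≤ n := by exact_mod_cast hE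
    rw [mul_one_div, div_le_div_iff₀ (by positivity) two_pos]
    linarith
  have hinj : Function.Injective T := fun x y hxy => by
    rw [hTa, hTa] at hxy
    exact f.injective (smul_right_injective _ (inv_ne_zero hr.ne') hxy)
  have key := sum_exp_le hst.sep ha hP hc0 hc1 (S.map ⟨T, hinj⟩) fun y hy => by
    obtain ⟨x, hx, rfl⟩ := Finset.mem_map.mp hy
    exact ⟨x, (hS x hx).1, rfl⟩
  rw [Finset.sum_map] at key
  set Q := (c * ((C₂ + 8) * lg ^ 3) * lam / r) ^ 2 / 2 with hQ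
  have h1 : (S.card : ℝ) * Real.exp (-Q) ≤ 2 / c ^ m := by
    refine le_trans ?_ key
    rw [← nsmul_eq_mul]
    refine Finset.card_nsmul_le_sum _ _ _ fun x hx => Real.exp_le_exp.mpr ?_
    have e1 : ‖T x‖ ≤ lam / r := by
      rw [hTa, norm_smul, f.norm_map, Real.norm_eq_abs, abs_of_pos (inv_pos.mpr hr), div_eq_inv_mul]
      exact mul_le_mul_of_nonneg_left (hS x hx).2 (inv_pos.mpr hr).le
    have e2 : C₂ * lg ^ 3 + 1 ≤ (C₂ + 8) * lg ^ 3 := by
      have := pow_le_pow_left₀ (by norm_num) hlg1 3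
      nlinarith
    have e3 : c * (C₂ * lg ^ 3 + 1) * ‖T x‖ ≤ c * ((C₂ + 8) * lg ^ 3) * (lam / r) :=
      mul_le_mul (mul_le_mul_of_nonneg_left e2 hc0.le) e1 (norm_nonneg _) (by positivity)
    have e4 := pow_le_pow_left₀ (by positivity) e3 2
    simp only [Function.Embedding.coeFn_mk]
    rw [hQ, mul_div_assoc]
    nlinarith
  have h2 : 2 / c ^ m ≤ 2 / c ^ n :=
    div_le_div_of_nonneg_left two_pos.le (pow_pos hc0 n) (pow_le_pow_of_le_one hc0.le hc1 hE)
  rw [Real.exp_neg, mul_inv_le_iff₀ (Real.exp_pos _)] at h1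
  exact h1.trans (mul_le_mul_of_nonneg_right h2 (Real.exp_pos _).le)

end

end Crest.Agent.R152
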