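import Crest.Agent.R152.C2
import Crest.Agent.R152.RMain

/-!
# R152/C3

The cheap family of containers: choice of parameters.

Helper lemmas: prefix `c3_`.
-/

set_option autoImplicit false
set_option linter.unusedVariables false
set_option linter.unusedSectionVars false

namespace Crest.Agent.R152

open Crest.FinProb Crest.ProbabilityR.SignMatrix MeasureTheory ProbabilityTheory Filter Module
open scoped RealInnerProductSpace ENNReal Matrix Topology

noncomputable section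

/-- With `a ≥ 1`: if `k ≤ √a` then `(k/2) log (a/k) ≥ (log a)/4`; if `√a ≤ k ≤ a/e²` then it is `≥ k ≥ √a ≥ (log a)/4`. -/
theorem gain_bound {a : ℝ} (ha : 1 ≤ a) (k : ℕ) (hk : 1 ≤ k) :
    Real.log a / 4 ≤ k * Real.log (√a / √k) ∨ a / Real.exp 2 ≤ k := by
  have hk1 : (1 : ℝ) ≤ k := by exact_mod_cast hk
  have ha0 : 0 < a := by linarith
  have hk0 : (0 : ℝ) < k := by linarith
  rw [or_iff_not_imp_right, not_le, lt_div_iff₀ (Real.exp_pos _)]
  intro h
  have h1 := Real.log_lt_log (by positivity) h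
  rw [Real.log_mul hk0.ne' (Real.exp_pos _).ne', Real.log_exp] at h1
  rw [Real.log_div (Real.sqrt_pos.2 ha0).ne' (Real.sqrt_pos.2 hk0).ne', Real.log_sqrt ha0.le,
    Real.log_sqrt hk0.le]
  have h2 := Real.log_le_sub_one_of_pos hk0
  have h3 := Real.log_nonneg ha
  rcases le_total (Real.log k) (Real.log a / 2) with h4 | h4 <;> nlinarith

/-- From the conclusion of `cheap_quant` to `Cont`: `Submodule.finrank_sup_add_finrank_inf_eq`, `one_le_cov`, `cov_submod`
(`cov (D ⊓ U) ≤ cov D * cov U ≤ exp (pot U) K^n`). -/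
theorem cont_of {n : ℕ} {lam ε K : ℝ} (hl : 0 < lam) (hK : 1 ≤ K) (h1 : Real.log K ≤ ε * lam)
    (h2 : 2 * Real.log K + lam ≤ ε * Real.log n) (hn : 0 < n) {U D : Submodule ℚ (Fin n → ℚ)} (hU : cov U ≤ K ^ n)
    (hd : (finrank ℚ ↥(D ⊔ U) : ℝ) ≤ finrank ℚ D + ε * n) (hp : pot lam (D ⊔ U) ≤ pot lam U)
    (hm : pot lam D ≤ pot lam (D ⊔ U)) : Cont ε U D := by
  have e : (finrank ℚ ↥(D ⊔ U) : ℝ) + finrank ℚ ↥(D ⊓ U) = finrank ℚ D + finrank ℚ U := by
    exact_mod_cast Submodule.finrank_sup_add_finrank_inf_eq D U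
  have hp0 : ∀ W : Submodule ℚ (Fin n → ℚ), 0 < cov W := fun W => one_pos.trans_le (one_le_cov W)
  have hn0 : (0 : ℝ) < n := by exact_mod_cast hn
  have a1 := Real.log_le_log (hp0 U) hU
  rw [Real.log_pow] at a1
  have a2 := Real.log_nonneg (one_le_cov (D ⊔ U))
  have a3 : (finrank ℚ U : ℝ) ≤ n := by
    exact_mod_cast (Submodule.finrank_le U).trans_eq (finrank_fin_fun ℚ)
  have a4 := Real.log_le_log (mul_pos (hp0 _) (hp0 _)) (cov_submod D U)
  rw [Real.log_mul (hp0 _).ne' (hp0 _).ne', Real.log_mul (hp0 _).ne' (hp0 _).ne'] at a4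
  have a5 := mul_le_mul_of_nonneg_left h1 hn0.le
  have a6 := mul_le_mul_of_nonneg_left h2 hn0.le
  have a7 := mul_le_mul_of_nonneg_left a3 hl.le
  have a8 : 0 ≤ lam * finrank ℚ D := by positivity
  unfold pot at hp hm
  refine ⟨by linarith, le_of_mul_le_mul_left ?_ hl, ?_⟩
  · have := congrArg (lam * ·) e
    simp only [mul_add] at this ⊢
    linarith
  · rw [Real.rpow_def_of_pos hn0, ← Real.log_le_iff_le_exp (hp0 _)]
    linarith

theorem c3_ev (k : ℕ) (c : ℝ) : ∀ᶠ y : ℝ in atTop, c * y ^ k ≤ Real.exp (1 / 2 * y) := by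
  have h := (isLittleO_pow_exp_pos_mul_atTop k one_half_pos).bound (c := (|c| + 1)⁻¹) (by positivity)
  filter_upwards [h, eventually_ge_atTop 0] with y hy hy0
  rw [Real.norm_of_nonneg (by positivity), Real.norm_of_nonneg (Real.exp_pos _).le,
    inv_mul_eq_div, le_div_iff₀ (by positivity)] at hy
  have h1 : c ≤ |c| + 1 := by linarith [le_abs_self c]
  calc c * y ^ k ≤ (|c| + 1) * y ^ k := by gcongr
    _ ≤ _ := by linarith

theorem c3_log (A A' : ℝ) {δ : ℝ} (hδ : 0 < δ) : ∀ᶠ y : ℝ in atTop, A * Real.log y + A' ≤ δ * y := by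
  have h := (Real.isLittleO_log_id_atTop.const_mul_left A).bound (half_pos hδ)
  filter_upwards [h, eventually_ge_atTop 0, eventually_ge_atTop (A' / (δ / 2))] with y h1 h2 h3
  rw [id, Real.norm_of_nonneg h2] at h1
  rw [div_le_iff₀ (half_pos hδ)] at h3
  linarith [le_abs_self (A * Real.log y), Real.norm_eq_abs (A * Real.log y)]

/-- the final estimate -/
theorem c3_fin {n b : ℕ} {c y s M : ℝ} (hc : 0 < c) (hy : 1 ≤ y) (hs : s * s = n) (hs1 : 1 ≤ s)
    (hM : 1 ≤ M) (h1 : Real.log M ≤ 2 * y) (h2 : (b : ℝ) ≤ 16 * n / y ^ 2 + 10 * s) (h3 : 400 / c ≤ y)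
    (h4 : 400 / c * y ≤ s) :
    3 ^ n * (2 * Real.exp (n / (y ^ 3) ^ 2 / 2)) ^ n * (2 * M ^ n * Real.exp (n / 2)) ^ b ≤
      Real.exp (c * n ^ 2) := by
  have hy0 : 0 < y := by linarith
  have hM0 : 0 < M := by linarith
  have hn1 : (1 : ℝ) ≤ n := by nlinarith
  have l2 := Real.log_le_sub_one_of_pos two_pos
  have l3 := Real.log_le_sub_one_of_pos three_pos
  rw [← Real.log_le_iff_le_exp (by positivity), Real.log_mul (by positivity) (by positivity),
    Real.log_mul (by positivity) (by positivity), Real.log_pow, Real.log_pow, Real.log_pow,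
    Real.log_mul (by positivity) (by positivity), Real.log_mul (by positivity) (by positivity),
    Real.log_mul (by positivity) (by positivity), Real.log_pow, Real.log_exp, Real.log_exp]
  rw [div_le_iff₀ hc] at h3
  rw [div_mul_eq_mul_div, div_le_iff₀ hc] at h4
  have a1 : Real.log 2 + n * Real.log M + n / 2 ≤ 4 * n * y := by nlinarith
  have a2 : (n : ℝ) / (y ^ 3) ^ 2 ≤ c / 400 * n := by
    have : y ≤ (y ^ 3) ^ 2 := by
      rw [← pow_mul]
      exact le_self_pow₀ hy (by norm_num)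
    rw [div_le_iff₀ (by positivity)]
    nlinarith [mul_le_mul_of_nonneg_left this hc.le]
  have a3 : 16 * n / y ^ 2 * (4 * n * y) ≤ 64 * (c / 400) * n ^ 2 := by
    rw [div_mul_eq_mul_div, div_le_iff₀ (by positivity)]
    nlinarith [mul_le_mul_of_nonneg_left h3 (by positivity : 0 ≤ (n : ℝ) ^ 2 * y)]
  have a4 : 10 * s * (4 * n * y) ≤ 40 * (c / 400) * n ^ 2 := by
    have := mul_le_mul_of_nonneg_left h4 (by positivity : 0 ≤ (n : ℝ) * s)
    have e : (n : ℝ) * s * (s * c) = c * n ^ 2 := by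
      rw [mul_assoc, ← mul_assoc s, hs]
      ring
    nlinarith
  have a5 : 400 ≤ c * n := by nlinarith
  have a6 : (b : ℝ) * (Real.log 2 + n * Real.log M + n / 2) ≤ (16 * n / y ^ 2 + 10 * s) * (4 * n * y) :=
    (mul_le_mul_of_nonneg_left a1 (Nat.cast_nonneg b)).trans
      (mul_le_mul_of_nonneg_right h2 (by positivity))
  have hn0 : (0 : ℝ) ≤ n := by linarith
  nlinarith [mul_le_mul_of_nonneg_left a2 hn0, mul_le_mul_of_nonneg_left a5 hn0,
    mul_le_mul_of_nonneg_left l2 hn0, mul_le_mul_of_nonneg_left l3 hn0]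

set_option maxHeartbeats 1000000 in
/-- `L = log n`, `K = L^B`, `lam = L^(1/3)`, `t = C log (n+2)³` (`rm_count`), `l₁ = √n / (e^lam t L)`, `l₂ = 2 √n K^(1/ε)`,
`N₁ = 2 exp (n/(2L²))` (`c = 1`), `N₂ = 2 (2 t K^(1/ε) e^lam)^n e^(n/2)` (`c = 1/(2 t K^(1/ε) e^lam)`), `a = n/(tL)²`, `g = L/8`, `k₁ = a/e²`,
`b = ⌈8 n (B log L + lam)/L + e² (tL)²⌉ ≤ 20 n L^(-2/3)`, `log N₂ ≤ 4 n L^(1/3)`; the logarithm of the size is `o(n²)`.  It is convenient to
write `y = L^(1/3) → ∞` and to use `log L = 3 log y = o(y)`, `t L ≤ n^(1/4)`. -/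
theorem cheap (B : ℕ) {ε c : ℝ} (hε : 0 < ε) (hc : 0 < c) : ∀ᶠ n : ℕ in atTop,
    ∃ F : Finset (Submodule ℚ (Fin n → ℚ)), (F.card : ℝ) ≤ Real.exp (c * n ^ 2) ∧
      ∀ U, cov U ≤ Real.log n ^ (B * n) → ∃ D ∈ F, Cont ε U D := by
  obtain ⟨C, hC, hrm⟩ := rm_count
  have hy : Tendsto (fun n : ℕ => Real.log n ^ ((3 : ℕ) : ℝ)⁻¹) atTop atTop :=
    (tendsto_rpow_atTop (by norm_num)).comp (Real.tendsto_log_atTop.comp tendsto_natCast_atTop_atTop)
  filter_upwards [eventually_ge_atTop 2, hy.eventually (eventually_ge_atTop 1),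
    hy.eventually (eventually_ge_atTop (1 / C)), hy.eventually (eventually_ge_atTop (3 / ε)),
    hy.eventually (eventually_ge_atTop (400 / c)), hy.eventually (c3_ev 1 (400 / c)),
    hy.eventually (c3_ev 24 (64 * C ^ 2)), hy.eventually (c3_log (3 * B) 0 hε),
    hy.eventually (c3_log (3 * B) 0 one_pos),
    hy.eventually (c3_log (9 + 3 * B / ε) (Real.log (16 * C)) one_pos)] with n hn y1 y2 y3 y4 y5 y6 y7 y8 y9
  have hn2 : (2 : ℝ) ≤ n := by exact_mod_cast hn
  have hn0 : (0 : ℝ) < n := by linarith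
  have hL : (Real.log n ^ ((3 : ℕ) : ℝ)⁻¹) ^ 3 = Real.log n :=
    Real.rpow_inv_natCast_pow (Real.log_nonneg (by linarith)) three_ne_zero
  generalize Real.log n ^ ((3 : ℕ) : ℝ)⁻¹ = y at *
  have hy0 : 0 < y := by linarith
  have hy3 : y ≤ y ^ 3 := le_self_pow₀ y1 three_ne_zero
  have hs : Real.exp (1 / 2 * y ^ 3) = √n := by
    rw [hL, mul_comm, ← Real.rpow_def_of_pos hn0, Real.sqrt_eq_rpow]
  have hs' : Real.exp (1 / 2 * y) ≤ √n := hs ▸ Real.exp_le_exp.2 (by linarith)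
  have hss : √(n : ℝ) * √n = n := Real.mul_self_sqrt hn0.le
  have hs1 : 1 ≤ √(n : ℝ) := Real.one_le_sqrt.2 (by linarith)
  have t1 : y ^ 3 ≤ Real.log (n + 2) := hL ▸ Real.log_le_log hn0 (by linarith)
  have t2 : Real.log (n + 2) ≤ 2 * y ^ 3 := by
    rw [hL, ← Nat.cast_ofNat (n := 2), ← Real.log_pow]
    exact Real.log_le_log (by positivity) (by push_cast; nlinarith)
  have t3 : 1 ≤ C * Real.log (n + 2) ^ 3 := by
    rw [div_le_iff₀ hC] at y2
    have : y ≤ Real.log (n + 2) ^ 3 := (hy3.trans t1).trans (le_self_pow₀ (by linarith) three_ne_zero)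
    nlinarith
  have t4 : C * Real.log (n + 2) ^ 3 ≤ 8 * C * y ^ 9 := by
    calc _ ≤ C * (2 * y ^ 3) ^ 3 := by gcongr; linarith
      _ = _ := by ring
  have H := hrm n (Euc (Fin n)) (by simp)
  generalize C * Real.log (n + 2) ^ 3 = t at *
  have ht0 : 0 < t := by linarith
  have u1 : (t * y ^ 3) ^ 2 ≤ √n := by
    calc (t * y ^ 3) ^ 2 ≤ (8 * C * y ^ 9 * y ^ 3) ^ 2 := by gcongr
      _ = 64 * C ^ 2 * y ^ 24 := by ring
      _ ≤ _ := y6.trans hs'
  have hK : 1 ≤ (y ^ 3) ^ B := one_le_pow₀ (by linarith)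
  have hlK : Real.log ((y ^ 3) ^ B) = 3 * B * Real.log y := by
    rw [Real.log_pow, Real.log_pow]
    push_cast
    ring
  rw [← hL]
  simp only [pow_mul]
  generalize (y ^ 3) ^ B = K at *
  have hK0 : 0 < K := by linarith
  have hK1 : 1 ≤ K ^ (1 / ε) := Real.one_le_rpow hK (by positivity)
  have hey := Real.one_le_exp hy0.le
  have hM : 1 ≤ 2 * t * K ^ (1 / ε) * Real.exp y :=
    one_le_mul_of_one_le_of_one_le (one_le_mul_of_one_le_of_one_le (by linarith) hK1) hey
  have hlM : Real.log (2 * t * K ^ (1 / ε) * Real.exp y) ≤ 2 * y := by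
    have a1 : Real.log (2 * t) ≤ Real.log (16 * C * y ^ 9) := Real.log_le_log (by positivity) (by linarith)
    rw [Real.log_mul (x := 16 * C) (by positivity) (by positivity), Real.log_pow] at a1
    rw [Real.log_mul (by positivity) (by positivity), Real.log_mul (by positivity) (by positivity),
      Real.log_exp, Real.log_rpow hK0, hlK]
    have e : 1 / ε * (3 * B * Real.log y) = 3 * B / ε * Real.log y := by ring
    push_cast at a1
    linarith
  have ha : √n ≤ n / (t * y ^ 3) ^ 2 := by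
    rw [le_div_iff₀ (by positivity)]
    nlinarith
  obtain ⟨F, hF, hU⟩ := cheap_quant (ι := Fin n) (lam := y) (ε := ε) (K := K)
    (l₁ := √n / (Real.exp y * t * y ^ 3)) (l₂ := 2 * √n * K ^ (1 / ε))
    (N₁ := 2 * Real.exp (n / (y ^ 3) ^ 2 / 2))
    (N₂ := 2 * (2 * t * K ^ (1 / ε) * Real.exp y) ^ n * Real.exp (n / 2)) (g := y ^ 3 / 8)
    (k₁ := n / (t * y ^ 3) ^ 2 / Real.exp 2) hy0.le hε hK (by positivity) (by rw [Fintype.card_fin])
    (one_le_mul_of_one_le_of_one_le one_le_two (Real.one_le_exp (by positivity)))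
    (one_le_mul_of_one_le_of_one_le (one_le_mul_of_one_le_of_one_le one_le_two (one_le_pow₀ hM))
      (Real.one_le_exp (by positivity))) (by positivity) (by positivity)
    (fun L hL S hS => (H L _ (Real.exp_pos _) hL 1 _ one_pos le_rfl S hS).trans_eq (by
      have e : 1 * t * (√n / (Real.exp y * t * y ^ 3)) / Real.exp (-y) = √n / y ^ 3 := by
        rw [Real.exp_neg]
        field_simp
      rw [e, one_pow, div_one, div_pow, Real.sq_sqrt hn0.le]))
    (fun L hL S hS => (H L _ (Real.exp_pos _) hL (2 * t * K ^ (1 / ε) * Real.exp y)⁻¹ _ (by positivity)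
      (inv_le_one_of_one_le₀ hM) S hS).trans_eq (by
      have e : (2 * t * K ^ (1 / ε) * Real.exp y)⁻¹ * t * (2 * √n * K ^ (1 / ε)) / Real.exp (-y) = √n := by
        rw [Real.exp_neg]
        field_simp
      rw [e, inv_pow, div_inv_eq_mul, Real.sq_sqrt hn0.le]))
    (fun k hk => by
      have e : √n / (Real.exp y * t * y ^ 3) * Real.exp y = √(n / (t * y ^ 3) ^ 2) := by
        rw [Real.sqrt_div hn0.le, Real.sqrt_sq (by positivity)]
        field_simp
      rw [e]
      refine (gain_bound (hs1.trans ha) k hk).imp_left (le_trans ?_)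
      have a1 := Real.log_le_log (by linarith) ha
      rw [← hs, Real.log_exp] at a1
      linarith) _ (Nat.le_ceil _)
  rw [Fintype.card_fin] at hF hU
  refine ⟨F, hF.trans (c3_fin hc y1 hss hs1 hM hlM ((Nat.ceil_lt_add_one ?_).le.trans ?_) y4
    (by simpa using y5.trans hs')), fun U h => ?_⟩
  · have := Real.log_nonneg hK
    positivity
  · have a1 : n * (Real.log K + y) / (y ^ 3 / 8) ≤ 16 * n / y ^ 2 := by
      calc _ ≤ n * (y + y) / (y ^ 3 / 8) := by gcongr; linarith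
        _ = _ := by field_simp; ring
    have a2 : n / (n / (t * y ^ 3) ^ 2 / Real.exp 2) = Real.exp 1 * Real.exp 1 * (t * y ^ 3) ^ 2 := by
      rw [← Real.exp_add, one_add_one_eq_two]
      field_simp
    have a3 : Real.exp 1 * Real.exp 1 ≤ 9 := by nlinarith [Real.exp_one_lt_d9, Real.exp_pos 1]
    have a4 := mul_le_mul a3 u1 (sq_nonneg _) (by norm_num)
    linarith
  · obtain ⟨D, hD, h1, h2, h3⟩ := hU U h
    refine ⟨D, hD, cont_of hy0 hK (by linarith) ?_ (by omega) h h1 h2 h3⟩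
    rw [div_le_iff₀ hε] at y3
    have a1 : y * y ≤ y ^ 3 := by nlinarith
    rw [← hL]
    nlinarith [mul_le_mul_of_nonneg_left a1 hε.le]

end

end Crest.Agent.R152
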