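import Crest.Agent.R152.L2

/-!
# R152/D1

From a dense sublattice of a lattice of large index to the event `PEv`.

Helper lemmas: prefix `d1_`.
-/

set_option autoImplicit false
set_option linter.unusedVariables false
set_option linter.unusedSectionVars false

namespace Crest.Agent.R152

open Crest.FinProb Crest.ProbabilityR.SignMatrix MeasureTheory ProbabilityTheory Filter Module
open scoped RealInnerProductSpace ENNReal Matrix Topology

noncomputable section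

variable {n : ℕ}

theorem d1_inf (H K : Submodule ℤ (Fin n → ℤ)) :
    (H ⊓ K).toAddSubgroup.relIndex K.toAddSubgroup = H.toAddSubgroup.relIndex K.toAddSubgroup :=
  AddSubgroup.inf_relIndex_right H.toAddSubgroup K.toAddSubgroup

theorem d1_ne (A : Matrix (Fin n) (Fin n) ℤ) (hA : A.det ≠ 0) (K : AddSubgroup (Fin n → ℤ)) :
    (LinearMap.range A.mulVecLin).toAddSubgroup.relIndex K ≠ 0 := by
  intro h
  have := AddSubgroup.relIndex_eq_zero_of_le_right (le_top : K ≤ ⊤) h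
  rw [AddSubgroup.relIndex_top_right, index_range A hA] at this
  exact hA (Int.natAbs_eq_zero.1 this)

/-- `y` a basis of `range A ⊓ lat W` (finite index in `lat W`, so the same rank: `finrank_eq_of_relIndex`, `finrank_lat`), `y i = A z i`;
`gvol_index`, `AddSubgroup.inf_relIndex_right`. -/
theorem exists_preimage_basis {E κ : Type} [NormedAddCommGroup E] [InnerProductSpace ℝ E] [Fintype κ] [DecidableEq κ]
    (Φ : Euc (Fin n) →ₗ[ℝ] E) (A : Matrix (Fin n) (Fin n) ℤ) (hA : A.det ≠ 0) (W : Submodule ℚ (Fin n → ℚ))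
    {a : κ → Fin n → ℤ} (ha : IsBas (lat W) a) :
    ∃ z : Fin (finrank ℚ W) → Fin n → ℤ, LinearIndependent ℝ (fun i => zc (z i)) ∧ (∀ i, qc (A *ᵥ z i) ∈ W) ∧
      gvol (fun i => Φ (zc (A *ᵥ z i))) =
        ((LinearMap.range A.mulVecLin).toAddSubgroup.relIndex (lat W).toAddSubgroup : ℝ) * gvol (fun i => Φ (zc (a i))) := by
  set H := LinearMap.range A.mulVecLin with hH
  have h0 : H.toAddSubgroup.relIndex (lat W).toAddSubgroup ≠ 0 := d1_ne A hA _
  have e : (H ⊓ lat W).toAddSubgroup.relIndex (lat W).toAddSubgroup =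
      H.toAddSubgroup.relIndex (lat W).toAddSubgroup := d1_inf _ _
  have hr : finrank ℤ ↥(H ⊓ lat W) = finrank ℚ W := by
    rw [finrank_eq_of_relIndex inf_le_right (by rw [e]; exact h0), finrank_lat]
  obtain ⟨y, hy⟩ : ∃ y : Fin (finrank ℚ W) → Fin n → ℤ, IsBas (H ⊓ lat W) y := by
    rw [← hr]
    exact exists_isBas _
  have hz : ∀ i, ∃ z, A *ᵥ z = y i := fun i => (hy.mem i).1
  choose z hz using hz
  refine ⟨z, (li_int_iff_real z).1 ?_, fun i => ?_, ?_⟩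
  · refine LinearIndependent.of_comp A.mulVecLin ?_
    have : (A.mulVecLin ∘ z) = y := funext fun i => hz i
    rw [this]
    exact hy.1
  · rw [hz]
    exact mem_lat.1 (hy.mem i).2
  · simp only [hz]
    rw [← e]
    exact (gvol_index Φ inf_le_right hy ha (by rw [hy.card, ha.card, hr, finrank_lat])).1

theorem relIndex_range_le (A : Matrix (Fin n) (Fin n) ℤ) (hA : A.det ≠ 0) (K : AddSubgroup (Fin n → ℤ)) :
    (LinearMap.range A.mulVecLin).toAddSubgroup.relIndex K ≤ A.det.natAbs := by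
  have := AddSubgroup.relIndex_le_of_le_right (le_top : K ≤ ⊤) (d1_ne A hA ⊤)
  rwa [AddSubgroup.relIndex_top_right, index_range A hA] at this

/-- `[K : K ∩ H] = [K : K ∩ Λ] [K ∩ Λ : K ∩ H] ≤ [K' : L] [Λ : H]`. -/
theorem relIndex_le_mul {G : Type} [AddCommGroup G] {H Λ L K K' : AddSubgroup G} (h1 : H ≤ Λ) (h2 : L ≤ Λ) (h3 : K ≤ K')
    (h4 : H.relIndex Λ ≠ 0) (h5 : L.relIndex K' ≠ 0) : H.relIndex K ≤ L.relIndex K' * H.relIndex Λ := by
  have e := AddSubgroup.relIndex_inf_mul_relIndex H Λ K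
  rw [inf_eq_left.2 h1] at e
  have a1 : H.relIndex (Λ ⊓ K) ≤ H.relIndex Λ := AddSubgroup.relIndex_le_of_le_right inf_le_left h4
  have a2 : L.relIndex K ≠ 0 := fun h => h5 (AddSubgroup.relIndex_eq_zero_of_le_right h3 h)
  have a3 : Λ.relIndex K ≤ L.relIndex K' :=
    (AddSubgroup.relIndex_le_of_le_left h2 a2).trans (AddSubgroup.relIndex_le_of_le_right h3 h5)
  rw [← e, mul_comm]
  exact Nat.mul_le_mul a3 a1

theorem d1_rop_apply (A : Matrix (Fin n) (Fin n) ℤ) (x : Euc (Fin n)) (i : Fin n) :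
    rop A x i = ⟪zc (A i), x⟫ := by
  simp [rop, Matrix.toLpLin_apply, Matrix.mulVec, dotProduct, PiLp.inner_apply, mul_comm]

theorem d1_row (A : Matrix (Fin n) (Fin n) ℤ) (hA : ∀ i j, |A i j| ≤ 1) (i : Fin n) : ‖zc (A i)‖ ^ 2 ≤ n := by
  rw [norm_zc_sq]
  have : ∀ j, ((A i j : ℤ) : ℝ) ^ 2 ≤ 1 := fun j => by
    have h : |((A i j : ℤ) : ℝ)| ≤ 1 := by exact_mod_cast hA i j
    exact (sq_le_one_iff_abs_le_one _).2 h
  refine (Finset.sum_le_sum fun j _ => this j).trans (le_of_eq ?_)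
  simp

theorem norm_rop_le (A : Matrix (Fin n) (Fin n) ℤ) (hA : ∀ i j, |A i j| ≤ 1) (x : Euc (Fin n)) : ‖rop A x‖ ≤ n * ‖x‖ := by
  have h : ‖rop A x‖ ^ 2 ≤ (n * ‖x‖) ^ 2 := by
    rw [EuclideanSpace.norm_sq_eq]
    have : ∀ i, ‖rop A x i‖ ^ 2 ≤ n * ‖x‖ ^ 2 := fun i => by
      rw [d1_rop_apply]
      have h1 := abs_real_inner_le_norm (zc (A i)) x
      have h2 := d1_row A hA i
      rw [Real.norm_eq_abs]
      calc |⟪zc (A i), x⟫| ^ 2 ≤ (‖zc (A i)‖ * ‖x‖) ^ 2 := by gcongr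
        _ = ‖zc (A i)‖ ^ 2 * ‖x‖ ^ 2 := by ring
        _ ≤ _ := by gcongr
    refine (Finset.sum_le_sum fun i _ => this i).trans (le_of_eq ?_)
    simp
    ring
  exact (pow_le_pow_iff_left₀ (norm_nonneg _) (by positivity) two_ne_zero).1 h

theorem d1_bessel (A : Matrix (Fin n) (Fin n) ℤ) (hA : ∀ i j, |A i j| ≤ 1) {m : ℕ} (f : Fin m → Euc (Fin n))
    (hf : Orthonormal ℝ f) : ∑ j, ‖rop A (f j)‖ ^ 2 ≤ (n : ℝ) * n := by
  simp only [EuclideanSpace.norm_sq_eq, d1_rop_apply]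
  rw [Finset.sum_comm]
  have : ∀ i, ∑ j, ‖⟪zc (A i), f j⟫‖ ^ 2 ≤ (n : ℝ) := fun i => by
    have h := hf.sum_inner_products_le (zc (A i)) (s := Finset.univ)
    simp only [real_inner_comm (zc (A i))] at h
    exact h.trans (d1_row A hA i)
  refine (Finset.sum_le_sum fun i _ => this i).trans (le_of_eq ?_)
  simp

theorem d1_prod (A : Matrix (Fin n) (Fin n) ℤ) (hA : ∀ i j, |A i j| ≤ 1) {m : ℕ} (f : Fin m → Euc (Fin n))
    (hf : Orthonormal ℝ f) : ∏ j, ‖rop A (f j)‖ ≤ (n : ℝ) ^ ((m : ℝ) / 2) * Real.exp n := by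
  rcases Nat.eq_zero_or_pos n with h0 | h0
  · have hm : m ≤ n := by simpa using hf.linearIndependent.fintype_card_le_finrank
    obtain rfl : m = 0 := by omega
    simp
  have hn : (0 : ℝ) < n := by exact_mod_cast h0
  have hs : 0 < √(n : ℝ) := Real.sqrt_pos.2 hn
  have h1 : ∀ j, ‖rop A (f j)‖ ≤ √(n : ℝ) * Real.exp (‖rop A (f j)‖ ^ 2 / n) := fun j => by
    set x := ‖rop A (f j)‖
    have e : x ^ 2 / n = (x / √(n : ℝ)) ^ 2 := by rw [div_pow, Real.sq_sqrt hn.le]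
    rw [e, ← div_le_iff₀' hs]
    have := Real.add_one_le_exp ((x / √(n : ℝ)) ^ 2)
    nlinarith [sq_nonneg (x / √(n : ℝ) - 1), sq_nonneg (x / √(n : ℝ))]
  refine (Finset.prod_le_prod (fun j _ => norm_nonneg _) fun j _ => h1 j).trans ?_
  rw [Finset.prod_mul_distrib, ← Real.exp_sum, ← Finset.sum_div]
  have e : ∏ j : Fin m, √(n : ℝ) = (n : ℝ) ^ ((m : ℝ) / 2) := by
    rw [Finset.prod_const, Finset.card_univ, Fintype.card_fin, Real.sqrt_eq_rpow, ← Real.rpow_natCast,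
      ← Real.rpow_mul hn.le]
    congr 1
    ring
  rw [e]
  gcongr
  rw [div_le_iff₀ hn]
  exact d1_bessel A hA f hf

/-- `gvol_full_le`, `gvol_map_det`; `∑_j ‖A f j‖² ≤ n²` (Bessel for each row), AM-GM, `(n/m)^m ≤ e^n`. -/
theorem primal_ineq (A : Matrix (Fin n) (Fin n) ℤ) (hA : ∀ i j, |A i j| ≤ 1) {u : ℕ} (z : Fin u → Fin n → ℤ)
    (hz : LinearIndependent ℝ fun i => zc (z i)) :
    (A.det.natAbs : ℝ) * gvol (fun i => zc (z i)) ≤
      gvol (fun i => zc (A *ᵥ z i)) * (n : ℝ) ^ (((n : ℝ) - u) / 2) * Real.exp n := by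
  obtain ⟨f, hf, h⟩ := gvol_full_le (EuclideanSpace.basisFun (Fin n) ℝ) (rop A) (fun i => zc (z i)) hz
  rw [gvol_map_det, det_rop] at h
  simp only [rop_zc] at h
  have hu : u ≤ n := by simpa using hz.fintype_card_le_finrank
  have e1 : (A.det.natAbs : ℝ) = |(A.det : ℝ)| := by
    rw [← Int.cast_abs, ← Int.natCast_natAbs, Int.cast_natCast]
  have h2 := d1_prod A hA f hf
  have e2 : (((finrank ℝ (Euc (Fin n)) - Fintype.card (Fin u) : ℕ) : ℝ)) = (n : ℝ) - u := by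
    simp [Nat.cast_sub hu]
  rw [e2] at h2
  rw [e1, mul_comm, mul_assoc]
  exact h.trans (mul_le_mul_of_nonneg_left h2 (gvol_nonneg _))

theorem d1_asym (B : ℕ) {ε : ℝ} (hε : 0 < ε) :
    ∀ᶠ n : ℕ in atTop, Real.log n ^ (B * n) * Real.exp n ≤ (n : ℝ) ^ (ε * n) := by
  have h1 := (isLittleO_log_rpow_rpow_atTop (B : ℝ) hε).bound (Real.exp_pos (-1))
  filter_upwards [tendsto_natCast_atTop_atTop.eventually h1, eventually_ge_atTop 1] with n hn hn1
  have hn0 : (1 : ℝ) ≤ n := by exact_mod_cast hn1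
  have hl : 0 ≤ Real.log n := Real.log_nonneg hn0
  rw [Real.rpow_natCast, Real.norm_of_nonneg (pow_nonneg hl _), Real.norm_of_nonneg (by positivity)] at hn
  have h2 : Real.log n ^ B * Real.exp 1 ≤ (n : ℝ) ^ ε := by
    rw [Real.exp_neg, ← div_eq_inv_mul, le_div_iff₀ (Real.exp_pos 1)] at hn
    exact hn
  rw [pow_mul, ← Real.exp_one_pow, ← mul_pow, Real.rpow_mul (by positivity), Real.rpow_natCast]
  exact pow_le_pow_left₀ (by positivity) h2 _

/-- `W = D ⊓ qsp l`.  The index of `range A` in `lat W` is at most `[lat (qsp l) : span l] [Λ : range A] ≤ K^n |det A| n^{-δ n}`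
(`gvol_eq_relIndex_mul`, `one_le_cov`, `AddSubgroup.relIndex_mul_index`, `index_range`). -/
theorem PEv_of_index (B : ℕ) {δ ε : ℝ} (hε : 0 < ε) (hδ : 4 * ε ≤ δ) : ∀ᶠ n : ℕ in atTop,
    ∀ A : Matrix (Fin n) (Fin n) ℤ, (∀ i j, |A i j| ≤ 1) → A.det ≠ 0 → ∀ Λ, IdxLat δ A Λ →
    ∀ (u : ℕ) (l : Fin u → Fin n → ℤ), (∀ i, l i ∈ Λ) → LinearIndependent ℝ (fun i => zc (l i)) →
    gvol (fun i => zc (l i)) ≤ Real.log n ^ (B * n) → ∀ D, Cont ε (qsp l) D → PEv (δ / 2) ε D A := by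
  filter_upwards [d1_asym B hε, eventually_ge_atTop 1] with n hn hn1 A hA hd Λ hΛ u l hl hli hv D hD
  have hn0 : (1 : ℝ) ≤ n := by exact_mod_cast hn1
  have hnp : (0 : ℝ) < n := by linarith
  set W := D ⊓ qsp l with hW
  obtain ⟨a, ha⟩ := exists_isBas (lat W)
  obtain ⟨z, hz, hzW, hg⟩ := exists_preimage_basis LinearMap.id A hd W ha
  simp only [LinearMap.id_apply] at hg
  rw [← cov_eq_of_isBas ha] at hg
  refine ⟨_, z, hz, hD.2.1, fun i => (hzW i).1, ?_⟩
  have hp := primal_ineq A hA z hz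
  have hl' := (li_int_iff_real l).2 hli
  obtain ⟨g1, g2⟩ := gvol_eq_relIndex_mul LinearMap.id hl' (isBas_finBasis (lat (qsp l)))
  simp only [LinearMap.id_apply] at g1
  rw [← cov_eq_of_isBas (isBas_finBasis (lat (qsp l)))] at g1
  set H := (LinearMap.range A.mulVecLin).toAddSubgroup with hH
  set L := (Submodule.span ℤ (Set.range l)).toAddSubgroup with hL
  have i1 : H.relIndex (lat W).toAddSubgroup ≤
      L.relIndex (lat (qsp l)).toAddSubgroup * H.relIndex Λ.toAddSubgroup :=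
    relIndex_le_mul hΛ.1 (Submodule.span_le.2 (by rintro _ ⟨i, rfl⟩; exact hl i))
      (fun x hx => mem_lat.2 (mem_lat.1 hx).2) (d1_ne A hd _) g2
  have i1' : (H.relIndex (lat W).toAddSubgroup : ℝ) ≤
      (L.relIndex (lat (qsp l)).toAddSubgroup : ℝ) * (H.relIndex Λ.toAddSubgroup : ℝ) := by exact_mod_cast i1
  have i2 : (L.relIndex (lat (qsp l)).toAddSubgroup : ℝ) ≤ Real.log n ^ (B * n) := by
    refine le_trans ?_ hv
    rw [g1]
    exact le_mul_of_one_le_right (Nat.cast_nonneg _) (one_le_cov _)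
  have i3 : (H.relIndex Λ.toAddSubgroup : ℝ) * (n : ℝ) ^ (δ * n) ≤ A.det.natAbs := by
    rw [← index_range A hd, ← AddSubgroup.relIndex_mul_index (show H ≤ Λ.toAddSubgroup from hΛ.1), Nat.cast_mul]
    exact mul_le_mul_of_nonneg_left hΛ.2 (Nat.cast_nonneg _)
  have i4 : cov W ≤ (n : ℝ) ^ (ε * n) := hD.2.2
  have hdp : (0 : ℝ) < A.det.natAbs := by exact_mod_cast Int.natAbs_pos.2 hd
  have hlog : 0 ≤ Real.log n ^ (B * n) := pow_nonneg (Real.log_nonneg hn0) _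
  set t : ℝ := (n : ℝ) ^ (((n : ℝ) - (finrank ℚ W : ℕ)) / 2) with ht
  have htp : 0 < t := Real.rpow_pos_of_pos hnp _
  have hδp : 0 < (n : ℝ) ^ (δ * n) := Real.rpow_pos_of_pos hnp _
  have i5 : (H.relIndex Λ.toAddSubgroup : ℝ) ≤ A.det.natAbs / (n : ℝ) ^ (δ * n) := (le_div_iff₀ hδp).2 i3
  have i6 : gvol (fun i => zc (A *ᵥ z i)) ≤
      Real.log n ^ (B * n) * (A.det.natAbs / (n : ℝ) ^ (δ * n)) * (n : ℝ) ^ (ε * n) := by
    rw [hg]
    refine mul_le_mul (i1'.trans ?_) i4 (one_pos.le.trans (one_le_cov _)) (by positivity)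
    exact mul_le_mul i2 i5 (Nat.cast_nonneg _) hlog
  have i7 : gvol (fun i => zc (z i)) ≤
      (Real.log n ^ (B * n) * Real.exp n) * ((n : ℝ) ^ (ε * n) / (n : ℝ) ^ (δ * n) * t) := by
    refine le_of_mul_le_mul_left (hp.trans ?_) hdp
    calc gvol (fun i => zc (A *ᵥ z i)) * t * Real.exp n
        ≤ (Real.log n ^ (B * n) * (A.det.natAbs / (n : ℝ) ^ (δ * n)) * (n : ℝ) ^ (ε * n)) * t * Real.exp n := by
          gcongr
      _ = _ := by ring
  refine i7.trans ((mul_le_mul_of_nonneg_right hn (by positivity)).trans ?_)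
  rw [ht, ← Real.rpow_sub hnp, ← Real.rpow_add hnp, ← Real.rpow_add hnp]
  refine Real.rpow_le_rpow_of_exponent_le hn0 ?_
  nlinarith

end

end Crest.Agent.R152
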