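import Crest.Agent.R152.D1

/-!
# R152/D2

The case of a small determinant.

Helper lemmas: prefix `d2_`.
-/

set_option autoImplicit false
set_option linter.unusedVariables false
set_option linter.unusedSectionVars false

namespace Crest.Agent.R152

open Crest.FinProb Crest.ProbabilityR.SignMatrix MeasureTheory ProbabilityTheory Filter Module
open scoped RealInnerProductSpace ENNReal Matrix Topology

noncomputable section

variable {n : ℕ}

theorem norm_pairOp_sq {ι : Type} [Fintype ι] (S T : Euc ι →ₗ[ℝ] Euc ι) (x : Euc ι) :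
    ‖pairOp S T x‖ ^ 2 = ‖S x‖ ^ 2 + ‖T x‖ ^ 2 := by
  simp only [EuclideanSpace.real_norm_sq_eq, Fintype.sum_sum_type]
  rfl

theorem le_norm_phi2 (A : Matrix (Fin n) (Fin n) ℤ) (Q : Finset (Fin n)) (x : Euc (Fin n)) : ‖x‖ ≤ ‖phi2 A Q x‖ := by
  have h := norm_pairOp_sq (LinearMap.id) (damp Q (1 / ((n : ℝ) + 1) ^ 4) ∘ₗ ropInv A) x
  have h2 : ‖x‖ ^ 2 ≤ ‖phi2 A Q x‖ ^ 2 := by
    unfold phi2
    rw [h]
    simp only [LinearMap.id_coe, id_eq]
    nlinarith [sq_nonneg ‖(damp Q (1 / ((n : ℝ) + 1) ^ 4) ∘ₗ ropInv A) x‖]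
  exact abs_le_of_sq_le_sq' h2 (norm_nonneg _) |>.2

/-- `A⁻¹ x = y / s`. -/
theorem norm_phi2_sv (A : Matrix (Fin n) (Fin n) ℤ) (hA : A.det ≠ 0) (x : Fin n → Bool) {s : ℕ} {y : Fin n → ℤ} (hs : 0 < s)
    (hy : A *ᵥ y = (s : ℤ) • sv x) (hb : ∀ j, |y j| ≤ ((n : ℤ) + 1) ^ 4 * s) :
    ‖phi2 A (Finset.univ.filter fun j => (s : ℤ) < |y j|) (zc (sv x))‖ ^ 2 ≤ 2 * n := by
  have hs' : (0 : ℝ) < s := by exact_mod_cast hs
  have hinv : ropInv A (zc (sv x)) = (s : ℝ)⁻¹ • zc y := by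
    have h1 : rop A (zc y) = (s : ℝ) • zc (sv x) := by
      rw [rop_zc, hy]
      ext i
      simp
    have h2 := ropInv_rop A hA (zc y)
    rw [h1, map_smul] at h2
    rw [← h2, smul_smul, inv_mul_cancel₀ hs'.ne', one_smul]
  unfold phi2
  rw [norm_pairOp_sq]
  simp only [LinearMap.id_coe, id_eq, LinearMap.comp_apply]
  rw [norm_zc_sv, hinv, Fintype.card_fin, EuclideanSpace.real_norm_sq_eq]
  have hN : (0 : ℝ) < ((n : ℝ) + 1) ^ 4 := by positivity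
  have key : ∀ j : Fin n, (damp (Finset.univ.filter fun j => (s : ℤ) < |y j|) (1 / ((n : ℝ) + 1) ^ 4)
      ((s : ℝ)⁻¹ • zc y) j) ^ 2 ≤ 1 := by
    intro j
    rw [sq_le_one_iff_abs_le_one]
    have e : damp (Finset.univ.filter fun j => (s : ℤ) < |y j|) (1 / ((n : ℝ) + 1) ^ 4) ((s : ℝ)⁻¹ • zc y) j =
        (if j ∈ (Finset.univ.filter fun j => (s : ℤ) < |y j|) then (1 / ((n : ℝ) + 1) ^ 4) else 1) *
          ((s : ℝ)⁻¹ * (y j : ℝ)) := rfl
    rw [e]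
    split_ifs with hj
    · have hb' : |(y j : ℝ)| ≤ ((n : ℝ) + 1) ^ 4 * s := by exact_mod_cast hb j
      rw [abs_mul, abs_mul, abs_of_pos (by positivity : (0 : ℝ) < 1 / ((n : ℝ) + 1) ^ 4), abs_of_pos (inv_pos.2 hs')]
      calc 1 / ((n : ℝ) + 1) ^ 4 * ((s : ℝ)⁻¹ * |(y j : ℝ)|)
          ≤ 1 / ((n : ℝ) + 1) ^ 4 * ((s : ℝ)⁻¹ * (((n : ℝ) + 1) ^ 4 * s)) := by gcongr
        _ = 1 := by field_simp
    · simp only [Finset.mem_filter, Finset.mem_univ, true_and, not_lt] at hj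
      have hb' : |(y j : ℝ)| ≤ s := by exact_mod_cast hj
      rw [one_mul, abs_mul, abs_of_pos (inv_pos.2 hs')]
      calc (s : ℝ)⁻¹ * |(y j : ℝ)| ≤ (s : ℝ)⁻¹ * s := by gcongr
        _ = 1 := by field_simp
  have := Finset.sum_le_sum fun j (_ : j ∈ (Finset.univ : Finset (Fin n))) => key j
  simp only [Finset.sum_const, Finset.card_univ, Fintype.card_fin, nsmul_eq_mul, mul_one] at this
  linarith

theorem d2_damp_le {ι : Type} [Fintype ι] [DecidableEq ι] (Q : Finset ι) {lam : ℝ} (h0 : 0 ≤ lam) (h1 : lam ≤ 1)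
    (x : Euc ι) : ‖damp Q lam x‖ ≤ ‖x‖ := by
  refine abs_le_of_sq_le_sq' ?_ (norm_nonneg _) |>.2
  simp only [EuclideanSpace.real_norm_sq_eq]
  refine Finset.sum_le_sum fun j _ => ?_
  have e : damp Q lam x j = (if j ∈ Q then lam else 1) * x j := rfl
  rw [e]
  split_ifs
  · rw [mul_pow]
    have : lam ^ 2 ≤ 1 := by nlinarith
    nlinarith [sq_nonneg (x j)]
  · simp

theorem d2_damp_det {ι : Type} [Fintype ι] [DecidableEq ι] (Q : Finset ι) {lam : ℝ} (h0 : 0 ≤ lam) :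
    gvol (fun i => damp Q lam (EuclideanSpace.basisFun ι ℝ i)) = lam ^ Q.card := by
  rw [gvol_eq_abs_det (EuclideanSpace.basisFun ι ℝ)]
  have : (Matrix.of fun i j => ⟪EuclideanSpace.basisFun ι ℝ j, damp Q lam (EuclideanSpace.basisFun ι ℝ i)⟫) =
      Matrix.diagonal fun i => if i ∈ Q then lam else 1 := by
    ext i j
    rw [Matrix.of_apply, EuclideanSpace.basisFun_inner]
    have e : damp Q lam (EuclideanSpace.basisFun ι ℝ i) j =
        (if j ∈ Q then lam else 1) * (EuclideanSpace.basisFun ι ℝ i) j := rfl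
    rw [e, Matrix.diagonal_apply]
    by_cases hij : i = j
    · subst hij
      simp
    · simp [hij, Ne.symm hij]
  rw [this, Matrix.det_diagonal, Finset.prod_ite]
  simp [abs_of_nonneg h0]

/-- `gvol_full_le` for `damp Q lam` (determinant `lam^|Q|`, a contraction); for a dependent family the left side vanishes. -/
theorem gvol_damp {ι κ : Type} [Fintype ι] [DecidableEq ι] [Fintype κ] [DecidableEq κ] (Q : Finset ι) {lam : ℝ}
    (h0 : 0 ≤ lam) (h1 : lam ≤ 1) (v : κ → Euc ι) : lam ^ Q.card * gvol v ≤ gvol fun i => damp Q lam (v i) := by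
  by_cases hv : LinearIndependent ℝ v
  · obtain ⟨f, hf, h⟩ := gvol_full_le (EuclideanSpace.basisFun ι ℝ) (damp Q lam) v hv
    rw [d2_damp_det Q h0] at h
    have hp : ∏ j, ‖damp Q lam (f j)‖ ≤ 1 :=
      Finset.prod_le_one (fun j _ => norm_nonneg _) fun j _ => (d2_damp_le Q h0 h1 _).trans (hf.1 j).le
    have := gvol_nonneg fun i => damp Q lam (v i)
    nlinarith
  · have h : gvol v = 0 := le_antisymm (not_lt.1 fun h => hv ((gvol_pos_iff v).1 h)) (gvol_nonneg v)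
    rw [h, mul_zero]
    exact gvol_nonneg _

/-- `phi2 A Q (A z) = (A z, Δ z) = damp (Q.map inr) (A z, z)`. -/
theorem gvol_pair_le {κ : Type} [Fintype κ] [DecidableEq κ] (A : Matrix (Fin n) (Fin n) ℤ) (hA : A.det ≠ 0)
    (Q : Finset (Fin n)) (z : κ → Fin n → ℤ) :
    gvol (fun i => pairOp (rop A) LinearMap.id (zc (z i))) ≤
      ((n : ℝ) + 1) ^ (4 * Q.card) * gvol fun i => phi2 A Q (zc (A *ᵥ z i)) := by
  have hN : (1 : ℝ) ≤ ((n : ℝ) + 1) ^ 4 := one_le_pow₀ (by linarith [Nat.cast_nonneg (α := ℝ) n])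
  have h0 : (0 : ℝ) ≤ 1 / ((n : ℝ) + 1) ^ 4 := by positivity
  have h1 : 1 / ((n : ℝ) + 1) ^ 4 ≤ 1 := by rw [div_le_one (by positivity)]; exact hN
  have h := gvol_damp (Q.map (Function.Embedding.inr : Fin n ↪ Fin n ⊕ Fin n)) h0 h1
    (fun i => pairOp (rop A) LinearMap.id (zc (z i)))
  have e : ∀ i, damp (Q.map (Function.Embedding.inr : Fin n ↪ Fin n ⊕ Fin n)) (1 / ((n : ℝ) + 1) ^ 4)
      (pairOp (rop A) LinearMap.id (zc (z i))) = phi2 A Q (zc (A *ᵥ z i)) := by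
    intro i
    rw [← rop_zc]
    ext j
    rcases j with j | j
    · simp [damp, pairOp, phi2]
    · simp [damp, pairOp, phi2, ropInv_rop A hA]
  simp only [e, Finset.card_map] at h
  have hp : (0 : ℝ) < ((n : ℝ) + 1) ^ (4 * Q.card) := by positivity
  have e2 : (1 / ((n : ℝ) + 1) ^ 4) ^ Q.card = (((n : ℝ) + 1) ^ (4 * Q.card))⁻¹ := by
    rw [one_div, inv_pow, ← pow_mul]
  rw [e2, inv_mul_le_iff₀ hp] at h
  exact h

theorem d2_asym (B : ℕ) : ∀ᶠ n : ℕ in atTop, (100 : ℝ) ≤ n ∧ (n : ℝ) + 1 ≤ (n : ℝ) ^ (101 / 100 : ℝ) ∧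
    Real.log n ^ B ≤ (n : ℝ) ^ (1 / 10000 : ℝ) := by
  have h1 : ∀ᶠ x : ℝ in atTop, (2 : ℝ) ≤ x ^ (1 / 100 : ℝ) :=
    (tendsto_rpow_atTop (by norm_num : (0 : ℝ) < 1 / 100)).eventually_ge_atTop 2
  have h2 : ∀ᶠ x : ℝ in atTop, Real.log x ^ B ≤ x ^ (1 / 10000 : ℝ) := by
    have := (isLittleO_log_rpow_rpow_atTop (B : ℝ) (by norm_num : (0 : ℝ) < 1 / 10000)).bound one_pos
    filter_upwards [this, eventually_ge_atTop (1 : ℝ)] with x hx hx1
    rw [Real.rpow_natCast, one_mul, Real.norm_eq_abs, Real.norm_eq_abs,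
      abs_of_nonneg (Real.rpow_nonneg (by linarith) _)] at hx
    exact (le_abs_self _).trans hx
  have h3 : ∀ᶠ x : ℝ in atTop, (100 : ℝ) ≤ x ∧ x + 1 ≤ x ^ (101 / 100 : ℝ) ∧
      Real.log x ^ B ≤ x ^ (1 / 10000 : ℝ) := by
    filter_upwards [h1, h2, eventually_ge_atTop (100 : ℝ)] with x hx1 hx2 hx3
    refine ⟨hx3, ?_, hx2⟩
    have : x ^ (101 / 100 : ℝ) = x * x ^ (1 / 100 : ℝ) := by
      rw [show (101 / 100 : ℝ) = 1 + 1 / 100 by norm_num, Real.rpow_add (by linarith), Real.rpow_one]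
    rw [this]
    nlinarith
  exact tendsto_natCast_atTop_atTop.eventually h3

/-- The projection `(x, y) ↦ x`. -/
def d2_fst {ι : Type} : Euc (ι ⊕ ι) →ₗ[ℝ] Euc ι where
  toFun x := WithLp.toLp 2 fun i => x (Sum.inl i)
  map_add' x y := by ext i; simp
  map_smul' c x := by ext i; simp

theorem d2_fst_le {ι : Type} [Fintype ι] (x : Euc (ι ⊕ ι)) : ‖d2_fst x‖ ≤ ‖x‖ := by
  refine abs_le_of_sq_le_sq' ?_ (norm_nonneg _) |>.2
  simp only [EuclideanSpace.real_norm_sq_eq, Fintype.sum_sum_type]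
  have : ∑ i, (d2_fst x i) ^ 2 = ∑ i, (x (Sum.inl i)) ^ 2 := rfl
  rw [this]
  have : 0 ≤ ∑ i, (x (Sum.inr i)) ^ 2 := Finset.sum_nonneg fun i _ => sq_nonneg _
  linarith

theorem d2_fst_phi2 (A : Matrix (Fin n) (Fin n) ℤ) (Q : Finset (Fin n)) (x : Euc (Fin n)) :
    d2_fst (phi2 A Q x) = x := by
  ext i
  simp [d2_fst, phi2, pairOp]

theorem d2_le_pair (A : Matrix (Fin n) (Fin n) ℤ) (x : Euc (Fin n)) : ‖x‖ ≤ ‖pairOp (rop A) LinearMap.id x‖ := by
  refine abs_le_of_sq_le_sq' ?_ (norm_nonneg _) |>.2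
  rw [norm_pairOp_sq]
  simp only [LinearMap.id_coe, id_eq]
  nlinarith [sq_nonneg ‖rop A x‖]

theorem d2_pair_le (A : Matrix (Fin n) (Fin n) ℤ) (hA : ∀ i j, |A i j| ≤ 1) (x : Euc (Fin n)) (hx : ‖x‖ = 1) :
    ‖pairOp (rop A) LinearMap.id x‖ ≤ (n : ℝ) + 1 := by
  refine abs_le_of_sq_le_sq' ?_ (by positivity) |>.2
  rw [norm_pairOp_sq]
  simp only [LinearMap.id_coe, id_eq]
  have h := norm_rop_le A hA x
  rw [hx, mul_one] at h
  rw [hx]
  have h0 := norm_nonneg (rop A x)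
  have hn := Nat.cast_nonneg (α := ℝ) n
  nlinarith

/-- A basis of `lat (qsp l)` has no larger volume than `l`. -/
theorem d2_bas_le {E κ κ' : Type} [NormedAddCommGroup E] [InnerProductSpace ℝ E] [Fintype κ] [DecidableEq κ]
    [Fintype κ'] [DecidableEq κ'] (Φ : Euc (Fin n) →ₗ[ℝ] E) {l : κ → Fin n → ℤ} (hl : LinearIndependent ℤ l)
    {w : κ' → Fin n → ℤ} (hw : IsBas (lat (qsp l)) w) :
    gvol (fun i => Φ (zc (w i))) ≤ gvol fun i => Φ (zc (l i)) := by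
  obtain ⟨h1, h2⟩ := gvol_eq_relIndex_mul Φ hl hw
  rw [h1]
  have h3 : (1 : ℝ) ≤ ((Submodule.span ℤ (Set.range l)).toAddSubgroup.relIndex (lat (qsp l)).toAddSubgroup : ℕ) := by
    exact_mod_cast Nat.one_le_iff_ne_zero.2 h2
  nlinarith [gvol_nonneg fun i => Φ (zc (w i))]

/-- Preimage basis with a volume bound. -/
theorem d2_pre {κ : Type} [Fintype κ] [DecidableEq κ] (A : Matrix (Fin n) (Fin n) ℤ) (hA : A.det ≠ 0)
    (Q : Finset (Fin n)) (W : Submodule ℚ (Fin n → ℚ)) {a : κ → Fin n → ℤ} (ha : IsBas (lat W) a) :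
    ∃ z : Fin (finrank ℚ W) → Fin n → ℤ, LinearIndependent ℝ (fun i => zc (z i)) ∧ (∀ i, qc (A *ᵥ z i) ∈ W) ∧
      gvol (fun i => pairOp (rop A) LinearMap.id (zc (z i))) ≤
        ((n : ℝ) + 1) ^ (4 * Q.card) * ((A.det.natAbs : ℝ) * gvol fun i => phi2 A Q (zc (a i))) := by
  obtain ⟨z, hz, hzW, hg⟩ := exists_preimage_basis (phi2 A Q) A hA W ha
  refine ⟨z, hz, hzW, (gvol_pair_le A hA Q z).trans ?_⟩
  rw [hg]
  have h : (((LinearMap.range A.mulVecLin).toAddSubgroup.relIndex (lat W).toAddSubgroup : ℕ) : ℝ) ≤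
      (A.det.natAbs : ℝ) := by exact_mod_cast relIndex_range_le A hA _
  have := gvol_nonneg fun i => phi2 A Q (zc (a i))
  gcongr

/-- Let `U = qsp l`, `u = finrank U`; a basis `a'` of `lat U` has `gvol (phi2 a') ≤ K^n` (`gvol_eq_relIndex_mul`), and `cov U ≤ gvol (phi2 a')`.
If `n - u ≤ n/40`: `exists_preimage_basis` for `U`, `gvol_pair_le`, then `gvol_full_le` for `pairOp (rop A) id` (`‖·‖² ≤ n² + 1` on unit vectors,
`one_le_gvol_zc`) bound `gvol (pairOp (rop A) id e)` by `n^{n (1/400 + 1/500 + 1/40) + o(n)} < n^{n/10}`, a contradiction.  Otherwise let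
`W = D ⊓ U`, `(a, b)` an adapted basis of `W ≤ U`; `gvol_rel_le` for the contraction `(x, y) ↦ x` gives `cov U * gvol (phi2 a) ≤ K^n cov W`;
`exists_preimage_basis` for `W`, `gvol z ≤ gvol (pairOp (rop A) id z)` and `gvol_pair_le`. -/
theorem PEv_of_small (B : ℕ) {κ ε : ℝ} (hκ : κ ≤ 1 / 2000) (hε0 : 0 < ε) (hε : ε ≤ 1 / 400) : ∀ᶠ n : ℕ in atTop,
    ∀ A : Matrix (Fin n) (Fin n) ℤ, (∀ i j, |A i j| ≤ 1) → A.det ≠ 0 → (A.det.natAbs : ℝ) ≤ (n : ℝ) ^ ((n : ℝ) / 400) →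
    (n : ℝ) ^ ((n : ℝ) / 10) ≤ gvol (fun j => pairOp (rop A) LinearMap.id (EuclideanSpace.basisFun (Fin n) ℝ j)) →
    ∀ Q : Finset (Fin n), (Q.card : ℝ) ≤ κ * (n + 1) →
    ∀ (u : ℕ) (l : Fin u → Fin n → ℤ), LinearIndependent ℝ (fun i => zc (l i)) →
    gvol (fun i => phi2 A Q (zc (l i))) ≤ Real.log n ^ (B * n) →
    cov (qsp l) ≤ Real.log n ^ (B * n) ∧ ∀ D, Cont ε (qsp l) D → PEv (1 / 400) ε D A := by
  filter_upwards [d2_asym B] with n ⟨hn, hn1, hlog⟩ A hA hdet hsmall hbig Q hQ u l hl hK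
  have hn0 : (0 : ℝ) < n := by linarith
  have hn1' : (1 : ℝ) < n := by linarith
  have hlog0 : 0 ≤ Real.log n := Real.log_nonneg hn1'.le
  have hlZ : LinearIndependent ℤ l := (li_int_iff_real l).2 hl
  have hKn : Real.log n ^ (B * n) ≤ (n : ℝ) ^ ((n : ℝ) / 10000) := by
    rw [pow_mul, show (n : ℝ) / 10000 = 1 / 10000 * n by ring, Real.rpow_mul hn0.le, Real.rpow_natCast]
    exact pow_le_pow_left₀ (pow_nonneg hlog0 _) hlog _
  have hpow : ∀ k : ℕ, ((n : ℝ) + 1) ^ k ≤ (n : ℝ) ^ (101 / 100 * (k : ℝ)) := by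
    intro k
    rw [Real.rpow_mul hn0.le, Real.rpow_natCast]
    exact pow_le_pow_left₀ (by positivity) hn1 _
  have hQ' : ((n : ℝ) + 1) ^ (4 * Q.card) ≤ (n : ℝ) ^ (21 / 10000 * (n : ℝ)) := by
    refine (hpow _).trans (Real.rpow_le_rpow_of_exponent_le hn1'.le ?_)
    have h1 : (Q.card : ℝ) ≤ 1 / 2000 * (n + 1) := hQ.trans (by gcongr)
    push_cast
    linarith
  obtain ⟨a', ha'⟩ := exists_isBas (lat (qsp l))
  have ha'K : gvol (fun i => phi2 A Q (zc (a' i))) ≤ Real.log n ^ (B * n) := (d2_bas_le _ hlZ ha').trans hK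
  have hU : finrank ℚ (qsp l) = u := by rw [finrank_qsp hlZ, Fintype.card_fin]
  refine ⟨?_, fun D hD => ?_⟩
  · rw [cov_eq_of_isBas ha']
    have := le_gvol_map (phi2 A Q) zero_le_one (fun x => by rw [one_mul]; exact le_norm_phi2 A Q x) fun i => zc (a' i)
    rw [one_pow, one_mul] at this
    exact this.trans ha'K
  have hu : (n : ℝ) / 40 < (n : ℝ) - u := by
    by_contra hcon
    rw [not_lt] at hcon
    obtain ⟨z, hz, -, hg⟩ := d2_pre A hdet Q (qsp l) ha'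
    obtain ⟨f, hf, h⟩ := gvol_full_le (EuclideanSpace.basisFun (Fin n) ℝ) (pairOp (rop A) LinearMap.id)
      (fun i => zc (z i)) hz
    have hun : u ≤ n := by
      have := hl.fintype_card_le_finrank
      simpa using this
    have hp : ∏ j, ‖pairOp (rop A) LinearMap.id (f j)‖ ≤ (n : ℝ) ^ (3 / 100 * (n : ℝ)) := by
      calc ∏ j, ‖pairOp (rop A) LinearMap.id (f j)‖ ≤ ∏ _j : Fin (finrank ℝ (Euc (Fin n)) -
            Fintype.card (Fin (finrank ℚ (qsp l)))), ((n : ℝ) + 1) :=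
            Finset.prod_le_prod (fun j _ => norm_nonneg _) fun j _ => d2_pair_le A hA _ (hf.1 j)
        _ = ((n : ℝ) + 1) ^ (n - u) := by simp [hU]
        _ ≤ (n : ℝ) ^ (101 / 100 * ((n - u : ℕ) : ℝ)) := hpow _
        _ ≤ _ := by
          refine Real.rpow_le_rpow_of_exponent_le hn1'.le ?_
          rw [Nat.cast_sub hun]
          linarith
    have h1 := one_le_gvol_zc z hz
    have h2 : (n : ℝ) ^ ((n : ℝ) / 10) ≤ (n : ℝ) ^ (21 / 10000 * (n : ℝ)) *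
        ((n : ℝ) ^ ((n : ℝ) / 400) * (n : ℝ) ^ ((n : ℝ) / 10000)) * (n : ℝ) ^ (3 / 100 * (n : ℝ)) := by
      have g0 := gvol_nonneg fun j => pairOp (rop A) LinearMap.id (EuclideanSpace.basisFun (Fin n) ℝ j)
      have g1 := gvol_nonneg fun i => phi2 A Q (zc (a' i))
      calc (n : ℝ) ^ ((n : ℝ) / 10)
          ≤ gvol (fun j => pairOp (rop A) LinearMap.id (EuclideanSpace.basisFun (Fin n) ℝ j)) := hbig
        _ ≤ gvol (fun i => zc (z i)) *
            gvol (fun j => pairOp (rop A) LinearMap.id (EuclideanSpace.basisFun (Fin n) ℝ j)) :=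
            le_mul_of_one_le_left g0 h1
        _ ≤ _ := h
        _ ≤ _ := by
            refine mul_le_mul (hg.trans ?_) hp (Finset.prod_nonneg fun j _ => norm_nonneg _) (by positivity)
            have := ha'K.trans hKn
            gcongr
    rw [← Real.rpow_add hn0, ← Real.rpow_add hn0, ← Real.rpow_add hn0, Real.rpow_le_rpow_left_iff hn1'] at h2
    linarith
  obtain ⟨hD1, hD2, hD3⟩ := hD
  obtain ⟨a, ha⟩ := exists_isBas (lat (D ⊓ qsp l))
  obtain ⟨b, hb⟩ := exists_adapted (inf_le_right : D ⊓ qsp l ≤ qsp l) ha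
  have hab : gvol (fun i => phi2 A Q (zc (Sum.elim a b i))) ≤ Real.log n ^ (B * n) := (d2_bas_le _ hlZ hb).trans hK
  have hrel := gvol_rel_le d2_fst d2_fst_le (fun i => phi2 A Q (zc (a i))) fun j => phi2 A Q (zc (b j))
  simp only [d2_fst_phi2] at hrel
  have e1 : (Sum.elim (fun i => zc (a i)) fun j => zc (b j)) = fun s => zc (Sum.elim a b s) := by
    ext1 s
    rcases s with s | s <;> rfl
  have e2 : (Sum.elim (fun i => phi2 A Q (zc (a i))) fun j => phi2 A Q (zc (b j))) =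
      fun s => phi2 A Q (zc (Sum.elim a b s)) := by
    ext1 s
    rcases s with s | s <;> rfl
  rw [e1, e2, ← cov_eq_of_isBas hb, ← cov_eq_of_isBas ha] at hrel
  have g1 := gvol_nonneg fun i => phi2 A Q (zc (a i))
  have haK : gvol (fun i => phi2 A Q (zc (a i))) ≤ (n : ℝ) ^ ((n : ℝ) / 10000) * (n : ℝ) ^ (ε * n) := by
    calc gvol (fun i => phi2 A Q (zc (a i))) ≤ cov (qsp l) * gvol (fun i => phi2 A Q (zc (a i))) :=
          le_mul_of_one_le_left g1 (one_le_cov _)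
      _ ≤ _ := hrel
      _ ≤ _ := mul_le_mul (hab.trans hKn) hD3 (zero_le_one.trans (one_le_cov _)) (by positivity)
  obtain ⟨z, hz, hzW, hg⟩ := d2_pre A hdet Q (D ⊓ qsp l) ha
  refine ⟨finrank ℚ ↥(D ⊓ qsp l), z, hz, hD2, fun i => (hzW i).1, ?_⟩
  have hw : finrank ℚ ↥(D ⊓ qsp l) ≤ u := (Submodule.finrank_mono (inf_le_right : D ⊓ qsp l ≤ qsp l)).trans hU.le
  have hw' : (finrank ℚ ↥(D ⊓ qsp l) : ℝ) ≤ u := by exact_mod_cast hw
  have h1 := le_gvol_map (pairOp (rop A) LinearMap.id) zero_le_one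
    (fun x => by rw [one_mul]; exact d2_le_pair A x) fun i => zc (z i)
  rw [one_pow, one_mul] at h1
  calc gvol (fun i => zc (z i)) ≤ _ := h1
    _ ≤ _ := hg
    _ ≤ (n : ℝ) ^ (21 / 10000 * (n : ℝ)) *
        ((n : ℝ) ^ ((n : ℝ) / 400) * ((n : ℝ) ^ ((n : ℝ) / 10000) * (n : ℝ) ^ (ε * n))) := by gcongr
    _ ≤ _ := by
      rw [← Real.rpow_add hn0, ← Real.rpow_add hn0, ← Real.rpow_add hn0]
      refine Real.rpow_le_rpow_of_exponent_le hn1'.le ?_
      have : ε * n ≤ 1 / 400 * n := by gcongr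
      linarith

end

end Crest.Agent.R152
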