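import Crest.Agent.R152.P2
import Crest.Agent.R152.P3
import Crest.Agent.R152.D2

/-!
# R152/T

Typically `det (1 + A²)` is large.

Helper lemmas: prefix `t_`.
-/

set_option autoImplicit false
set_option linter.unusedVariables false
set_option linter.unusedSectionVars false

namespace Crest.Agent.R152

open Crest.FinProb Crest.ProbabilityR.SignMatrix MeasureTheory ProbabilityTheory Filter Module
open scoped RealInnerProductSpace ENNReal Matrix Topology

noncomputable section

variable {p : ℝ}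

/-- Restriction of coordinates along a map. -/
def t_res {α β : Type} (f : α → β) : Euc β →ₗ[ℝ] Euc α where
  toFun x := WithLp.toLp 2 fun i => x (f i)
  map_add' x y := by ext i; simp
  map_smul' c x := by ext i; simp

theorem t_res_apply {α β : Type} (f : α → β) (x : Euc β) (i : α) : t_res f x i = x (f i) := rfl

theorem t_res_le {α β : Type} [Fintype α] [Fintype β] {f : α → β} (hf : Function.Injective f) (x : Euc β) :
    ‖t_res f x‖ ≤ ‖x‖ := by
  classical
  rw [EuclideanSpace.norm_eq, EuclideanSpace.norm_eq]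
  refine Real.sqrt_le_sqrt ?_
  simp only [t_res_apply]
  rw [← Finset.sum_image (s := Finset.univ) (g := f) (f := fun j => ‖x j‖ ^ 2) fun a _ b _ h => hf h]
  exact Finset.sum_le_sum_of_subset_of_nonneg (Finset.subset_univ _) fun j _ _ => sq_nonneg _

/-- Reindex `Fin n ≃ Fin t ⊕ (range σ)ᶜ`; `gvol_rel_le` for the contraction `(x, y) ↦ y` (its images are orthonormal) shows that the volume
is at least that of the columns `σ l`, and `(x, y) ↦ x ∘ ρ` is a contraction. -/
theorem gvol_block_le {n h t : ℕ} (A : Matrix (Fin n) (Fin n) ℤ) (ρ : Fin h → Fin n) (hρ : Function.Injective ρ)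
    (σ : Fin t → Fin n) (hσ : Function.Injective σ) :
    gvol (fun l => zc fun i => A (ρ i) (σ l)) ≤
      gvol fun j => pairOp (rop A) LinearMap.id (EuclideanSpace.basisFun (Fin n) ℝ j) := by
  classical
  set b := EuclideanSpace.basisFun (Fin n) ℝ
  set w : Fin n → Euc (Fin n ⊕ Fin n) := fun j => pairOp (rop A) LinearMap.id (b j) with hw
  let e : Fin t ⊕ ↥(Set.range σ)ᶜ ≃ Fin n :=
    ((Equiv.ofInjective σ hσ).sumCongr (Equiv.refl _)).trans (Equiv.Set.sumCompl (Set.range σ))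
  have he : ∀ {X : Type} (u : Fin n → X), (fun i => u (e i)) =
      Sum.elim (fun l => u (σ l)) (fun j : ↥(Set.range σ)ᶜ => u j) := by
    intro X u
    funext i
    rcases i with i | i
    · simp [e]
    · simp [e]
  have hT : ∀ j, t_res Sum.inr (w j) = b j := fun j => by
    ext i
    rfl
  have h1 := gvol_rel_le (t_res (Sum.inr : Fin n → Fin n ⊕ Fin n)) (t_res_le Sum.inr_injective)
    (fun l => w (σ l)) (fun j : ↥(Set.range σ)ᶜ => w j)
  simp only [hT] at h1
  rw [← he b, ← he w, gvol_reindex, gvol_reindex, gvol_orthonormal b.orthonormal,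
    gvol_orthonormal (v := fun i => b (σ i)) (b.orthonormal.comp σ hσ), one_mul, mul_one] at h1
  refine le_trans ?_ h1
  have h2 := g2_contr (t_res fun i => (Sum.inl (ρ i) : Fin n ⊕ Fin n))
    (t_res_le (Sum.inl_injective.comp hρ)) fun l => w (σ l)
  refine le_of_eq_of_le (congrArg gvol (funext fun l => ?_)) h2
  ext i
  simp [t_res_apply, hw, pairOp, rop, b, Matrix.toLpLin_apply]

open Classical in
/-- One step of the greedy selection. -/
def t_step {E Q : Type} [NormedAddCommGroup E] [InnerProductSpace ℝ E] [FiniteDimensional ℝ E] (x : Q → E) (t : ℕ) (a : ℝ)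
    (U : Submodule ℝ E) (ξ : Q) : Submodule ℝ E :=
  if finrank ℝ U < t ∧ a ≤ ‖Uᗮ.starProjection (x ξ)‖ then U ⊔ Submodule.span ℝ {x ξ} else U

theorem t_step_le {E Q : Type} [NormedAddCommGroup E] [InnerProductSpace ℝ E] [FiniteDimensional ℝ E] (x : Q → E) (t : ℕ) (a : ℝ)
    (U : Submodule ℝ E) (ξ : Q) : finrank ℝ U ≤ finrank ℝ (t_step x t a U ξ) := by
  refine Submodule.finrank_mono ?_
  unfold t_step
  split_ifs
  · exact le_sup_left
  · exact le_rfl

theorem t_step_pos {E Q : Type} [NormedAddCommGroup E] [InnerProductSpace ℝ E] [FiniteDimensional ℝ E] (x : Q → E) {t : ℕ} {a : ℝ}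
    (ha : 0 < a) {U : Submodule ℝ E} {ξ : Q} (hU : finrank ℝ U < t) (hx : a ≤ ‖Uᗮ.starProjection (x ξ)‖) :
    t_step x t a U ξ = U ⊔ Submodule.span ℝ {x ξ} ∧ finrank ℝ (t_step x t a U ξ) = finrank ℝ U + 1 := by
  have e : t_step x t a U ξ = U ⊔ Submodule.span ℝ {x ξ} := if_pos ⟨hU, hx⟩
  refine ⟨e, ?_⟩
  rw [e]
  refine Submodule.finrank_sup_span_singleton fun hm => ?_
  rw [(Submodule.starProjection_apply_eq_zero_iff (K := Uᗮ)).2 (U.le_orthogonal_orthogonal hm), norm_zero] at hx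
  exact absurd hx (not_le.2 ha)

theorem t_cons {E : Type} [NormedAddCommGroup E] [InnerProductSpace ℝ E] [FiniteDimensional ℝ E] (U : Submodule ℝ E) {j : ℕ}
    (y : Fin (j + 1) → E) :
    ‖Uᗮ.starProjection (y 0)‖ * gvol (fun l : Fin j => (U ⊔ Submodule.span ℝ {y 0})ᗮ.starProjection (y l.succ)) ≤
      gvol fun l => Uᗮ.starProjection (y l) := by
  have e : (fun i => Uᗮ.starProjection (y ((finSuccEquiv j).trans (Equiv.optionEquivSumPUnit.{0} (Fin j)) |>.trans
      (Equiv.sumComm _ _) |>.symm i))) =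
      Sum.elim (fun _ : Unit => Uᗮ.starProjection (y 0)) (fun l : Fin j => Uᗮ.starProjection (y l.succ)) := by
    funext i
    rcases i with i | i <;> simp
  rw [← gvol_reindex ((finSuccEquiv j).trans (Equiv.optionEquivSumPUnit.{0} (Fin j)) |>.trans (Equiv.sumComm _ _) |>.symm)
    fun l => Uᗮ.starProjection (y l), e, gvol_sum, gvol_unique (κ := Unit)]
  refine mul_le_mul_of_nonneg_left ?_ (norm_nonneg _)
  have h := g2_kill (LinearMap.id : E →ₗ[ℝ] E) (fun _ => le_rfl)
    (Submodule.span ℝ (Set.range fun _ : Unit => Uᗮ.starProjection (y 0))) (U ⊔ Submodule.span ℝ {y 0})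
    (fun z hz => by
      refine (Submodule.span_le.2 ?_ : _ ≤ U ⊔ Submodule.span ℝ {y 0}) hz
      rintro _ ⟨_, rfl⟩
      simp only [Submodule.starProjection_orthogonal_val, SetLike.mem_coe]
      exact sub_mem (Submodule.mem_sup_right (Submodule.mem_span_singleton_self _))
        (Submodule.mem_sup_left (U.starProjection_apply_mem _)))
    fun l : Fin j => Uᗮ.starProjection (y l.succ)
  refine le_of_eq_of_le (congrArg gvol (funext fun l => ?_)) h
  rw [LinearMap.id_apply, Submodule.starProjection_orthogonal_val (K := U), map_sub,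
    (Submodule.starProjection_apply_eq_zero_iff (K := (U ⊔ Submodule.span ℝ {y 0})ᗮ)).2
      ((U ⊔ Submodule.span ℝ {y 0}).le_orthogonal_orthogonal
        (Submodule.mem_sup_left (U.starProjection_apply_mem _))), sub_zero]

theorem t_run {E Q : Type} [NormedAddCommGroup E] [InnerProductSpace ℝ E] [FiniteDimensional ℝ E] (x : (Q → Bool) → E) {t : ℕ} {a : ℝ}
    (ha : 0 < a) (m : ℕ) : ∀ (U : Submodule ℝ E) (η : Fin m → Q → Bool) (j : ℕ), finrank ℝ U + j = t →
    t ≤ finrank ℝ (runS (t_step x t a) m U η) →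
    ∃ σ : Fin j → Fin m, Function.Injective σ ∧ a ^ j ≤ gvol fun l => Uᗮ.starProjection (x (η (σ l))) := by
  induction m with
  | zero =>
    intro U η j hj ht
    obtain rfl : j = 0 := by
      have : t ≤ finrank ℝ U := ht
      omega
    exact ⟨Fin.elim0, fun i => i.elim0, by rw [gvol_empty, pow_zero]⟩
  | succ m ih =>
    intro U η j hj ht
    rcases j with _ | j
    · exact ⟨Fin.elim0, fun i => i.elim0, by rw [gvol_empty, pow_zero]⟩
    replace ht : t ≤ finrank ℝ (runS (t_step x t a) m (t_step x t a U (η 0)) fun i => η i.succ) := ht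
    by_cases hx : a ≤ ‖Uᗮ.starProjection (x (η 0))‖
    · obtain ⟨e1, e2⟩ := t_step_pos x ha (U := U) (t := t) (by omega) hx
      rw [e1] at ht e2
      obtain ⟨σ, hσ, hv⟩ := ih _ _ j (by omega) ht
      refine ⟨Fin.cons 0 fun l => (σ l).succ, ?_, ?_⟩
      · refine Fin.cons_injective_iff.2 ⟨?_, (Fin.succ_injective _).comp hσ⟩
        rintro ⟨l, hl⟩
        exact Fin.succ_ne_zero _ hl
      · refine le_trans ?_ (t_cons U fun l => x (η ((Fin.cons 0 fun l => (σ l).succ : Fin (j + 1) → Fin (m + 1)) l)))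
        rw [pow_succ']
        exact mul_le_mul hx hv (pow_nonneg ha.le _) (norm_nonneg _)
    · have e : t_step x t a U (η 0) = U := if_neg fun h => hx h.2
      rw [e] at ht
      obtain ⟨σ, hσ, hv⟩ := ih _ _ (j + 1) hj ht
      exact ⟨fun l => (σ l).succ, (Fin.succ_injective _).comp hσ, hv⟩

/-- Greedy selection of `t` among `m` fresh sign vectors.  `seq_bound` with states `Σ k, Fin k → Fin h → Bool` (the chosen vectors), a vector is
appended if `k < t` and its distance to the span is `≥ c √h`; `Good` is `k < t`, `len = t - k`; `small_ball` with `γ = 1/3` for the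
orthogonal complement (`sv ξ = 2 (zo ξ - 1/2)`).  If the final state is not good, the chosen vectors are distinct rows and their volume is
`≥ (c√h)^t` (`gvol_sum`, induction along `runS`). -/
theorem greedy_rows (h0 : 0 < p) (h1 : p < 1) : ∃ c : ℝ, 0 < c ∧ ∀ h m t : ℕ, 3 * t ≤ 2 * h →
    pr p {η : Fin m × Fin h → Bool | ¬ ∃ σ : Fin t → Fin m, Function.Injective σ ∧
      (c * √h) ^ t ≤ gvol fun l => zc (sv fun i => η (σ l, i))} ≤ 2 ^ m * Real.exp (-c * h) ^ (m - t) := by
  obtain ⟨c, hc, hs⟩ := small_ball h0 h1 (γ := 1 / 3) (by norm_num)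
  refine ⟨c, hc, fun h m t ht => ?_⟩
  rcases Nat.eq_zero_or_pos t with rfl | t0
  · refine le_trans (pr_mono h0 h1 (F := ∅) fun η hη => hη ⟨Fin.elim0, fun i => i.elim0, ?_⟩) ?_
    · rw [gvol_empty, pow_zero]
    · rw [pr_empty]
      positivity
  have ha : 0 < c * √h := mul_pos hc (Real.sqrt_pos.2 (Nat.cast_pos.2 (by omega)))
  have key := seq_bound (κ := Fin h) h0 h1 (t_step (fun ξ : Fin h → Bool => zc (sv ξ)) t (c * √h))
    (fun U => finrank ℝ U < t) (fun U => t - finrank ℝ U) (ρ := Real.exp (-c * h)) (Real.exp_pos _).le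
    (Real.exp_le_one_iff.2 (by nlinarith [Nat.cast_nonneg (α := ℝ) h]))
    (fun U ξ hU => (t_step_le _ _ _ U ξ).trans_lt hU)
    (fun U ξ => Nat.sub_le_sub_left (t_step_le _ _ _ U ξ) t) (fun U hU => ?_) m ⊥
  · rw [finrank_bot, Nat.sub_zero] at key
    refine le_trans (pr_mono h0 h1 fun η hη => ?_) key
    by_contra hG
    obtain ⟨σ, hσ, hv⟩ := t_run (fun ξ : Fin h → Bool => zc (sv ξ)) ha m ⊥ (fun r c => η (r, c)) t
      (by rw [finrank_bot, zero_add]) (not_lt.1 hG)
    refine hη ⟨σ, hσ, ?_⟩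
    simpa only [Submodule.bot_orthogonal_eq_top, Submodule.starProjection_top, ContinuousLinearMap.id_apply] using hv
  · have hr := U.finrank_add_finrank_orthogonal
    rw [finrank_euclideanSpace, Fintype.card_fin] at hr
    have h3 := hs (Fin h) Uᗮ (by
      rw [Fintype.card_fin]
      have : h ≤ 3 * finrank ℝ Uᗮ := by omega
      have : (h : ℝ) ≤ 3 * finrank ℝ Uᗮ := by exact_mod_cast this
      linarith) (WithLp.toLp 2 fun _ => 1 / 2)
    rw [Fintype.card_fin] at h3
    refine le_trans (pr_mono h0 h1 fun ξ hξ => ?_) h3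
    obtain ⟨g1, g2⟩ := hξ
    have hx : ‖Uᗮ.starProjection (zc (sv ξ))‖ < c * √h := by
      by_contra hx
      have := (t_step_pos (fun ξ : Fin h → Bool => zc (sv ξ)) ha hU (not_lt.1 hx)).2
      omega
    have e : zc (sv ξ) = (2 : ℝ) • (zc (zo ξ) - WithLp.toLp 2 fun _ => 1 / 2 : Euc (Fin h)) := by
      ext i
      simp only [zc_apply, (sv_eq ξ i).2, PiLp.smul_apply, PiLp.sub_apply, smul_eq_mul]
      push_cast
      ring
    rw [e, map_smul, norm_smul, Real.norm_ofNat] at hx
    have := norm_nonneg (Uᗮ.starProjection (zc (zo ξ) - WithLp.toLp 2 fun _ => 1 / 2 : Euc (Fin h)))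
    exact lt_of_le_of_lt (by linarith) hx

theorem t_num1 {c : ℝ} (hc : 0 < c) : ∀ᶠ n : ℕ in atTop,
    (n : ℝ) ^ ((n : ℝ) / 10) ≤ (c * √((n / 2 : ℕ) : ℝ)) ^ (n / 4) := by
  filter_upwards [((tendsto_rpow_atTop (y := 1 / 10) (by norm_num)).comp
    tendsto_natCast_atTop_atTop).eventually_ge_atTop (3 / c ^ 2), eventually_ge_atTop 27] with n h1 h2
  simp only [Function.comp] at h1
  have n1 : (1 : ℝ) ≤ n := Nat.one_le_cast.2 (by omega)
  have n0 : (0 : ℝ) < n := by linarith
  have a1 : (n : ℝ) ≤ 3 * (n / 2 : ℕ) := by exact_mod_cast (by omega : n ≤ 3 * (n / 2))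
  have a2 : 2 * (n : ℝ) ≤ 9 * (n / 4 : ℕ) := by exact_mod_cast (by omega : 2 * n ≤ 9 * (n / 4))
  have b1 : (n : ℝ) ^ (9 / 20 : ℝ) ≤ c * √((n / 2 : ℕ) : ℝ) := by
    rw [← pow_le_pow_iff_left₀ (by positivity) (by positivity) two_ne_zero, mul_pow, Real.sq_sqrt (Nat.cast_nonneg _),
      ← Real.rpow_natCast, ← Real.rpow_mul n0.le]
    have e : (n : ℝ) ^ (9 / 20 * (2 : ℕ) : ℝ) * (n : ℝ) ^ (1 / 10 : ℝ) = n := by
      rw [← Real.rpow_add n0]
      norm_num
    rw [div_le_iff₀ (by positivity)] at h1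
    have p1 : 0 < (n : ℝ) ^ (9 / 20 * (2 : ℕ) : ℝ) := by positivity
    have c2 : 0 < c ^ 2 := by positivity
    nlinarith [mul_le_mul_of_nonneg_left h1 p1.le, mul_le_mul_of_nonneg_left a1 c2.le]
  refine le_trans ?_ (pow_le_pow_left₀ (by positivity) b1 _)
  rw [← Real.rpow_natCast, ← Real.rpow_mul n0.le]
  exact Real.rpow_le_rpow_of_exponent_le n1 (by linarith)

theorem t_num2 {c : ℝ} (hc : 0 < c) : ∀ᶠ n : ℕ in atTop,
    2 ^ (n / 2) * Real.exp (-c * (n / 2 : ℕ)) ^ (n / 2 - n / 4) ≤ Real.exp (-(c / 30) * n ^ 2) := by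
  filter_upwards [tendsto_natCast_atTop_atTop.eventually_ge_atTop (30 / c), eventually_ge_atTop 10] with n h1 h2
  have n0 : (0 : ℝ) ≤ n := Nat.cast_nonneg n
  have a1 : (n : ℝ) ≤ 3 * (n / 2 : ℕ) := by exact_mod_cast (by omega : n ≤ 3 * (n / 2))
  have a2 : (n : ℝ) ≤ 5 * (n / 2 - n / 4 : ℕ) := by exact_mod_cast (by omega : n ≤ 5 * (n / 2 - n / 4))
  have a3 : ((n / 2 : ℕ) : ℝ) ≤ n := by exact_mod_cast Nat.div_le_self n 2
  have b1 : (2 : ℝ) ^ (n / 2) ≤ Real.exp 1 ^ (n / 2) :=
    pow_le_pow_left₀ (by norm_num) (by linarith [Real.add_one_le_exp 1]) _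
  refine le_trans (mul_le_mul_of_nonneg_right b1 (by positivity)) ?_
  rw [← Real.exp_nat_mul, ← Real.exp_nat_mul, ← Real.exp_add]
  refine Real.exp_le_exp.2 ?_
  rw [div_le_iff₀ hc] at h1
  have b2 : (n : ℝ) * n ≤ (3 * (n / 2 : ℕ)) * (5 * (n / 2 - n / 4 : ℕ)) := mul_le_mul a1 a2 n0 (by positivity)
  nlinarith [mul_le_mul_of_nonneg_left b2 hc.le, mul_le_mul_of_nonneg_left h1 n0]

/-- `h = m = n / 2`, `t = n / 4`, the off-diagonal block (`blk`, `pr_comp`). -/
theorem typical (h0 : 0 < p) (h1 : p < 1) : ∃ c : ℝ, 0 < c ∧ ∀ᶠ n : ℕ in atTop,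
    pr p {ω : Sym2 (Fin n) → Bool | gvol (fun j => pairOp (rop (Mx ω)) LinearMap.id (EuclideanSpace.basisFun (Fin n) ℝ j)) <
      (n : ℝ) ^ ((n : ℝ) / 10)} ≤ Real.exp (-c * n ^ 2) := by
  obtain ⟨c, hc, hg⟩ := greedy_rows h0 h1
  refine ⟨c / 30, by positivity, ?_⟩
  filter_upwards [t_num1 hc, t_num2 hc] with n a1 a2
  refine le_trans ?_ ((hg (n / 2) (n / 2) (n / 4) (by omega)).trans a2)
  let r : Fin (n / 2) → Fin n := fun a => ⟨a, by omega⟩
  let s : Fin (n / 2) → Fin n := fun b => ⟨n / 2 + b, by omega⟩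
  have hr : Function.Injective r := fun a b h => Fin.ext (by simpa [r] using h)
  have hs : Function.Injective s := fun a b h => Fin.ext (by simpa [s] using h)
  have hb : Function.Injective (blk r s) := blk_injective hr hs fun a b h => by
    have := congrArg Fin.val h
    simp only [r, s] at this
    omega
  rw [← pr_comp p hb]
  refine pr_mono h0 h1 fun ω hω => ?_
  rintro ⟨σ, hσ, hv⟩
  refine absurd (a1.trans (hv.trans (le_of_eq_of_le ?_ (gvol_block_le (Mx ω) s hs (fun l => r (σ l)) (hr.comp hσ)))))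
    (not_le.2 hω)
  refine congrArg gvol (funext fun l => congrArg zc (funext fun i => ?_))
  exact (Mx_symm ω).apply (s i) (r (σ l))

end

end Crest.Agent.R152
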