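import Crest.Agent.R152.P1
import Crest.Agent.R152.L1

/-!
# R152/P2

Odlyzko's lemma and a lower tail for projections of a random zero-one vector.

Helper lemmas: prefix `p2_`.
-/

set_option autoImplicit false
set_option linter.unusedVariables false
set_option linter.unusedSectionVars false

namespace Crest.Agent.R152

open Crest.FinProb Crest.ProbabilityR.SignMatrix MeasureTheory ProbabilityTheory Filter Module
open scoped RealInnerProductSpace ENNReal Matrix Topology

noncomputable section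

variable {ι κ : Type} [Fintype ι] [DecidableEq ι] [Fintype κ] [DecidableEq κ] {p : ℝ}

/-- An information set: the projection of `W` on the coordinates in `I` is injective and `|I| ≤ finrank W`
(choose a maximal independent family among the coordinate functionals restricted to `W`). -/
theorem exists_info_set {F : Type} [Field F] (W : Submodule F (ι → F)) :
    ∃ I : Finset ι, I.card = finrank F W ∧ (∀ w ∈ W, (∀ i ∈ I, w i = 0) → w = 0) ∧
      ∀ t : ι → F, ∃ w ∈ W, ∀ i ∈ I, w i = t i := by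
  classical
  obtain ⟨I, hI, hmax⟩ := Finset.exists_max_image
    (Finset.univ.filter fun I : Finset ι => ∀ t : ι → F, ∃ w ∈ W, ∀ i ∈ I, w i = t i) Finset.card
    ⟨∅, Finset.mem_filter.2 ⟨Finset.mem_univ _, fun t => ⟨0, W.zero_mem, by simp⟩⟩⟩
  have hs := (Finset.mem_filter.1 hI).2
  have hinj : ∀ w ∈ W, (∀ i ∈ I, w i = 0) → w = 0 := fun w hw h0 => by
    by_contra hne
    obtain ⟨i₀, hi₀⟩ := Function.ne_iff.1 hne
    have hi : i₀ ∉ I := fun h => hi₀ (h0 i₀ h)
    have := hmax (insert i₀ I) (Finset.mem_filter.2 ⟨Finset.mem_univ _, fun t => ?_⟩)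
    · rw [Finset.card_insert_of_notMem hi] at this
      omega
    obtain ⟨w', hw', h'⟩ := hs t
    refine ⟨w' + ((t i₀ - w' i₀) / w i₀) • w, W.add_mem hw' (W.smul_mem _ hw), fun i h => ?_⟩
    rcases Finset.mem_insert.1 h with rfl | h
    · rw [Pi.add_apply, Pi.smul_apply, smul_eq_mul, div_mul_cancel₀ _ hi₀, add_sub_cancel]
    · rw [Pi.add_apply, Pi.smul_apply, h0 i h, smul_zero, add_zero, h' i h]
  refine ⟨I, ?_, hinj, hs⟩
  let r : W →ₗ[F] (I → F) := (LinearMap.funLeft F F Subtype.val).domRestrict W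
  have hb : Function.Bijective r := by
    refine ⟨(injective_iff_map_eq_zero r).2 fun w h => Subtype.ext (hinj _ w.2 fun i hi => congrFun h ⟨i, hi⟩),
      fun t => ?_⟩
    obtain ⟨w, hw, h⟩ := hs (Function.extend Subtype.val t 0)
    exact ⟨⟨w, hw⟩, funext fun i => (h i i.2).trans (Subtype.val_injective.extend_apply _ _ i)⟩
  rw [(LinearEquiv.ofBijective r hb).finrank_eq, finrank_fintype_fun_eq_card, Fintype.card_coe]

theorem card_le_pow_finrank {F : Type} [Field F] (W : Submodule F (ι → F)) (T : Finset F) (S : Finset (ι → F))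
    (hT : ∀ x ∈ S, ∀ i, x i ∈ T) (hW : ∀ x ∈ S, ∀ y ∈ S, x - y ∈ W) : S.card ≤ T.card ^ finrank F W := by
  classical
  obtain ⟨I, h1, h2, -⟩ := exists_info_set W
  refine (Finset.card_le_card_of_injOn (t := Fintype.piFinset fun _ : I => T) (fun x i => x i)
    (fun x hx => Finset.mem_coe.2 (Fintype.mem_piFinset.2 fun i => hT x hx i)) fun x hx y hy h =>
      sub_eq_zero.1 (h2 _ (hW x hx y hy) fun i hi => sub_eq_zero.2 (congrFun h ⟨i, hi⟩))).trans (le_of_eq ?_)
  rw [Fintype.card_piFinset, Finset.prod_const, Finset.card_univ, Fintype.card_coe, h1]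

theorem card_sv_le (W : Submodule ℝ (Euc ι)) (S : Finset (ι → Bool))
    (hW : ∀ x ∈ S, ∀ y ∈ S, zc (sv x) - zc (sv y) ∈ W) : S.card ≤ 2 ^ finrank ℝ W := by
  obtain ⟨I, h1, h2, -⟩ := exists_info_set (W.map (WithLp.linearEquiv 2 ℝ (ι → ℝ)).toLinearMap)
  rw [LinearEquiv.finrank_map_eq] at h1
  refine (Finset.card_le_card_of_injOn (t := (Finset.univ : Finset (I → Bool))) (fun x i => x i)
    (fun x hx => Finset.mem_coe.2 (Finset.mem_univ _)) fun x hx y hy h => ?_).trans (le_of_eq ?_)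
  · have h3 := h2 _ ⟨_, hW x hx y hy, rfl⟩ fun i hi => by
      have : x i = y i := congrFun h ⟨i, hi⟩
      simp [sv, this]
    funext i
    have h4 : ((sv x i : ℤ) : ℝ) - sv y i = 0 := congrFun h3 i
    have h5 : sv x i = sv y i := by exact_mod_cast sub_eq_zero.1 h4
    revert h5
    simp only [sv]
    cases x i <;> cases y i <;> simp
  · rw [Finset.card_univ, Fintype.card_fun, Fintype.card_bool, Fintype.card_coe, h1]

/-- Odlyzko.  `I` an information set of the span of the `Y l`; a vector supported on `I` and orthogonal to all `Y l` vanishes.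
Resample the coordinates in `I`: at most one filling (`pr_le_of_repl`, `pr_le_of_subsingleton`). -/
theorem odlyzko (h0 : 0 < p) (h1 : p < 1) {F : Type} [Field F] (Y : κ → ι → F) (hY : LinearIndependent F Y) (τ : κ → F) :
    pr p {ξ : ι → Bool | ∀ l, ∑ j, Y l j * (zo ξ j : F) = τ l} ≤ pm p ^ Fintype.card κ := by
  obtain ⟨I, h2, -, h3⟩ := exists_info_set (Submodule.span F (Set.range Y))
  rw [finrank_span_eq_card hY] at h2
  rw [← h2, ← Fintype.card_coe]
  refine pr_le_of_repl h0 h1 (e := (Subtype.val : I → ι)) Subtype.val_injective _ fun ω =>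
    pr_le_of_subsingleton h0 h1 fun η hη η' hη' => funext fun i => ?_
  obtain ⟨w, hw, h4⟩ := h3 (Pi.single i.1 1)
  obtain ⟨c, rfl⟩ := (Submodule.mem_span_range_iff_exists_fun F).1 hw
  have h5 : ∑ j, (∑ l, c l • Y l) j * ((zo (repl Subtype.val η ω) j : F) - zo (repl Subtype.val η' ω) j) = 0 := by
    simp only [Finset.sum_apply, Pi.smul_apply, smul_eq_mul, Finset.sum_mul, mul_assoc]
    rw [Finset.sum_comm]
    refine Finset.sum_eq_zero fun l _ => ?_
    simp only [← Finset.mul_sum, mul_sub, Finset.sum_sub_distrib]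
    rw [hη l, hη' l, sub_self]
  rw [Finset.sum_eq_single i.1 (fun j _ hj => ?_) (by simp), h4 _ i.2, Pi.single_eq_same, one_mul] at h5
  · simp only [zo, repl_apply Subtype.val_injective] at h5
    revert h5
    cases η i <;> cases η' i <;> simp
  · by_cases hI : j ∈ I
    · rw [h4 j hI, Pi.single_eq_of_ne hj, zero_mul]
    · have : j ∉ Set.range (Subtype.val : I → ι) := by simpa using hI
      simp only [zo, repl_of_not_mem _ _ this, sub_self, mul_zero]

theorem p2_ex_succ {t : ℕ} (f : (Fin (t + 1) → Bool) → ℝ) :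
    ex p f = ex p fun ξ : Fin t → Bool => p * f (Fin.cons true ξ) + (1 - p) * f (Fin.cons false ξ) := by
  rw [ex, ex, ← (Fin.consEquiv fun _ => Bool).sum_comp, Fintype.sum_prod_type_right]
  refine Finset.sum_congr rfl fun ξ _ => ?_
  simp [wgt, bernoulliWeight, Fin.prod_univ_succ, Fin.consEquiv]
  ring

/-- Triangular systems: the `j`-th quantity is `a j * zo ξ j + (function of the later coordinates)`, `|a j| ≥ s`, so given the
later coordinates it is `< s/2` in absolute value for at most one value of `ξ j`.  Induction on `t` for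
`ex exp (-λ #{j | s/2 ≤ |·|}) ≤ (pm + (1 - pm) exp (-λ))^t`. -/
theorem ex_triangular (h0 : 0 < p) (h1 : p < 1) {t : ℕ} (a : Fin t → ℝ) (g : Fin t → (Fin t → Bool) → ℝ) {s lam : ℝ} (hs : 0 < s)
    (hl : 0 ≤ lam) (ha : ∀ j, s ≤ |a j|) (hg : ∀ j ξ ξ', (∀ i, j < i → ξ i = ξ' i) → g j ξ = g j ξ') :
    ex p (fun ξ : Fin t → Bool => Real.exp (-lam *
      (Finset.univ.filter fun j => s / 2 ≤ |a j * (zo ξ j : ℝ) + g j ξ|).card)) ≤
      (pm p + (1 - pm p) * Real.exp (-lam)) ^ t := by
  have key : ∀ ξ : Fin t → Bool, Real.exp (-lam *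
      (Finset.univ.filter fun j => s / 2 ≤ |a j * (zo ξ j : ℝ) + g j ξ|).card) =
      ∏ j, if s / 2 ≤ |a j * (zo ξ j : ℝ) + g j ξ| then Real.exp (-lam) else 1 := fun ξ => by
    rw [Finset.prod_ite, Finset.prod_const, Finset.prod_const_one, mul_one, mul_comm, Real.exp_nat_mul]
  simp only [key]
  clear key
  have hE : Real.exp (-lam) ≤ 1 := Real.exp_le_one_iff.2 (by linarith)
  have hE0 := Real.exp_pos (-lam)
  have m1 : p ≤ pm p := le_max_left _ _
  have m2 : 1 - p ≤ pm p := le_max_right _ _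
  have m3 := pm_lt_one h0 h1
  induction t with
  | zero => simp [ex_const]
  | succ t ih =>
    rw [p2_ex_succ, pow_succ']
    refine le_trans ?_ (mul_le_mul_of_nonneg_left (ih (fun j => a j.succ) (fun j ξ => g j.succ (Fin.cons false ξ))
      (fun j => ha _) fun j ξ ξ' h => hg _ _ _ fun i hi => ?_) (by nlinarith))
    · rw [← ex_const_mul]
      refine ex_mono h0 h1 fun ξ => ?_
      have e1 : ∀ j, g j (Fin.cons true ξ) = g j (Fin.cons false ξ) := fun j => hg _ _ _ fun i hi => by
        obtain ⟨i, rfl⟩ := Fin.exists_succ_eq.2 (Fin.pos_iff_ne_zero.1 ((Fin.zero_le j).trans_lt hi))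
        simp
      simp only [Fin.prod_univ_succ, zo, Fin.cons_zero, Fin.cons_succ, e1, ← mul_assoc, ← add_mul]
      refine mul_le_mul_of_nonneg_right ?_ (Finset.prod_nonneg fun j _ => by split_ifs <;> positivity)
      simp only [if_true, Bool.false_eq_true, if_false, Int.cast_one, Int.cast_zero, mul_one, mul_zero, zero_add]
      generalize g 0 (Fin.cons false ξ) = y
      split_ifs with c1 c2 c2
      · nlinarith
      · nlinarith
      · nlinarith
      · have := abs_sub (a 0 + y) y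
        rw [add_sub_cancel_right] at this
        linarith [ha 0]
    · obtain ⟨i, rfl⟩ := Fin.exists_succ_eq.2 (Fin.pos_iff_ne_zero.1 ((Fin.zero_le _).trans_lt hi))
      simpa using h i (Fin.succ_lt_succ_iff.1 hi)

theorem p2_trace (W : Submodule ℝ (Euc ι)) :
    ∑ i, ‖W.starProjection (EuclideanSpace.single i 1)‖ ^ 2 = finrank ℝ W := by
  let b := stdOrthonormalBasis ℝ W
  have h1 : ∀ i, ‖W.starProjection (EuclideanSpace.single i 1)‖ ^ 2 = ∑ k, (b k : Euc ι) i ^ 2 := fun i => by
    rw [Submodule.starProjection_apply, ← Submodule.coe_norm, ← b.sum_sq_inner_right]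
    simp [EuclideanSpace.inner_single_right]
  simp only [h1]
  rw [Finset.sum_comm]
  simp only [← EuclideanSpace.real_norm_sq_eq, ← Submodule.coe_norm, b.orthonormal.1, one_pow]
  simp

theorem p2_step (W : Submodule ℝ (Euc ι)) {d : ℝ} (h0 : 0 < d) (hd : d ≤ finrank ℝ W) :
    ∃ (i : ι) (u : Euc ι), u ∈ W ∧ ‖u‖ = 1 ∧ d / Fintype.card ι ≤ u i ^ 2 ∧ ∀ w ∈ W, w i = 0 → ⟪u, w⟫ = 0 := by
  have ht := p2_trace W
  have hne : (Finset.univ : Finset ι).Nonempty := by
    refine Finset.nonempty_iff_ne_empty.2 fun h => ?_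
    rw [h, Finset.sum_empty] at ht
    linarith
  have hn : (0 : ℝ) < Fintype.card ι := by exact_mod_cast hne.card_pos
  obtain ⟨i, -, hi⟩ := Finset.exists_le_of_sum_le (f := fun _ => d / Fintype.card ι)
    (g := fun i => ‖W.starProjection (EuclideanSpace.single i 1)‖ ^ 2) hne (by
      rw [ht, Finset.sum_const, Finset.card_univ, nsmul_eq_mul, mul_div_cancel₀ _ hn.ne']
      exact hd)
  set c := W.starProjection (EuclideanSpace.single i 1) with hc
  have hcW : c ∈ W := W.starProjection_apply_mem _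
  have key : ∀ w ∈ W, ⟪c, w⟫ = w i := fun w hw => by
    rw [hc, W.inner_starProjection_left_eq_right, Submodule.starProjection_eq_self_iff.2 hw]
    simp [EuclideanSpace.inner_single_left]
  have hc0 : ‖c‖ ≠ 0 := fun h => by
    rw [h] at hi
    have : 0 < d / Fintype.card ι := by positivity
    linarith
  refine ⟨i, ‖c‖⁻¹ • c, W.smul_mem _ hcW, by rw [norm_smul, norm_inv, norm_norm, inv_mul_cancel₀ hc0], ?_,
    fun w hw h => by rw [real_inner_smul_left, key w hw, h, mul_zero]⟩
  rw [PiLp.smul_apply, ← key c hcW, real_inner_self_eq_norm_sq, smul_eq_mul, sq ‖c‖, inv_mul_cancel_left₀ hc0]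
  exact hi

theorem p2_greedy {d : ℝ} (h0 : 0 < d) (t : ℕ) : ∀ W : Submodule ℝ (Euc ι), d + t ≤ finrank ℝ W + 1 →
    ∃ (e : Fin t → ι) (u : Fin t → Euc ι), Orthonormal ℝ u ∧ (∀ j, u j ∈ W) ∧
      (∀ j, d / Fintype.card ι ≤ u j (e j) ^ 2) ∧ ∀ j l, l < j → u j (e l) = 0 := by
  induction t with
  | zero => exact fun W _ => ⟨Fin.elim0, Fin.elim0, Orthonormal.of_isEmpty _, fun i => i.elim0, fun i => i.elim0,
      fun i => i.elim0⟩
  | succ t ih =>
    intro W hW
    push_cast at hW
    obtain ⟨i, u₀, a1, a2, a3, a4⟩ := p2_step W h0 (by linarith [(Nat.cast_nonneg t : (0 : ℝ) ≤ t)])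
    let φ : W →ₗ[ℝ] ℝ := (EuclideanSpace.proj i : Euc ι →L[ℝ] ℝ).toLinearMap.domRestrict W
    have r1 := φ.finrank_range_add_finrank_ker
    have r2 : finrank ℝ (LinearMap.range φ) ≤ 1 := (Submodule.finrank_le _).trans (finrank_self ℝ).le
    have r3 : (finrank ℝ W : ℝ) ≤ finrank ℝ ((LinearMap.ker φ).map W.subtype) + 1 := by
      rw [Submodule.finrank_map_subtype_eq]
      exact_mod_cast (by omega : finrank ℝ W ≤ finrank ℝ (LinearMap.ker φ) + 1)
    obtain ⟨e, u, b1, b2, b3, b4⟩ := ih ((LinearMap.ker φ).map W.subtype) (by linarith)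
    have b5 : ∀ j, u j ∈ W ∧ u j i = 0 := fun j => by
      obtain ⟨w, hw, e⟩ := b2 j
      exact e ▸ ⟨w.2, hw⟩
    refine ⟨Fin.cons i e, Fin.cons u₀ u,
      orthonormal_vecCons_iff.2 ⟨a2, fun j => a4 _ (b5 j).1 (b5 j).2, b1⟩,
      Fin.cases a1 fun j => (b5 j).1, Fin.cases a3 b3, Fin.cases (fun l h => absurd h (Fin.not_lt_zero l))
        fun j => Fin.cases (fun _ => (b5 j).2) fun l h => b4 j l (Fin.succ_lt_succ_iff.1 h)⟩

/-- Greedy choice.  `c i = P e_i`; for an orthonormal family `u 0, …, u (j-1)` in `W`, `∑_i ‖c i - ∑ ⟪u l, c i⟫ u l‖² = finrank W - j`, so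
some `i` has squared distance `≥ (finrank W - j)/card ι`; normalise the difference to get `u j`.  The indices are distinct since
earlier `c i` lie in the span of the earlier `u`. -/
theorem exists_greedy (W : Submodule ℝ (Euc ι)) (t : ℕ) (ht : 2 * t ≤ finrank ℝ W + 1) :
    ∃ (e : Fin t → ι) (u : Fin t → Euc ι), Function.Injective e ∧ Orthonormal ℝ u ∧ (∀ j, u j ∈ W) ∧
      (∀ j, (finrank ℝ W : ℝ) / (2 * Fintype.card ι) ≤ u j (e j) ^ 2) ∧ ∀ j l, l < j → u j (e l) = 0 := by
  rcases Nat.eq_zero_or_pos t with rfl | h0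
  · exact ⟨Fin.elim0, Fin.elim0, fun i => i.elim0, Orthonormal.of_isEmpty _, fun i => i.elim0, fun i => i.elim0,
      fun i => i.elim0⟩
  have h1 : (0 : ℝ) < finrank ℝ W := by exact_mod_cast (by omega : 0 < finrank ℝ W)
  have h2 : (2 * t : ℝ) ≤ finrank ℝ W + 1 := by exact_mod_cast ht
  obtain ⟨e, u, a1, a2, a3, a4⟩ := p2_greedy (d := finrank ℝ W / 2) (by positivity) t W (by linarith)
  have hn : (0 : ℝ) < Fintype.card ι := by
    exact_mod_cast Fintype.card_pos_iff.2 ⟨e ⟨0, h0⟩⟩
  have key : ∀ j l, l < j → e j ≠ e l := fun j l h h' => by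
    have := a3 j
    rw [h', a4 j l h] at this
    have h3 : (0 : ℝ) < finrank ℝ W / 2 / Fintype.card ι := by positivity
    linarith
  refine ⟨e, u, fun j l h => ?_, a1, a2, fun j => by simpa only [div_div] using a3 j, a4⟩
  rcases lt_trichotomy j l with c | c | c
  exacts [absurd h.symm (key l j c), c, absurd h (key j l c)]

/-- `t = ⌈finrank W / 2⌉`; resample the coordinates `e j`; Bessel: `‖P x‖² ≥ ∑_j ⟪u j, x⟫²`; `ex_triangular` and `markov`. -/
theorem small_ball (h0 : 0 < p) (h1 : p < 1) {γ : ℝ} (hγ : 0 < γ) : ∃ c : ℝ, 0 < c ∧ ∀ (ι : Type) [Fintype ι] [DecidableEq ι]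
    (W : Submodule ℝ (Euc ι)), γ * Fintype.card ι ≤ finrank ℝ W → ∀ v : Euc ι,
    pr p {ξ : ι → Bool | ‖W.starProjection (zc (zo ξ) - v)‖ < c * √(Fintype.card ι)} ≤
      Real.exp (-c * Fintype.card ι) := by
  have m0 := pm_pos p
  have m1 := pm_lt_one h0 h1
  have hE : Real.exp (-1) < 1 := Real.exp_lt_one_iff.2 (by norm_num)
  have hE0 := Real.exp_pos (-1)
  set ρ := pm p + (1 - pm p) * Real.exp (-1) with hρ
  have ρ0 : 0 < ρ := by nlinarith
  have ρ1 : ρ < 1 := by nlinarith
  have hκ : 0 < -Real.log ρ := neg_pos.2 (Real.log_neg ρ0 ρ1)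
  set c := min 1 (γ * -Real.log ρ / 2 / (8 / γ + 1)) with hc
  have c0 : 0 < c := lt_min one_pos (by positivity)
  have c1 : c ≤ 1 := min_le_left _ _
  have c2 : c * (8 / γ + 1) ≤ γ * -Real.log ρ / 2 := (le_div_iff₀ (by positivity)).1 (min_le_right _ _)
  refine ⟨c, c0, fun ι _ _ W hW v => ?_⟩
  rcases Nat.eq_zero_or_pos (Fintype.card ι) with hn | hn
  · simpa [hn] using pr_le_one h0 h1 _
  have hn' : (0 : ℝ) < Fintype.card ι := Nat.cast_pos.2 hn
  obtain ⟨e, u, he, hu, huW, hbig, htri⟩ := exists_greedy W ((finrank ℝ W + 1) / 2) (by omega)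
  have ht : (finrank ℝ W : ℝ) ≤ 2 * ((finrank ℝ W + 1) / 2 : ℕ) := by
    exact_mod_cast (by omega : finrank ℝ W ≤ 2 * ((finrank ℝ W + 1) / 2))
  generalize (finrank ℝ W + 1) / 2 = t at e u he hu huW hbig htri ht
  refine pr_le_of_repl h0 h1 he _ fun ω => ?_
  have hs : 0 < √(γ / 2) := by positivity
  have ha : ∀ j, √(γ / 2) ≤ |u j (e j)| := fun j => by
    rw [← Real.sqrt_sq_eq_abs]
    refine Real.sqrt_le_sqrt (le_trans ?_ (hbig j))
    rw [div_le_div_iff₀ (by positivity) (by positivity)]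
    linarith
  let g : Fin t → (Fin t → Bool) → ℝ := fun j η =>
    ⟪u j, zc (zo (repl e (fun l => if j < l then η l else false) ω)) - v⟫
  have hg : ∀ j η, u j (e j) * (zo η j : ℝ) + g j η = ⟪u j, zc (zo (repl e η ω)) - v⟫ := fun j η => by
    rw [← eq_sub_iff_add_eq, ← inner_sub_right, sub_sub_sub_cancel_right, PiLp.inner_apply,
      Finset.sum_eq_single (e j) (fun i _ hi => ?_) (by simp)]
    · simp [zo, repl_apply he, mul_comm]
    · by_cases hr : i ∈ Set.range e
      · obtain ⟨l, rfl⟩ := hr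
        rcases lt_trichotomy l j with h | rfl | h
        · simp [htri j l h]
        · exact absurd rfl hi
        · simp [zo, repl_apply he, h]
      · simp [zo, repl_of_not_mem _ _ hr]
  have h2 := ex_triangular h0 h1 (fun j => u j (e j)) g hs zero_le_one ha fun j ξ ξ' h => by
    simp only [g]
    congr 5
    funext l
    split_ifs with h'
    exacts [h l h', rfl]
  refine (pr_mono h0 h1 fun η hη => ?_).trans ((markov h0 h1 (fun _ => (Real.exp_pos _).le)
    (Real.exp_pos (-(8 / γ * c * Fintype.card ι)))).trans ((div_le_div_of_nonneg_right h2 (Real.exp_pos _).le).trans ?_))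
  · simp only [Set.mem_ofPred_eq, hg] at hη ⊢
    set x := zc (zo (repl e η ω)) - v
    set N := Finset.univ.filter fun j => √(γ / 2) / 2 ≤ |⟪u j, x⟫|
    have b1 := hu.sum_inner_products_le (W.starProjection x) (s := N)
    have b2 : ∑ _j ∈ N, γ / 8 ≤ ∑ j ∈ N, ‖⟪u j, W.starProjection x⟫‖ ^ 2 := Finset.sum_le_sum fun j hj => by
      rw [← W.inner_starProjection_left_eq_right, Submodule.starProjection_eq_self_iff.2 (huW j), Real.norm_eq_abs]
      refine le_trans (le_of_eq ?_) (pow_le_pow_left₀ (by positivity) (Finset.mem_filter.1 hj).2 2)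
      rw [div_pow, Real.sq_sqrt (by positivity)]
      ring
    have b3 := pow_le_pow_left₀ (norm_nonneg _) hη.le 2
    rw [mul_pow, Real.sq_sqrt hn'.le] at b3
    rw [Finset.sum_const, nsmul_eq_mul] at b2
    have b4 : (N.card : ℝ) * (γ / 8) ≤ c * Fintype.card ι := by nlinarith [mul_pos c0 hn']
    refine Real.exp_le_exp.2 ?_
    rw [neg_one_mul, neg_le_neg_iff, mul_assoc, div_mul_eq_mul_div, le_div_iff₀ hγ]
    linarith
  · rw [← hρ, ← Real.exp_log ρ0, ← Real.exp_nat_mul, ← Real.exp_sub]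
    refine Real.exp_le_exp.2 ?_
    have b1 := mul_le_mul_of_nonneg_right c2 hn'.le
    have b2 := mul_le_mul_of_nonneg_right (hW.trans ht) hκ.le
    nlinarith

end

end Crest.Agent.R152
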