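import Crest.Agent.R152.RMain
import Crest.Agent.R152.P2

/-!
# R152/X

Many sign vectors give a dense sublattice of large rank.

Helper lemmas: prefix `x_`.
-/

set_option autoImplicit false
set_option linter.unusedVariables false
set_option linter.unusedSectionVars false

namespace Crest.Agent.R152

open Crest.FinProb Crest.ProbabilityR.SignMatrix MeasureTheory ProbabilityTheory Filter Module
open scoped RealInnerProductSpace ENNReal Matrix Topology

noncomputable section

theorem x_card_le {n u : ℕ} {w : Fin u → Euc (Fin n)} (h : LinearIndependent ℝ w) : u ≤ n := by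
  simpa using h.fintype_card_le_finrank
/-- The function `gvol (Φ ℓ) / K^u` on independent families in `Λ` is bounded below by `K^(-n)` (`one_le_gvol_zc`, `le_gvol_map`); take a family
within a factor `2` of the infimum (so `gvol ≤ 2 K^u`, compare with the empty family).  If `P Φ y` is independent, `(ℓ, y)` is an
independent family in `Λ` (`gvol_sum`, `gvol_pos_iff`), so `gvol (P Φ y) ≥ K^j / 2`. -/
theorem exists_dense {n : ℕ} {E : Type} [NormedAddCommGroup E] [InnerProductSpace ℝ E] [FiniteDimensional ℝ E]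
    (Φ : Euc (Fin n) →ₗ[ℝ] E) (hΦ : ∀ x, ‖x‖ ≤ ‖Φ x‖) (Λ : Submodule ℤ (Fin n → ℤ)) {K : ℝ} (hK : 1 ≤ K) :
    ∃ (u : ℕ) (l : Fin u → Fin n → ℤ), (∀ i, l i ∈ Λ) ∧ LinearIndependent ℝ (fun i => zc (l i)) ∧
      gvol (fun i => Φ (zc (l i))) ≤ 2 * K ^ u ∧
      ∃ Q : AddSubgroup E, Stable Q (K / 2) ∧
        ∀ z ∈ Λ, (Submodule.span ℝ (Set.range fun i => Φ (zc (l i))))ᗮ.starProjection (Φ (zc z)) ∈ Q := by
  let T : Type := {a : Σ u : ℕ, (Fin u → Fin n → ℤ) //
    (∀ i, a.2 i ∈ Λ) ∧ LinearIndependent ℝ (fun i => zc (a.2 i))}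
  let f : T → ℝ := fun a => gvol (fun i => Φ (zc (a.1.2 i))) / K ^ a.1.1
  have hK0 : 0 < K := by linarith
  have hlow : ∀ a, (K ^ n)⁻¹ ≤ f a := fun a => by
    have h1 := le_gvol_map Φ zero_le_one (fun x => by simpa using hΦ x) fun i => zc (a.1.2 i)
    have h2 := one_le_gvol_zc _ a.2.2
    rw [one_pow, one_mul] at h1
    calc (K ^ n)⁻¹ ≤ (K ^ a.1.1)⁻¹ :=
          inv_anti₀ (by positivity) (pow_le_pow_right₀ hK (x_card_le a.2.2))
      _ ≤ f a := by
          rw [← one_div]
          exact div_le_div_of_nonneg_right (h2.trans h1) (by positivity)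
  let a0 : T := ⟨⟨0, fun i => i.elim0⟩, fun i => i.elim0, linearIndependent_empty_type⟩
  haveI : Nonempty T := ⟨a0⟩
  have hb : BddBelow (Set.range f) := ⟨_, by rintro _ ⟨a, rfl⟩; exact hlow a⟩
  have hm : 0 < ⨅ a, f a := lt_of_lt_of_le (by positivity) (le_ciInf hlow)
  obtain ⟨⟨⟨u, l⟩, hl, hi⟩, ha⟩ := exists_lt_of_ciInf_lt (f := f) (a := 2 * ⨅ a, f a) (by linarith)
  have h0 : ⨅ a, f a ≤ 1 := (ciInf_le hb a0).trans (by simp [f, a0, gvol_empty])
  have ha' : gvol (fun i => Φ (zc (l i))) < 2 * (⨅ a, f a) * K ^ u := by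
    rwa [← div_lt_iff₀ (by positivity)]
  refine ⟨u, l, hl, hi, ha'.le.trans (by gcongr; linarith), ?_⟩
  set P := (Submodule.span ℝ (Set.range fun i => Φ (zc (l i))))ᗮ.starProjection with hP
  let ψ : (Fin n → ℤ) →+ E :=
    { toFun := fun z => P (Φ (zc z))
      map_zero' := by simp
      map_add' := fun z w => by simp }
  refine ⟨Λ.toAddSubgroup.map ψ, fun k v hv hvi => ?_, fun z hz => ⟨z, hz, rfl⟩⟩
  choose y hy hyv using hv
  have hΦi : LinearMap.ker Φ = ⊥ := LinearMap.ker_eq_bot'.2 fun x hx => by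
    have := hΦ x
    rw [hx, norm_zero] at this
    exact norm_le_zero_iff.1 this
  have h1 := gvol_sum (fun i => Φ (zc (l i))) fun j => Φ (zc (y j))
  have h2 : (fun j => P (Φ (zc (y j)))) = v := funext hyv
  rw [← hP, h2] at h1
  have h3 : 0 < gvol v := (gvol_pos_iff v).2 hvi
  have h4 : 0 < gvol fun i => Φ (zc (l i)) := (gvol_pos_iff _).2 (hi.map' Φ hΦi)
  have h5 : (Sum.elim (fun i => Φ (zc (l i))) fun j => Φ (zc (y j))) =
      fun s => Φ (zc (Sum.elim l y s)) := by
    funext s; rcases s with s | s <;> rfl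
  rw [h5] at h1
  have h6 : LinearIndependent ℝ fun s => zc (Sum.elim l y s) :=
    LinearIndependent.of_comp Φ ((gvol_pos_iff _).1 (h1 ▸ mul_pos h4 h3))
  let a1 : T := ⟨⟨u + k, fun i => Sum.elim l y (finSumFinEquiv.symm i)⟩,
    fun i => by
      dsimp only
      rcases finSumFinEquiv.symm i with s | s
      exacts [hl s, hy s],
    h6.comp _ finSumFinEquiv.symm.injective⟩
  have h7 : ⨅ a, f a ≤ gvol (fun i => Φ (zc (l i))) * gvol v / K ^ (u + k) := by
    refine (ciInf_le hb a1).trans (le_of_eq ?_)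
    rw [← h1, ← gvol_reindex finSumFinEquiv.symm]
  have h8 : K ^ k ≤ 2 * gvol v := by
    rw [le_div_iff₀ (by positivity), pow_add] at h7
    have h9 : (⨅ a, f a) * K ^ u * K ^ k ≤ (⨅ a, f a) * K ^ u * (2 * gvol v) := by nlinarith
    exact le_of_mul_le_mul_left h9 (by positivity)
  rcases Nat.eq_zero_or_pos k with rfl | hk
  · rw [gvol_empty, pow_zero]
  · rw [div_pow, div_le_iff₀ (by positivity)]
    refine h8.trans ?_
    rw [mul_comm]
    exact mul_le_mul_of_nonneg_left (le_self_pow₀ one_le_two hk.ne') h3.le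

/-- `t = C log (2n+2)³`, `K = max 1 (4 t / √σ) ≤ (log n)^4`; `rm_count` (`c = 1`, `lam = √(2n)`) bounds the number of projections by
`2 exp (σ n/4)`, each fibre has at most `2^u` elements (`card_sv_le`; `Φ` is injective), so `σ n / 2 ≤ u`.  `B = 5`. -/
theorem extract {σ : ℝ} (hσ : 0 < σ) : ∀ᶠ n : ℕ in atTop, ∀ (E : Type) [NormedAddCommGroup E] [InnerProductSpace ℝ E]
    [FiniteDimensional ℝ E], finrank ℝ E ≤ 2 * n → ∀ Φ : Euc (Fin n) →ₗ[ℝ] E, (∀ x, ‖x‖ ≤ ‖Φ x‖) →
    ∀ (Λ : Submodule ℤ (Fin n → ℤ)) (S : Finset (Fin n → Bool)),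
    (∀ x ∈ S, sv x ∈ Λ ∧ ‖Φ (zc (sv x))‖ ^ 2 ≤ 2 * n) → Real.exp (σ * n) ≤ S.card →
    ∃ (u : ℕ) (l : Fin u → Fin n → ℤ), σ / 2 * n ≤ u ∧ (∀ i, l i ∈ Λ) ∧ LinearIndependent ℝ (fun i => zc (l i)) ∧
      gvol (fun i => Φ (zc (l i))) ≤ Real.log n ^ (5 * n) := by
  obtain ⟨C, hC, hrm⟩ := rm_count
  have hlog : Tendsto (fun n : ℕ => Real.log n) atTop atTop :=
    Real.tendsto_log_atTop.comp tendsto_natCast_atTop_atTop
  have hs : 0 < √σ := Real.sqrt_pos.2 hσ
  filter_upwards [hlog.eventually_ge_atTop (32 * C / √σ), hlog.eventually_ge_atTop 2,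
    eventually_ge_atTop 3, (tendsto_natCast_atTop_atTop (R := ℝ)).eventually_ge_atTop (4 / σ)]
    with n h1 h2 h3 h4 E _ _ _ hE Φ hΦ Λ S hS hcard
  have h3' : (3 : ℝ) ≤ n := by exact_mod_cast h3
  set t := C * Real.log (((2 * n : ℕ) : ℝ) + 2) ^ 3 with ht
  have hl0 : 0 < Real.log (((2 * n : ℕ) : ℝ) + 2) := Real.log_pos (by push_cast; linarith)
  have ht0 : 0 < t := by positivity
  have hl2 : Real.log (((2 * n : ℕ) : ℝ) + 2) ≤ 2 * Real.log n := by
    rw [show 2 * Real.log n = Real.log ((n : ℝ) ^ 2) by rw [Real.log_pow]; norm_num]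
    exact Real.log_le_log (by positivity) (by push_cast; nlinarith)
  set K := max 1 (4 * t / √σ) with hK
  have hK1 : 1 ≤ K := le_max_left _ _
  have hKle : K ≤ Real.log n ^ 4 := by
    refine max_le (one_le_pow₀ (by linarith)) ?_
    calc 4 * t / √σ ≤ 4 * (C * (2 * Real.log n) ^ 3) / √σ := by rw [ht]; gcongr
      _ = 32 * C / √σ * Real.log n ^ 3 := by ring
      _ ≤ Real.log n * Real.log n ^ 3 := by gcongr
      _ = _ := by ring
  obtain ⟨u, l, hl, hi, hg, Q, hQ, hQm⟩ := exists_dense Φ hΦ Λ hK1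
  set P := (Submodule.span ℝ (Set.range fun i => Φ (zc (l i))))ᗮ.starProjection with hP
  classical
  let g : (Fin n → Bool) → E := fun x => P (Φ (zc (sv x)))
  have hc1 := hrm (2 * n) E hE Q (K / 2) (by linarith) hQ 1 √(2 * n) one_pos le_rfl (S.image g) (by
    intro y hy
    obtain ⟨x, hx, rfl⟩ := Finset.mem_image.1 hy
    refine ⟨hQm _ (hS x hx).1, (Submodule.norm_starProjection_apply_le _ _).trans ?_⟩
    exact Real.le_sqrt_of_sq_le (hS x hx).2)
  have hc2 : (1 * t * √(2 * n) / (K / 2)) ^ 2 / 2 ≤ σ * n / 4 := by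
    have e1 : 4 * t ≤ K * √σ := (div_le_iff₀ hs).1 (le_max_right _ _)
    have e2 : (4 * t) ^ 2 ≤ K ^ 2 * σ := by
      calc (4 * t) ^ 2 ≤ (K * √σ) ^ 2 := by gcongr
        _ = _ := by rw [mul_pow, Real.sq_sqrt hσ.le]
    rw [div_pow, mul_pow, Real.sq_sqrt (by positivity), div_div, div_le_iff₀ (by positivity)]
    nlinarith
  have hfib : S.card ≤ 2 ^ u * (S.image g).card := by
    refine Finset.card_le_mul_card_image S _ fun y _ => ?_
    have e1 := card_sv_le (Submodule.span ℝ (Set.range fun i => zc (l i))) (S.filter fun x => g x = y)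
      fun x hx x' hx' => by
        have e2 : P (Φ (zc (sv x) - zc (sv x'))) = 0 := by
          rw [map_sub, map_sub, sub_eq_zero]
          exact (Finset.mem_filter.1 hx).2.trans (Finset.mem_filter.1 hx').2.symm
        rw [hP, Submodule.starProjection_apply_eq_zero_iff, Submodule.orthogonal_orthogonal] at e2
        have e3 : (Set.range fun i => Φ (zc (l i))) = Φ '' Set.range fun i => zc (l i) := by
          rw [← Set.range_comp]; rfl
        rw [e3, ← Submodule.map_span] at e2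
        obtain ⟨w, hw, hw'⟩ := e2
        have e4 := hΦ (w - (zc (sv x) - zc (sv x')))
        rw [map_sub, hw', sub_self, norm_zero, norm_le_zero_iff, sub_eq_zero] at e4
        exact e4 ▸ hw
    rwa [finrank_span_eq_card hi, Fintype.card_fin] at e1
  have hun : u ≤ n := x_card_le hi
  refine ⟨u, l, ?_, hl, hi, hg.trans ?_⟩
  · have e1 : Real.exp (σ * n) ≤ Real.exp (u + 1 + σ * n / 4) := by
      have e2 : (2 : ℝ) ≤ Real.exp 1 := by have := Real.add_one_le_exp (1 : ℝ); linarith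
      calc Real.exp (σ * n) ≤ 2 ^ u * (S.image g).card := hcard.trans (by exact_mod_cast hfib)
        _ ≤ Real.exp 1 ^ u * (Real.exp 1 * Real.exp (σ * n / 4)) := by
            refine mul_le_mul (by gcongr) (hc1.trans ?_) (by positivity) (by positivity)
            rw [one_pow, div_one]
            exact mul_le_mul e2 (Real.exp_le_exp.2 hc2) (by positivity) (by positivity)
        _ = _ := by rw [← Real.exp_nat_mul, ← Real.exp_add, ← Real.exp_add]; congr 1; ring
    have e3 := Real.exp_le_exp.1 e1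
    have e4 : 4 ≤ n * σ := (div_le_iff₀ hσ).1 h4
    nlinarith
  · calc 2 * K ^ u ≤ Real.log n ^ n * (Real.log n ^ 4) ^ n :=
          mul_le_mul (h2.trans (le_self_pow₀ (by linarith) (by omega)))
            ((pow_le_pow_right₀ hK1 hun).trans (by gcongr)) (by positivity) (by positivity)
      _ = _ := by rw [← pow_mul, ← pow_add]; congr 1; ring

end

end Crest.Agent.R152
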