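import Crest.Agent.R152.TP3
import Crest.Agent.R152.C3
import Crest.Agent.R152.X
import Crest.Agent.R152.D2
import Crest.Agent.R152.T
import Crest.Agent.R152.A1

/-!
# R152/DM

Lattices of large index, and matrices of small determinant, have few sign vectors.

Helper lemmas: prefix `dm_`.
-/

set_option autoImplicit false
set_option linter.unusedVariables false
set_option linter.unusedSectionVars false

namespace Crest.Agent.R152

open Crest.FinProb Crest.ProbabilityR.SignMatrix MeasureTheory ProbabilityTheory Filter Module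
open scoped RealInnerProductSpace ENNReal Matrix Topology

noncomputable section

variable {p : ℝ}

theorem dm_PEv_mono {n : ℕ} {δ ε ε' : ℝ} (h : ε ≤ ε') {D : Submodule ℚ (Fin n → ℚ)} {A : Matrix (Fin n) (Fin n) ℤ}
    (hP : PEv δ ε D A) : PEv δ ε' D A := by
  obtain ⟨u, z, a, b, c, d⟩ := hP
  refine ⟨u, z, a, b.trans ?_, c, d⟩
  have : ε * n ≤ ε' * n := mul_le_mul_of_nonneg_right h (Nat.cast_nonneg n)
  linarith

theorem dm_abs_Mx {n : ℕ} (ω : Sym2 (Fin n) → Bool) (i j : Fin n) : |Mx ω i j| ≤ 1 := by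
  rw [Mx_apply, abs_sv]

theorem dm_rank {n u : ℕ} {ε a : ℝ} {l : Fin u → Fin n → ℤ} (hl : LinearIndependent ℝ fun i => zc (l i))
    (hu : 2 * a * n ≤ u) (hε : ε ≤ a) {D : Submodule ℚ (Fin n → ℚ)} (hD : Cont ε (qsp l) D) :
    a * n ≤ finrank ℚ D := by
  have h1 := hD.1
  rw [finrank_qsp ((li_int_iff_real l).2 hl), Fintype.card_fin] at h1
  have h2 : finrank ℚ ↥(D ⊓ qsp l) ≤ finrank ℚ D := Submodule.finrank_mono inf_le_left
  have h3 : (finrank ℚ ↥(D ⊓ qsp l) : ℝ) ≤ finrank ℚ D := by exact_mod_cast h2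
  have : ε * n ≤ a * n := mul_le_mul_of_nonneg_right hε (Nat.cast_nonneg n)
  linarith

theorem dm_union (h0 : 0 < p) (h1 : p < 1) {n : ℕ} {δ ε a c : ℝ} (F : Finset (Submodule ℚ (Fin n → ℚ)))
    (hF : (F.card : ℝ) ≤ Real.exp (c / 2 * n ^ 2))
    (H : ∀ D : Submodule ℚ (Fin n → ℚ), a * n ≤ finrank ℚ D →
      pr p {ω : Sym2 (Fin n) → Bool | PEv δ ε D (Mx ω)} ≤ Real.exp (-c * n ^ 2)) :
    pr p {ω : Sym2 (Fin n) → Bool | ∃ D ∈ F, a * n ≤ finrank ℚ D ∧ PEv δ ε D (Mx ω)} ≤ Real.exp (-(c / 2) * n ^ 2) := by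
  classical
  have := pr_le_card_mul h0 h1 (F.filter fun D : Submodule ℚ (Fin n → ℚ) => a * n ≤ finrank ℚ D)
    (fun D => {ω : Sym2 (Fin n) → Bool | PEv δ ε D (Mx ω)})
    {ω : Sym2 (Fin n) → Bool | ∃ D ∈ F, a * n ≤ finrank ℚ D ∧ PEv δ ε D (Mx ω)}
    (fun ω ⟨D, hD, h2, h3⟩ => ⟨D, Finset.mem_filter.2 ⟨hD, h2⟩, h3⟩) (c := Real.exp (-c * n ^ 2))
    (fun D hD => H D (Finset.mem_filter.1 hD).2)
  refine this.trans ?_
  have h2 : ((F.filter fun D : Submodule ℚ (Fin n → ℚ) => a * n ≤ finrank ℚ D).card : ℝ) ≤ Real.exp (c / 2 * n ^ 2) :=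
    le_trans (by exact_mod_cast Finset.card_filter_le _ _) hF
  refine (mul_le_mul_of_nonneg_right h2 (Real.exp_pos _).le).trans ?_
  rw [← Real.exp_add]
  exact Real.exp_le_exp.2 (by linarith)

/-- `c₂ = σ/4`, `ε₀, c` from `thmP` for `δ/2`, `ε = min ε₀ (min (δ/4) (σ/4))` (`PEv` is monotone in `ε`), `F` from `cheap 5 ε (c/2)`; `extract` with
`Φ = id`, `cov_qsp_le`, `finrank_qsp`, `PEv_of_index`; `finrank D ≥ finrank (D ⊓ U) ≥ (σ/2 - ε) n`; union over `F`. -/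
theorem thm_index (h0 : 0 < p) (h1 : p < 1) {σ δ : ℝ} (hσ : 0 < σ) (hδ : 0 < δ) : ∃ c : ℝ, 0 < c ∧ ∀ᶠ n : ℕ in atTop,
    pr p {ω : Sym2 (Fin n) → Bool | (Mx ω).det ≠ 0 ∧ ∃ Λ, IdxLat δ (Mx ω) Λ ∧
      Real.exp (σ * n) ≤ {x : Fin n → Bool | sv x ∈ Λ}.ncard} ≤ Real.exp (-c * n ^ 2) := by
  classical
  obtain ⟨ε₀, c, hε₀, hc, HP⟩ := thmP h0 h1 (c₂ := σ / 4) (δ := δ / 2) (by positivity) (by positivity)
  set ε := min ε₀ (min (δ / 4) (σ / 4)) with hε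
  have hε0 : 0 < ε := by positivity
  have e1 : ε ≤ ε₀ := min_le_left _ _
  have e2 : ε ≤ δ / 4 := (min_le_right _ _).trans (min_le_left _ _)
  have e3 : ε ≤ σ / 4 := (min_le_right _ _).trans (min_le_right _ _)
  refine ⟨c / 2, by positivity, ?_⟩
  filter_upwards [HP, cheap 5 hε0 (show 0 < c / 2 by positivity), extract hσ,
    PEv_of_index 5 hε0 (show 4 * ε ≤ δ by linarith)] with n g1 g2 g3 g4
  obtain ⟨F, hF, HF⟩ := g2
  refine le_trans (pr_mono h0 h1 ?_) (dm_union h0 h1 F hF g1)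
  rintro ω ⟨hdet, Λ, hΛ, hcard⟩
  obtain ⟨u, l, hu, hl, hli, hg⟩ := g3 (Euc (Fin n)) (by simp; omega) LinearMap.id (fun x => le_rfl) Λ
    (Finset.univ.filter fun x => sv x ∈ Λ) (fun x hx => ⟨(Finset.mem_filter.1 hx).2, by
      simp only [LinearMap.id_apply]
      rw [norm_zc_sv, Fintype.card_fin]
      have : (0 : ℝ) ≤ n := Nat.cast_nonneg n
      linarith⟩) (by
      rw [← Set.ncard_coe_finset]
      simpa using hcard)
  simp only [LinearMap.id_apply] at hg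
  obtain ⟨D, hD, hC⟩ := HF (qsp l) ((cov_qsp_le ((li_int_iff_real l).2 hli)).trans hg)
  exact ⟨D, hD, dm_rank hli (by linarith) e3 hC,
    dm_PEv_mono e1 (g4 _ (dm_abs_Mx ω) hdet Λ hΛ u l hl hli hg D hC)⟩

/-- `κ ≤ 1/2000` from `card_small_subsets` (`η = σ/4`); pigeonhole over `Q`, `extract` for `σ/2` with `Φ = phi2 A Q`, `Λ = ⊤`; `typical`,
`PEv_of_small`, `cheap`, `thmP`. -/
theorem thm_small (h0 : 0 < p) (h1 : p < 1) {σ : ℝ} (hσ : 0 < σ) : ∃ κ c : ℝ, 0 < κ ∧ 0 < c ∧ ∀ᶠ n : ℕ in atTop,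
    pr p {ω : Sym2 (Fin n) → Bool | (Mx ω).det ≠ 0 ∧ ((Mx ω).det.natAbs : ℝ) ≤ (n : ℝ) ^ ((n : ℝ) / 400) ∧
      Real.exp (σ * n) ≤ {x : Fin n → Bool | AdmR κ (Mx ω) x}.ncard} ≤ Real.exp (-c * n ^ 2) := by
  classical
  obtain ⟨κ₀, hκ₀, -, Hκ⟩ := card_small_subsets (show 0 < σ / 4 by positivity)
  obtain ⟨ε₀, c, hε₀, hc, HP⟩ := thmP h0 h1 (c₂ := σ / 8) (δ := 1 / 400) (by positivity) (by positivity)
  obtain ⟨c', hc', HT⟩ := typical h0 h1
  set ε := min ε₀ (min (1 / 400) (σ / 8)) with hε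
  have hε0 : 0 < ε := by positivity
  have e1 : ε ≤ ε₀ := min_le_left _ _
  have e2 : ε ≤ 1 / 400 := (min_le_right _ _).trans (min_le_left _ _)
  have e3 : ε ≤ σ / 8 := (min_le_right _ _).trans (min_le_right _ _)
  set κ := min κ₀ (1 / 2000) with hκ
  have k1 : κ ≤ κ₀ := min_le_left _ _
  have k2 : κ ≤ 1 / 2000 := min_le_right _ _
  refine ⟨κ, min c' (c / 2) / 2, by positivity, by positivity, ?_⟩
  filter_upwards [HP, HT, cheap 5 hε0 (show 0 < c / 2 by positivity), extract (show 0 < σ / 2 by positivity),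
    PEv_of_small 5 k2 hε0 e2, eventually_exp_add_le hc' (show 0 < c / 2 by positivity),
    eventually_ge_atTop 2] with n g1 gT g2 g3 g4 g5 g6
  obtain ⟨F, hF, HF⟩ := g2
  refine le_trans ?_ g5
  refine le_trans (pr_mono h0 h1 ?_) ((pr_union_le h0 h1 _ _).trans (add_le_add gT (dm_union h0 h1 F hF g1)))
  rintro ω ⟨hdet, hsmall, hcard⟩
  by_cases hT : gvol (fun j => pairOp (rop (Mx ω)) LinearMap.id (EuclideanSpace.basisFun (Fin n) ℝ j)) <
      (n : ℝ) ^ ((n : ℝ) / 10)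
  · exact Or.inl hT
  right
  have hn' : (2 : ℝ) ≤ n := by exact_mod_cast g6
  obtain ⟨Q, hQ, hQc⟩ := exists_ncard_ge {x : Fin n → Bool | AdmR κ (Mx ω) x}
    ((Finset.univ : Finset (Fin n)).powerset.filter fun t => (t.card : ℝ) ≤ κ * (n + 1))
    (fun Q => {x | ‖phi2 (Mx ω) Q (zc (sv x))‖ ^ 2 ≤ 2 * n}) (by
      rintro x ⟨s, y, hs, hy, hb, hc⟩
      exact ⟨_, Finset.mem_filter.2 ⟨Finset.mem_powerset.2 (Finset.subset_univ _), hc⟩,
        norm_phi2_sv _ hdet x hs hy hb⟩) (a := Real.exp (σ / 2 * n)) (c := Real.exp (σ / 4 * (n + 1)))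
    (Real.exp_pos _) (by
      refine le_trans ?_ (Hκ (Fin n) Finset.univ n (by simp))
      refine Nat.cast_le.2 (Finset.card_le_card fun t ht => ?_)
      rw [Finset.mem_filter] at ht ⊢
      exact ⟨ht.1, ht.2.trans (mul_le_mul_of_nonneg_right k1 (by positivity))⟩) (by
      refine lt_of_lt_of_le ?_ hcard
      rw [← Real.exp_add]
      exact Real.exp_lt_exp.2 (by nlinarith))
  obtain ⟨u, l, hu, -, hli, hg⟩ := g3 (Euc (Fin n ⊕ Fin n)) (by simp; omega) (phi2 (Mx ω) Q) (le_norm_phi2 _ _) ⊤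
    (Finset.univ.filter fun x => ‖phi2 (Mx ω) Q (zc (sv x))‖ ^ 2 ≤ 2 * n)
    (fun x hx => ⟨Submodule.mem_top, (Finset.mem_filter.1 hx).2⟩) (by
      rw [← Set.ncard_coe_finset]
      simpa using hQc)
  obtain ⟨hcov, HD⟩ := g4 _ (dm_abs_Mx ω) hdet hsmall (not_lt.1 hT) Q (Finset.mem_filter.1 hQ).2 u l hli hg
  obtain ⟨D, hD, hC⟩ := HF (qsp l) hcov
  exact ⟨D, hD, dm_rank hli (by linarith) e3 hC, dm_PEv_mono e1 (HD D hC)⟩

end

end Crest.Agent.R152
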