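import Mathlib
import Crest.Prelude.Def_SignMatrix

/-!
# R152/Defs: definitions for the singularity probability of symmetric sign matrices (S0215, S0216)

Owner: helper65.  Overview of the proof (`q = p² + (1-p)²`):
* `B*`: reductions to corank one, removal of compressible / sparse kernel vectors, choice of a good index `i`;
  then `A = M^{(i)}` is invertible and the deleted column `x` is *admissible* (`Adm`) for `A`.
* `N`: apart from an event of probability `e^{-K n}`, `A` has at most `e^{σ n}` admissible vectors.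
  `A*`: admissible vectors lie in few lattices of huge index.  `X`, `C*`, `D*`, `TP*`, `M*`: such a lattice has few
  sign vectors (reverse Minkowski `R*`/`K*`, a cheap family of containers, a first moment bound).
* `G*`, `L*`, `P*`: Gram volumes, integer lattices, finite probability.
-/

set_option autoImplicit false

namespace Crest.Agent.R152

open Crest.FinProb Crest.ProbabilityR.SignMatrix MeasureTheory ProbabilityTheory
open scoped RealInnerProductSpace ENNReal Matrix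

noncomputable section

/-! ## Gram volume, stability, Voronoi gauge -/

/-- Euclidean space on an index type. -/
abbrev Euc (ι : Type) : Type := EuclideanSpace ℝ ι

/-- Volume of the parallelepiped spanned by a finite family. -/
def gvol {E κ : Type} [NormedAddCommGroup E] [InnerProductSpace ℝ E] [Fintype κ] [DecidableEq κ]
    (v : κ → E) : ℝ :=
  √(Matrix.gram ℝ v).det

/-- Every independent family of `k` vectors of `L` has volume at least `r ^ k`. -/
def Stable {E : Type} [NormedAddCommGroup E] [InnerProductSpace ℝ E] (L : AddSubgroup E) (r : ℝ) : Prop :=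
  ∀ (k : ℕ) (v : Fin k → E), (∀ i, v i ∈ L) → LinearIndependent ℝ v → r ^ k ≤ gvol v

/-- Nonzero vectors of `L` have norm at least `r`. -/
def Sep {E : Type} [NormedAddCommGroup E] (L : AddSubgroup E) (r : ℝ) : Prop :=
  ∀ y ∈ L, y ≠ 0 → r ≤ ‖y‖

/-- Gauge of the Voronoi cell of `L` (the term `y = 0` is `0`). -/
def gau {E : Type} [NormedAddCommGroup E] [InnerProductSpace ℝ E] (L : AddSubgroup E) (x : E) : ℝ :=
  ⨆ y : L, 2 * ⟪x, (y : E)⟫ / ‖(y : E)‖ ^ 2

/-- Standard Gaussian on `ℝ^m`. -/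
abbrev gam (m : ℕ) : Measure (Euc (Fin m)) := stdGaussian (Euc (Fin m))

/-- The functional maximised in the proof of the reverse Minkowski theorem. -/
def PhiL {m : ℕ} (a : ℝ) (L : AddSubgroup (Euc (Fin m))) : ℝ :=
  ∫ x, max (gau L x - a) 0 ∂gam m

/-- The operator that is diagonal with entries `d` in the orthonormal basis `e`. -/
def diagOp {m : ℕ} (e : OrthonormalBasis (Fin m) ℝ (Euc (Fin m))) (d : Fin m → ℝ) :
    Euc (Fin m) →L[ℝ] Euc (Fin m) :=
  ∑ i, d i • (innerSL ℝ (e i)).smulRight (e i)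

/-- Mehler (Ornstein-Uhlenbeck) operator. -/
def ou {m : ℕ} {F : Type} [NormedAddCommGroup F] [NormedSpace ℝ F] (t : ℝ) (f : Euc (Fin m) → F)
    (x : Euc (Fin m)) : F :=
  ∫ y, f (t • x + √(1 - t ^ 2) • y) ∂gam m

/-- Support function. -/
def supp {m : ℕ} (K : Set (Euc (Fin m))) (x : Euc (Fin m)) : ℝ :=
  ⨆ w : K, ⟪(w : Euc (Fin m)), x⟫

/-! ## Integer lattices -/

/-- Integer vectors as real vectors. -/
def zc {ι : Type} : (ι → ℤ) →ₗ[ℤ] Euc ι where
  toFun z := WithLp.toLp 2 fun i => (z i : ℝ)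
  map_add' z w := by ext i; simp
  map_smul' c z := by ext i; simp

@[simp] theorem zc_apply {ι : Type} (z : ι → ℤ) (i : ι) : zc z i = (z i : ℝ) := rfl

/-- Integer vectors as rational vectors. -/
def qc {ι : Type} : (ι → ℤ) →ₗ[ℤ] (ι → ℚ) where
  toFun z := fun i => (z i : ℚ)
  map_add' z w := by ext i; simp
  map_smul' c z := by ext i; simp

@[simp] theorem qc_apply {ι : Type} (z : ι → ℤ) (i : ι) : qc z i = (z i : ℚ) := rfl

/-- Integer points of a rational subspace. -/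
def lat {ι : Type} (W : Submodule ℚ (ι → ℚ)) : Submodule ℤ (ι → ℤ) :=
  (W.restrictScalars ℤ).comap qc

theorem mem_lat {ι : Type} {W : Submodule ℚ (ι → ℚ)} {z : ι → ℤ} : z ∈ lat W ↔ qc z ∈ W := Iff.rfl

/-- Rational span of a family of integer vectors. -/
def qsp {ι κ : Type} (v : κ → ι → ℤ) : Submodule ℚ (ι → ℚ) :=
  Submodule.span ℚ (Set.range fun i => qc (v i))

/-- Real span of a rational subspace. -/
def rsp {ι : Type} (W : Submodule ℚ (ι → ℚ)) : Submodule ℝ (Euc ι) :=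
  Submodule.span ℝ (zc '' (lat W : Set (ι → ℤ)))

/-- Orthogonal projection killing the real span of `W`. -/
def prj {ι : Type} [Fintype ι] (W : Submodule ℚ (ι → ℚ)) : Euc ι →L[ℝ] Euc ι :=
  (rsp W)ᗮ.starProjection

/-- `v` is a `ℤ`-basis of `Λ`. -/
def IsBas {ι κ : Type} (Λ : Submodule ℤ (ι → ℤ)) (v : κ → ι → ℤ) : Prop :=
  LinearIndependent ℤ v ∧ Submodule.span ℤ (Set.range v) = Λ

/-- Covolume of the integer points of a rational subspace. -/
def cov {ι : Type} [Fintype ι] (W : Submodule ℚ (ι → ℚ)) : ℝ :=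
  gvol fun i : Fin (Module.finrank ℤ (lat W)) => zc ((Module.finBasis ℤ (lat W) i : lat W) : ι → ℤ)

/-- The potential `log cov + λ dim`. -/
def pot {ι : Type} [Fintype ι] (lam : ℝ) (W : Submodule ℚ (ι → ℚ)) : ℝ :=
  Real.log (cov W) + lam * Module.finrank ℚ W

/-- An integer matrix as an operator on Euclidean space. -/
def rop {ι : Type} [Fintype ι] [DecidableEq ι] (A : Matrix ι ι ℤ) : Euc ι →ₗ[ℝ] Euc ι :=
  Matrix.toEuclideanLin (A.map (Int.cast : ℤ → ℝ))

/-- The real inverse of an integer matrix as an operator on Euclidean space. -/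
def ropInv {ι : Type} [Fintype ι] [DecidableEq ι] (A : Matrix ι ι ℤ) : Euc ι →ₗ[ℝ] Euc ι :=
  Matrix.toEuclideanLin (A.map (Int.cast : ℤ → ℝ))⁻¹

/-- `x ↦ (S x, T x)`. -/
def pairOp {ι : Type} (S T : Euc ι →ₗ[ℝ] Euc ι) : Euc ι →ₗ[ℝ] Euc (ι ⊕ ι) where
  toFun x := WithLp.toLp 2 (Sum.elim (S x).ofLp (T x).ofLp)
  map_add' x y := by ext i; rcases i with i | i <;> simp
  map_smul' c x := by ext i; rcases i with i | i <;> simp

/-- Multiplies the coordinates in `Q` by `lam`. -/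
def damp {ι : Type} [DecidableEq ι] (Q : Finset ι) (lam : ℝ) : Euc ι →ₗ[ℝ] Euc ι where
  toFun x := WithLp.toLp 2 fun j => (if j ∈ Q then lam else 1) * x j
  map_add' x y := by ext i; simp [mul_add]
  map_smul' c x := by ext i; simp [mul_left_comm]

/-- The embedding `x ↦ (x, Δ A⁻¹ x)` used when `|det A|` is small. -/
def phi2 {n : ℕ} (A : Matrix (Fin n) (Fin n) ℤ) (Q : Finset (Fin n)) :
    Euc (Fin n) →ₗ[ℝ] Euc (Fin n ⊕ Fin n) :=
  pairOp LinearMap.id (damp Q (1 / ((n : ℝ) + 1) ^ 4) ∘ₗ ropInv A)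

/-! ## Finite probability -/

/-- Probability. -/
abbrev pr {ι : Type} [Fintype ι] [DecidableEq ι] (p : ℝ) (E : Set (ι → Bool)) : ℝ := bernoulliProb p E

/-- Weight of an outcome. -/
abbrev wgt {ι : Type} [Fintype ι] (p : ℝ) (ω : ι → Bool) : ℝ := bernoulliWeight p ω

/-- Expectation. -/
def ex {ι : Type} [Fintype ι] [DecidableEq ι] (p : ℝ) (f : (ι → Bool) → ℝ) : ℝ :=
  ∑ ω, wgt p ω * f ω

/-- Expectation of an `ℝ≥0∞`-valued function. -/
def exE {ι : Type} [Fintype ι] [DecidableEq ι] (p : ℝ) (f : (ι → Bool) → ℝ≥0∞) : ℝ≥0∞ :=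
  ∑ ω, ENNReal.ofReal (wgt p ω) * f ω

/-- Collision probability of one coin. -/
def qq (p : ℝ) : ℝ := p ^ 2 + (1 - p) ^ 2

/-- Largest atom of one coin. -/
def pm (p : ℝ) : ℝ := max p (1 - p)

/-- Sign vector. -/
def sv {ι : Type} (x : ι → Bool) : ι → ℤ := fun i => if x i then 1 else -1

/-- Zero-one vector. -/
def zo {ι : Type} (x : ι → Bool) : ι → ℤ := fun i => if x i then 1 else 0

/-- Replace the coordinates in the range of `e` by `η`. -/
def repl {ι κ : Type} (e : κ → ι) (η : κ → Bool) (ω : ι → Bool) : ι → Bool := Function.extend e η ω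

/-- The random symmetric sign matrix. -/
abbrev Mx {n : ℕ} (b : Sym2 (Fin n) → Bool) : Matrix (Fin n) (Fin n) ℤ := symSignMatrix n b

/-- Rank over `ℚ`. -/
def rk {n : ℕ} (b : Sym2 (Fin n) → Bool) : ℕ := ((Mx b).map (Int.cast : ℤ → ℚ)).rank

/-- The coins of the minor with row and column `i` deleted. -/
def minr {n : ℕ} (b : Sym2 (Fin (n + 1)) → Bool) (i : Fin (n + 1)) : Sym2 (Fin n) → Bool :=
  fun e => b (e.map i.succAbove)

/-- The coins of column `i` without the diagonal entry. -/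
def colx {n : ℕ} (b : Sym2 (Fin (n + 1)) → Bool) (i : Fin (n + 1)) : Fin n → Bool :=
  fun j => b s(i, i.succAbove j)

/-! ## Gaussian mass of sets of integer vectors, collision probability -/

/-- Gaussian weight at scale `b`. -/
def wt {ι : Type} [Fintype ι] (b : ℝ) (z : ι → ℤ) : ℝ≥0∞ :=
  ENNReal.ofReal (Real.exp (-(∑ i, (z i : ℝ) ^ 2) / b ^ 2))

/-- Gaussian mass at scale `b`. -/
def rho {ι : Type} [Fintype ι] (b : ℝ) (S : Set (ι → ℤ)) : ℝ≥0∞ :=
  ∑' z, S.indicator (wt b) z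

/-- Common kernel of the rows of `X`. -/
def kerS {ι κ : Type} [Fintype ι] (X : κ → ι → ℤ) : Set (ι → ℤ) := {z | ∀ l, X l ⬝ᵥ z = 0}

/-- Probability that two independent zero-one vectors have the same products with all `Z i`. -/
def coll {ι κ : Type} [Fintype ι] [DecidableEq ι] (p : ℝ) (Z : κ → ι → ℤ) : ℝ :=
  ex p fun ξ => pr p {ξ' | ∀ i, (zo ξ - zo ξ') ⬝ᵥ Z i = 0}

/-- The `k`-th collision moment over `r`-tuples of vectors of `S`. -/
def mom {ι : Type} [Fintype ι] [DecidableEq ι] (p b : ℝ) (r k : ℕ) (S : Set (ι → ℤ)) : ℝ≥0∞ :=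
  ∑' Z : Fin r → ι → ℤ, (∏ i, S.indicator (wt b) (Z i)) * ENNReal.ofReal (coll p Z) ^ k

/-- The event bounded by the first moment method: a dense sublattice is mapped by `A` into `D`. -/
def PEv {n : ℕ} (δ ε : ℝ) (D : Submodule ℚ (Fin n → ℚ)) (A : Matrix (Fin n) (Fin n) ℤ) : Prop :=
  ∃ (u : ℕ) (z : Fin u → Fin n → ℤ), LinearIndependent ℝ (fun i => zc (z i)) ∧
    (Module.finrank ℚ D : ℝ) ≤ u + ε * n ∧ (∀ i, qc (A *ᵥ z i) ∈ D) ∧
    gvol (fun i => zc (z i)) ≤ (n : ℝ) ^ (((n : ℝ) - u) / 2 - δ * n)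

/-- `D` is a good container for `U`. -/
def Cont {n : ℕ} (ε : ℝ) (U D : Submodule ℚ (Fin n → ℚ)) : Prop :=
  (Module.finrank ℚ U : ℝ) ≤ Module.finrank ℚ ↥(D ⊓ U) + ε * n ∧
    (Module.finrank ℚ D : ℝ) ≤ Module.finrank ℚ ↥(D ⊓ U) + ε * n ∧ cov (D ⊓ U) ≤ (n : ℝ) ^ (ε * n)

/-- `Λ` contains the columns of `A` and has index at least `n^{δ n}`. -/
def IdxLat {n : ℕ} (δ : ℝ) (A : Matrix (Fin n) (Fin n) ℤ) (Λ : Submodule ℤ (Fin n → ℤ)) : Prop :=
  LinearMap.range A.mulVecLin ≤ Λ ∧ (n : ℝ) ^ (δ * n) ≤ Λ.toAddSubgroup.index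

/-! ## Admissible columns and the exceptional events -/

/-- The modulus attached to a prime. -/
def mdl (p₀ l : ℕ) : ℕ := if l < p₀ then l ^ p₀ else l

/-- The real part of admissibility: `A⁻¹ x = y / s` is not too large. -/
def AdmR {n : ℕ} (κ : ℝ) (A : Matrix (Fin n) (Fin n) ℤ) (x : Fin n → Bool) : Prop :=
  ∃ (s : ℕ) (y : Fin n → ℤ), 0 < s ∧ A *ᵥ y = (s : ℤ) • sv x ∧ (∀ j, |y j| ≤ ((n : ℤ) + 1) ^ 4 * s) ∧
    ((Finset.univ.filter fun j => (s : ℤ) < |y j|).card : ℝ) ≤ κ * (n + 1)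

/-- The arithmetic part of admissibility: `x` is isotropic of order `s`, `|det A| = c s²`, and the primes whose
modulus divides `s` carry at most half of the weight of `c`. -/
def AdmA {n : ℕ} (p₀ : ℕ) (A : Matrix (Fin n) (Fin n) ℤ) (x : Fin n → Bool) (s c : ℕ) (y : Fin n → ℤ) : Prop :=
  0 < s ∧ A *ᵥ y = (s : ℤ) • sv x ∧ (∀ l : ℕ, l.Prime → l ∣ s → ∃ j, ¬ (l : ℤ) ∣ y j) ∧
    (s : ℤ) ∣ sv x ⬝ᵥ y ∧ A.det.natAbs = c * s ^ 2 ∧
    (∏ l ∈ c.primeFactors.filter (fun l => mdl p₀ l ∣ s), l ^ c.factorization l) ^ 2 ≤ c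

/-- Admissible column. -/
def Adm {n : ℕ} (κ : ℝ) (p₀ : ℕ) (A : Matrix (Fin n) (Fin n) ℤ) (x : Fin n → Bool) : Prop :=
  AdmR κ A x ∧ ∃ s c y, AdmA p₀ A x s c y

/-- A compressible kernel vector. -/
def Ecomp {N : ℕ} (κ : ℝ) (b : Sym2 (Fin N) → Bool) : Prop :=
  ∃ (v : Fin N → ℤ) (i₀ : Fin N), v ≠ 0 ∧ Mx b *ᵥ v = 0 ∧ (∀ j, |v j| ≤ |v i₀|) ∧
    ((Finset.univ.filter fun j => |v i₀| ≤ (N : ℤ) ^ 4 * |v j|).card : ℝ) ≤ κ * N

/-- A kernel vector that is sparse modulo a prime. -/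
def Epat {N : ℕ} (K₀ : ℕ) (b : Sym2 (Fin N) → Bool) : Prop :=
  ∃ (l : ℕ) (v : Fin N → ℤ), l.Prime ∧ Mx b *ᵥ v = 0 ∧ (∃ j, ¬ (l : ℤ) ∣ v j) ∧
    (Finset.univ.filter fun j => ¬ (l : ℤ) ∣ v j).card < K₀

/-- A kernel vector with many units and many zeros modulo a prime power. -/
def Ezero {N : ℕ} (κ : ℝ) (K₀ p₀ : ℕ) (b : Sym2 (Fin N) → Bool) : Prop :=
  ∃ (l : ℕ) (v : Fin N → ℤ), l.Prime ∧ Mx b *ᵥ v = 0 ∧
    K₀ ≤ (Finset.univ.filter fun j => ¬ (l : ℤ) ∣ v j).card ∧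
    κ * N ≤ ((Finset.univ.filter fun j => (mdl p₀ l : ℤ) ∣ v j).card : ℝ)

open Classical in
/-- At least `k` columns have atypically large weight. -/
def Erow {n : ℕ} (p η : ℝ) (k : ℕ) (b : Sym2 (Fin (n + 1)) → Bool) : Prop :=
  k ≤ (Finset.univ.filter fun i => qq p ^ n * Real.exp (η * n) < wgt p (colx b i)).card

/-- The linear condition `ξ · w = τ` on `(w, τ)`. -/
def cut {S R : Type} [Fintype S] [CommRing R] (ξ : S → Bool) : Submodule R ((S → R) × R) where
  carrier := {u | ∑ j, (zo ξ j : R) * u.1 j = u.2}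
  add_mem' := by
    intro a b ha hb
    simp only [Set.mem_ofPred_eq, Prod.fst_add, Pi.add_apply, mul_add, Finset.sum_add_distrib,
      Prod.snd_add] at *
    rw [ha, hb]
  zero_mem' := by simp
  smul_mem' := by
    intro c a ha
    simp only [Set.mem_ofPred_eq, Prod.smul_fst, Pi.smul_apply, smul_eq_mul, Prod.smul_snd] at *
    rw [← ha, Finset.mul_sum]
    exact Finset.sum_congr rfl fun j _ => by ring

open Classical in
/-- `K` contains a vector with at least `K₀` coordinates of additive order at least `L`. -/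
def GoodK {S R : Type} [Fintype S] [CommRing R] (L K₀ : ℕ) (K : Submodule R ((S → R) × R)) : Prop :=
  ∃ u ∈ K, K₀ ≤ (Finset.univ.filter fun j => ∀ i : ℕ, 0 < i → i < L → i • u.1 j ≠ 0).card

end

end Crest.Agent.R152
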