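import Crest.Agent.R152.Defs

/-!
# R152/G1

Basic facts on the Gram volume `gvol`.  Tools: `Matrix.posSemidef_gram`, `Matrix.det_gram_ne_zero_iff_linearIndependent`,
`Matrix.gram_eq_conjTranspose_mul`, `Matrix.det_fromBlocks₁₁`; `Mathlib/Analysis/InnerProductSpace/NormDet.lean` may help.

Helper lemmas: prefix `g1_`.
-/

set_option autoImplicit false
set_option linter.unusedVariables false
set_option linter.unusedSectionVars false

namespace Crest.Agent.R152

open Crest.FinProb Crest.ProbabilityR.SignMatrix MeasureTheory ProbabilityTheory Filter Module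
open scoped RealInnerProductSpace ENNReal Matrix Topology

noncomputable section

variable {E E' : Type} [NormedAddCommGroup E] [InnerProductSpace ℝ E] [NormedAddCommGroup E'] [InnerProductSpace ℝ E']
  {κ κ' : Type} [Fintype κ] [DecidableEq κ] [Fintype κ'] [DecidableEq κ']

theorem gvol_nonneg (v : κ → E) : 0 ≤ gvol v := by
  exact Real.sqrt_nonneg _

theorem gvol_sq (v : κ → E) : gvol v ^ 2 = (Matrix.gram ℝ v).det := by
  exact Real.sq_sqrt (Matrix.posSemidef_gram ℝ v).det_nonneg

theorem gvol_pos_iff (v : κ → E) : 0 < gvol v ↔ LinearIndependent ℝ v := by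
  rw [← Matrix.det_gram_ne_zero_iff_linearIndependent, gvol, Real.sqrt_pos]
  exact ⟨fun h => h.ne', fun h => lt_of_le_of_ne (Matrix.posSemidef_gram ℝ v).det_nonneg h.symm⟩

theorem gvol_empty [IsEmpty κ] (v : κ → E) : gvol v = 1 := by
  simp [gvol]

theorem gvol_unique [Unique κ] (v : κ → E) : gvol v = ‖v default‖ := by
  simp [gvol]

theorem gvol_reindex (e : κ' ≃ κ) (v : κ → E) : gvol (fun i => v (e i)) = gvol v := by
  unfold gvol
  rw [← Matrix.det_submatrix_equiv_self e (Matrix.gram ℝ v)]
  rfl

/-- `gram (T v) = T (gram v) Tᵀ`. -/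
theorem gvol_change (T : Matrix κ κ ℝ) (v : κ → E) :
    gvol (fun i => ∑ j, T i j • v j) = |T.det| * gvol v := by
  have h : Matrix.gram ℝ (fun i => ∑ j, T i j • v j) = T * Matrix.gram ℝ v * Tᵀ := by
    ext i k
    simp only [Matrix.gram_apply, Matrix.mul_apply, Matrix.transpose_apply, sum_inner, inner_sum,
      real_inner_smul_left, real_inner_smul_right, Finset.sum_mul]
    exact Finset.sum_congr rfl fun j _ => Finset.sum_congr rfl fun l _ => by ring
  unfold gvol
  rw [h, Matrix.det_mul, Matrix.det_mul, Matrix.det_transpose, mul_right_comm, ← sq,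
    Real.sqrt_mul (sq_nonneg _), Real.sqrt_sq_eq_abs]

theorem gvol_smul (c : ℝ) (v : κ → E) : gvol (fun i => c • v i) = |c| ^ Fintype.card κ * gvol v := by
  have := gvol_change (c • (1 : Matrix κ κ ℝ)) v
  simpa [Matrix.one_apply, abs_pow] using this

theorem gvol_orthonormal {v : κ → E} (hv : Orthonormal ℝ v) : gvol v = 1 := by
  rw [gvol, Matrix.gram_eq_one_iff_orthonormal.2 hv]
  simp

theorem gvol_isometry (f : E →ₗᵢ[ℝ] E') (v : κ → E) : gvol (fun i => f (v i)) = gvol v := by
  have : Matrix.gram ℝ (fun i => f (v i)) = Matrix.gram ℝ v := by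
    ext i j
    simp
  rw [gvol, this, gvol]

/-- Volume of a concatenation.  Write `b j = P b j + ∑ c j i • a i` (the second term is the projection on the span of
`a`); a block unitriangular change of basis (`gvol_change`) replaces `b` by `P b`, and then the Gram matrix is block
diagonal. -/
theorem gvol_sum [FiniteDimensional ℝ E] (a : κ → E) (b : κ' → E) :
    gvol (Sum.elim a b) =
      gvol a * gvol (fun j => (Submodule.span ℝ (Set.range a))ᗮ.starProjection (b j)) := by
  set K := Submodule.span ℝ (Set.range a)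
  have hc : ∀ j, ∃ c : κ → ℝ, ∑ i, c i • a i = K.starProjection (b j) := fun j =>
    (Submodule.mem_span_range_iff_exists_fun ℝ).1 (K.starProjection_apply_mem (b j))
  choose c hc using hc
  set w : κ' → E := fun j => Kᗮ.starProjection (b j) with hw
  have h1 : Sum.elim a b = fun i => ∑ j,
      (Matrix.fromBlocks 1 0 (Matrix.of c) 1 : Matrix (κ ⊕ κ') (κ ⊕ κ') ℝ) i j • Sum.elim a w j := by
    ext (i | j)
    · simp [Fintype.sum_sum_type, Matrix.one_apply]
    · simp [Fintype.sum_sum_type, Matrix.one_apply, hc, hw]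
  have h0 : ∀ i j, ⟪a i, w j⟫ = 0 := fun i j =>
    Submodule.inner_right_of_mem_orthogonal (K := K) (Submodule.subset_span ⟨i, rfl⟩)
      (Kᗮ.starProjection_apply_mem (b j))
  have h2 : Matrix.gram ℝ (Sum.elim a w) =
      Matrix.fromBlocks (Matrix.gram ℝ a) 0 0 (Matrix.gram ℝ w) := by
    ext (i | i) (j | j)
    · simp
    · simp [h0]
    · simp [real_inner_comm, h0]
    · simp
  rw [h1, gvol_change, Matrix.det_fromBlocks_zero₁₂, gvol, h2, Matrix.det_fromBlocks_zero₁₂,
    Real.sqrt_mul (Matrix.posSemidef_gram ℝ a).det_nonneg]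
  simp [gvol]

/-- In an orthonormal basis the volume is the absolute value of the determinant of the coordinates. -/
theorem gvol_eq_abs_det (e : OrthonormalBasis κ ℝ E) (v : κ → E) :
    gvol v = |(Matrix.of fun i j => ⟪e j, v i⟫).det| := by
  have := gvol_change (Matrix.of fun i j => ⟪e j, v i⟫) e
  simp only [Matrix.of_apply, e.sum_repr', gvol_orthonormal e.orthonormal, mul_one] at this
  exact this

/-- A linear map multiplies the volume of all full families by the same factor: `v i = ∑ ⟪e j, v i⟫ e j`. -/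
theorem gvol_map_full (e : OrthonormalBasis κ ℝ E) (T : E →ₗ[ℝ] E') (v : κ → E) :
    gvol (fun i => T (v i)) = gvol v * gvol (fun i => T (e i)) := by
  rw [gvol_eq_abs_det e v, ← gvol_change]
  congr 1
  ext i
  conv_lhs => rw [← e.sum_repr' (v i)]
  simp

theorem gvol_map_det [FiniteDimensional ℝ E] (e : OrthonormalBasis κ ℝ E) (T : E →ₗ[ℝ] E) :
    gvol (fun i => T (e i)) = |LinearMap.det T| := by
  rw [gvol_eq_abs_det e, ← LinearMap.det_toMatrix e.toBasis, ← Matrix.det_transpose]
  congr 2
  ext i j
  simp [LinearMap.toMatrix_apply, e.repr_apply_apply]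

/-- Stability for families indexed by any finite type. -/
theorem Stable.le_gvol {L : AddSubgroup E} {r : ℝ} (h : Stable L r) (v : κ → E) (hv : ∀ i, v i ∈ L)
    (hi : LinearIndependent ℝ v) : r ^ Fintype.card κ ≤ gvol v := by
  rw [← gvol_reindex (Fintype.equivFin κ).symm v]
  exact h _ _ (fun i => hv _) (hi.comp _ (Fintype.equivFin κ).symm.injective)

theorem Stable.sep {L : AddSubgroup E} {r : ℝ} (h : Stable L r) : Sep L r := by
  intro y hy h0
  have := h 1 (fun _ => y) (fun _ => hy) (linearIndependent_unique_iff.2 h0)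
  rwa [gvol_unique, pow_one] at this

end

end Crest.Agent.R152
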