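import Crest.Agent.R152.Defs

/-!
# R152/KNu

A signed measure on `[-1/2, 1/2]` that reproduces `f'(0)` on polynomials of degree `≤ 2M` (central differences), and
Auerbach bases.

Helper lemmas: prefix `knu_`.
-/

set_option autoImplicit false
set_option linter.unusedVariables false
set_option linter.unusedSectionVars false

namespace Crest.Agent.R152

open Crest.FinProb Crest.ProbabilityR.SignMatrix MeasureTheory ProbabilityTheory Filter Module
open scoped RealInnerProductSpace ENNReal Matrix Topology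

noncomputable section

private theorem knu_alt (M i : ℕ) (hi : i < 2 * M) :
    ∑ j : Fin (2 * M + 1), (-1 : ℝ) ^ (j : ℕ) * ((2 * M).choose j : ℝ) * ((j : ℝ) - M) ^ i = 0 := by
  have h := congrFun (fwdDiff_iter_pow_eq_zero_of_lt (R := ℝ) hi) (-M)
  rw [fwdDiff_iter_eq_sum_shift, Finset.sum_range] at h
  refine Eq.trans (Finset.sum_congr rfl fun j _ => ?_) h
  have e : (-1 : ℝ) ^ (2 * M - (j : ℕ)) = (-1) ^ (j : ℕ) := by
    have hj : (j : ℕ) ≤ 2 * M := Nat.lt_succ_iff.1 j.2
    rw [neg_one_pow_eq_pow_mod_two, neg_one_pow_eq_pow_mod_two (n := j)]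
    congr 1
    omega
  simp only [zsmul_eq_mul, nsmul_eq_mul, mul_one, Int.cast_mul, Int.cast_pow, Int.cast_neg,
    Int.cast_one, Int.cast_natCast, e]
  ring

/-- Nodes `t j = j / (2M)`, `j ∈ [-M, M]`, weights `c j = -(-1)^j C(2M, M+j) / (C(2M, M) t j)` (`c 0 = 0`).  The identity
`∑_j (-1)^j C(2M, M+j) P(j) = 0` for `deg P < 2M` (iterated forward differences, `fwdDiff_iter_eq_sum_shift`; or use
`Lagrange.basis`) gives `∑ c j (t j)^k = [k = 1]` for `1 ≤ k ≤ 2M`; `k = 0` by antisymmetry; `|c j| ≤ 2M`;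
for `k > 2M` the sum is at most `4M² 2^{-k}`. -/
theorem exists_nu (M : ℕ) (hM : 0 < M) : ∃ c t : Fin (2 * M + 1) → ℝ, (∀ j, |t j| ≤ 1 / 2) ∧ ∑ j, |c j| ≤ 4 * M ^ 2 ∧
    ∑ j, c j * t j = 1 ∧ ∀ k : ℕ, k ≠ 1 → |∑ j, c j * t j ^ k| ≤ 4 * M ^ 2 / 4 ^ M := by
  have hM' : (0 : ℝ) < M := by exact_mod_cast hM
  have hB : (0 : ℝ) < (2 * M).choose M := by exact_mod_cast Nat.choose_pos (by omega)
  set t : Fin (2 * M + 1) → ℝ := fun j => ((j : ℝ) - M) / (2 * M) with ht
  set c : Fin (2 * M + 1) → ℝ := fun j =>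
    -((-1) ^ M * ((-1) ^ (j : ℕ) * ((2 * M).choose j : ℝ)) / ((2 * M).choose M : ℝ)) / t j with hc
  set j₀ : Fin (2 * M + 1) := ⟨M, by omega⟩ with hj₀
  have t0 : t j₀ = 0 := by simp [ht, hj₀]
  have t1 : ∀ j, j ≠ j₀ → 1 / (2 * M : ℝ) ≤ |t j| := fun j hj => by
    have h1 : ((j : ℕ) : ℤ) - M ≠ 0 := fun e => hj (Fin.ext (by simp only [hj₀]; omega))
    have h2 : (1 : ℝ) ≤ |(j : ℝ) - M| := by exact_mod_cast Int.one_le_abs h1
    rw [ht, abs_div, abs_of_pos (by positivity : (0 : ℝ) < 2 * M)]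
    gcongr
  have h1 : ∀ j, |t j| ≤ 1 / 2 := fun j => by
    have h1 : ((j : ℕ) : ℝ) ≤ 2 * M := by exact_mod_cast Nat.lt_succ_iff.1 j.2
    have h2 : (0 : ℝ) ≤ (j : ℕ) := by positivity
    rw [ht, abs_div, abs_of_pos (by positivity : (0 : ℝ) < 2 * M), div_le_iff₀ (by positivity),
      abs_le]
    constructor <;> linarith
  have h2 : ∑ j, |c j| ≤ 4 * M ^ 2 := by
    rw [← Finset.add_sum_erase _ _ (Finset.mem_univ j₀)]
    have e0 : c j₀ = 0 := by simp only [hc, t0, div_zero]
    have e1 : ∀ j ∈ Finset.univ.erase j₀, |c j| ≤ 2 * M := fun j hj => by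
      have h3 := t1 j (Finset.ne_of_mem_erase hj)
      have h4 : ((2 * M).choose j : ℝ) ≤ (2 * M).choose M := by
        exact_mod_cast Nat.choose_le_centralBinom j M
      have h5 : 0 < |t j| := lt_of_lt_of_le (by positivity) h3
      simp only [hc, abs_div, abs_neg, abs_mul, abs_pow, abs_one, one_pow, one_mul, Nat.abs_cast]
      rw [div_le_iff₀ h5]
      rw [div_le_iff₀ (by positivity)] at h3
      calc _ ≤ (1 : ℝ) := (div_le_one hB).2 h4
        _ ≤ _ := by linarith
    have := Finset.sum_le_card_nsmul _ _ _ e1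
    rw [Finset.card_erase_of_mem (Finset.mem_univ _), Finset.card_univ, Fintype.card_fin] at this
    simp only [Nat.add_sub_cancel, nsmul_eq_mul, Nat.cast_mul, Nat.cast_ofNat] at this
    rw [e0, abs_zero]
    nlinarith
  have h3 : ∀ i, i < 2 * M → ∑ j, c j * t j ^ (i + 1) = 0 ^ i := fun i hi => by
    have e1 : ∑ j : Fin (2 * M + 1), (-((-1) ^ M * ((-1) ^ (j : ℕ) * ((2 * M).choose j : ℝ)) /
        ((2 * M).choose M : ℝ))) * t j ^ i = 0 := by
      have := congrArg (fun x => -((-1) ^ M / ((2 * M).choose M : ℝ) / (2 * M) ^ i) * x)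
        (knu_alt M i hi)
      simp only [mul_zero, Finset.mul_sum] at this
      refine Eq.trans (Finset.sum_congr rfl fun j _ => ?_) this
      simp only [ht, div_pow]
      ring
    rw [← Finset.add_sum_erase _ _ (Finset.mem_univ j₀)] at e1 ⊢
    have e2 : ∑ j ∈ Finset.univ.erase j₀, c j * t j ^ (i + 1) = ∑ j ∈ Finset.univ.erase j₀,
        (-((-1) ^ M * ((-1) ^ (j : ℕ) * ((2 * M).choose j : ℝ)) /
        ((2 * M).choose M : ℝ))) * t j ^ i := Finset.sum_congr rfl fun j hj => by
      have h5 : t j ≠ 0 := abs_pos.1 (lt_of_lt_of_le (by positivity)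
        (t1 j (Finset.ne_of_mem_erase hj)))
      simp only [hc]
      rw [pow_succ', ← mul_assoc, div_mul_cancel₀ _ h5]
    have e3 : (-1 : ℝ) ^ M * ((-1) ^ M * ((2 * M).choose M : ℝ)) / ((2 * M).choose M : ℝ) = 1 := by
      rw [← mul_assoc, ← mul_pow]
      simp [hB.ne']
    rw [e2, t0]
    rw [t0, show ((j₀ : ℕ)) = M from rfl, e3] at e1
    rw [zero_pow (by omega), mul_zero, zero_add]
    linarith
  have h4 : ∑ j, c j = 0 := by
    have e1 : ∀ j : Fin (2 * M + 1), c j.rev = -c j := fun j => by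
      have hj : (j : ℕ) ≤ 2 * M := Nat.lt_succ_iff.1 j.2
      have e2 : (j.rev : ℕ) = 2 * M - j := by rw [Fin.val_rev]; omega
      have e3 : t j.rev = -t j := by
        simp only [ht, e2, Nat.cast_sub hj]
        push_cast
        ring
      have e : (-1 : ℝ) ^ (2 * M - (j : ℕ)) = (-1) ^ (j : ℕ) := by
        rw [neg_one_pow_eq_pow_mod_two, neg_one_pow_eq_pow_mod_two (n := j)]
        congr 1
        omega
      simp only [hc, e3, e2, e, Nat.choose_symm hj]
      ring
    have e2 := Equiv.sum_comp Fin.revPerm c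
    simp only [Fin.revPerm_apply, e1, Finset.sum_neg_distrib] at e2
    linarith
  refine ⟨c, t, h1, h2, by simpa using h3 0 (by omega), fun k hk => ?_⟩
  rcases k with _ | i
  · simp only [pow_zero, mul_one, h4, abs_zero]
    positivity
  rcases lt_or_ge i (2 * M) with hi | hi
  · rw [h3 i hi, zero_pow (by omega), abs_zero]
    positivity
  calc _ ≤ ∑ j, |c j| * (1 / 4 ^ M) := (Finset.abs_sum_le_sum_abs _ _).trans
        (Finset.sum_le_sum fun j _ => by
          rw [abs_mul, abs_pow]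
          gcongr
          calc _ ≤ (1 / 2 : ℝ) ^ (i + 1) := by gcongr; exact h1 j
            _ ≤ (1 / 2 : ℝ) ^ (2 * M) := pow_le_pow_of_le_one (by norm_num) (by norm_num) (by omega)
            _ = _ := by rw [pow_mul, one_div_pow, one_div_pow]; norm_num)
    _ ≤ _ := by
      rw [← Finset.sum_mul, mul_one_div]
      gcongr

/-- Auerbach.  Maximise `|det (b 1, …, b m)|` over the compact set `{N ≤ 1}^m`; the maximum is positive.  The coordinates
`a i y` of `y` in the basis `b` satisfy `|a i y| ≤ N y` (Cramer: replace `b i` by `y / N y`), and `N y ≤ ∑ |a i y|`.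
Take `A y = (a i y)_i`. -/
theorem exists_auerbach {m : ℕ} (N : Seminorm ℝ (Euc (Fin m))) {R C : ℝ} (hR : ∀ x, ‖x‖ ≤ R * N x)
    (hC : ∀ x, N x ≤ C * ‖x‖) :
    ∃ A : Euc (Fin m) →L[ℝ] Euc (Fin m), ∀ y, ‖A y‖ ≤ √m * N y ∧ N y ≤ √m * ‖A y‖ := by
  classical
  let b0 := (EuclideanSpace.basisFun (Fin m) ℝ).toBasis
  have hpc : Continuous N := by
    refine (LipschitzWith.of_dist_le_mul (K := ⟨|C|, abs_nonneg _⟩) fun x y => ?_).continuous
    rw [Real.dist_eq, dist_eq_norm]
    exact (abs_sub_map_le_sub N x y).trans ((hC _).trans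
      (mul_le_mul_of_nonneg_right (le_abs_self _) (norm_nonneg _)))
  have hB : IsCompact {x | N x ≤ 1} := by
    refine (isCompact_closedBall (0 : Euc (Fin m)) |R|).of_isClosed_subset
      (isClosed_le hpc continuous_const) fun x hx => ?_
    rw [mem_closedBall_zero_iff]
    have h2 : N x ≤ 1 := hx
    have h3 := apply_nonneg N x
    have h4 := abs_nonneg R
    nlinarith [hR x, le_abs_self R]
  have hK : IsCompact (Set.pi Set.univ fun _ : Fin m => {x | N x ≤ 1}) :=
    isCompact_univ_pi fun _ => hB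
  have hdc : Continuous fun v : Fin m → Euc (Fin m) => |b0.det v| := by
    refine Continuous.abs ?_
    change Continuous fun v => Matrix.det (b0.toMatrix v)
    refine Continuous.matrix_det (continuous_matrix fun i j => ?_)
    exact (b0.coord i).continuous_of_finiteDimensional.comp (continuous_apply j)
  have hscale : ∀ x, N ((1 + N x)⁻¹ • x) ≤ 1 := by
    intro x
    have h0 := apply_nonneg N x
    rw [map_smul_eq_mul, Real.norm_eq_abs, abs_of_pos (by positivity), ← div_eq_inv_mul,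
      div_le_one (by positivity)]
    linarith
  have hmem : (fun i => (1 + N (b0 i))⁻¹ • b0 i) ∈
      Set.pi Set.univ fun _ : Fin m => {x | N x ≤ 1} := fun i _ => hscale _
  obtain ⟨v, hv, hmax⟩ := hK.exists_isMaxOn ⟨_, hmem⟩ hdc.continuousOn
  have hpos : 0 < |b0.det v| := by
    refine lt_of_lt_of_le ?_ (hmax hmem)
    have h1 : b0.det (fun i => (1 + N (b0 i))⁻¹ • b0 i) = ∏ i, (1 + N (b0 i))⁻¹ := by
      have := b0.det.map_smul_univ (fun i => (1 + N (b0 i))⁻¹) b0
      rw [this, b0.det_self, smul_eq_mul, mul_one]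
    change 0 < |b0.det (fun i => (1 + N (b0 i))⁻¹ • b0 i)|
    rw [h1]
    refine abs_pos.2 (Finset.prod_pos fun i _ => ?_).ne'
    have := apply_nonneg N (b0 i)
    positivity
  obtain ⟨hli, hsp⟩ := (b0.is_basis_iff_det (v := v)).2 (isUnit_iff_ne_zero.2 (abs_pos.1 hpos))
  set b := Module.Basis.mk hli hsp.ge with hb
  have hcr : ∀ z i, b0.det v * b.repr z i = b0.det (Function.update v i z) := fun z i =>
    LinearMap.congr_fun (b0.det_smul_mk_coord_eq_det_update hli hsp.ge i) z
  have hone : ∀ z i, N z ≤ 1 → |b.repr z i| ≤ 1 := by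
    intro z i hz
    have hm : Function.update v i z ∈ Set.pi Set.univ fun _ : Fin m => {x | N x ≤ 1} := by
      intro j _
      rcases eq_or_ne j i with rfl | hj
      · rw [Function.update_self]; exact hz
      · rw [Function.update_of_ne hj]; exact hv j trivial
    have h1 : |b0.det (Function.update v i z)| ≤ |b0.det v| := hmax hm
    rw [← hcr, abs_mul] at h1
    exact (mul_le_iff_le_one_right hpos).1 h1
  have hco : ∀ x i, |b.repr x i| ≤ N x := by
    intro x i
    rcases (apply_nonneg N x).eq_or_lt with h0 | h0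
    · have : x = 0 := norm_le_zero_iff.1 (by simpa [← h0] using hR x)
      rw [← h0, this, map_zero, Finsupp.zero_apply, abs_zero]
    · have h1 := hone ((N x)⁻¹ • x) i (by
        rw [map_smul_eq_mul, Real.norm_eq_abs, abs_of_pos (inv_pos.2 h0), inv_mul_cancel₀ h0.ne'])
      rw [map_smul, Finsupp.smul_apply, smul_eq_mul, abs_mul, abs_of_pos (inv_pos.2 h0),
        ← div_eq_inv_mul, div_le_one h0] at h1
      exact h1
  let A : Euc (Fin m) →ₗ[ℝ] Euc (Fin m) :=
    (WithLp.linearEquiv 2 ℝ (Fin m → ℝ)).symm.toLinearMap ∘ₗ b.equivFun.toLinearMap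
  have hA : ∀ y i, A y i = b.repr y i := fun y i => rfl
  refine ⟨LinearMap.toContinuousLinearMap A, fun y => ?_⟩
  change ‖A y‖ ≤ _ ∧ _ ≤ _ * ‖A y‖
  have h0 := apply_nonneg N y
  have hn : ‖A y‖ ^ 2 = ∑ i, |b.repr y i| ^ 2 := by
    rw [EuclideanSpace.norm_sq_eq]
    simp only [hA, Real.norm_eq_abs]
  constructor
  · refine (pow_le_pow_iff_left₀ (by positivity) (by positivity) two_ne_zero).1 ?_
    rw [hn, mul_pow, Real.sq_sqrt (Nat.cast_nonneg _)]
    calc _ ≤ ∑ _i : Fin m, N y ^ 2 := Finset.sum_le_sum fun i _ => by gcongr; exact hco y i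
      _ = _ := by simp
  · have h1 : N y ≤ ∑ i, |b.repr y i| := by
      conv_lhs => rw [← b.sum_repr y]
      refine (Finset.le_sum_of_subadditive N (map_zero N).le (map_add_le_add N) _ _).trans
        (Finset.sum_le_sum fun i _ => ?_)
      rw [map_smul_eq_mul, Real.norm_eq_abs]
      have : N (b i) ≤ 1 := by rw [hb, Module.Basis.mk_apply]; exact hv i trivial
      exact mul_le_of_le_one_right (abs_nonneg _) this
    refine h1.trans ((pow_le_pow_iff_left₀ (by positivity) (by positivity) two_ne_zero).1 ?_)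
    rw [mul_pow, Real.sq_sqrt (Nat.cast_nonneg _), hn]
    simpa using sq_sum_le_card_mul_sum_sq (s := Finset.univ) (f := fun i => |b.repr y i|)

end

end Crest.Agent.R152
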