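import Crest.Agent.R152.KOp
import Crest.Agent.R152.KNu

/-!
# R152/KConv

Gaussian K-convexity (Pisier).

Helper lemmas: prefix `kconv_`.
-/

set_option autoImplicit false
set_option linter.unusedVariables false
set_option linter.unusedSectionVars false

namespace Crest.Agent.R152

open Crest.FinProb Crest.ProbabilityR.SignMatrix MeasureTheory ProbabilityTheory Filter Module
open scoped RealInnerProductSpace ENNReal Matrix Topology

noncomputable section

variable {m : ℕ}

theorem kconv_cont (N : Seminorm ℝ (Euc (Fin m))) {C : ℝ} (hC : ∀ x, N x ≤ C * ‖x‖) : Continuous N := by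
  have key : ∀ x y, N x ≤ N y + (|C|) * dist x y := by
    intro x y
    have h1 : N x ≤ N y + N (x - y) := by
      have := map_add_le_add N y (x - y)
      rwa [add_sub_cancel] at this
    have h2 := hC (x - y)
    have h3 := mul_le_mul_of_nonneg_right (le_abs_self C) (norm_nonneg (x - y))
    rw [dist_eq_norm]
    linarith
  exact (LipschitzWith.of_le_add_mul ⟨|C|, abs_nonneg C⟩ key).continuous

theorem kconv_bd (N : Seminorm ℝ (Euc (Fin m))) {R : ℝ} (hR : ∀ x, ‖x‖ ≤ R * N x)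
    (f : Euc (Fin m) → Euc (Fin m)) (h1 : ∀ x, N (f x) ≤ 1) (x : Euc (Fin m)) : ‖f x‖ ≤ |R| := by
  have h2 := hR (f x)
  have h3 := mul_le_mul_of_nonneg_right (le_abs_self R) (apply_nonneg N (f x))
  have h4 := mul_le_mul_of_nonneg_left (h1 x) (abs_nonneg R)
  linarith

theorem kconv_int {F : Type} [NormedAddCommGroup F] [MeasurableSpace F] [BorelSpace F] [SecondCountableTopology F]
    (f : Euc (Fin m) → F) (hf : Measurable f) {B : ℝ} (hB : ∀ x, ‖f x‖ ≤ B) (t : ℝ) (x : Euc (Fin m)) :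
    Integrable (fun y => f (t • x + √(1 - t ^ 2) • y)) (gam m) :=
  Integrable.of_bound (Measurable.aestronglyMeasurable (hf.comp (by fun_prop))) B (ae_of_all _ fun y => hB _)

theorem kconv_memLp (φ : Euc (Fin m) → ℝ) (hφ : Measurable φ) {B : ℝ} (hB : ∀ x, |φ x| ≤ B) (t : ℝ) :
    MemLp (ou t φ) 2 (gam m) := by
  have hm : StronglyMeasurable (ou t φ) := by
    have : StronglyMeasurable fun z : Euc (Fin m) × Euc (Fin m) => φ (t • z.1 + √(1 - t ^ 2) • z.2) :=
      (hφ.comp (by fun_prop)).stronglyMeasurable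
    exact this.integral_prod_right'
  refine MemLp.of_bound hm.aestronglyMeasurable B (ae_of_all _ fun x => ?_)
  exact (norm_integral_le_of_norm_le_const (C := B) (ae_of_all _ fun y => hB _)).trans (by simp)

theorem kconv_sq_le (M : ℕ) : M ^ 2 ≤ 2 * 2 ^ M := by
  induction M with
  | zero => simp
  | succ n ih =>
    have h := Nat.lt_two_pow_self (n := n)
    rw [pow_succ 2 n]
    nlinarith

theorem kconv_M (m : ℕ) : ∃ M : ℕ, 0 < M ∧ (M : ℝ) ≤ 8 * Real.log (m + 2) ∧ (m : ℝ) * (4 * M ^ 2 / 4 ^ M) ≤ 1 := by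
  refine ⟨Nat.log 2 m + 4, by omega, ?_, ?_⟩
  · have h1 : (2 : ℝ) ^ Nat.log 2 m ≤ m + 2 := by
      rcases Nat.eq_zero_or_pos m with rfl | hm
      · simp
      · have : ((2 ^ Nat.log 2 m : ℕ) : ℝ) ≤ m := by exact_mod_cast Nat.pow_log_le_self 2 hm.ne'
        push_cast at this
        linarith
    have h2 := Real.log_le_log (by positivity) h1
    rw [Real.log_pow] at h2
    have h3 : Real.log 2 ≤ Real.log (m + 2) := Real.log_le_log two_pos (by linarith [Nat.cast_nonneg (α := ℝ) m])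
    have h4 := Real.log_two_gt_d9
    push_cast
    nlinarith [Nat.cast_nonneg (α := ℝ) (Nat.log 2 m)]
  · set M := Nat.log 2 m + 4 with hM
    have h1 : m < 2 ^ (Nat.log 2 m + 1) := Nat.lt_pow_succ_log_self one_lt_two m
    have h2 : 8 * m ≤ 2 ^ M := by
      rw [hM, show Nat.log 2 m + 4 = (Nat.log 2 m + 1) + 3 from rfl, pow_add]
      omega
    have h3 : m * (4 * M ^ 2) ≤ 4 ^ M := by
      calc m * (4 * M ^ 2) ≤ m * (4 * (2 * 2 ^ M)) := by gcongr; exact kconv_sq_le M
        _ = (8 * m) * 2 ^ M := by ring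
        _ ≤ 2 ^ M * 2 ^ M := by gcongr
        _ = 4 ^ M := by rw [← mul_pow]; rfl
    rw [← mul_div_assoc, div_le_one (by positivity)]
    exact_mod_cast h3

/-- Jensen for a continuous seminorm (`Seminorm` is convex: `ConvexOn.map_integral_le`, or Hahn-Banach), Cauchy-Schwarz
and `gam_prod_map`. -/
theorem integral_ou_sq_le (N : Seminorm ℝ (Euc (Fin m))) {R C : ℝ} (hR : ∀ x, ‖x‖ ≤ R * N x) (hC : ∀ x, N x ≤ C * ‖x‖)
    (f : Euc (Fin m) → Euc (Fin m)) (hf : Measurable f) (h1 : ∀ x, N (f x) ≤ 1) (t : ℝ) (x : Euc (Fin m)) :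
    N (ou t f x) ≤ 1 := by
  have hc : Convex ℝ {y : Euc (Fin m) | N y ≤ 1} := by
    simpa using N.convexOn.convex_le 1
  exact hc.integral_mem (isClosed_le (kconv_cont N hC) continuous_const) (ae_of_all _ fun y => h1 _)
    (kconv_int f hf (kconv_bd N hR f h1) t x)

/-- `T x = ∫ ⟪y, x⟫ f y`.  Take `M` with `4M²/4^M ≤ 1/m`, `M ≤ C log (m+2)`, the measure of `exists_nu`, and `A` of `exists_auerbach`.
`T x = ∑ c j ou (t j) f x - B x`; `N (∑ c j ou (t j) f x) ≤ 4M²` (`integral_ou_sq_le`); each coordinate of `A (B x)` is the function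
of `spectral_bound` for `φ = (A (f ·)) i`, so `∫ N (B x)² ≤ m ∑_i β² ∫ φ_i² ≤ m β² m ≤ 1`. -/
theorem kconvex : ∃ C₀ : ℝ, 0 < C₀ ∧ ∀ (m : ℕ) (N : Seminorm ℝ (Euc (Fin m))) (R C : ℝ), (∀ x, ‖x‖ ≤ R * N x) →
    (∀ x, N x ≤ C * ‖x‖) → ∀ f : Euc (Fin m) → Euc (Fin m), Measurable f → (∀ x, N (f x) ≤ 1) →
    ∫ x, N (∫ y, ⟪y, x⟫ • f y ∂gam m) ^ 2 ∂gam m ≤ (C₀ * Real.log (m + 2) ^ 2) ^ 2 := by
  refine ⟨384, by norm_num, fun m N R C hR hC f hf h1 => ?_⟩
  obtain ⟨M, hM0, hML, hMβ⟩ := kconv_M m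
  obtain ⟨c, t, ht, hc, hct, hβ⟩ := exists_nu M hM0
  obtain ⟨A, hA⟩ := exists_auerbach N hR hC
  set β : ℝ := 4 * M ^ 2 / 4 ^ M with hβd
  have hβ0 : 0 ≤ β := by positivity
  have hfb := kconv_bd N hR f h1
  have hn : Integrable (fun z : Euc (Fin m) => ‖z‖) (gam m) := (IsGaussian.integrable_id (μ := gam m)).norm
  let L : Fin m → Euc (Fin m) →L[ℝ] ℝ := fun i => (EuclideanSpace.proj i).comp A
  have hL : ∀ i y, L i y = A y i := fun i y => rfl
  let φ : Fin m → Euc (Fin m) → ℝ := fun i y => L i (f y)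
  have hφm : ∀ i, Measurable (φ i) := fun i => (L i).continuous.measurable.comp hf
  have hAf : ∀ y, ‖A (f y)‖ ≤ √m := fun y =>
    (hA _).1.trans (by simpa using mul_le_mul_of_nonneg_left (h1 y) (Real.sqrt_nonneg (m : ℝ)))
  have hφb : ∀ i y, |φ i y| ≤ √m := fun i y => (PiLp.norm_apply_le (A (f y)) i).trans (hAf y)
  let ψ : Fin m → Euc (Fin m) → ℝ := fun i x => ∑ j, c j * ou (t j) (φ i) x - ⟪∫ y, φ i y • y ∂gam m, x⟫
  have hψ2 : ∀ i, Integrable (fun x => ψ i x ^ 2) (gam m) := by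
    intro i
    refine MemLp.integrable_sq (MemLp.sub ?_ ?_)
    · exact memLp_finsetSum _ fun j _ => (kconv_memLp _ (hφm i) (hφb i) _).const_mul _
    · exact (innerSL ℝ _).comp_memLp' IsGaussian.memLp_two_id
  have hφ2 : ∀ i, Integrable (fun x => φ i x ^ 2) (gam m) := fun i =>
    (MemLp.of_bound (hφm i).aestronglyMeasurable √m (ae_of_all _ fun x => hφb i x)).integrable_sq
  have hsp : ∀ i, ∫ x, ψ i x ^ 2 ∂gam m ≤ β ^ 2 * ∫ x, φ i x ^ 2 ∂gam m := fun i =>
    spectral_bound c t (fun j => (ht j).trans (by norm_num)) hct hβ (φ i) (hφm i) (hφb i)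
  have hsum : ∑ i, ∫ x, φ i x ^ 2 ∂gam m ≤ m := by
    rw [← integral_finsetSum _ fun i _ => hφ2 i]
    refine (integral_mono (integrable_finsetSum _ fun i _ => hφ2 i) (integrable_const (m : ℝ)) fun x => ?_).trans
      (by simp)
    have h2 := pow_le_pow_left₀ (norm_nonneg _) (hAf x) 2
    rw [Real.sq_sqrt (Nat.cast_nonneg _), EuclideanSpace.real_norm_sq_eq] at h2
    exact h2
  have hpt : ∀ x, N (∫ y, ⟪y, x⟫ • f y ∂gam m) ^ 2 ≤ 2 * (4 * M ^ 2) ^ 2 + 2 * (m * ∑ i, ψ i x ^ 2) := by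
    intro x
    set T := ∫ y, ⟪y, x⟫ • f y ∂gam m with hT
    set S := ∑ j, c j • ou (t j) f x with hS
    have hNS : N S ≤ 4 * M ^ 2 := by
      refine le_trans ?_ hc
      refine (Finset.le_sum_of_subadditive N (map_zero N).le (map_add_le_add N) _ _).trans
        (Finset.sum_le_sum fun j _ => ?_)
      rw [map_smul_eq_mul, Real.norm_eq_abs]
      simpa using mul_le_mul_of_nonneg_left (integral_ou_sq_le N hR hC f hf h1 (t j) x) (abs_nonneg (c j))
    have hiT : Integrable (fun y => ⟪y, x⟫ • f y) (gam m) := by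
      refine (hn.mul_const (‖x‖ * |R|)).mono'
        (Measurable.aestronglyMeasurable (by fun_prop)) (ae_of_all _ fun y => ?_)
      rw [norm_smul, ← mul_assoc]
      exact mul_le_mul (abs_real_inner_le_norm _ _) (hfb y) (norm_nonneg _) (by positivity)
    have hco : ∀ i, A (S - T) i = ψ i x := by
      intro i
      rw [← hL, map_sub, hS, map_sum, hT, ← (L i).integral_comp_comm hiT]
      have hi : Integrable (fun y => φ i y • y) (gam m) := by
        refine (hn.const_mul √m).mono'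
          (Measurable.aestronglyMeasurable ((hφm i).smul measurable_id)) (ae_of_all _ fun y => ?_)
        rw [norm_smul]
        exact mul_le_mul_of_nonneg_right (hφb i y) (norm_nonneg _)
      simp only [ψ]
      congr 1
      · refine Finset.sum_congr rfl fun j _ => ?_
        rw [map_smul, smul_eq_mul, ou, ← (L i).integral_comp_comm (kconv_int f hf hfb (t j) x)]
        rfl
      · rw [real_inner_comm, ← integral_inner hi]
        refine integral_congr_ae (ae_of_all _ fun y => ?_)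
        simp only [map_smul, inner_smul_right, smul_eq_mul, φ]
        rw [real_inner_comm, mul_comm]
    have hB : N (S - T) ^ 2 ≤ m * ∑ i, ψ i x ^ 2 := by
      have h2 := pow_le_pow_left₀ (apply_nonneg N _) (hA (S - T)).2 2
      rw [mul_pow, Real.sq_sqrt (Nat.cast_nonneg _), EuclideanSpace.real_norm_sq_eq] at h2
      simpa only [hco] using h2
    have h3 : N T ≤ N S + N (S - T) := by
      have := map_sub_le_add N S (S - T)
      rwa [sub_sub_cancel] at this
    have h4 : N T ≤ 4 * M ^ 2 + N (S - T) := by linarith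
    have h5 := pow_le_pow_left₀ (apply_nonneg N _) h4 2
    nlinarith [sq_nonneg (4 * (M : ℝ) ^ 2 - N (S - T))]
  have hI : Integrable (fun x => 2 * ((m : ℝ) * ∑ i, ψ i x ^ 2)) (gam m) :=
    ((integrable_finsetSum _ fun i _ => hψ2 i).const_mul _).const_mul _
  have hM1 : (1 : ℝ) ≤ M := by exact_mod_cast hM0
  calc _ ≤ ∫ x, (2 * (4 * (M : ℝ) ^ 2) ^ 2 + 2 * (m * ∑ i, ψ i x ^ 2)) ∂gam m :=
        integral_mono_of_nonneg (ae_of_all _ fun x => sq_nonneg _) ((integrable_const _).add hI) (ae_of_all _ hpt)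
    _ = 2 * (4 * (M : ℝ) ^ 2) ^ 2 + 2 * (m * ∑ i, ∫ x, ψ i x ^ 2 ∂gam m) := by
        rw [integral_add (integrable_const _) hI, integral_const_mul, integral_const_mul, integral_const_mul,
          integral_finsetSum _ fun i _ => hψ2 i]
        simp
    _ ≤ 2 * (4 * (M : ℝ) ^ 2) ^ 2 + 2 * 1 := by
        have h6 : ∑ i, ∫ x, ψ i x ^ 2 ∂gam m ≤ β ^ 2 * m := by
          refine (Finset.sum_le_sum fun i _ => hsp i).trans ?_
          rw [← Finset.mul_sum]
          exact mul_le_mul_of_nonneg_left hsum (sq_nonneg _)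
        have h7 := mul_le_mul_of_nonneg_left h6 (Nat.cast_nonneg (α := ℝ) m)
        have h8 : (m * β) ^ 2 ≤ 1 := pow_le_one₀ (by positivity) hMβ
        nlinarith
    _ ≤ (6 * (M : ℝ) ^ 2) ^ 2 := by
        have : (1 : ℝ) ≤ M ^ 4 := one_le_pow₀ hM1
        nlinarith
    _ ≤ _ := by
        have := pow_le_pow_left₀ (Nat.cast_nonneg M) hML 2
        exact pow_le_pow_left₀ (by positivity) (by nlinarith) 2

end

end Crest.Agent.R152
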