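import Crest.Agent.R152.KExp

/-!
# R152/KDen

Density of the characters in `L²(γ)`.

Helper lemmas: prefix `kden_`.
-/

set_option autoImplicit false
set_option linter.unusedVariables false
set_option linter.unusedSectionVars false

namespace Crest.Agent.R152

open Crest.FinProb Crest.ProbabilityR.SignMatrix MeasureTheory ProbabilityTheory Filter Module
open scoped RealInnerProductSpace ENNReal Matrix Topology

noncomputable section

variable {m : ℕ}

theorem kden_cont (a : Euc (Fin m)) : Continuous (chr a) := by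
  unfold chr
  fun_prop

theorem kden_norm_chr (a x : Euc (Fin m)) : ‖chr a x‖ = Real.exp (‖a‖ ^ 2 / 2) := by
  rw [chr, Complex.norm_exp]
  congr 1
  simp [← Complex.ofReal_pow]

theorem kden_memLp_chr (a : Euc (Fin m)) : MemLp (chr a) 2 (gam m) :=
  MemLp.of_bound (kden_cont a).aestronglyMeasurable _ (ae_of_all _ fun x => (kden_norm_chr a x).le)

theorem kden_conj (a x : Euc (Fin m)) : (starRingEnd ℂ) (chr a x) = chr (-a) x := by
  simp [chr, ← Complex.exp_conj, ← Complex.ofReal_pow, map_ofNat]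

theorem kden_charFun (ψ : Euc (Fin m) → ℝ) (hψ : Integrable ψ (gam m)) (a : Euc (Fin m)) :
    Complex.exp (‖a‖ ^ 2 / 2) * charFun ((gam m).withDensity fun x => ENNReal.ofReal (ψ x)) a =
      ∫ x, ((max (ψ x) 0 : ℝ) : ℂ) * chr a x ∂gam m := by
  rw [charFun_apply, integral_withDensity_eq_integral_toReal_smul₀ hψ.aemeasurable.ennreal_ofReal
    (ae_of_all _ fun x => ENNReal.ofReal_lt_top), ← integral_const_mul]
  refine integral_congr_ae (ae_of_all _ fun x => ?_)
  simp only [ENNReal.toReal_ofReal', chr, Complex.exp_add, Complex.real_smul, real_inner_comm a x,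
    mul_comm Complex.I]
  ring

/-- The finite measures `ψ₊ γ` and `ψ₋ γ` have the same characteristic function (`Measure.ext_of_charFun`). -/
theorem ae_zero_of_integral_chr (ψ : Euc (Fin m) → ℝ) (hψ : Integrable ψ (gam m))
    (h : ∀ a, ∫ x, (ψ x : ℂ) * chr a x ∂gam m = 0) : ψ =ᵐ[gam m] 0 := by
  have f1 := isFiniteMeasure_withDensity_ofReal hψ.2
  have f2 : IsFiniteMeasure ((gam m).withDensity fun x => ENNReal.ofReal (-ψ x)) :=
    isFiniteMeasure_withDensity_ofReal hψ.neg.2
  have hi : ∀ (φ : Euc (Fin m) → ℝ) (a : Euc (Fin m)), Integrable φ (gam m) →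
      Integrable (fun x => ((max (φ x) 0 : ℝ) : ℂ) * chr a x) (gam m) := fun φ a hφ =>
    hφ.pos_part.ofReal.mul_bdd (kden_cont a).aestronglyMeasurable
      (ae_of_all _ fun x => (kden_norm_chr a x).le)
  have e : ((gam m).withDensity fun x => ENNReal.ofReal (ψ x)) =
      (gam m).withDensity fun x => ENNReal.ofReal (-ψ x) := by
    refine Measure.ext_of_charFun (funext fun a => ?_)
    refine mul_left_cancel₀ (Complex.exp_ne_zero (‖a‖ ^ 2 / 2)) ?_
    rw [kden_charFun ψ hψ, kden_charFun (fun x => -ψ x) hψ.neg, ← sub_eq_zero,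
      ← integral_sub (hi ψ a hψ) (hi (fun x => -ψ x) a hψ.neg), ← h a]
    refine integral_congr_ae (ae_of_all _ fun x => ?_)
    simp only [← sub_mul, ← Complex.ofReal_sub, max_zero_sub_max_neg_zero_eq_self]
  filter_upwards [(withDensity_eq_iff_of_sigmaFinite hψ.aemeasurable.ennreal_ofReal
    hψ.neg.aemeasurable.ennreal_ofReal).1 e] with x hx
  have h1 := congrArg ENNReal.toReal hx
  simp only [ENNReal.toReal_ofReal', Pi.neg_apply] at h1
  rw [← max_zero_sub_max_neg_zero_eq_self (ψ x), h1, sub_self]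
  rfl

theorem kden_dense : (Submodule.span ℂ (Set.range fun a : Euc (Fin m) =>
    (kden_memLp_chr a).toLp (chr a))).topologicalClosure = ⊤ := by
  rw [Submodule.topologicalClosure_eq_top_iff, Submodule.eq_bot_iff]
  intro f hf
  have h1 : ∀ a, ∫ x, f x * chr a x ∂gam m = 0 := fun a => by
    rw [← Submodule.inner_right_of_mem_orthogonal (Submodule.subset_span (Set.mem_range_self (-a))) hf,
      L2.inner_def]
    refine integral_congr_ae ?_
    filter_upwards [(kden_memLp_chr (-a)).coeFn_toLp] with x hx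
    rw [hx, RCLike.inner_apply, kden_conj, neg_neg]
  have h2 : ∀ a, ∫ x, (starRingEnd ℂ) (f x) * chr a x ∂gam m = 0 := fun a => by
    have := congrArg (starRingEnd ℂ) (h1 (-a))
    rw [← integral_conj, map_zero] at this
    simpa only [map_mul, kden_conj, neg_neg] using this
  have hf2 := Lp.memLp f
  have i1 : ∀ a, Integrable (fun x => f x * chr a x) (gam m) := fun a =>
    hf2.integrable_mul (kden_memLp_chr a)
  have i2 : ∀ a, Integrable (fun x => (starRingEnd ℂ) (f x) * chr a x) (gam m) := fun a =>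
    hf2.star.integrable_mul (kden_memLp_chr a)
  have hre := ae_zero_of_integral_chr (fun x => (f x).re) (hf2.integrable one_le_two).re fun a => by
    simp only [Complex.re_eq_add_conj, div_mul_eq_mul_div, add_mul]
    rw [integral_div, integral_add (i1 a) (i2 a), h1, h2, add_zero, zero_div]
  have him := ae_zero_of_integral_chr (fun x => (f x).im) (hf2.integrable one_le_two).im fun a => by
    simp only [Complex.im_eq_sub_conj, div_mul_eq_mul_div, sub_mul]
    rw [integral_div, integral_sub (i1 a) (i2 a), h1, h2, sub_zero, zero_div]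
  rw [Lp.eq_zero_iff_ae_eq_zero]
  filter_upwards [hre, him] with x h3 h4
  exact Complex.ext h3 h4

theorem kden_norm {α : Type*} [MeasurableSpace α] {μ : Measure α} (f : Lp ℂ 2 μ) :
    ‖f‖ ^ 2 = ∫ x, ‖f x‖ ^ 2 ∂μ := by
  have h := L2.inner_def (𝕜 := ℂ) f f
  simp only [inner_self_eq_norm_sq_to_K, ← RCLike.ofReal_pow, integral_ofReal] at h
  exact_mod_cast h

/-- In the Hilbert space `Lp ℂ 2 (gam m)` the span of the characters has trivial orthogonal complement (use `a` and `-a`
to separate real and imaginary parts), so it is dense (`Submodule.topologicalClosure_eq_top_iff`). -/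
theorem exists_approx (ψ : Euc (Fin m) → ℝ) (hψ : MemLp ψ 2 (gam m)) {ε : ℝ} (hε : 0 < ε) :
    ∃ (k : ℕ) (α : Fin k → ℂ) (a : Fin k → Euc (Fin m)),
      ∫ x, ‖(ψ x : ℂ) - ∑ i, α i * chr (a i) x‖ ^ 2 ∂gam m ≤ ε := by
  have hψc : MemLp (fun x => (ψ x : ℂ)) 2 (gam m) := hψ.ofReal
  have h1 : hψc.toLp _ ∈ closure ((Submodule.span ℂ (Set.range fun a : Euc (Fin m) =>
      (kden_memLp_chr a).toLp (chr a)) : Submodule ℂ (Lp ℂ 2 (gam m))) : Set (Lp ℂ 2 (gam m))) := by
    rw [← Submodule.topologicalClosure_coe, kden_dense]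
    trivial
  obtain ⟨g, hg, hd⟩ := Metric.mem_closure_iff.1 h1 _ (Real.sqrt_pos.2 hε)
  obtain ⟨k, α, b, rfl⟩ := Submodule.mem_span_set'.1 hg
  choose a ha using fun i => (b i).2
  refine ⟨k, α, a, ?_⟩
  rw [dist_eq_norm] at hd
  have h2 := pow_le_pow_left₀ (norm_nonneg _) hd.le 2
  rw [Real.sq_sqrt hε.le, kden_norm] at h2
  refine le_trans (le_of_eq (integral_congr_ae ?_)) h2
  filter_upwards [Lp.coeFn_sub (hψc.toLp _) (∑ i, α i • (b i : Lp ℂ 2 (gam m))), hψc.coeFn_toLp,
    Lp.coeFn_fun_finsetSum Finset.univ fun i => α i • (b i : Lp ℂ 2 (gam m)),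
    ae_all_iff.2 fun i => Lp.coeFn_smul (α i) (b i : Lp ℂ 2 (gam m)),
    ae_all_iff.2 fun i => (kden_memLp_chr (a i)).coeFn_toLp] with x h3 h4 h5 h6 h7
  rw [h3, Pi.sub_apply, h4, h5]
  simp only [h6, Pi.smul_apply, smul_eq_mul]
  simp only [← ha, h7]

end

end Crest.Agent.R152
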