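import Crest.Agent.R152.Defs

/-!
# R152/KExp

Characters `χ_a x = exp (i ⟪a, x⟫)` in `L²(γ)`: density and the spectral bound on their span.
With `E_a = exp (‖a‖²/2) χ_a`: `⟪E_a, E_b⟫ = exp ⟪a, b⟫`, the Mehler operator maps `E_a` to `E_{ta}`, and the projection on linear
functions maps `E_a` to `i ⟪a, ·⟫`.

Helper lemmas: prefix `kexp_`.
-/

set_option autoImplicit false
set_option linter.unusedVariables false
set_option linter.unusedSectionVars false

namespace Crest.Agent.R152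

open Crest.FinProb Crest.ProbabilityR.SignMatrix MeasureTheory ProbabilityTheory Filter Module
open scoped RealInnerProductSpace ENNReal Matrix Topology

noncomputable section

variable {m : ℕ}

/-- Normalised character. -/
def chr (a x : Euc (Fin m)) : ℂ := Complex.exp (‖a‖ ^ 2 / 2 + Complex.I * ⟪a, x⟫)

/-- The image of `chr a` under `∑ c j T_{t j} - P₁`. -/
def chrB {J : Type} [Fintype J] (c t : J → ℝ) (a x : Euc (Fin m)) : ℂ :=
  ∑ j, (c j : ℂ) * chr (t j • a) x - Complex.I * ⟪a, x⟫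

theorem kexp_char (a : Euc (Fin m)) :
    ∫ x, Complex.exp (Complex.I * (⟪a, x⟫ : ℝ)) ∂gam m = Complex.exp (-(‖a‖ : ℂ) ^ 2 / 2) := by
  rw [← charFun_stdGaussian, charFun_apply]
  refine integral_congr_ae (ae_of_all _ fun x => ?_)
  simp only [real_inner_comm a x, mul_comm]

theorem kexp_norm_exp (r : ℝ) : ‖Complex.exp (Complex.I * r)‖ = 1 := by
  rw [mul_comm, Complex.norm_exp_ofReal_mul_I]

theorem kexp_chr_eq (a x : Euc (Fin m)) :
    chr a x = (Real.exp (‖a‖ ^ 2 / 2) : ℝ) * Complex.exp (Complex.I * (⟪a, x⟫ : ℝ)) := by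
  rw [chr, Complex.exp_add]
  push_cast
  rfl

theorem kexp_norm_chr (a x : Euc (Fin m)) : ‖chr a x‖ = Real.exp (‖a‖ ^ 2 / 2) := by
  rw [kexp_chr_eq, norm_mul, kexp_norm_exp, mul_one, Complex.norm_real, Real.norm_of_nonneg (Real.exp_pos _).le]

theorem kexp_cont_chr (a : Euc (Fin m)) : Continuous (chr a) := by
  unfold chr
  fun_prop

theorem kexp_memLp_chr (a : Euc (Fin m)) : MemLp (chr a) 2 (gam m) :=
  MemLp.of_bound (kexp_cont_chr a).aestronglyMeasurable _ (ae_of_all _ fun x => (kexp_norm_chr a x).le)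

theorem kexp_memLp_inner (a : Euc (Fin m)) : MemLp (fun x => ⟪a, x⟫) 2 (gam m) :=
  (innerSL ℝ a).comp_memLp' IsGaussian.memLp_two_id

theorem kexp_memLp_innerC (a : Euc (Fin m)) : MemLp (fun x => ((⟪a, x⟫ : ℝ) : ℂ)) 2 (gam m) :=
  (kexp_memLp_inner a).ofReal

theorem kexp_int_conj_mul {u v : Euc (Fin m) → ℂ} (hu : MemLp u 2 (gam m)) (hv : MemLp v 2 (gam m)) :
    Integrable (fun x => (starRingEnd ℂ) (u x) * v x) (gam m) :=
  hu.star.integrable_mul hv

/-- `charFun_stdGaussian` at `b - a`. -/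
theorem integral_conj_chr_mul (a b : Euc (Fin m)) :
    ∫ x, (starRingEnd ℂ) (chr a x) * chr b x ∂gam m = Complex.exp (⟪a, b⟫ : ℝ) := by
  have h : ∀ x, (starRingEnd ℂ) (chr a x) * chr b x =
      Complex.exp (‖a‖ ^ 2 / 2 + ‖b‖ ^ 2 / 2) * Complex.exp (Complex.I * (⟪b - a, x⟫ : ℝ)) := by
    intro x
    rw [chr, chr, ← Complex.exp_conj, ← Complex.exp_add, ← Complex.exp_add, inner_sub_left]
    congr 1
    simp only [map_add, map_div₀, map_pow, Complex.conj_ofReal, map_mul, Complex.conj_I, map_ofNat]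
    push_cast
    ring
  simp_rw [h]
  rw [integral_const_mul, kexp_char, ← Complex.exp_add]
  congr 1
  have h2 : ‖b - a‖ ^ 2 = ‖b‖ ^ 2 - 2 * ⟪a, b⟫ + ‖a‖ ^ 2 := by rw [norm_sub_sq_real, real_inner_comm]
  rw [← Complex.ofReal_pow ‖b - a‖, h2]
  push_cast
  ring

/-- `∫ ⟪b, x⟫ exp (i ⟪a, x⟫) = i ⟪a, b⟫ exp (-‖a‖²/2)`: differentiate `s ↦ charFun (a + s b)` under the integral, or write
`b = λ a + b'` with `b' ⟂ a`, use the reflection fixing `a` and negating `b'` and a one-dimensional computation. -/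
theorem integral_inner_mul_chr (a b : Euc (Fin m)) :
    ∫ x, ((⟪b, x⟫ : ℝ) : ℂ) * chr a x ∂gam m = Complex.I * (⟪a, b⟫ : ℝ) := by
  have hn : Integrable (fun z : Euc (Fin m) => |⟪b, z⟫|) (gam m) :=
    ((kexp_memLp_inner b).integrable one_le_two).abs
  have key := hasDerivAt_integral_of_dominated_loc_of_deriv_le (μ := gam m) (𝕜 := ℝ) (x₀ := 0) (s := Set.univ)
    (F := fun (s : ℝ) x => Complex.exp (Complex.I * ((⟪a, x⟫ + s * ⟪b, x⟫ : ℝ) : ℂ)))
    (F' := fun (s : ℝ) x => Complex.exp (Complex.I * ((⟪a, x⟫ + s * ⟪b, x⟫ : ℝ) : ℂ)) * (Complex.I * (⟪b, x⟫ : ℝ)))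
    (bound := fun z => |⟪b, z⟫|) univ_mem
    (Eventually.of_forall fun s => Continuous.aestronglyMeasurable (by fun_prop))
    (Integrable.of_bound (Continuous.aestronglyMeasurable (by fun_prop)) 1
      (ae_of_all _ fun x => (kexp_norm_exp _).le))
    (Continuous.aestronglyMeasurable (by fun_prop))
    (ae_of_all _ fun x s _ => by
      rw [norm_mul, kexp_norm_exp, one_mul, norm_mul, Complex.norm_I, one_mul, Complex.norm_real, Real.norm_eq_abs])
    hn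
    (ae_of_all _ fun x s _ => by
      have h1 : HasDerivAt (fun s : ℝ => ⟪a, x⟫ + s * ⟪b, x⟫) ⟪b, x⟫ s := by
        simpa using ((hasDerivAt_id s).mul_const ⟪b, x⟫).const_add ⟪a, x⟫
      exact (h1.ofReal_comp.const_mul Complex.I).cexp)
  have e1 : (fun s : ℝ => ∫ x, Complex.exp (Complex.I * ((⟪a, x⟫ + s * ⟪b, x⟫ : ℝ) : ℂ)) ∂gam m) =
      fun s : ℝ => Complex.exp ((-(‖a‖ ^ 2 + 2 * (s * ⟪a, b⟫) + s ^ 2 * ‖b‖ ^ 2) / 2 : ℝ) : ℂ) := by
    funext s
    have h2 : ‖a + s • b‖ ^ 2 = ‖a‖ ^ 2 + 2 * (s * ⟪a, b⟫) + s ^ 2 * ‖b‖ ^ 2 := by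
      rw [norm_add_sq_real, inner_smul_right, norm_smul, mul_pow, Real.norm_eq_abs, sq_abs]
    have h3 := kexp_char (a + s • b)
    simp only [inner_add_left, real_inner_smul_left] at h3
    rw [h3, ← h2]
    push_cast
    rfl
  have h4 : HasDerivAt (fun s : ℝ => -(‖a‖ ^ 2 + 2 * (s * ⟪a, b⟫) + s ^ 2 * ‖b‖ ^ 2) / 2) (-⟪a, b⟫) 0 := by
    have := (((((hasDerivAt_id (0 : ℝ)).mul_const ⟪a, b⟫).const_mul 2).const_add (‖a‖ ^ 2)).add
      ((hasDerivAt_pow 2 (0 : ℝ)).mul_const (‖b‖ ^ 2))).neg.div_const 2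
    refine (this.congr_deriv ?_)
    simp
    ring
  have h5 := key.2
  rw [e1] at h5
  have h6 := h5.unique h4.ofReal_comp.cexp
  simp only [zero_mul, add_zero, mul_zero, ne_eq, OfNat.ofNat_ne_zero, not_false_eq_true, zero_pow] at h6
  have h7 : ∀ x, ((⟪b, x⟫ : ℝ) : ℂ) * chr a x = (-Complex.I * (Real.exp (‖a‖ ^ 2 / 2) : ℝ)) *
      (Complex.exp (Complex.I * ((⟪a, x⟫ : ℝ) : ℂ)) * (Complex.I * (⟪b, x⟫ : ℝ))) := by
    intro x
    rw [kexp_chr_eq]
    linear_combination (((⟪b, x⟫ : ℝ) : ℂ) * (Real.exp (‖a‖ ^ 2 / 2) : ℝ) *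
      Complex.exp (Complex.I * ((⟪a, x⟫ : ℝ) : ℂ))) * Complex.I_mul_I
  simp_rw [h7]
  rw [integral_const_mul, h6, ← Complex.ofReal_exp]
  have h8 : Real.exp (‖a‖ ^ 2 / 2) * Real.exp (-‖a‖ ^ 2 / 2) = 1 := by
    rw [← Real.exp_add, ← Real.exp_zero]; congr 1; ring
  have h9 : ((Real.exp (‖a‖ ^ 2 / 2) : ℝ) : ℂ) * (Real.exp (-‖a‖ ^ 2 / 2) : ℝ) = 1 := by exact_mod_cast h8
  rw [Complex.ofReal_neg]
  linear_combination (Complex.I * ((⟪a, b⟫ : ℝ) : ℂ)) * h9

theorem integral_inner_mul_inner (a b : Euc (Fin m)) : ∫ x, ⟪a, x⟫ * ⟪b, x⟫ ∂gam m = ⟪a, b⟫ := by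
  have h := covarianceBilin_apply (μ := gam m) IsGaussian.memLp_two_id a b
  rw [covarianceBilin_stdGaussian] at h
  have h0 : (gam m)[id] = 0 := integral_id_stdGaussian
  simp only [h0, sub_zero] at h
  exact h.symm

/-- `⟪a, b⟫^k = ∑_{i : Fin k → Fin m} ∏ a (i l) ∏ b (i l)` (`Finset.prod_univ_sum`), so the sum is a sum of squared moduli. -/
theorem kernel_pow_nonneg {I : Type} [Fintype I] (α : I → ℂ) (a : I → Euc (Fin m)) (k : ℕ) :
    0 ≤ (∑ i, ∑ i', (starRingEnd ℂ) (α i) * α i' * ((⟪a i, a i'⟫ : ℝ) : ℂ) ^ k).re := by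
  let z : (Fin k → Fin m) → ℂ := fun p => ∑ i, α i * ((∏ l, a i (p l) : ℝ) : ℂ)
  have h : ∑ i, ∑ i', (starRingEnd ℂ) (α i) * α i' * ((⟪a i, a i'⟫ : ℝ) : ℂ) ^ k =
      ∑ p, (starRingEnd ℂ) (z p) * z p := by
    have h1 : ∀ i i', ((⟪a i, a i'⟫ : ℝ) : ℂ) ^ k =
        ∑ p : Fin k → Fin m, ((∏ l, a i (p l) : ℝ) : ℂ) * ((∏ l, a i' (p l) : ℝ) : ℂ) := by
      intro i i'
      rw [← Complex.ofReal_pow, PiLp.inner_apply, Fintype.sum_pow, Complex.ofReal_sum]
      refine Finset.sum_congr rfl fun p _ => ?_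
      rw [← Complex.ofReal_mul, ← Finset.prod_mul_distrib]
      congr 1
      exact Finset.prod_congr rfl fun l _ => by simp [mul_comm]
    simp only [z, map_sum, map_mul, Complex.conj_ofReal, Finset.sum_mul_sum]
    rw [Finset.sum_comm (s := (Finset.univ : Finset (Fin k → Fin m)))]
    refine Finset.sum_congr rfl fun i _ => ?_
    rw [Finset.sum_comm (s := (Finset.univ : Finset (Fin k → Fin m)))]
    refine Finset.sum_congr rfl fun i' _ => ?_
    rw [h1, Finset.mul_sum]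
    exact Finset.sum_congr rfl fun p _ => by ring
  rw [h, Complex.re_sum]
  refine Finset.sum_nonneg fun p _ => ?_
  rw [← Complex.normSq_eq_conj_mul_self, Complex.ofReal_re]
  exact Complex.normSq_nonneg _

theorem kexp_norm_sq {I : Type} [Fintype I] (α : I → ℂ) (u : I → Euc (Fin m) → ℂ) (hu : ∀ i, MemLp (u i) 2 (gam m))
    (r : I → I → ℝ) (hr : ∀ i i', ∫ x, (starRingEnd ℂ) (u i x) * u i' x ∂gam m = r i i') :
    ∫ x, ‖∑ i, α i * u i x‖ ^ 2 ∂gam m = ∑ i, ∑ i', ((starRingEnd ℂ) (α i) * α i').re * r i i' := by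
  have hi : ∀ i i', Integrable (fun x => ((starRingEnd ℂ) (α i) * α i') * ((starRingEnd ℂ) (u i x) * u i' x)) (gam m) :=
    fun i i' => (kexp_int_conj_mul (hu i) (hu i')).const_mul _
  have h1 : ∀ x, ((‖∑ i, α i * u i x‖ ^ 2 : ℝ) : ℂ) =
      ∑ i, ∑ i', ((starRingEnd ℂ) (α i) * α i') * ((starRingEnd ℂ) (u i x) * u i' x) := by
    intro x
    rw [← Complex.normSq_eq_norm_sq, Complex.normSq_eq_conj_mul_self, map_sum, Finset.sum_mul_sum]
    exact Finset.sum_congr rfl fun i _ => Finset.sum_congr rfl fun i' _ => by rw [map_mul]; ring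
  have h2 : ((∫ x, ‖∑ i, α i * u i x‖ ^ 2 ∂gam m : ℝ) : ℂ) =
      ∑ i, ∑ i', ((starRingEnd ℂ) (α i) * α i') * (r i i' : ℂ) := by
    rw [← integral_complex_ofReal]
    simp_rw [h1]
    rw [integral_finsetSum _ fun i _ => integrable_finsetSum _ fun i' _ => hi i i']
    refine Finset.sum_congr rfl fun i _ => ?_
    rw [integral_finsetSum _ fun i' _ => hi i i']
    exact Finset.sum_congr rfl fun i' _ => by rw [integral_const_mul, hr]
  have h3 := congrArg Complex.re h2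
  rw [Complex.ofReal_re] at h3
  rw [h3, Complex.re_sum]
  refine Finset.sum_congr rfl fun i _ => ?_
  rw [Complex.re_sum]
  exact Finset.sum_congr rfl fun i' _ => Complex.re_mul_ofReal _ _

theorem kexp_memLp_chrB {J : Type} [Fintype J] (c t : J → ℝ) (a : Euc (Fin m)) : MemLp (chrB c t a) 2 (gam m) :=
  (memLp_finsetSum _ fun j _ => (kexp_memLp_chr (t j • a)).const_mul (c j : ℂ)).sub
    ((kexp_memLp_innerC a).const_mul Complex.I)

theorem kexp_int_chrB {J : Type} [Fintype J] (c t : J → ℝ) (h1 : ∑ j, c j * t j = 1) (a b : Euc (Fin m)) :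
    ∫ x, (starRingEnd ℂ) (chrB c t a x) * chrB c t b x ∂gam m =
      ((∑ j, ∑ j', c j * c j' * Real.exp (t j * t j' * ⟪a, b⟫) - ⟪a, b⟫ : ℝ) : ℂ) := by
  have h1C : ∑ j, (c j : ℂ) * t j = 1 := by exact_mod_cast h1
  let U : Euc (Fin m) → Euc (Fin m) → ℂ := fun a x => ∑ j, (c j : ℂ) * chr (t j • a) x
  have hU : ∀ a, MemLp (U a) 2 (gam m) := fun a =>
    memLp_finsetSum _ fun j _ => (kexp_memLp_chr (t j • a)).const_mul (c j : ℂ)
  have hlin : ∀ a b : Euc (Fin m), ∫ x, ((⟪a, x⟫ : ℝ) : ℂ) * U b x ∂gam m = Complex.I * (⟪a, b⟫ : ℝ) := by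
    intro a b
    have e : ∀ x, ((⟪a, x⟫ : ℝ) : ℂ) * U b x = ∑ j, (c j : ℂ) * (((⟪a, x⟫ : ℝ) : ℂ) * chr (t j • b) x) := by
      intro x
      simp only [U, Finset.mul_sum]
      exact Finset.sum_congr rfl fun j _ => by ring
    simp_rw [e]
    have hi : ∀ j, Integrable (fun x => (c j : ℂ) * (((⟪a, x⟫ : ℝ) : ℂ) * chr (t j • b) x)) (gam m) := fun j =>
      ((kexp_memLp_innerC a).integrable_mul (kexp_memLp_chr (t j • b))).const_mul (c j : ℂ)
    rw [integral_finsetSum _ fun j _ => hi j]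
    simp_rw [integral_const_mul, integral_inner_mul_chr, real_inner_smul_left, real_inner_comm a b]
    push_cast
    calc _ = (∑ j, (c j : ℂ) * t j) * (Complex.I * (⟪a, b⟫ : ℝ)) := by
          rw [Finset.sum_mul]; exact Finset.sum_congr rfl fun j _ => by ring
      _ = _ := by rw [h1C, one_mul]
  have hlin' : ∫ x, (starRingEnd ℂ) (U a x) * ((⟪b, x⟫ : ℝ) : ℂ) ∂gam m = -Complex.I * (⟪a, b⟫ : ℝ) := by
    have h := congrArg (starRingEnd ℂ) (hlin b a)
    rw [← integral_conj] at h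
    simp only [map_mul, Complex.conj_ofReal, Complex.conj_I, real_inner_comm a b] at h
    rw [← h]
    exact integral_congr_ae (ae_of_all _ fun x => mul_comm _ _)
  have hUU : ∫ x, (starRingEnd ℂ) (U a x) * U b x ∂gam m =
      ((∑ j, ∑ j', c j * c j' * Real.exp (t j * t j' * ⟪a, b⟫) : ℝ) : ℂ) := by
    have e : ∀ x, (starRingEnd ℂ) (U a x) * U b x =
        ∑ j, ∑ j', ((c j : ℂ) * c j') * ((starRingEnd ℂ) (chr (t j • a) x) * chr (t j' • b) x) := by
      intro x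
      simp only [U, map_sum, Finset.sum_mul_sum, map_mul, Complex.conj_ofReal]
      exact Finset.sum_congr rfl fun j _ => Finset.sum_congr rfl fun j' _ => by ring
    have hi : ∀ j j', Integrable (fun x => ((c j : ℂ) * c j') *
        ((starRingEnd ℂ) (chr (t j • a) x) * chr (t j' • b) x)) (gam m) :=
      fun j j' => (kexp_int_conj_mul (kexp_memLp_chr _) (kexp_memLp_chr _)).const_mul _
    simp_rw [e]
    rw [integral_finsetSum _ fun j _ => integrable_finsetSum _ fun j' _ => hi j j', Complex.ofReal_sum]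
    refine Finset.sum_congr rfl fun j _ => ?_
    rw [integral_finsetSum _ fun j' _ => hi j j', Complex.ofReal_sum]
    refine Finset.sum_congr rfl fun j' _ => ?_
    rw [integral_const_mul, integral_conj_chr_mul, real_inner_smul_left, real_inner_smul_right, ← mul_assoc]
    push_cast
    rfl
  have hLL : ∫ x, ((⟪a, x⟫ : ℝ) : ℂ) * ((⟪b, x⟫ : ℝ) : ℂ) ∂gam m = (⟪a, b⟫ : ℝ) := by
    rw [← integral_inner_mul_inner a b, ← integral_complex_ofReal]
    simp only [Complex.ofReal_mul]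
  have e : ∀ x, (starRingEnd ℂ) (chrB c t a x) * chrB c t b x =
      ((starRingEnd ℂ) (U a x) * U b x - Complex.I * ((starRingEnd ℂ) (U a x) * ((⟪b, x⟫ : ℝ) : ℂ))) +
        (Complex.I * (((⟪a, x⟫ : ℝ) : ℂ) * U b x) + ((⟪a, x⟫ : ℝ) : ℂ) * ((⟪b, x⟫ : ℝ) : ℂ)) := by
    intro x
    change (starRingEnd ℂ) (U a x - Complex.I * (⟪a, x⟫ : ℝ)) * (U b x - Complex.I * (⟪b, x⟫ : ℝ)) = _
    rw [map_sub, map_mul, Complex.conj_I, Complex.conj_ofReal]
    linear_combination (-((⟪a, x⟫ : ℝ) : ℂ) * ((⟪b, x⟫ : ℝ) : ℂ)) * Complex.I_mul_I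
  have i1 := kexp_int_conj_mul (hU a) (hU b)
  have i2 := (kexp_int_conj_mul (hU a) (kexp_memLp_innerC b)).const_mul Complex.I
  have i3 : Integrable (fun x => Complex.I * (((⟪a, x⟫ : ℝ) : ℂ) * U b x)) (gam m) :=
    ((kexp_memLp_innerC a).integrable_mul (hU b)).const_mul Complex.I
  have i4 : Integrable (fun x => ((⟪a, x⟫ : ℝ) : ℂ) * ((⟪b, x⟫ : ℝ) : ℂ)) (gam m) :=
    (kexp_memLp_innerC a).integrable_mul (kexp_memLp_innerC b)
  have i12 : Integrable (fun x => (starRingEnd ℂ) (U a x) * U b x -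
      Complex.I * ((starRingEnd ℂ) (U a x) * ((⟪b, x⟫ : ℝ) : ℂ))) (gam m) := i1.sub i2
  have i34 : Integrable (fun x => Complex.I * (((⟪a, x⟫ : ℝ) : ℂ) * U b x) +
      ((⟪a, x⟫ : ℝ) : ℂ) * ((⟪b, x⟫ : ℝ) : ℂ)) (gam m) := i3.add i4
  simp_rw [e]
  rw [integral_add i12 i34, integral_sub i1 i2, integral_add i3 i4, integral_const_mul, integral_const_mul,
    hlin, hlin', hUU, hLL, Complex.ofReal_sub]
  linear_combination (2 * ((⟪a, b⟫ : ℝ) : ℂ)) * Complex.I_mul_I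

theorem kexp_hasSum_exp (s : ℝ) : HasSum (fun k : ℕ => 1 / (k.factorial : ℝ) * s ^ k) (Real.exp s) := by
  rw [Real.exp_eq_exp_ℝ]
  simpa only [one_div, div_eq_inv_mul, mul_one] using NormedSpace.expSeries_div_hasSum_exp s

theorem kexp_hasSum_B {J : Type} [Fintype J] (c t : J → ℝ) (h1 : ∑ j, c j * t j = 1) (s : ℝ) :
    HasSum (fun k : ℕ => (if k = 1 then 0 else (∑ j, c j * t j ^ k) ^ 2) / (k.factorial : ℝ) * s ^ k)
      (∑ j, ∑ j', c j * c j' * Real.exp (t j * t j' * s) - s) := by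
  have h2 : HasSum (fun k : ℕ => ∑ j, ∑ j', c j * c j' * (1 / (k.factorial : ℝ) * (t j * t j' * s) ^ k))
      (∑ j, ∑ j', c j * c j' * Real.exp (t j * t j' * s)) :=
    hasSum_sum fun j _ => hasSum_sum fun j' _ => (kexp_hasSum_exp _).mul_left _
  refine (h2.sub (hasSum_ite_eq 1 s)).congr_fun fun k => ?_
  have e : ∑ j, ∑ j', c j * c j' * (1 / (k.factorial : ℝ) * (t j * t j' * s) ^ k) =
      (∑ j, c j * t j ^ k) ^ 2 / (k.factorial : ℝ) * s ^ k := by
    rw [sq, Finset.sum_mul_sum, Finset.sum_div, Finset.sum_mul]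
    refine Finset.sum_congr rfl fun j _ => ?_
    rw [Finset.sum_div, Finset.sum_mul]
    exact Finset.sum_congr rfl fun j' _ => by rw [mul_pow, mul_pow]; ring
  rw [e]
  split_ifs with hk
  · subst hk
    simp [h1]
  · simp

theorem kexp_hasSum_Q {I : Type} [Fintype I] (w s : I → I → ℝ) (g : ℕ → ℝ) (F : ℝ → ℝ)
    (h : ∀ s, HasSum (fun k : ℕ => g k * s ^ k) (F s)) :
    HasSum (fun k : ℕ => g k * ∑ i, ∑ i', w i i' * s i i' ^ k) (∑ i, ∑ i', w i i' * F (s i i')) := by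
  have h2 : HasSum (fun k : ℕ => ∑ i, ∑ i', w i i' * (g k * s i i' ^ k)) (∑ i, ∑ i', w i i' * F (s i i')) :=
    hasSum_sum fun i _ => hasSum_sum fun i' _ => (h _).mul_left _
  convert h2 using 2 with k
  simp only [Finset.mul_sum]
  exact Finset.sum_congr rfl fun j _ => Finset.sum_congr rfl fun j' _ => by ring

/-- With `s = ⟪a, b⟫`, `β_k = ∑ c j (t j)^k`: `∫ conj (chrB a) chrB b = ∑_{j j'} c j c j' exp (t j t j' s) - s = ∑_{k ≠ 1} β_k² s^k / k!`.
Sum against `conj (α i) α i'`, compare termwise with `β² ∑_k s^k / k!` using `kernel_pow_nonneg`. -/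
theorem spectral_span {J I : Type} [Fintype J] [Fintype I] (c t : J → ℝ) {β : ℝ} (h1 : ∑ j, c j * t j = 1)
    (hβ : ∀ k : ℕ, k ≠ 1 → |∑ j, c j * t j ^ k| ≤ β) (α : I → ℂ) (a : I → Euc (Fin m)) :
    ∫ x, ‖∑ i, α i * chrB c t (a i) x‖ ^ 2 ∂gam m ≤ β ^ 2 * ∫ x, ‖∑ i, α i * chr (a i) x‖ ^ 2 ∂gam m := by
  rw [kexp_norm_sq α (fun i => chrB c t (a i)) (fun i => kexp_memLp_chrB c t _) _
      (fun i i' => kexp_int_chrB c t h1 (a i) (a i')),
    kexp_norm_sq α (fun i => chr (a i)) (fun i => kexp_memLp_chr _) (fun i i' => Real.exp ⟪a i, a i'⟫)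
      (fun i i' => by rw [integral_conj_chr_mul, Complex.ofReal_exp])]
  let w : I → I → ℝ := fun i i' => ((starRingEnd ℂ) (α i) * α i').re
  have hQ : ∀ k : ℕ, 0 ≤ ∑ i, ∑ i', w i i' * ⟪a i, a i'⟫ ^ k := by
    intro k
    have h := kernel_pow_nonneg α a k
    simp only [Complex.re_sum, ← Complex.ofReal_pow, Complex.re_mul_ofReal] at h
    exact h
  have hA := kexp_hasSum_Q w (fun i i' => ⟪a i, a i'⟫) _ _ (kexp_hasSum_B c t h1)
  have hB := (kexp_hasSum_Q w (fun i i' => ⟪a i, a i'⟫) _ _ kexp_hasSum_exp).mul_left (β ^ 2)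
  refine hasSum_le (fun k => ?_) hA hB
  rw [← mul_assoc]
  refine mul_le_mul_of_nonneg_right ?_ (hQ k)
  rw [mul_one_div]
  refine div_le_div_of_nonneg_right ?_ (Nat.cast_nonneg _)
  split_ifs with hk
  · exact sq_nonneg _
  · rw [← sq_abs]
    exact pow_le_pow_left₀ (abs_nonneg _) (hβ k hk) 2

end

end Crest.Agent.R152
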