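import Crest.Agent.R152.KDen

/-!
# R152/KOp

The spectral bound for bounded measurable functions.

Helper lemmas: prefix `kop_`.
-/

set_option autoImplicit false
set_option linter.unusedVariables false
set_option linter.unusedSectionVars false

namespace Crest.Agent.R152

open Crest.FinProb Crest.ProbabilityR.SignMatrix MeasureTheory ProbabilityTheory Filter Module
open scoped RealInnerProductSpace ENNReal Matrix Topology

noncomputable section

variable {m : ℕ}

theorem kop_mp {t : ℝ} (ht : |t| ≤ 1) : MeasurePreserving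
    (fun z : Euc (Fin m) × Euc (Fin m) =>
      (t • z.1 + √(1 - t ^ 2) • z.2, √(1 - t ^ 2) • z.1 - t • z.2))
    ((gam m).prod (gam m)) ((gam m).prod (gam m)) := by
  have h1 : MeasurePreserving (ContinuousLinearMap.rotation (E := Euc (Fin m)) (Real.arccos t))
      ((gam m).prod (gam m)) ((gam m).prod (gam m)) :=
    ⟨(ContinuousLinearMap.continuous _).measurable,
      IsGaussian.map_rotation_eq_self integral_id_stdGaussian _⟩
  have h2 : MeasurePreserving (fun x : Euc (Fin m) => -x) (gam m) (gam m) :=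
    ⟨measurable_neg, stdGaussian_map (LinearIsometryEquiv.neg ℝ)⟩
  have h3 := ((MeasurePreserving.id (gam m)).prod h2).comp h1
  convert h3 using 1
  funext z
  simp only [Function.comp, ContinuousLinearMap.rotation_apply, Prod.map, id,
    Real.cos_arccos (abs_le.1 ht).1 (abs_le.1 ht).2, Real.sin_arccos, neg_smul, neg_add_rev, neg_neg]
  congr 1
  abel

/-- The rotation `(x, y) ↦ (t x + s y, s x - t y)`, `s = √(1 - t²)`, preserves `γ ⊗ γ` (characteristic functions; compare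
`Crest.Agent.R285.gam_lin`). -/
theorem gam_prod_rot {t : ℝ} (ht : |t| ≤ 1) :
    ((gam m).prod (gam m)).map (fun z => (t • z.1 + √(1 - t ^ 2) • z.2, √(1 - t ^ 2) • z.1 - t • z.2)) =
      (gam m).prod (gam m) :=
  (kop_mp ht).map_eq

theorem gam_prod_map {t : ℝ} (ht : |t| ≤ 1) :
    ((gam m).prod (gam m)).map (fun z => t • z.1 + √(1 - t ^ 2) • z.2) = gam m :=
  (measurePreserving_fst.comp (kop_mp ht)).map_eq

theorem kop_cont (a : Euc (Fin m)) : Continuous (chr a) := by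
  unfold chr
  fun_prop

theorem kop_norm_chr (a x : Euc (Fin m)) : ‖chr a x‖ = Real.exp (‖a‖ ^ 2 / 2) := by
  rw [chr, Complex.norm_exp]
  congr 1
  simp [← Complex.ofReal_pow]

theorem kop_int_chr (a : Euc (Fin m)) : ∫ x, chr a x ∂gam m = 1 := by
  simpa [chr] using integral_conj_chr_mul 0 a

theorem kop_memLp_chr (a : Euc (Fin m)) : MemLp (chr a) 2 (gam m) :=
  MemLp.of_bound (kop_cont a).aestronglyMeasurable _ (ae_of_all _ fun x => (kop_norm_chr a x).le)

/-- Self-adjointness against characters: with `u = t x + s y`, `u' = s x - t y` one has `x = t u + s u'`, and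
`∫ chr a (t u + s u') dγ(u') = chr (t a) u`. -/
theorem integral_ou_mul_chr (φ : Euc (Fin m) → ℝ) (hφ : Measurable φ) {C : ℝ} (hC : ∀ x, |φ x| ≤ C) {t : ℝ}
    (ht : |t| ≤ 1) (a : Euc (Fin m)) :
    ∫ x, ((ou t φ x : ℝ) : ℂ) * chr a x ∂gam m = ∫ x, (φ x : ℂ) * chr (t • a) x ∂gam m := by
  have hs : √(1 - t ^ 2) ^ 2 = 1 - t ^ 2 := Real.sq_sqrt (by nlinarith [abs_le.1 ht])
  have hR := kop_mp (m := m) ht
  unfold ou
  generalize √(1 - t ^ 2) = s at *
  have hF : Measurable fun z : Euc (Fin m) × Euc (Fin m) =>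
      ((φ z.1 : ℂ) * chr (t • a) z.1) * chr (s • a) z.2 :=
    ((Complex.measurable_ofReal.comp (hφ.comp measurable_fst)).mul
      ((kop_cont _).measurable.comp measurable_fst)).mul
      ((kop_cont _).measurable.comp measurable_snd)
  have e : ∀ x y : Euc (Fin m), chr (t • a) (t • x + s • y) * chr (s • a) (s • x - t • y) =
      chr a x := fun x y => by
    simp only [chr, ← Complex.exp_add, inner_add_right, inner_sub_right, real_inner_smul_left,
      real_inner_smul_right]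
    congr 1
    have h1 : ‖t • a‖ ^ 2 + ‖s • a‖ ^ 2 = ‖a‖ ^ 2 := by
      rw [norm_smul, norm_smul, mul_pow, mul_pow, Real.norm_eq_abs, Real.norm_eq_abs, sq_abs, sq_abs,
        hs]
      ring
    have h2 : ((‖t • a‖ : ℂ)) ^ 2 + (‖s • a‖ : ℂ) ^ 2 = (‖a‖ : ℂ) ^ 2 := by exact_mod_cast h1
    have h3 : (s : ℂ) ^ 2 = 1 - (t : ℂ) ^ 2 := by exact_mod_cast hs
    push_cast
    linear_combination h2 / 2 + Complex.I * (⟪a, x⟫ : ℝ) * h3
  have hi : Integrable (fun z : Euc (Fin m) × Euc (Fin m) => (φ (t • z.1 + s • z.2) : ℂ) * chr a z.1)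
      ((gam m).prod (gam m)) := by
    refine Integrable.of_bound (Measurable.aestronglyMeasurable ?_) (C * Real.exp (‖a‖ ^ 2 / 2))
      (ae_of_all _ fun z => ?_)
    · exact (Complex.measurable_ofReal.comp (hφ.comp (by fun_prop))).mul
        ((kop_cont _).measurable.comp measurable_fst)
    · rw [norm_mul, kop_norm_chr, Complex.norm_real, Real.norm_eq_abs]
      exact mul_le_mul_of_nonneg_right (hC _) (Real.exp_pos _).le
  calc _ = ∫ z, (φ (t • z.1 + s • z.2) : ℂ) * chr a z.1 ∂(gam m).prod (gam m) := by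
        rw [integral_prod _ hi]
        refine integral_congr_ae (ae_of_all _ fun x => ?_)
        simp only [integral_mul_const, integral_complex_ofReal]
    _ = ∫ z, ((φ z.1 : ℂ) * chr (t • a) z.1) * chr (s • a) z.2 ∂(gam m).prod (gam m) := by
        conv_rhs => rw [← hR.map_eq, integral_map hR.measurable.aemeasurable hF.aestronglyMeasurable]
        simp only [mul_assoc, e]
    _ = _ := by
        rw [integral_prod_mul (fun x => (φ x : ℂ) * chr (t • a) x) (chr (s • a)), kop_int_chr, mul_one]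

theorem kop_inner {α : Type*} [MeasurableSpace α] {μ : Measure α} {f g : α → ℂ} (hf : MemLp f 2 μ)
    (hg : MemLp g 2 μ) :
    inner ℂ (hf.toLp f) (hg.toLp g) = ∫ x, (starRingEnd ℂ) (f x) * g x ∂μ := by
  rw [L2.inner_def]
  refine integral_congr_ae ?_
  filter_upwards [hf.coeFn_toLp, hg.coeFn_toLp] with x h1 h2
  rw [h1, h2, RCLike.inner_apply']

theorem kop_norm {α : Type*} [MeasurableSpace α] {μ : Measure α} {f : α → ℂ} (hf : MemLp f 2 μ) :
    ‖hf.toLp f‖ ^ 2 = ∫ x, ‖f x‖ ^ 2 ∂μ := by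
  have h := kop_inner hf hf
  rw [inner_self_eq_norm_sq_to_K] at h
  simp only [Complex.conj_mul', ← Complex.ofReal_pow, integral_complex_ofReal] at h
  refine Complex.ofReal_injective (Eq.trans ?_ h)
  rw [Complex.ofReal_pow]
  rfl

theorem kop_memLp_inner (v : Euc (Fin m)) : MemLp (fun x => ⟪v, x⟫) 2 (gam m) :=
  IsGaussian.memLp_dual (gam m) (innerSL ℝ v) 2 (by simp)

theorem kop_memLp_ou (φ : Euc (Fin m) → ℝ) (hφ : Measurable φ) {C : ℝ} (hC : ∀ x, |φ x| ≤ C)
    (t : ℝ) : MemLp (ou t φ) 2 (gam m) := by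
  have h1 : Measurable fun z : Euc (Fin m) × Euc (Fin m) => φ (t • z.1 + √(1 - t ^ 2) • z.2) :=
    hφ.comp (by fun_prop)
  refine MemLp.of_bound (h1.stronglyMeasurable.integral_prod_right').aestronglyMeasurable C
    (ae_of_all _ fun x => ?_)
  simpa [ou] using norm_integral_le_of_norm_le_const (μ := gam m) (C := C)
    (f := fun y => φ (t • x + √(1 - t ^ 2) • y)) (ae_of_all _ fun y => hC _)

theorem kop_memLp_chrB {J : Type} [Fintype J] (c t : J → ℝ) (a : Euc (Fin m)) :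
    MemLp (chrB c t a) 2 (gam m) :=
  (memLp_finsetSum _ fun j _ => (kop_memLp_chr (t j • a)).const_mul (c j : ℂ)).sub
    ((kop_memLp_inner a).ofReal.const_mul Complex.I)

theorem kop_dual {J : Type} [Fintype J] (c t : J → ℝ) (ht : ∀ j, |t j| ≤ 1)
    (φ : Euc (Fin m) → ℝ) (hφ : Measurable φ) {C : ℝ} (hC : ∀ x, |φ x| ≤ C) (a : Euc (Fin m)) :
    ∫ x, ((∑ j, c j * ou (t j) φ x - ⟪∫ y, φ y • y ∂gam m, x⟫ : ℝ) : ℂ) * chr a x ∂gam m =
      ∫ x, (φ x : ℂ) * chrB c t a x ∂gam m := by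
  have hφ2 : MemLp φ 2 (gam m) := MemLp.of_bound hφ.aestronglyMeasurable C (ae_of_all _ hC)
  have i1 : ∀ j, Integrable (fun x => (c j : ℂ) * ((ou (t j) φ x : ℝ) * chr a x)) (gam m) := fun j =>
    ((kop_memLp_ou φ hφ hC (t j)).ofReal.integrable_mul (kop_memLp_chr a)).const_mul _
  have i2 : Integrable (fun x => ((⟪∫ y, φ y • y ∂gam m, x⟫ : ℝ) : ℂ) * chr a x) (gam m) :=
    (kop_memLp_inner _).ofReal.integrable_mul (kop_memLp_chr a)
  have i3 : ∀ j, Integrable (fun x => (c j : ℂ) * ((φ x : ℂ) * chr (t j • a) x)) (gam m) := fun j =>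
    (hφ2.ofReal.integrable_mul (kop_memLp_chr _)).const_mul _
  have i4 : Integrable (fun x => Complex.I * ((φ x * ⟪a, x⟫ : ℝ) : ℂ)) (gam m) :=
    (hφ2.integrable_mul (kop_memLp_inner a)).ofReal.const_mul _
  have i5 : Integrable (fun y => φ y • y) (gam m) :=
    Integrable.bdd_smul (IsGaussian.integrable_id (μ := gam m)) C hφ.aestronglyMeasurable
      (ae_of_all _ hC)
  have e1 : ∀ x, ((∑ j, c j * ou (t j) φ x - ⟪∫ y, φ y • y ∂gam m, x⟫ : ℝ) : ℂ) * chr a x =
      ∑ j, (c j : ℂ) * ((ou (t j) φ x : ℝ) * chr a x) -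
        ((⟪∫ y, φ y • y ∂gam m, x⟫ : ℝ) : ℂ) * chr a x := fun x => by
    push_cast
    rw [sub_mul, Finset.sum_mul]
    simp only [mul_assoc]
  have e2 : ∀ x, (φ x : ℂ) * chrB c t a x = ∑ j, (c j : ℂ) * ((φ x : ℂ) * chr (t j • a) x) -
      Complex.I * ((φ x * ⟪a, x⟫ : ℝ) : ℂ) := fun x => by
    rw [chrB, mul_sub, Finset.mul_sum]
    push_cast
    simp only [mul_left_comm]
  simp only [e1, e2]
  rw [integral_sub (integrable_finsetSum _ fun j _ => i1 j) i2,
    integral_sub (integrable_finsetSum _ fun j _ => i3 j) i4, integral_finsetSum _ fun j _ => i1 j,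
    integral_finsetSum _ fun j _ => i3 j, integral_inner_mul_chr, integral_const_mul,
    integral_complex_ofReal, ← integral_inner i5]
  simp only [integral_const_mul, integral_ou_mul_chr φ hφ hC (ht _), real_inner_smul_right]

/-- Let `ψ` be the function on the left (it is in `L²`).  For `g = ∑ α i chr (a i)`: `∫ ψ g = ∫ φ (∑ α i chrB (a i))`
(`integral_ou_mul_chr`, `integral_inner_mul_chr`), so `|∫ ψ g| ≤ β ‖φ‖₂ ‖g‖₂` (`spectral_span`).  Let `g → ψ` (`exists_approx`). -/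
theorem spectral_bound {J : Type} [Fintype J] (c t : J → ℝ) (ht : ∀ j, |t j| ≤ 1) {β : ℝ} (h1 : ∑ j, c j * t j = 1)
    (hβ : ∀ k : ℕ, k ≠ 1 → |∑ j, c j * t j ^ k| ≤ β) (φ : Euc (Fin m) → ℝ) (hφ : Measurable φ) {C : ℝ}
    (hC : ∀ x, |φ x| ≤ C) :
    ∫ x, (∑ j, c j * ou (t j) φ x - ⟪∫ y, φ y • y ∂gam m, x⟫) ^ 2 ∂gam m ≤ β ^ 2 * ∫ x, φ x ^ 2 ∂gam m := by
  have hβ0 : 0 ≤ β := (abs_nonneg _).trans (hβ 0 zero_ne_one)
  have hd := kop_dual c t ht φ hφ hC
  have hψ : MemLp (fun x => ∑ j, c j * ou (t j) φ x - ⟪∫ y, φ y • y ∂gam m, x⟫) 2 (gam m) :=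
    (memLp_finsetSum _ fun j _ => (kop_memLp_ou φ hφ hC (t j)).const_mul (c j)).sub
      (kop_memLp_inner _)
  obtain ⟨ψ, hψd⟩ : ∃ ψ : Euc (Fin m) → ℝ,
    ψ = fun x => ∑ j, c j * ou (t j) φ x - ⟪∫ y, φ y • y ∂gam m, x⟫ := ⟨_, rfl⟩
  have hψe : ∀ x, ∑ j, c j * ou (t j) φ x - ⟪∫ y, φ y • y ∂gam m, x⟫ = ψ x := fun x => by rw [hψd]
  simp only [hψe] at hd hψ ⊢
  have hφ2 : MemLp φ 2 (gam m) := MemLp.of_bound hφ.aestronglyMeasurable C (ae_of_all _ hC)
  have hψc : MemLp (fun x => (ψ x : ℂ)) 2 (gam m) := hψ.ofReal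
  have hφc : MemLp (fun x => (φ x : ℂ)) 2 (gam m) := hφ2.ofReal
  have n1 := kop_norm hψc
  have n2 := kop_norm hφc
  simp only [Complex.norm_real, Real.norm_eq_abs, sq_abs] at n1 n2
  rw [← n1, ← n2]
  have key : ∀ η : ℝ, 0 < η → ‖hψc.toLp _‖ ^ 2 ≤ ‖hψc.toLp _‖ * η +
      ‖hφc.toLp _‖ * (β * (‖hψc.toLp _‖ + η)) := fun η hη => by
    obtain ⟨k, α, a, ha⟩ := exists_approx ψ hψ (pow_pos hη 2)
    have hg : MemLp (fun x => ∑ i, α i * chr (a i) x) 2 (gam m) :=
      memLp_finsetSum _ fun i _ => (kop_memLp_chr (a i)).const_mul (α i)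
    have hb : MemLp (fun x => ∑ i, α i * chrB c t (a i) x) 2 (gam m) :=
      memLp_finsetSum _ fun i _ => (kop_memLp_chrB c t (a i)).const_mul (α i)
    have hs := spectral_span c t h1 hβ α a
    rw [← kop_norm hg, ← kop_norm hb, ← mul_pow] at hs
    have hs' := le_of_sq_le_sq hs (by positivity)
    have hn := kop_norm (hψc.sub hg)
    rw [MemLp.toLp_sub hψc hg] at hn
    have he : ‖hψc.toLp _ - hg.toLp _‖ ≤ η := le_of_sq_le_sq (hn.le.trans ha) hη.le
    have hi : inner ℂ (hψc.toLp _) (hg.toLp _) = inner ℂ (hφc.toLp _) (hb.toLp _) := by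
      rw [kop_inner, kop_inner]
      simp only [Complex.conj_ofReal, Finset.mul_sum, mul_left_comm _ (α _)]
      have j1 : ∀ i, Integrable (fun x => α i * ((ψ x : ℂ) * chr (a i) x)) (gam m) := fun i =>
        (hψc.integrable_mul (kop_memLp_chr (a i))).const_mul _
      have j2 : ∀ i, Integrable (fun x => α i * ((φ x : ℂ) * chrB c t (a i) x)) (gam m) := fun i =>
        (hφc.integrable_mul (kop_memLp_chrB c t (a i))).const_mul _
      rw [integral_finsetSum _ fun i _ => j1 i, integral_finsetSum _ fun i _ => j2 i]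
      simp only [integral_const_mul, hd]
    generalize hψc.toLp _ = Ψ at *
    generalize hφc.toLp _ = Φ at *
    generalize hg.toLp _ = G at *
    generalize hb.toLp _ = B at *
    have h2 : (inner ℂ Ψ Ψ : ℂ) = inner ℂ Ψ (Ψ - G) + inner ℂ Φ B := by
      rw [inner_sub_right, hi, sub_add_cancel]
    have h3 : ‖G‖ ≤ ‖Ψ‖ + η := by
      have := norm_sub_le Ψ (Ψ - G)
      rw [sub_sub_cancel] at this
      linarith
    calc ‖Ψ‖ ^ 2 = ‖(inner ℂ Ψ Ψ : ℂ)‖ := by
          rw [inner_self_eq_norm_sq_to_K, norm_pow, RCLike.norm_ofReal, abs_norm]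
      _ ≤ ‖Ψ‖ * ‖Ψ - G‖ + ‖Φ‖ * ‖B‖ := by
          rw [h2]
          exact (norm_add_le _ _).trans (add_le_add (norm_inner_le_norm _ _) (norm_inner_le_norm _ _))
      _ ≤ _ := by
          gcongr
          exact hs'.trans (mul_le_mul_of_nonneg_left h3 hβ0)
  have ha := norm_nonneg (hψc.toLp _)
  have hp := norm_nonneg (hφc.toLp _)
  generalize ‖hψc.toLp _‖ = a at *
  generalize ‖hφc.toLp _‖ = p at *
  have h2 : a ^ 2 ≤ a * (β * p) := le_of_forall_pos_le_add fun δ hδ => by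
    have h3 : 0 < a + β * p + 1 := by positivity
    have h4 := key _ (div_pos hδ h3)
    have h5 : δ / (a + β * p + 1) * (a + β * p + 1) = δ := div_mul_cancel₀ _ h3.ne'
    nlinarith [div_pos hδ h3]
  rw [← mul_pow]
  nlinarith [sq_nonneg (a - β * p)]

end

end Crest.Agent.R152
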