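import Crest.Agent.R152.L1

/-!
# R152/L2

Rational subspaces: integer points, covolume, adapted bases, submodularity, minimisers of the potential.

Helper lemmas: prefix `l2_`.
-/

set_option autoImplicit false
set_option linter.unusedVariables false
set_option linter.unusedSectionVars false

namespace Crest.Agent.R152

open Crest.FinProb Crest.ProbabilityR.SignMatrix MeasureTheory ProbabilityTheory Filter Module
open scoped RealInnerProductSpace ENNReal Matrix Topology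

noncomputable section

variable {ι κ κ' : Type} [Fintype ι] [DecidableEq ι] [Fintype κ] [DecidableEq κ] [Fintype κ'] [DecidableEq κ']
  {E : Type} [NormedAddCommGroup E] [InnerProductSpace ℝ E]

/-- Clear denominators. -/
theorem exists_smul_mem_lat (W : Submodule ℚ (ι → ℚ)) {w : ι → ℚ} (hw : w ∈ W) :
    ∃ (m : ℕ) (z : ι → ℤ), 0 < m ∧ z ∈ lat W ∧ qc z = (m : ℚ) • w := by
  have h : qc (fun i => (w i).num * ∏ j ∈ Finset.univ.erase i, ((w j).den : ℤ)) =
      ((∏ j, (w j).den : ℕ) : ℚ) • w := by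
    ext i
    rw [qc_apply, Pi.smul_apply, smul_eq_mul, ← Finset.mul_prod_erase _ _ (Finset.mem_univ i)]
    push_cast
    rw [mul_right_comm, Rat.den_mul_eq_num]
  exact ⟨_, _, Finset.prod_pos fun j _ => (w j).den_pos, mem_lat.2 (h ▸ W.smul_mem _ hw), h⟩

theorem l2_span_le (v : κ → ι → ℤ) : Submodule.span ℤ (Set.range v) ≤ lat (qsp v) := by
  refine Submodule.span_le.2 ?_
  rintro _ ⟨i, rfl⟩
  exact mem_lat.2 (Submodule.subset_span ⟨i, rfl⟩)

theorem qsp_of_isBas {W : Submodule ℚ (ι → ℚ)} {v : κ → ι → ℤ} (h : IsBas (lat W) v) : qsp v = W := by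
  refine le_antisymm (Submodule.span_le.2 ?_) fun w hw => ?_
  · rintro _ ⟨i, rfl⟩
    exact mem_lat.1 (h.mem i)
  · obtain ⟨m, z, hm, hz, e⟩ := exists_smul_mem_lat W hw
    have h1 := mem_lat.1 (l2_span_le v (h.2.symm ▸ hz))
    rw [e] at h1
    exact (Submodule.smul_mem_iff _ (by exact_mod_cast hm.ne')).1 h1

theorem finrank_qsp {v : κ → ι → ℤ} (h : LinearIndependent ℤ v) : finrank ℚ (qsp v) = Fintype.card κ := by
  exact finrank_span_eq_card ((li_int_iff_rat v).1 h)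

theorem finrank_lat (W : Submodule ℚ (ι → ℚ)) : finrank ℤ (lat W) = finrank ℚ W := by
  obtain ⟨v, hv⟩ := exists_isBas (lat W)
  have h := finrank_qsp hv.1
  rw [qsp_of_isBas hv, Fintype.card_fin] at h
  exact h.symm

theorem rsp_of_isBas {W : Submodule ℚ (ι → ℚ)} {v : κ → ι → ℤ} (h : IsBas (lat W) v) :
    rsp W = Submodule.span ℝ (Set.range fun i => zc (v i)) := by
  refine le_antisymm (Submodule.span_le.2 ?_) (Submodule.span_mono ?_)
  · rintro _ ⟨z, hz, rfl⟩
    obtain ⟨c, rfl⟩ := h.exists_coeff hz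
    rw [map_sum]
    refine Submodule.sum_mem _ fun i _ => ?_
    rw [map_zsmul]
    exact zsmul_mem (Submodule.subset_span (Set.mem_range_self i)) _
  · rintro _ ⟨i, rfl⟩
    exact ⟨v i, h.mem i, rfl⟩

theorem finrank_rsp (W : Submodule ℚ (ι → ℚ)) : finrank ℝ (rsp W) = finrank ℚ W := by
  obtain ⟨v, hv⟩ := exists_isBas (lat W)
  rw [rsp_of_isBas hv, finrank_span_eq_card ((li_int_iff_real v).1 hv.1), Fintype.card_fin,
    finrank_lat]

/-- An integer vector in the real span is in the rational span (independence over `ℚ` and `ℝ` agree). -/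
theorem zc_mem_rsp {W : Submodule ℚ (ι → ℚ)} {z : ι → ℤ} : zc z ∈ rsp W ↔ z ∈ lat W := by
  refine ⟨fun h => ?_, fun h => Submodule.subset_span ⟨z, h, rfl⟩⟩
  by_contra hz
  obtain ⟨v, hv⟩ := exists_isBas (lat W)
  rw [mem_lat, ← qsp_of_isBas hv] at hz
  have h1 := (li_int_iff_real fun o : Option _ => o.elim z v).1
    ((li_int_iff_rat fun o : Option _ => o.elim z v).2
      (linearIndependent_option.2 ⟨(li_int_iff_rat v).1 hv.1, hz⟩))
  rw [rsp_of_isBas hv] at h
  exact (linearIndependent_option.1 h1).2 h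

theorem prj_zc_eq_zero {W : Submodule ℚ (ι → ℚ)} {z : ι → ℤ} : prj W (zc z) = 0 ↔ z ∈ lat W := by
  rw [prj, Submodule.starProjection_apply_eq_zero_iff, Submodule.orthogonal_orthogonal, zc_mem_rsp]

theorem cov_eq_of_isBas {W : Submodule ℚ (ι → ℚ)} {v : κ → ι → ℤ} (h : IsBas (lat W) v) :
    cov W = gvol fun i => zc (v i) := by
  have h1 := (gvol_index (LinearMap.id : Euc ι →ₗ[ℝ] Euc ι) le_rfl (isBas_finBasis (lat W)) h
    (by rw [h.card, Fintype.card_fin])).1
  rw [AddSubgroup.relIndex_self, Nat.cast_one, one_mul] at h1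
  exact h1

theorem one_le_cov (W : Submodule ℚ (ι → ℚ)) : 1 ≤ cov W := by
  exact one_le_gvol_zc _ ((li_int_iff_real _).1 (isBas_finBasis (lat W)).1)

theorem cov_sq (W : Submodule ℚ (ι → ℚ)) : ∃ c : ℕ, cov W ^ 2 = c := by
  exact gvol_zc_sq _

theorem cov_bot : cov (⊥ : Submodule ℚ (ι → ℚ)) = 1 := by
  have h : IsBas (lat (⊥ : Submodule ℚ (ι → ℚ))) (fun i : Fin 0 => i.elim0) := by
    refine ⟨linearIndependent_empty_type, ?_⟩
    rw [Set.range_eq_empty, Submodule.span_empty]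
    refine le_antisymm bot_le fun z hz => ?_
    exact qc_injective ((mem_lat.1 hz).trans (map_zero _).symm)
  rw [cov_eq_of_isBas h, gvol_empty]

/-- `span ℤ v ≤ lat (qsp v)` have the same rank; `gvol_index`. -/
theorem gvol_eq_relIndex_mul (Φ : Euc ι →ₗ[ℝ] E) {v : κ → ι → ℤ} (hv : LinearIndependent ℤ v) {w : κ' → ι → ℤ}
    (hw : IsBas (lat (qsp v)) w) :
    gvol (fun i => Φ (zc (v i))) =
      ((Submodule.span ℤ (Set.range v)).toAddSubgroup.relIndex (lat (qsp v)).toAddSubgroup : ℝ) *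
        gvol (fun i => Φ (zc (w i))) ∧
      (Submodule.span ℤ (Set.range v)).toAddSubgroup.relIndex (lat (qsp v)).toAddSubgroup ≠ 0 := by
  exact gvol_index Φ (l2_span_le v) ⟨hv, rfl⟩ hw (by rw [hw.card, finrank_lat, finrank_qsp hv])

theorem cov_qsp_le {v : κ → ι → ℤ} (hv : LinearIndependent ℤ v) : cov (qsp v) ≤ gvol fun i => zc (v i) := by
  obtain ⟨h1, h2⟩ := gvol_eq_relIndex_mul (LinearMap.id : Euc ι →ₗ[ℝ] Euc ι) hv
    (isBas_finBasis (lat (qsp v)))
  refine le_trans ?_ h1.ge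
  exact le_mul_of_one_le_left (gvol_nonneg _) (by exact_mod_cast Nat.one_le_iff_ne_zero.2 h2)

theorem l2_isBas {Λ : Submodule ℤ (ι → ℤ)} (b : Basis κ ℤ Λ) : IsBas Λ fun i => (b i : ι → ℤ) := by
  refine ⟨b.linearIndependent.map' Λ.subtype (Submodule.ker_subtype Λ), ?_⟩
  have h := congrArg (Submodule.map Λ.subtype) b.span_eq
  rwa [Submodule.map_span, ← Set.range_comp, Submodule.map_subtype_top] at h

/-- Adapted bases.  `lat W₁ / lat W₀` is finitely generated and torsion free, hence free; `Module.Basis.sumQuot`. -/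
theorem exists_adapted {W₀ W₁ : Submodule ℚ (ι → ℚ)} (h : W₀ ≤ W₁) {a : κ → ι → ℤ} (ha : IsBas (lat W₀) a) :
    ∃ b : Fin (finrank ℚ W₁ - finrank ℚ W₀) → ι → ℤ, IsBas (lat W₁) (Sum.elim a b) := by
  have hle : lat W₀ ≤ lat W₁ := fun z hz => mem_lat.2 (h (mem_lat.1 hz))
  set N : Submodule ℤ (lat W₁) := (lat W₀).comap (lat W₁).subtype with hN
  have : Module.IsTorsionFree ℤ (lat W₁ ⧸ N) := by
    refine Module.IsTorsionFree.of_smul_eq_zero fun r x hx => ?_
    obtain ⟨x, rfl⟩ := N.mkQ_surjective x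
    rw [← map_smul, Submodule.mkQ_apply, Submodule.Quotient.mk_eq_zero] at hx
    by_cases hr : r = 0
    · exact Or.inl hr
    · refine Or.inr ((Submodule.Quotient.mk_eq_zero _).2 ?_)
      have h1 : qc (r • (x : ι → ℤ)) ∈ W₀ := hx
      rw [map_smul, ← Int.cast_smul_eq_zsmul ℚ] at h1
      exact (W₀.smul_mem_iff (Int.cast_ne_zero.2 hr)).1 h1
  let bW : Basis κ ℤ N := ((Basis.span ha.1).map (LinearEquiv.ofEq _ _ ha.2)).map
    (Submodule.comapSubtypeEquivOfLe hle).symm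
  have hbW : ∀ i, ((bW i : lat W₁) : ι → ℤ) = a i := fun i =>
    congrArg Subtype.val (Basis.span_apply ha.1 i)
  let B := bW.sumQuot (Module.finBasis ℤ (lat W₁ ⧸ N))
  have hB : IsBas (lat W₁) (Sum.elim a fun j => (B (Sum.inr j) : ι → ℤ)) := by
    convert l2_isBas B using 1
    funext s
    rcases s with i | j
    · rw [Sum.elim_inl, Basis.sumQuot_inl, hbW]
    · rfl
  have hc := hB.card
  rw [Fintype.card_sum, ha.card, Fintype.card_fin, finrank_lat, finrank_lat] at hc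
  have hn : finrank ℚ W₁ - finrank ℚ W₀ = finrank ℤ (lat W₁ ⧸ N) := by omega
  rw [hn]
  exact ⟨_, hB⟩

theorem l2_gvol_elim {W : Submodule ℚ (ι → ℚ)} {a : κ → ι → ℤ} (ha : IsBas (lat W) a) (b : κ' → ι → ℤ) :
    gvol (fun s => zc (Sum.elim a b s)) = cov W * gvol fun j => prj W (zc (b j)) := by
  have h : (fun s => zc (Sum.elim a b s)) = Sum.elim (fun i => zc (a i)) fun j => zc (b j) := by
    funext s
    rcases s with i | j <;> rfl
  rw [h, gvol_sum, cov_eq_of_isBas ha, prj]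
  simp only [rsp_of_isBas ha]

theorem l2_qsp_elim (a : κ → ι → ℤ) (b : κ' → ι → ℤ) : qsp (Sum.elim a b) = qsp a ⊔ qsp b := by
  have h : (fun s => qc (Sum.elim a b s)) = Sum.elim (fun i => qc (a i)) fun j => qc (b j) := by
    funext s
    rcases s with i | j <;> rfl
  rw [qsp, h, Set.Sum.elim_range, Submodule.span_union, qsp, qsp]

/-- The projected part of an adapted basis (`gvol_sum`, `rsp_of_isBas`, `gvol_pos_iff`). -/
theorem adapted_prj {W₀ W₁ : Submodule ℚ (ι → ℚ)} {a : κ → ι → ℤ} {b : κ' → ι → ℤ} (ha : IsBas (lat W₀) a)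
    (hb : IsBas (lat W₁) (Sum.elim a b)) :
    cov W₁ = cov W₀ * gvol (fun j => prj W₀ (zc (b j))) ∧ LinearIndependent ℝ (fun j => prj W₀ (zc (b j))) ∧
      ∀ z ∈ lat W₁, ∃ c : κ' → ℤ, prj W₀ (zc z) = ∑ j, (c j : ℝ) • prj W₀ (zc (b j)) := by
  have h1 := (cov_eq_of_isBas hb).trans (l2_gvol_elim ha b)
  refine ⟨h1, (gvol_pos_iff _).1 ?_, fun z hz => ?_⟩
  · have h2 : 0 < cov W₁ := one_pos.trans_le (one_le_cov W₁)
    rw [h1] at h2
    exact (mul_pos_iff_of_pos_left (one_pos.trans_le (one_le_cov W₀))).1 h2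
  · obtain ⟨c, rfl⟩ := hb.exists_coeff hz
    refine ⟨fun j => c (Sum.inr j), ?_⟩
    simp only [map_sum, map_add, map_zsmul, Fintype.sum_sum_type, Sum.elim_inl, Sum.elim_inr,
      prj_zc_eq_zero.2 (ha.mem _), smul_zero, Finset.sum_const_zero, zero_add,
      Int.cast_smul_eq_zsmul]

/-- Adding vectors with independent projections: `(a, y)` is independent and spans `W ⊔ qsp y`. -/
theorem cov_sup_le (W : Submodule ℚ (ι → ℚ)) (y : κ → ι → ℤ) (hy : LinearIndependent ℝ fun j => prj W (zc (y j))) :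
    cov (W ⊔ qsp y) ≤ cov W * gvol (fun j => prj W (zc (y j))) ∧
      finrank ℚ ↥(W ⊔ qsp y) = finrank ℚ W + Fintype.card κ := by
  obtain ⟨a, ha⟩ := exists_isBas (lat W)
  have h1 := l2_gvol_elim ha y
  have h2 : LinearIndependent ℤ (Sum.elim a y) := (li_int_iff_real _).2 ((gvol_pos_iff _).1
    (h1 ▸ mul_pos (one_pos.trans_le (one_le_cov W)) ((gvol_pos_iff _).2 hy)))
  have h3 := cov_qsp_le h2
  have h4 := finrank_qsp h2
  rw [l2_qsp_elim, qsp_of_isBas ha] at h3 h4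
  rw [Fintype.card_sum, Fintype.card_fin, finrank_lat] at h4
  exact ⟨h3.trans_eq h1, h4⟩

/-- Submodularity.  Bases `a`, `(a, b)`, `(a, c)` of the integer points of `W₁ ⊓ W₂`, `W₁`, `W₂`; `(a, b, c)` spans `W₁ ⊔ W₂`
and has `finrank (W₁ ⊔ W₂)` elements (`Submodule.finrank_sup_add_finrank_inf_eq`), so it is independent;
`cov_qsp_le`, `gvol_submod`. -/
theorem cov_submod (W₁ W₂ : Submodule ℚ (ι → ℚ)) : cov (W₁ ⊔ W₂) * cov (W₁ ⊓ W₂) ≤ cov W₁ * cov W₂ := by
  obtain ⟨a, ha⟩ := exists_isBas (lat (W₁ ⊓ W₂))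
  obtain ⟨b, hb⟩ := exists_adapted inf_le_left ha
  obtain ⟨c, hc⟩ := exists_adapted inf_le_right ha
  have h1 : qsp (Sum.elim (Sum.elim a b) c) = W₁ ⊔ W₂ := by
    rw [l2_qsp_elim, qsp_of_isBas hb]
    conv_rhs => rw [← qsp_of_isBas hc, l2_qsp_elim, qsp_of_isBas ha, ← sup_assoc, sup_inf_self]
  have h2 : LinearIndependent ℤ (Sum.elim (Sum.elim a b) c) := by
    rw [li_int_iff_rat, linearIndependent_iff_card_eq_finrank_span]
    change _ = finrank ℚ (qsp (Sum.elim (Sum.elim a b) c))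
    have h3 := Submodule.finrank_sup_add_finrank_inf_eq W₁ W₂
    have h4 := Submodule.finrank_mono (inf_le_right : W₁ ⊓ W₂ ≤ W₂)
    rw [h1, Fintype.card_sum, hb.card, finrank_lat, Fintype.card_fin]
    omega
  have h3 := cov_qsp_le h2
  have h4 := gvol_submod (fun i => zc (a i)) (fun i => zc (b i)) fun i => zc (c i)
  have e1 : (fun s => zc (Sum.elim (Sum.elim a b) c s)) =
      Sum.elim (Sum.elim (fun i => zc (a i)) fun i => zc (b i)) fun i => zc (c i) := by
    funext s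
    rcases s with (i | i) | i <;> rfl
  have e2 : (fun s => zc (Sum.elim a b s)) = Sum.elim (fun i => zc (a i)) fun i => zc (b i) := by
    funext s
    rcases s with i | i <;> rfl
  have e3 : (fun s => zc (Sum.elim a c s)) = Sum.elim (fun i => zc (a i)) fun i => zc (c i) := by
    funext s
    rcases s with i | i <;> rfl
  rw [h1, e1] at h3
  rw [cov_eq_of_isBas ha, cov_eq_of_isBas hb, cov_eq_of_isBas hc, e2, e3]
  exact (mul_le_mul_of_nonneg_right h3 (gvol_nonneg _)).trans h4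

theorem pot_submod (lam : ℝ) (W₁ W₂ : Submodule ℚ (ι → ℚ)) :
    pot lam (W₁ ⊔ W₂) + pot lam (W₁ ⊓ W₂) ≤ pot lam W₁ + pot lam W₂ := by
  have hp : ∀ W : Submodule ℚ (ι → ℚ), 0 < cov W := fun W => one_pos.trans_le (one_le_cov W)
  have h1 := Real.log_le_log (mul_pos (hp _) (hp _)) (cov_submod W₁ W₂)
  rw [Real.log_mul (hp _).ne' (hp _).ne', Real.log_mul (hp _).ne' (hp _).ne'] at h1
  have h2 : (finrank ℚ ↥(W₁ ⊔ W₂) : ℝ) + finrank ℚ ↥(W₁ ⊓ W₂) = finrank ℚ W₁ + finrank ℚ W₂ := by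
    exact_mod_cast Submodule.finrank_sup_add_finrank_inf_eq W₁ W₂
  have h3 := congrArg (lam * ·) h2
  simp only [pot, mul_add] at h3 ⊢
  linarith

/-- The values `(cov², finrank)` with `pot ≤ pot W` lie in a finite set of pairs of naturals. -/
theorem exists_pot_min {lam : ℝ} (hl : 0 ≤ lam) (W : Submodule ℚ (ι → ℚ)) :
    ∃ D, W ≤ D ∧ ∀ D', W ≤ D' → pot lam D ≤ pot lam D' := by
  have hp : ∀ W : Submodule ℚ (ι → ℚ), 0 < cov W := fun W => one_pos.trans_le (one_le_cov W)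
  have hfin : (pot lam '' {D | W ≤ D ∧ pot lam D ≤ pot lam W}).Finite := by
    refine (((Set.finite_Iic ⌈Real.exp (pot lam W) ^ 2⌉₊).prod
      (Set.finite_Iic (finrank ℚ (ι → ℚ)))).image
      fun p : ℕ × ℕ => Real.log √(p.1 : ℝ) + lam * p.2).subset ?_
    rintro _ ⟨D, ⟨-, h2⟩, rfl⟩
    obtain ⟨c, hc⟩ := cov_sq D
    refine ⟨(c, finrank ℚ D), ⟨?_, Submodule.finrank_le D⟩, ?_⟩
    · have h3 : Real.log (cov D) ≤ pot lam W :=
        le_trans (le_add_of_nonneg_right (mul_nonneg hl (Nat.cast_nonneg _))) h2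
      have h4 := pow_le_pow_left₀ (hp D).le ((Real.log_le_iff_le_exp (hp D)).1 h3) 2
      rw [hc] at h4
      exact Nat.cast_le.1 (h4.trans (Nat.le_ceil _))
    · simp only [← hc, Real.sqrt_sq (hp D).le, pot]
  obtain ⟨_, ⟨D, ⟨h1, h2⟩, rfl⟩, h3⟩ := Set.exists_min_image _ id hfin ⟨_, W, ⟨le_rfl, le_rfl⟩, rfl⟩
  refine ⟨D, h1, fun D' hD' => ?_⟩
  rcases le_total (pot lam D') (pot lam W) with h | h
  · exact h3 _ ⟨D', ⟨hD', h⟩, rfl⟩
  · exact h2.trans h

end

end Crest.Agent.R152
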