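import Crest.Agent.R152.P2
import Crest.Agent.R152.L2

/-!
# R152/M1

Short vectors in the kernel of a `{0, ±1}` matrix, and lattice points on the slices of a lattice.

Helper lemmas: prefix `m1_`.
-/

set_option autoImplicit false
set_option linter.unusedVariables false
set_option linter.unusedSectionVars false

namespace Crest.Agent.R152

open Crest.FinProb Crest.ProbabilityR.SignMatrix MeasureTheory ProbabilityTheory Filter Module
open scoped RealInnerProductSpace ENNReal Matrix Topology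

noncomputable section

variable {ι κ : Type} [Fintype ι] [DecidableEq ι] [Fintype κ] [DecidableEq κ] {p : ℝ}

theorem m1_dot_le (x z : ι → ℤ) (hx : ∀ l, |x l| ≤ 1) {H : ℤ} (hz : ∀ l, |z l| ≤ H) :
    |x ⬝ᵥ z| ≤ Fintype.card ι * H := by
  calc |x ⬝ᵥ z| ≤ ∑ l, |x l * z l| := Finset.abs_sum_le_sum_abs _ _
    _ ≤ ∑ _l : ι, H := Finset.sum_le_sum fun l _ => by
        rw [abs_mul]
        exact (mul_le_of_le_one_left (abs_nonneg _) (hx l)).trans (hz l)
    _ = Fintype.card ι * H := by simp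

/-- many points of a box with differences in `K` give many independent vectors -/
theorem m1_indep (S : Finset (ι → ℤ)) {M t : ℕ} (hM : 1 ≤ M) (hS : ∀ x ∈ S, ∀ l, 0 ≤ x l ∧ x l < M)
    (hc : M ^ t < S.card) :
    ∃ z : Fin (t + 1) → ι → ℤ, LinearIndependent ℤ z ∧ ∀ i, ∃ x ∈ S, ∃ y ∈ S, z i = x - y := by
  classical
  obtain ⟨α, e, he, hspan, hli⟩ :=
    exists_linearIndependent' ℚ (fun p : S × S => qc ((p.1 : ι → ℤ) - (p.2 : ι → ℤ)))
  have : Finite α := Finite.of_injective e he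
  have := Fintype.ofFinite α
  have h1 := card_le_pow_finrank
    (Submodule.span ℚ (Set.range fun p : S × S => qc ((p.1 : ι → ℤ) - (p.2 : ι → ℤ))))
    ((Finset.Ico (0 : ℤ) M).image (Int.cast : ℤ → ℚ)) (S.image qc) (by
      intro x' hx' i
      obtain ⟨x, hx, rfl⟩ := Finset.mem_image.1 hx'
      exact Finset.mem_image.2 ⟨x i, Finset.mem_Ico.2 (hS x hx i), rfl⟩) (by
      intro x' hx' y' hy'
      obtain ⟨x, hx, rfl⟩ := Finset.mem_image.1 hx'
      obtain ⟨y, hy, rfl⟩ := Finset.mem_image.1 hy'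
      rw [← map_sub]
      exact Submodule.subset_span ⟨(⟨x, hx⟩, ⟨y, hy⟩), rfl⟩)
  rw [Finset.card_image_of_injective _ qc_injective,
    Finset.card_image_of_injective _ Int.cast_injective, ← hspan, finrank_span_eq_card hli] at h1
  simp only [Int.card_Ico, sub_zero, Int.toNat_natCast] at h1
  have h2 : t + 1 ≤ Fintype.card α := by
    by_contra h
    have := Nat.pow_le_pow_right hM (show Fintype.card α ≤ t by omega)
    omega
  obtain ⟨g⟩ : Nonempty (Fin (t + 1) ↪ α) := Function.Embedding.nonempty_of_card_le (by simpa using h2)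
  refine ⟨fun i => ((e (g i)).1 : ι → ℤ) - ((e (g i)).2 : ι → ℤ), ?_,
    fun i => ⟨_, (e (g i)).1.2, _, (e (g i)).2.2, rfl⟩⟩
  rw [li_int_iff_rat]
  exact hli.comp g g.injective

/-- Siegel.  `h = card ι`, `H + 1 = (2h+1)^a`.  The box `{0..H}^ι` is mapped by `X` into `[-hH, hH]^j`, and
`(H+1)^h > (H+1)^t (2hH+1)^j`, so a fibre has more than `(H+1)^t` points.  By `card_le_pow_finrank` (over `ℚ`) the differences span a space of
dimension `> t`; pick `t+1` independent differences (`exists_linearIndependent`, `li_int_iff_rat`). -/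
theorem siegel {j : ℕ} (X : Fin j → ι → ℤ) (hX : ∀ l i, |X l i| ≤ 1) (t a : ℕ)
    (h : Fintype.card ι < a * (Fintype.card ι - t - j)) :
    ∃ z : Fin (t + 1) → ι → ℤ, LinearIndependent ℤ z ∧ (∀ i, z i ∈ kerS X) ∧
      ∀ i l, |z i l| ≤ (2 * Fintype.card ι + 1) ^ a := by
  classical
  obtain ⟨d, hd⟩ : ∃ d, d = Fintype.card ι - t - j := ⟨_, rfl⟩
  rw [← hd] at h
  have hd0 : d ≠ 0 := by
    rintro rfl
    simp at h
  have hh : Fintype.card ι = t + j + d := by omega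
  obtain ⟨M, hM⟩ : ∃ M : ℕ, M = (2 * Fintype.card ι + 1) ^ a := ⟨_, rfl⟩
  have hM1 : 1 ≤ M := hM ▸ Nat.one_le_pow _ _ (by omega)
  have hcard : (Fintype.piFinset fun _ : Fin j =>
      Finset.Icc (-((Fintype.card ι * M : ℕ) : ℤ)) ((Fintype.card ι * M : ℕ) : ℤ)).card * M ^ t <
      (Fintype.piFinset fun _ : ι => Finset.Ico (0 : ℤ) M).card := by
    have e1 : (Finset.Icc (-((Fintype.card ι * M : ℕ) : ℤ)) ((Fintype.card ι * M : ℕ) : ℤ)).card =
        2 * (Fintype.card ι * M) + 1 := by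
      rw [Int.card_Icc]
      omega
    simp only [Fintype.card_piFinset, Finset.prod_const, Finset.card_univ, Fintype.card_fin, e1,
      Int.card_Ico, sub_zero, Int.toNat_natCast]
    have h1 : (2 * Fintype.card ι + 1) ^ j < M ^ d := by
      rw [hM, ← pow_mul]
      exact Nat.pow_lt_pow_right (by omega) (by omega)
    calc (2 * (Fintype.card ι * M) + 1) ^ j * M ^ t ≤ ((2 * Fintype.card ι + 1) * M) ^ j * M ^ t := by
          gcongr
          nlinarith
      _ = (2 * Fintype.card ι + 1) ^ j * (M ^ j * M ^ t) := by rw [mul_pow, mul_assoc]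
      _ < M ^ d * (M ^ j * M ^ t) := Nat.mul_lt_mul_of_pos_right h1 (by positivity)
      _ = M ^ Fintype.card ι := by
          rw [← pow_add, ← pow_add]
          congr 1
          omega
  obtain ⟨y, -, hy⟩ := Finset.exists_lt_card_fiber_of_mul_lt_card_of_maps_to
    (f := fun (x : ι → ℤ) (l : Fin j) => X l ⬝ᵥ x) (fun x hx => by
      rw [Fintype.mem_piFinset] at hx ⊢
      intro l
      rw [Finset.mem_Icc, ← abs_le]
      push_cast
      refine m1_dot_le _ _ (hX l) fun i => ?_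
      have := Finset.mem_Ico.1 (hx i)
      rw [abs_le]
      omega) hcard
  have hS : ∀ x ∈ (Fintype.piFinset fun _ : ι => Finset.Ico (0 : ℤ) M).filter
      (fun x => (fun l : Fin j => X l ⬝ᵥ x) = y), ∀ l, 0 ≤ x l ∧ x l < M := fun x hx l =>
    Finset.mem_Ico.1 (Fintype.mem_piFinset.1 (Finset.mem_filter.1 hx).1 l)
  obtain ⟨z, hz, hz'⟩ := m1_indep _ hM1 hS hy
  refine ⟨z, hz, fun i l => ?_, fun i l => ?_⟩
  · obtain ⟨u, hu, v, hv, e⟩ := hz' i
    rw [e, dotProduct_sub, sub_eq_zero]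
    exact (congrFun (Finset.mem_filter.1 hu).2 l).trans (congrFun (Finset.mem_filter.1 hv).2 l).symm
  · obtain ⟨u, hu, v, hv, e⟩ := hz' i
    have h1 := hS u hu l
    have h2 := hS v hv l
    have h3 : (M : ℤ) = (2 * Fintype.card ι + 1) ^ a := by
      rw [hM]
      push_cast
      rfl
    rw [e, Pi.sub_apply, ← h3, abs_le]
    omega

theorem lat_qsp_subset_kerS {α : Type} (X : α → ι → ℤ) (z : κ → ι → ℤ) (hz : ∀ i, z i ∈ kerS X) :
    (lat (qsp z) : Set (ι → ℤ)) ⊆ kerS X := by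
  intro v hv l
  obtain ⟨c, hc⟩ := (Submodule.mem_span_range_iff_exists_fun ℚ).1 (mem_lat.1 hv)
  have h1 : ∀ w : ι → ℤ, ((X l ⬝ᵥ w : ℤ) : ℚ) = qc (X l) ⬝ᵥ qc w := fun w => by
    simp [dotProduct]
  have h2 : ((X l ⬝ᵥ v : ℤ) : ℚ) = 0 := by
    rw [h1, ← hc, dotProduct_sum]
    refine Finset.sum_eq_zero fun i _ => ?_
    rw [dotProduct_smul, ← h1, hz i l]
    simp
  exact_mod_cast h2

theorem m1_rsp_le (z : κ → ι → ℤ) :
    rsp (qsp z) ≤ Submodule.span ℝ (Set.range fun i => zc (z i)) := by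
  refine Submodule.span_le.2 ?_
  rintro _ ⟨v, hv, rfl⟩
  obtain ⟨c, hc⟩ := (Submodule.mem_span_range_iff_exists_fun ℚ).1 (mem_lat.1 hv)
  refine (Submodule.mem_span_range_iff_exists_fun ℝ).2 ⟨fun i => (c i : ℝ), ?_⟩
  ext l
  have := congrArg (Rat.cast : ℚ → ℝ) (congrFun hc l)
  simpa using this

theorem m1_norm_le (z : ι → ℤ) {H : ℕ} (hz : ∀ l, |z l| ≤ H) : ‖zc z‖ ≤ Fintype.card ι * H := by
  refine le_of_sq_le_sq ?_ (by positivity)
  rw [norm_zc_sq]
  calc ∑ l, (z l : ℝ) ^ 2 ≤ ∑ _l : ι, (H : ℝ) ^ 2 := Finset.sum_le_sum fun l _ => by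
        rw [← sq_abs]
        exact pow_le_pow_left₀ (abs_nonneg _) (by exact_mod_cast hz l) 2
    _ = Fintype.card ι * (H : ℝ) ^ 2 := by simp
    _ ≤ (Fintype.card ι * H) ^ 2 := by
        rw [mul_pow]
        gcongr
        exact_mod_cast Nat.le_self_pow two_ne_zero _

theorem m1_zc_smul (c : ℤ) (z : ι → ℤ) : zc (c • z) = (c : ℝ) • zc z := by
  ext l
  simp

/-- `u = P x / ‖P x‖²` has `⟪x, u⟫ = 1`, `‖u‖ = 1/‖P x‖`.  Let `a i = x ⬝ᵥ z i` (`|a i| ≤ h H`), some `a i₀ ≠ 0`.  The vector `y = a • v - a • u` of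
the real span of `z` is orthogonal to `x`, so `y = ∑ β i z i = ∑ (β i / a i₀) (a i₀ z i - a i z i₀)`; round the coefficients to integers:
the error is at most `card κ * 2 h^{3/2} H² ≤ 2 h³ H²` (`card κ ≤ h`). -/
theorem exists_slice_point (z : κ → ι → ℤ) (hz : LinearIndependent ℤ z) {H : ℕ} (hH : ∀ i l, |z i l| ≤ H)
    (x : ι → ℤ) (hx : ∀ l, |x l| ≤ 1) (hv : ∃ v ∈ lat (qsp z), x ⬝ᵥ v = 1) {b : ℝ}
    (hb : 2 * (Fintype.card ι : ℝ) ^ 3 * (H : ℝ) ^ 2 ≤ b) (a : ℤ)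
    (ha : |(a : ℝ)| ≤ b * ‖(rsp (qsp z)).starProjection (zc x)‖) :
    ∃ v ∈ lat (qsp z), x ⬝ᵥ v = a ∧ ‖zc v‖ ≤ 2 * b := by
  obtain ⟨v₀, hv₀, hx₀⟩ := hv
  have hzm : ∀ i, z i ∈ lat (qsp z) := fun i => l2_span_le z (Submodule.subset_span ⟨i, rfl⟩)
  obtain ⟨i₀, hi₀⟩ : ∃ i₀, x ⬝ᵥ z i₀ ≠ 0 := by
    by_contra hne
    push Not at hne
    have := lat_qsp_subset_kerS (fun _ : Unit => x) z (fun i _ => hne i) hv₀ ()
    rw [hx₀] at this
    exact one_ne_zero this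
  set px := (rsp (qsp z)).starProjection (zc x) with hpx
  have hpxm : px ∈ rsp (qsp z) := Submodule.starProjection_apply_mem _ _
  have hin : ∀ w ∈ rsp (qsp z), ⟪zc x, w⟫ = ⟪px, w⟫ := fun w hw => by
    have := Submodule.starProjection_inner_eq_zero (K := rsp (qsp z)) (zc x) w hw
    rw [inner_sub_left] at this
    linarith
  have hv₀r : zc v₀ ∈ rsp (qsp z) := zc_mem_rsp.2 hv₀
  have hxv : ⟪zc x, zc v₀⟫ = 1 := by rw [inner_zc, hx₀, Int.cast_one]
  have hpx0 : ‖px‖ ≠ 0 := by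
    intro h0
    rw [hin _ hv₀r, norm_eq_zero.1 h0, inner_zero_left] at hxv
    exact zero_ne_one hxv
  have hpos : 0 < ‖px‖ := lt_of_le_of_ne (norm_nonneg _) hpx0.symm
  have hy : (a : ℝ) • zc v₀ - ((a : ℝ) / ‖px‖ ^ 2) • px ∈ rsp (qsp z) :=
    sub_mem (Submodule.smul_mem _ _ hv₀r) (Submodule.smul_mem _ _ hpxm)
  obtain ⟨β, hβ⟩ := (Submodule.mem_span_range_iff_exists_fun ℝ).1 (m1_rsp_le z hy)
  have hsum : ∑ i, β i * ((x ⬝ᵥ z i : ℤ) : ℝ) = 0 := by
    have := congrArg (fun w => ⟪zc x, w⟫) hβ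
    simp only [inner_sum, inner_smul_right, inner_sub_right, inner_zc] at this
    rw [this, hx₀, hin _ hpxm, real_inner_self_eq_norm_sq]
    field_simp
    simp
  have hα : ((x ⬝ᵥ z i₀ : ℤ) : ℝ) ≠ 0 := Int.cast_ne_zero.2 hi₀
  set w : κ → ι → ℤ := fun i => (x ⬝ᵥ z i₀) • z i - (x ⬝ᵥ z i) • z i₀ with hw
  have hwz : ∀ i, zc (w i) = ((x ⬝ᵥ z i₀ : ℤ) : ℝ) • zc (z i) - ((x ⬝ᵥ z i : ℤ) : ℝ) • zc (z i₀) :=
    fun i => by rw [hw]; dsimp only; rw [map_sub, m1_zc_smul, m1_zc_smul]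
  have hyw : ∑ i, (β i / ((x ⬝ᵥ z i₀ : ℤ) : ℝ)) • zc (w i) =
      (a : ℝ) • zc v₀ - ((a : ℝ) / ‖px‖ ^ 2) • px := by
    rw [← hβ]
    simp only [hwz, smul_sub, smul_smul, Finset.sum_sub_distrib, div_mul_cancel₀ _ hα]
    rw [← Finset.sum_smul]
    have : ∑ i, β i / ((x ⬝ᵥ z i₀ : ℤ) : ℝ) * ((x ⬝ᵥ z i : ℤ) : ℝ) = 0 := by
      simp only [div_mul_eq_mul_div]
      rw [← Finset.sum_div, hsum, zero_div]
    rw [this, zero_smul, sub_zero]
  have hwn : ∀ i, ‖zc (w i)‖ ≤ 2 * ((Fintype.card ι : ℝ) * H) ^ 2 := fun i => by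
    have h1 : ∀ i, |((x ⬝ᵥ z i : ℤ) : ℝ)| ≤ Fintype.card ι * H := fun i => by
      exact_mod_cast m1_dot_le x (z i) hx (hH i)
    have h2 := fun i => m1_norm_le (z i) (hH i)
    rw [hwz]
    refine (norm_sub_le _ _).trans ?_
    rw [norm_smul, norm_smul, Real.norm_eq_abs, Real.norm_eq_abs, two_mul, sq]
    exact add_le_add (mul_le_mul (h1 _) (h2 _) (norm_nonneg _) (by positivity))
      (mul_le_mul (h1 _) (h2 _) (norm_nonneg _) (by positivity))
  have hk : (Fintype.card κ : ℝ) ≤ Fintype.card ι := by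
    have := hz.fintype_card_le_finrank
    rw [Module.finrank_fintype_fun_eq_card] at this
    exact_mod_cast this
  refine ⟨a • v₀ - ∑ i, round (β i / ((x ⬝ᵥ z i₀ : ℤ) : ℝ)) • w i, ?_, ?_, ?_⟩
  · exact sub_mem (Submodule.smul_mem _ _ hv₀) (Submodule.sum_mem _ fun i _ => Submodule.smul_mem _ _
      (sub_mem (Submodule.smul_mem _ _ (hzm _)) (Submodule.smul_mem _ _ (hzm _))))
  · rw [dotProduct_sub, dotProduct_smul, hx₀, dotProduct_sum, Finset.sum_eq_zero]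
    · simp
    · intro i _
      rw [dotProduct_smul, hw]
      dsimp only
      rw [dotProduct_sub, dotProduct_smul, dotProduct_smul]
      simp [mul_comm]
  · have e : zc (a • v₀ - ∑ i, round (β i / ((x ⬝ᵥ z i₀ : ℤ) : ℝ)) • w i) =
        ((a : ℝ) / ‖px‖ ^ 2) • px + ∑ i, (β i / ((x ⬝ᵥ z i₀ : ℤ) : ℝ) -
          round (β i / ((x ⬝ᵥ z i₀ : ℤ) : ℝ))) • zc (w i) := by
      simp only [map_sub, map_sum, m1_zc_smul, sub_smul, Finset.sum_sub_distrib]
      rw [hyw]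
      abel
    rw [e, two_mul]
    refine (norm_add_le _ _).trans (add_le_add ?_ ?_)
    · rw [norm_smul, Real.norm_eq_abs, abs_div, abs_of_nonneg (sq_nonneg ‖px‖), sq, div_mul_eq_mul_div,
        mul_div_mul_right _ _ hpx0, div_le_iff₀ hpos]
      exact ha
    · refine (norm_sum_le _ _).trans (le_trans ?_ hb)
      calc ∑ i, ‖(β i / ((x ⬝ᵥ z i₀ : ℤ) : ℝ) - round (β i / ((x ⬝ᵥ z i₀ : ℤ) : ℝ))) • zc (w i)‖
          ≤ ∑ _i : κ, 2 * ((Fintype.card ι : ℝ) * H) ^ 2 := Finset.sum_le_sum fun i _ => by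
            rw [norm_smul, Real.norm_eq_abs]
            exact (mul_le_of_le_one_left (norm_nonneg _)
              ((abs_sub_round _).trans (by norm_num))).trans (hwn i)
        _ = Fintype.card κ * (2 * ((Fintype.card ι : ℝ) * H) ^ 2) := by simp
        _ ≤ Fintype.card ι * (2 * ((Fintype.card ι : ℝ) * H) ^ 2) := by gcongr
        _ = 2 * (Fintype.card ι : ℝ) ^ 3 * (H : ℝ) ^ 2 := by ring

end

end Crest.Agent.R152
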