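import Crest.Agent.R152.L1

/-!
# R152/M2

Gaussian mass: products, the mass of `ℤ^ι`, slices, lower bound by counting.

Helper lemmas: prefix `m2_`.
-/

set_option autoImplicit false
set_option linter.unusedVariables false
set_option linter.unusedSectionVars false

namespace Crest.Agent.R152

open Crest.FinProb Crest.ProbabilityR.SignMatrix MeasureTheory ProbabilityTheory Filter Module
open scoped RealInnerProductSpace ENNReal Matrix Topology

noncomputable section

variable {ι κ : Type} [Fintype ι] [DecidableEq ι] [Fintype κ] [DecidableEq κ] {p : ℝ}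

private theorem m2_fin {α : Type} (n : ℕ) (F : Fin n → α → ℝ≥0∞) :
    ∑' f : Fin n → α, ∏ k, F k (f k) = ∏ k, ∑' a, F k a := by
  induction n with
  | zero => simp
  | succ n ih =>
    rw [← (Fin.consEquiv fun _ : Fin (n + 1) => α).tsum_eq, ENNReal.tsum_prod', Fin.prod_univ_succ,
      ← ih, ← ENNReal.tsum_mul_right]
    refine tsum_congr fun a => ?_
    rw [← ENNReal.tsum_mul_left]
    refine tsum_congr fun d => ?_
    rw [Fin.prod_univ_succ]
    simp [Fin.consEquiv]

private theorem m2_norm (z : ι → ℤ) : ‖zc z‖ ^ 2 = ∑ i, (z i : ℝ) ^ 2 := by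
  rw [EuclideanSpace.real_norm_sq_eq]
  rfl

/-- Induction on a finite type (`ENNReal.tsum_prod`, `Fin.consEquiv` / `Fintype.induction_empty_option`). -/
theorem tsum_pi_prod {α : Type} (F : κ → α → ℝ≥0∞) : ∑' f : κ → α, ∏ k, F k (f k) = ∏ k, ∑' a, F k a := by
  let e := (Fintype.equivFin κ).symm
  rw [← e.prod_comp, ← m2_fin, ← (Equiv.arrowCongr e (Equiv.refl α)).tsum_eq]
  refine tsum_congr fun f => ?_
  rw [← e.prod_comp]
  simp

theorem rho_pow (b : ℝ) (S : Set (ι → ℤ)) (r : ℕ) :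
    rho b S ^ r = ∑' Z : Fin r → ι → ℤ, ∏ i, S.indicator (wt b) (Z i) := by
  rw [tsum_pi_prod (fun (_ : Fin r) => S.indicator (wt b))]
  simp [rho]

theorem rho_mono (b : ℝ) {S T : Set (ι → ℤ)} (h : S ⊆ T) : rho b S ≤ rho b T := by
  exact ENNReal.tsum_le_tsum fun z => Set.indicator_le_indicator_of_subset h (fun _ => zero_le) z

theorem wt_eq_prod (b : ℝ) (z : ι → ℤ) : wt b z = ∏ i, ENNReal.ofReal (Real.exp (-(z i : ℝ) ^ 2 / b ^ 2)) := by
  rw [← ENNReal.ofReal_prod_of_nonneg fun i _ => (Real.exp_pos _).le, ← Real.exp_sum, wt,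
    ← Finset.sum_div, Finset.sum_neg_distrib]

/-- `exp (-u²) ≤ exp (1/4 - |u|)`, geometric series. -/
theorem tsum_gauss_int_le {b : ℝ} (hb : 1 ≤ b) :
    ∑' k : ℤ, ENNReal.ofReal (Real.exp (-(k : ℝ) ^ 2 / b ^ 2)) ≤ ENNReal.ofReal (5 * b) := by
  have hb0 : 0 < b := by linarith
  set r := b / (b + 1) with hr
  have r0 : 0 ≤ r := by positivity
  have r1 : r < 1 := (div_lt_one (by positivity)).2 (by linarith)
  have r2 : (1 - r)⁻¹ = b + 1 := by
    rw [hr]
    field_simp
    ring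
  have h1 := hasSum_geometric_of_lt_one r0 r1
  have h2 : HasSum (fun k : ℤ => 4 / 3 * r ^ k.natAbs) (4 / 3 * ((1 - r)⁻¹ + (1 - r)⁻¹ * r)) := by
    refine HasSum.mul_left _ (HasSum.of_nat_of_neg_add_one (by simpa using h1) ?_)
    have : ∀ n : ℕ, (-((n : ℤ) + 1)).natAbs = n + 1 := fun n => by omega
    simpa only [this, pow_succ] using h1.mul_right r
  have h3 : Real.exp (-1 / b) ≤ r := by
    have := Real.add_one_le_exp (1 / b)
    rw [neg_div, Real.exp_neg, hr, inv_le_comm₀ (Real.exp_pos _) (by positivity), inv_div,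
      add_div, div_self hb0.ne']
    linarith
  have h4 : Real.exp (1 / 4) ≤ 4 / 3 := by
    have := Real.add_one_le_exp (-(1 / 4))
    rw [Real.exp_neg, le_inv_comm₀ (by norm_num) (Real.exp_pos _)] at this
    linarith
  calc _ ≤ ∑' k : ℤ, ENNReal.ofReal (4 / 3 * r ^ k.natAbs) := by
        refine ENNReal.tsum_le_tsum fun k => ENNReal.ofReal_le_ofReal ?_
        calc _ ≤ Real.exp (1 / 4 + (k.natAbs : ℕ) * (-1 / b)) := by
              refine Real.exp_le_exp.2 ?_
              have e : (k : ℝ) ^ 2 = ((k.natAbs : ℕ) : ℝ) ^ 2 := by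
                rw [Nat.cast_natAbs, Int.cast_abs, sq_abs]
              have e2 : -((k.natAbs : ℕ) : ℝ) ^ 2 / b ^ 2 = -((k.natAbs : ℕ) / b) ^ 2 := by ring
              have e3 : ((k.natAbs : ℕ) : ℝ) * (-1 / b) = -((k.natAbs : ℕ) / b) := by ring
              rw [e, e2, e3]
              nlinarith [sq_nonneg (((k.natAbs : ℕ) : ℝ) / b - 1 / 2)]
          _ ≤ _ := by
              rw [Real.exp_add, Real.exp_nat_mul]
              gcongr
    _ = ENNReal.ofReal (4 / 3 * ((1 - r)⁻¹ + (1 - r)⁻¹ * r)) := by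
        rw [← h2.tsum_eq, ENNReal.ofReal_tsum_of_nonneg (fun k => by positivity) h2.summable]
    _ ≤ _ := by
        refine ENNReal.ofReal_le_ofReal ?_
        have : (b + 1) * r = b := by rw [hr]; field_simp
        rw [r2, this]
        linarith

theorem rho_univ_le {b : ℝ} (hb : 1 ≤ b) :
    rho b (Set.univ : Set (ι → ℤ)) ≤ ENNReal.ofReal (5 * b) ^ Fintype.card ι := by
  simp only [rho, Set.indicator_univ, wt_eq_prod]
  rw [tsum_pi_prod (fun (_ : ι) (k : ℤ) => ENNReal.ofReal (Real.exp (-(k : ℝ) ^ 2 / b ^ 2))),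
    Finset.prod_const, Finset.card_univ]
  exact pow_le_pow_left' (tsum_gauss_int_le hb) _

/-- `wt (z + v) + wt (-z + v) ≥ 2 exp (-‖v‖²/b²) wt z` and `S = -S`. -/
theorem rho_shift {b : ℝ} (hb : 0 < b) (Λ : Submodule ℤ (ι → ℤ)) (v : ι → ℤ) (hv : ‖zc v‖ ≤ 2 * b) :
    ENNReal.ofReal (Real.exp (-4)) * rho b (Λ : Set (ι → ℤ)) ≤ rho b {z | z - v ∈ Λ} := by
  have h1 : rho b {z | z - v ∈ Λ} = ∑' z, (Λ : Set (ι → ℤ)).indicator (fun z => wt b (z + v)) z := by
    rw [rho, ← (Equiv.addRight v).tsum_eq]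
    refine tsum_congr fun z => ?_
    by_cases hz : z ∈ Λ <;> simp [hz]
  have h2 : rho b {z | z - v ∈ Λ} = ∑' z, (Λ : Set (ι → ℤ)).indicator (fun z => wt b (-z + v)) z := by
    rw [h1, ← (Equiv.neg _).tsum_eq]
    refine tsum_congr fun z => ?_
    by_cases hz : z ∈ Λ <;> simp [hz]
  have h3 : ∑ i, (v i : ℝ) ^ 2 ≤ 4 * b ^ 2 := by
    rw [← m2_norm]
    nlinarith [norm_nonneg (zc v)]
  refine (ENNReal.mul_le_mul_iff_right (a := 2) two_ne_zero ENNReal.ofNat_ne_top).1 ?_
  rw [two_mul (rho _ _)]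
  nth_rewrite 1 [h1]
  rw [h2, ← ENNReal.tsum_add, rho, ← mul_assoc, ← ENNReal.tsum_mul_left]
  refine ENNReal.tsum_le_tsum fun z => ?_
  by_cases hz : z ∈ (Λ : Set (ι → ℤ))
  swap
  · simp [hz]
  simp only [Set.indicator_of_mem hz, wt]
  rw [← ENNReal.ofReal_add (Real.exp_pos _).le (Real.exp_pos _).le, ← ENNReal.ofReal_ofNat,
    ← ENNReal.ofReal_mul (by norm_num), ← ENNReal.ofReal_mul (by positivity)]
  refine ENNReal.ofReal_le_ofReal ?_
  set A := -(∑ i, (z i : ℝ) ^ 2 + ∑ i, (v i : ℝ) ^ 2) / b ^ 2 with hA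
  set s := 2 * (∑ i, (z i : ℝ) * v i) / b ^ 2 with hs
  have e1 : -(∑ i, (((z + v) i : ℤ) : ℝ) ^ 2) / b ^ 2 = A + -s := by
    rw [hA, hs, ← neg_div, ← add_div, ← neg_add, ← Finset.sum_add_distrib, Finset.mul_sum,
      ← Finset.sum_add_distrib]
    congr 2
    exact Finset.sum_congr rfl fun i _ => by simp only [Pi.add_apply, Int.cast_add]; ring
  have e2 : -(∑ i, (((-z + v) i : ℤ) : ℝ) ^ 2) / b ^ 2 = A + s := by
    rw [hA, hs, ← add_div, ← Finset.sum_add_distrib, Finset.mul_sum, ← Finset.sum_neg_distrib,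
      ← Finset.sum_neg_distrib, ← Finset.sum_add_distrib]
    congr 1
    exact Finset.sum_congr rfl fun i _ => by
      simp only [Pi.add_apply, Pi.neg_apply, Int.cast_add, Int.cast_neg]; ring
  have e3 : Real.exp (-4) * Real.exp (-(∑ i, (z i : ℝ) ^ 2) / b ^ 2) ≤ Real.exp A := by
    rw [← Real.exp_add, Real.exp_le_exp, hA, neg_add, add_div, add_comm]
    gcongr
    rw [le_div_iff₀ (by positivity)]
    linarith
  rw [e1, e2, Real.exp_add, Real.exp_add]
  nlinarith [Real.add_one_le_exp s, Real.add_one_le_exp (-s), Real.exp_pos A]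

/-- The translates of the central slice by the `v a` are disjoint subsets of `kerS X`. -/
theorem rho_slice {α : Type} {b : ℝ} (hb : 0 < b) (X : α → ι → ℤ) (x : ι → ℤ) {N : ℕ} (v : Fin N → ι → ℤ)
    (hv : ∀ a, v a ∈ kerS X ∧ ‖zc (v a)‖ ≤ 2 * b) (hi : Function.Injective fun a => x ⬝ᵥ v a) :
    ENNReal.ofReal (N * Real.exp (-4)) * rho b (kerS X ∩ {z | x ⬝ᵥ z = 0}) ≤ rho b (kerS X) := by
  let Λ : Submodule ℤ (ι → ℤ) :=
    { carrier := kerS X ∩ {z | x ⬝ᵥ z = 0}
      add_mem' := fun ha hb => ⟨fun l => by rw [dotProduct_add, ha.1 l, hb.1 l, add_zero],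
        by rw [Set.mem_ofPred_eq, dotProduct_add, ha.2, hb.2, add_zero]⟩
      zero_mem' := ⟨fun l => dotProduct_zero _, dotProduct_zero _⟩
      smul_mem' := fun c a ha => ⟨fun l => by rw [dotProduct_smul, ha.1 l, smul_zero],
        by rw [Set.mem_ofPred_eq, dotProduct_smul, ha.2, smul_zero]⟩ }
  calc _ = ∑ _a : Fin N, ENNReal.ofReal (Real.exp (-4)) * rho b (Λ : Set (ι → ℤ)) := by
        rw [Finset.sum_const, Finset.card_univ, Fintype.card_fin, nsmul_eq_mul, ← mul_assoc,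
          ENNReal.ofReal_mul (Nat.cast_nonneg _), ENNReal.ofReal_natCast]
        rfl
    _ ≤ ∑ a, rho b {z | z - v a ∈ Λ} := Finset.sum_le_sum fun a _ => rho_shift hb Λ _ (hv a).2
    _ ≤ _ := by
        simp only [rho]
        rw [← Summable.tsum_finsetSum fun _ _ => ENNReal.summable]
        refine ENNReal.tsum_le_tsum fun z => ?_
        by_cases h : ∃ a, z - v a ∈ Λ
        · obtain ⟨a, ha⟩ := h
          have hz : z ∈ kerS X := fun l => by
            have := ha.1 l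
            rwa [dotProduct_sub, (hv a).1 l, sub_zero] at this
          rw [Finset.sum_eq_single a (fun a' _ hne => Set.indicator_of_notMem (fun h' => hne (hi ?_)) _)
            (fun h => absurd (Finset.mem_univ a) h), Set.indicator_of_mem hz,
            Set.indicator_of_mem (show z ∈ {z | z - v a ∈ Λ} from ha)]
          have e1 : x ⬝ᵥ (z - v a) = 0 := ha.2
          have e2 : x ⬝ᵥ (z - v a') = 0 := h'.2
          rw [dotProduct_sub, sub_eq_zero] at e1 e2
          exact e2.symm.trans e1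
        · push Not at h
          rw [Finset.sum_eq_zero fun a _ => Set.indicator_of_notMem
            (show z ∉ {z | z - v a ∈ Λ} from h a) _]
          exact zero_le

theorem le_rho {b R : ℝ} (hb : 0 < b) (S : Set (ι → ℤ)) (T : Finset (ι → ℤ)) (hT : ∀ z ∈ T, z ∈ S ∧ ‖zc z‖ ≤ R) :
    ENNReal.ofReal (T.card * Real.exp (-R ^ 2 / b ^ 2)) ≤ rho b S := by
  refine le_trans ?_ (ENNReal.sum_le_tsum T)
  rw [ENNReal.ofReal_mul (Nat.cast_nonneg _), ENNReal.ofReal_natCast, ← nsmul_eq_mul]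
  refine Finset.card_nsmul_le_sum _ _ _ fun z hz => ?_
  rw [Set.indicator_of_mem (hT z hz).1, wt, ← m2_norm]
  refine ENNReal.ofReal_le_ofReal (Real.exp_le_exp.2 ?_)
  gcongr
  exact (hT z hz).2

end

end Crest.Agent.R152
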