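import Crest.Agent.R152.M1

/-!
# R152/M3

The two exceptional events for a fresh constraint `zo ξ - zo ξ'`.

Helper lemmas: prefix `m3_`.
-/

set_option autoImplicit false
set_option linter.unusedVariables false
set_option linter.unusedSectionVars false

namespace Crest.Agent.R152

open Crest.FinProb Crest.ProbabilityR.SignMatrix MeasureTheory ProbabilityTheory Filter Module
open scoped RealInnerProductSpace ENNReal Matrix Topology

noncomputable section

variable {ι κ : Type} [Fintype ι] [DecidableEq ι] [Fintype κ] [DecidableEq κ] {p : ℝ}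

/-- A basis of a saturated lattice stays independent modulo a prime: if `∑ c i ζ i = l w` then `w ∈ lat W`. -/
theorem li_mod_prime {W : Submodule ℚ (ι → ℚ)} {ζ : κ → ι → ℤ} (h : IsBas (lat W) ζ) (l : ℕ) [Fact l.Prime] :
    LinearIndependent (ZMod l) fun i j => ((ζ i j : ℤ) : ZMod l) := by
  refine Fintype.linearIndependent_iff.2 fun g hg i => ?_
  choose c hc using fun i => ZMod.intCast_surjective (g i)
  have h1 : ∀ j, (l : ℤ) ∣ (∑ i, c i • ζ i) j := fun j => by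
    rw [← ZMod.intCast_zmod_eq_zero_iff_dvd]
    have h2 := congrFun hg j
    simp only [Finset.sum_apply, Pi.smul_apply, smul_eq_mul, Pi.zero_apply] at h2 ⊢
    push_cast
    simpa only [hc] using h2
  choose w hw using h1
  have hw' : ∑ i, c i • ζ i = (l : ℤ) • w := funext hw
  have hl : (l : ℚ) ≠ 0 := Nat.cast_ne_zero.2 (Fact.out : l.Prime).ne_zero
  have h2 : w ∈ lat W := by
    have h3 : ∑ i, c i • ζ i ∈ lat W :=
      Submodule.sum_mem _ fun i _ => Submodule.smul_mem _ _ (h.mem i)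
    have h4 : qc w = (l : ℚ)⁻¹ • qc (∑ i, c i • ζ i) := by
      rw [hw']
      funext j
      simp [hl]
    rw [mem_lat, h4]
    exact W.smul_mem _ h3
  obtain ⟨d, hd⟩ := h.exists_coeff h2
  have h3 := Fintype.linearIndependent_iff.1 h.1 (fun i => c i - l * d i) (by
    simp only [sub_smul, mul_smul, Finset.sum_sub_distrib]
    rw [hw', ← Finset.smul_sum, ← hd, sub_self]) i
  rw [← hc, sub_eq_zero.1 h3]
  simp

/-- The values `x ⬝ᵥ v`, `v ∈ lat (qsp z)`, form a proper ideal of `ℤ`.  If all `x ⬝ᵥ z i` vanish the ideal is `0` (take `l = 2`);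
otherwise a prime containing it divides some nonzero `x ⬝ᵥ z i`. -/
theorem exists_prime_of_not_one (z : κ → ι → ℤ) {H : ℕ} (hH : ∀ i l, |z i l| ≤ H) (x : ι → ℤ) (hx : ∀ l, |x l| ≤ 1)
    (hv : ¬ ∃ v ∈ lat (qsp z), x ⬝ᵥ v = 1) :
    ∃ l : ℕ, l.Prime ∧ l ≤ Fintype.card ι * H + 2 ∧ ∀ v ∈ lat (qsp z), (l : ℤ) ∣ x ⬝ᵥ v := by
  by_cases h0 : ∀ i, x ⬝ᵥ z i = 0
  · refine ⟨2, Nat.prime_two, by omega, fun v hv' => ?_⟩
    have h1 := lat_qsp_subset_kerS (fun _ : Unit => x) z (fun i _ => h0 i) hv' ()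
    rw [h1]
    exact dvd_zero _
  obtain ⟨i, hi⟩ := not_forall.1 h0
  let I : Ideal ℤ := (lat (qsp z)).map (dotProductBilin ℤ ℤ x)
  have hI : ∀ v ∈ lat (qsp z), Submodule.IsPrincipal.generator I ∣ x ⬝ᵥ v := fun v hv' =>
    (Submodule.IsPrincipal.mem_iff_generator_dvd I).1 ⟨v, hv', rfl⟩
  have h1 : (Submodule.IsPrincipal.generator I).natAbs ≠ 1 := fun h =>
    hv ((Submodule.IsPrincipal.mem_iff_generator_dvd I).2 (Int.isUnit_iff_natAbs_eq.2 h).dvd)
  obtain ⟨l, hl, hd⟩ := Nat.exists_prime_and_dvd h1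
  have h2 : ∀ v ∈ lat (qsp z), (l : ℤ) ∣ x ⬝ᵥ v := fun v hv' => (Int.natCast_dvd.2 hd).trans (hI v hv')
  refine ⟨l, hl, ?_, h2⟩
  have h3 := Int.le_of_dvd (abs_pos.2 hi)
    ((dvd_abs _ _).2 (h2 _ (l2_span_le z (Submodule.subset_span ⟨i, rfl⟩))))
  have h4 : |x ⬝ᵥ z i| ≤ ∑ _j : ι, (H : ℤ) := by
    refine (Finset.abs_sum_le_sum_abs _ _).trans (Finset.sum_le_sum fun j _ => ?_)
    rw [abs_mul]
    exact (mul_le_of_le_one_left (abs_nonneg _) (hx j)).trans (hH i j)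
  rw [Finset.sum_const, Finset.card_univ, nsmul_eq_mul] at h4
  have h5 : (l : ℤ) ≤ ((Fintype.card ι * H + 2 : ℕ) : ℤ) := by
    push_cast
    linarith
  exact_mod_cast h5

theorem m3_ev (a : ℕ) {ε : ℝ} (hε : 0 < ε) :
    ∃ h₀ : ℕ, ∀ h : ℕ, h₀ ≤ h → (h : ℝ) * (2 * h + 1) ^ a + 4 ≤ Real.exp (ε * h) := by
  have hC : (0 : ℝ) < 3 ^ a + 4 := by positivity
  have h1 := tendsto_natCast_atTop_atTop.eventually
    ((isLittleO_pow_exp_pos_mul_atTop (a + 1) hε).bound (inv_pos.2 hC))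
  obtain ⟨h₀, hh⟩ := eventually_atTop.1 (h1.and (eventually_ge_atTop 1))
  refine ⟨h₀, fun h hle => ?_⟩
  obtain ⟨h2, h3⟩ := hh h hle
  have h4 : (1 : ℝ) ≤ h := by exact_mod_cast h3
  rw [Real.norm_of_nonneg (by positivity), Real.norm_of_nonneg (by positivity), le_inv_mul_iff₀ hC] at h2
  refine le_trans ?_ h2
  have h5 : (2 * (h : ℝ) + 1) ^ a ≤ (3 * h) ^ a := by
    gcongr
    linarith
  have h6 : (1 : ℝ) ≤ h ^ (a + 1) := one_le_pow₀ h4
  calc (h : ℝ) * (2 * h + 1) ^ a + 4 ≤ h * (3 * h) ^ a + 4 * h ^ (a + 1) := by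
        gcongr
        linarith
    _ = _ := by ring

theorem m3_zo (ξ ξ' : ι → Bool) (l : ι) : |(zo ξ - zo ξ') l| ≤ 1 := by
  simp only [Pi.sub_apply, zo]
  split_ifs <;> simp

theorem m3_arith (h0 : 0 < p) (h1 : p < 1) {g : ℕ} (z : Fin g → ι → ℤ) (hz : LinearIndependent ℤ z) {H : ℕ}
    (hH : ∀ i l, |z i l| ≤ H) (ξ' : ι → Bool) :
    pr p {ξ : ι → Bool | ¬ ∃ v ∈ lat (qsp z), (zo ξ - zo ξ') ⬝ᵥ v = 1} ≤
      ((Fintype.card ι : ℝ) * H + 3) * pm p ^ g := by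
  obtain ⟨ζ, hζ⟩ := exists_isBas (lat (qsp z))
  have hg : finrank ℤ (lat (qsp z)) = g := by rw [finrank_lat, finrank_qsp hz, Fintype.card_fin]
  refine (pr_le_card_mul h0 h1 ((Finset.range (Fintype.card ι * H + 3)).filter Nat.Prime)
    (fun l => {ξ | ∀ i, ∑ j, ((ζ i j : ℤ) : ZMod l) * (zo ξ j : ZMod l) =
      ∑ j, ((ζ i j : ℤ) : ZMod l) * (zo ξ' j : ZMod l)}) _ (fun ξ hξ => ?_) (c := pm p ^ g)
    fun l hl => ?_).trans ?_
  · obtain ⟨l, hl, hle, hd⟩ := exists_prime_of_not_one z hH _ (m3_zo ξ ξ') hξ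
    refine ⟨l, Finset.mem_filter.2 ⟨Finset.mem_range.2 (by omega), hl⟩, fun i => ?_⟩
    have h2 := (ZMod.intCast_zmod_eq_zero_iff_dvd _ _).2 (hd _ (hζ.mem i))
    rw [← sub_eq_zero, ← Finset.sum_sub_distrib, ← h2, dotProduct]
    push_cast
    exact Finset.sum_congr rfl fun j _ => by
      rw [Pi.sub_apply]
      push_cast
      ring
  · have : Fact l.Prime := ⟨(Finset.mem_filter.1 hl).2⟩
    have h2 := odlyzko h0 h1 _ (li_mod_prime hζ l)
      fun i => ∑ j, ((ζ i j : ℤ) : ZMod l) * (zo ξ' j : ZMod l)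
    exact h2.trans_eq (by rw [Fintype.card_fin, hg])
  · have h2 := (Finset.card_filter_le (Finset.range (Fintype.card ι * H + 3)) Nat.Prime).trans_eq
      (Finset.card_range _)
    have h3 := pm_pos p
    gcongr
    exact_mod_cast h2

/-- Union over primes of `odlyzko` (a basis of `lat (qsp z)` has `g` elements), and `small_ball` for `rsp (qsp z)` (`finrank_rsp`). -/
theorem bad_prob (h0 : 0 < p) (h1 : p < 1) {γ : ℝ} (hγ : 0 < γ) (a : ℕ) : ∃ c : ℝ, 0 < c ∧ ∃ h₀ : ℕ, ∀ (ι : Type) [Fintype ι] [DecidableEq ι],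
    h₀ ≤ Fintype.card ι → ∀ (g : ℕ) (z : Fin g → ι → ℤ), γ * Fintype.card ι ≤ g → LinearIndependent ℤ z →
    (∀ i l, |z i l| ≤ (2 * Fintype.card ι + 1) ^ a) → ∀ ξ' : ι → Bool,
    pr p {ξ : ι → Bool | ¬ ((∃ v ∈ lat (qsp z), (zo ξ - zo ξ') ⬝ᵥ v = 1) ∧
      c * √(Fintype.card ι) ≤ ‖(rsp (qsp z)).starProjection (zc (zo ξ - zo ξ'))‖)} ≤
      Real.exp (-c * Fintype.card ι) := by
  obtain ⟨c₁, hc₁, hsb⟩ := small_ball h0 h1 hγ
  have hθ : 0 < -Real.log (pm p) := neg_pos.2 (Real.log_neg (pm_pos p) (pm_lt_one h0 h1))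
  set m := min c₁ (-Real.log (pm p) * γ) with hm
  have hm0 : 0 < m := lt_min hc₁ (by positivity)
  obtain ⟨h₀, hh⟩ := m3_ev a (half_pos hm0)
  refine ⟨m / 2, half_pos hm0, h₀, fun ι _ _ hι g z hg hz hH ξ' => ?_⟩
  have hA := m3_arith h0 h1 z hz (H := (2 * Fintype.card ι + 1) ^ a) (by exact_mod_cast hH) ξ'
  have hB := hsb ι (rsp (qsp z)) (by rwa [finrank_rsp, finrank_qsp hz, Fintype.card_fin]) (zc (zo ξ'))
  have hN : (0 : ℝ) ≤ Fintype.card ι := Nat.cast_nonneg _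
  have hm1 : m ≤ c₁ := min_le_left _ _
  refine ((pr_mono h0 h1 fun ξ hξ => ?_).trans ((pr_union_le h0 h1 _ _).trans (add_le_add hA hB))).trans ?_
  · rcases not_and_or.1 hξ with h | h
    · exact Or.inl h
    · refine Or.inr ?_
      rw [map_sub, not_le] at h
      refine h.trans_le ?_
      gcongr
      linarith
  have h2 : pm p ^ g ≤ Real.exp (-m * Fintype.card ι) := by
    rw [← Real.exp_log (pm_pos p), ← Real.exp_nat_mul, Real.exp_le_exp]
    have h3 : m * Fintype.card ι ≤ -Real.log (pm p) * γ * Fintype.card ι :=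
      mul_le_mul_of_nonneg_right (min_le_right _ _) hN
    have h4 := mul_le_mul_of_nonneg_left hg hθ.le
    linarith
  have h3 : Real.exp (-c₁ * Fintype.card ι) ≤ Real.exp (-m * Fintype.card ι) := by
    rw [Real.exp_le_exp]
    nlinarith
  have h4 := hh _ hι
  push_cast
  calc ((Fintype.card ι : ℝ) * (2 * Fintype.card ι + 1) ^ a + 3) * pm p ^ g + Real.exp (-c₁ * Fintype.card ι)
      ≤ ((Fintype.card ι : ℝ) * (2 * Fintype.card ι + 1) ^ a + 3) * Real.exp (-m * Fintype.card ι) +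
        Real.exp (-m * Fintype.card ι) := by gcongr
    _ = ((Fintype.card ι : ℝ) * (2 * Fintype.card ι + 1) ^ a + 4) * Real.exp (-m * Fintype.card ι) := by ring
    _ ≤ Real.exp (m / 2 * Fintype.card ι) * Real.exp (-m * Fintype.card ι) := by gcongr
    _ = _ := by
      rw [← Real.exp_add]
      congr 1
      ring

end

end Crest.Agent.R152
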