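import Crest.Agent.R152.M2
import Crest.Agent.R152.M3

/-!
# R152/M4

The moment lemma.

Helper lemmas: prefix `m4_`.
-/

set_option autoImplicit false
set_option linter.unusedVariables false
set_option linter.unusedSectionVars false

namespace Crest.Agent.R152

open Crest.FinProb Crest.ProbabilityR.SignMatrix MeasureTheory ProbabilityTheory Filter Module
open scoped RealInnerProductSpace ENNReal Matrix Topology

noncomputable section

variable {ι κ : Type} [Fintype ι] [DecidableEq ι] [Fintype κ] [DecidableEq κ] {p : ℝ}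

theorem coll_nonneg (h0 : 0 < p) (h1 : p < 1) (Z : κ → ι → ℤ) : 0 ≤ coll p Z := ex_nonneg h0 h1 fun _ => pr_nonneg h0 h1 _

theorem coll_le_one (h0 : 0 < p) (h1 : p < 1) (Z : κ → ι → ℤ) : coll p Z ≤ 1 := (ex_mono h0 h1 fun _ => pr_le_one h0 h1 _).trans (ex_const p 1).le

theorem m4_exE_add (p : ℝ) (f g : (ι → Bool) → ℝ≥0∞) : exE p (fun ω => f ω + g ω) = exE p f + exE p g := by
  simp only [exE, mul_add, Finset.sum_add_distrib]

theorem m4_exE_const (h0 : 0 < p) (h1 : p < 1) (c : ℝ≥0∞) : exE p (fun _ : ι → Bool => c) = c := by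
  rw [exE, ← Finset.sum_mul, ← ENNReal.ofReal_sum_of_nonneg fun ω _ => (wgt_pos h0 h1 ω).le, sum_wgt,
    ENNReal.ofReal_one, one_mul]

theorem m4_exE_comm (p : ℝ) (F : (ι → Bool) → (ι → Bool) → ℝ≥0∞) :
    exE p (fun a => exE p fun b => F a b) = exE p fun b => exE p fun a => F a b := by
  simp only [exE, Finset.mul_sum]
  rw [Finset.sum_comm]
  exact Finset.sum_congr rfl fun _ _ => Finset.sum_congr rfl fun _ _ => mul_left_comm _ _ _

theorem m4_abs_zo (ξ ξ' : ι → Bool) (l : ι) : |(zo ξ - zo ξ') l| ≤ 1 := by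
  simp only [Pi.sub_apply, zo]
  cases ξ l <;> cases ξ' l <;> simp

theorem m4_pow (h a : ℕ) (h3 : 3 ≤ h) :
    2 * (h : ℝ) ^ 3 * (((2 * h + 1) ^ a : ℕ) : ℝ) ^ 2 ≤ (h : ℝ) ^ (4 * a + 4) := by
  have e1 : 2 * h + 1 ≤ h ^ 2 := by nlinarith
  have e2 : (2 * h + 1) ^ a ≤ (h ^ 2) ^ a := Nat.pow_le_pow_left e1 a
  have e3 : ((2 * h + 1) ^ a) ^ 2 ≤ ((h ^ 2) ^ a) ^ 2 := Nat.pow_le_pow_left e2 2
  have e4 : 2 * h ^ 3 * ((2 * h + 1) ^ a) ^ 2 ≤ h ^ (4 * a + 4) := by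
    calc 2 * h ^ 3 * ((2 * h + 1) ^ a) ^ 2 ≤ h * h ^ 3 * ((h ^ 2) ^ a) ^ 2 :=
          Nat.mul_le_mul (Nat.mul_le_mul (by omega) le_rfl) e3
      _ = h ^ (4 * a + 4) := by ring
  exact_mod_cast e4

theorem m4_good {j g : ℕ} (X : Fin j → ι → ℤ) (z : Fin g → ι → ℤ) (hz : LinearIndependent ℤ z) (hzX : ∀ i, z i ∈ kerS X)
    {H : ℕ} (hH : ∀ i l, |z i l| ≤ H) (x : ι → ℤ) (hx : ∀ l, |x l| ≤ 1) (hv : ∃ v ∈ lat (qsp z), x ⬝ᵥ v = 1)
    {b y : ℝ} (hb0 : 0 < b) (hb : 2 * (Fintype.card ι : ℝ) ^ 3 * (H : ℝ) ^ 2 ≤ b) (hy : 0 < y)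
    (hP : y ≤ ‖(rsp (qsp z)).starProjection (zc x)‖) :
    rho b (kerS X ∩ {w | x ⬝ᵥ w = 0}) ≤ rho b (kerS X) * ENNReal.ofReal (Real.exp 4 / (b * y)) := by
  have hby : 0 < b * y := mul_pos hb0 hy
  have key : ∀ a : Fin (⌊b * y⌋₊ + 1), ∃ v ∈ lat (qsp z), x ⬝ᵥ v = ((a : ℕ) : ℤ) ∧ ‖zc v‖ ≤ 2 * b := fun a => by
    refine exists_slice_point z hz hH x hx hv hb _ ?_
    have h1 : ((a : ℕ) : ℝ) ≤ (⌊b * y⌋₊ : ℝ) := by exact_mod_cast Nat.lt_succ_iff.1 a.2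
    rw [Int.cast_natCast, Nat.abs_cast]
    exact h1.trans ((Nat.floor_le hby.le).trans (mul_le_mul_of_nonneg_left hP hb0.le))
  choose v hv1 hv2 hv3 using key
  have hs := rho_slice hb0 X x v (fun a => ⟨lat_qsp_subset_kerS X z hzX (hv1 a), hv3 a⟩) (fun a a' e => by
    simp only [hv2] at e
    exact Fin.ext (by exact_mod_cast e))
  have h2 : ENNReal.ofReal (b * y * Real.exp (-4)) ≤ ENNReal.ofReal (((⌊b * y⌋₊ + 1 : ℕ) : ℝ) * Real.exp (-4)) := by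
    refine ENNReal.ofReal_le_ofReal (mul_le_mul_of_nonneg_right ?_ (Real.exp_pos _).le)
    push_cast
    exact (Nat.lt_floor_add_one _).le
  have h3 : ENNReal.ofReal (Real.exp 4 / (b * y)) * ENNReal.ofReal (b * y * Real.exp (-4)) = 1 := by
    rw [← ENNReal.ofReal_mul (div_pos (Real.exp_pos _) hby).le, Real.exp_neg]
    have := (Real.exp_pos 4).ne'
    rw [show Real.exp 4 / (b * y) * (b * y * (Real.exp 4)⁻¹) = 1 by field_simp, ENNReal.ofReal_one]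
  calc rho b (kerS X ∩ {w | x ⬝ᵥ w = 0})
      = ENNReal.ofReal (Real.exp 4 / (b * y)) *
          (ENNReal.ofReal (b * y * Real.exp (-4)) * rho b (kerS X ∩ {w | x ⬝ᵥ w = 0})) := by
        rw [← mul_assoc, h3, one_mul]
    _ ≤ ENNReal.ofReal (Real.exp 4 / (b * y)) * rho b (kerS X) :=
        mul_le_mul_right ((mul_le_mul_left h2 _).trans hs) _
    _ = _ := mul_comm _ _

theorem m4_room {γ : ℝ} (hγ : 0 < γ) {a h j : ℕ} (ha : 2 / γ < a) (hh : 0 < h) (hj : (j : ℝ) ≤ (1 - γ) * h) :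
    h < a * (h - ⌊γ / 2 * h⌋₊ - j) := by
  have h0 : (0 : ℝ) < h := by exact_mod_cast hh
  have h1 : (⌊γ / 2 * h⌋₊ : ℝ) ≤ γ / 2 * h := Nat.floor_le (by positivity)
  have h2 : ⌊γ / 2 * h⌋₊ + j ≤ h := by
    have : (⌊γ / 2 * h⌋₊ : ℝ) + j ≤ h := by nlinarith
    exact_mod_cast this
  have h3 : ((h - ⌊γ / 2 * h⌋₊ - j : ℕ) : ℝ) = h - ⌊γ / 2 * h⌋₊ - j := by
    rw [Nat.sub_sub, Nat.cast_sub h2]; push_cast; ring
  have h4 : γ / 2 * h ≤ ((h - ⌊γ / 2 * h⌋₊ - j : ℕ) : ℝ) := by rw [h3]; nlinarith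
  have h5 : 2 < a * γ := by rwa [div_lt_iff₀ hγ] at ha
  have h6 : (h : ℝ) < a * ((h - ⌊γ / 2 * h⌋₊ - j : ℕ) : ℝ) := by
    have ha0 : (0 : ℝ) ≤ a := Nat.cast_nonneg _
    have := mul_le_mul_of_nonneg_left h4 ha0
    nlinarith
  exact_mod_cast h6

/-- One more constraint.  `a` with `γ a / 2 > 1`, `siegel` with `t + 1 ≥ γ h / 2`, `bad_prob`; off the bad event `exists_slice_point` for
`a = 1, …, N`, `N = ⌊b c √h⌋ ≥ b c √h / 2`, and `rho_slice` give the ratio `2 e⁴ / (c b √h)`; on the bad event use `rho_mono`. -/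
theorem moment_step (h0 : 0 < p) (h1 : p < 1) {γ : ℝ} (hγ : 0 < γ) : ∃ (C : ℕ) (C' c : ℝ) (h₀ : ℕ), 0 < C' ∧ 0 < c ∧
    ∀ (ι : Type) [Fintype ι] [DecidableEq ι], h₀ ≤ Fintype.card ι → ∀ b : ℝ, (Fintype.card ι : ℝ) ^ C ≤ b →
    ∀ (j : ℕ) (X : Fin j → ι → ℤ), (∀ l i, |X l i| ≤ 1) → (j : ℝ) ≤ (1 - γ) * Fintype.card ι → ∀ r : ℕ,
    exE p (fun ξ' : ι → Bool => exE p fun ξ : ι → Bool => rho b (kerS X ∩ {z | (zo ξ - zo ξ') ⬝ᵥ z = 0}) ^ r) ≤
      rho b (kerS X) ^ r *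
        ENNReal.ofReal ((C' / (b * √(Fintype.card ι))) ^ r + Real.exp (-c * Fintype.card ι)) := by
  obtain ⟨a, ha⟩ := exists_nat_gt (2 / γ)
  obtain ⟨c, hc, h₀, hbad⟩ := bad_prob h0 h1 (half_pos hγ) a
  refine ⟨4 * a + 4, Real.exp 4 / c, c, max h₀ 3, div_pos (Real.exp_pos _) hc, hc, ?_⟩
  intro ι _ _ hh b hb j X hX hj r
  have h3 : 3 ≤ Fintype.card ι := le_of_max_le_right hh
  have hpos : (0 : ℝ) < Fintype.card ι := by exact_mod_cast (by omega : 0 < Fintype.card ι)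
  have hb0 : 0 < b := (pow_pos hpos _).trans_le hb
  obtain ⟨z, hz, hzX, hzH⟩ := siegel X hX ⌊γ / 2 * Fintype.card ι⌋₊ a (m4_room hγ ha (by omega) hj)
  have hzH' : ∀ i l, |z i l| ≤ (((2 * Fintype.card ι + 1) ^ a : ℕ) : ℤ) := fun i l => by
    push_cast; exact hzH i l
  have hs : 0 < √(Fintype.card ι : ℝ) := Real.sqrt_pos.2 hpos
  have hβ : 0 ≤ Real.exp 4 / c / (b * √(Fintype.card ι : ℝ)) :=
    (div_pos (div_pos (Real.exp_pos _) hc) (mul_pos hb0 hs)).le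
  refine (exE_mono p fun ξ' => ?_).trans (m4_exE_const h0 h1 _).le
  have hB := hbad ι (le_of_max_le_left hh) _ z (by push_cast; exact (Nat.lt_floor_add_one _).le) hz hzH ξ'
  set B : Set (ι → Bool) := {ξ : ι → Bool | ¬ ((∃ v ∈ lat (qsp z), (zo ξ - zo ξ') ⬝ᵥ v = 1) ∧
      c * √(Fintype.card ι) ≤ ‖(rsp (qsp z)).starProjection (zc (zo ξ - zo ξ'))‖)} with hBdef
  calc exE p (fun ξ : ι → Bool => rho b (kerS X ∩ {z | (zo ξ - zo ξ') ⬝ᵥ z = 0}) ^ r)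
      ≤ exE p (fun ξ : ι → Bool => rho b (kerS X) ^ r *
          ENNReal.ofReal ((Real.exp 4 / c / (b * √(Fintype.card ι : ℝ))) ^ r) +
          B.indicator (fun _ => rho b (kerS X) ^ r) ξ) := by
        refine exE_mono p fun ξ => ?_
        by_cases hξ : ξ ∈ B
        · rw [Set.indicator_of_mem hξ]
          exact (pow_le_pow_left' (rho_mono b Set.inter_subset_left) r).trans le_add_self
        · rw [Set.indicator_of_notMem hξ, add_zero, ENNReal.ofReal_pow hβ, ← mul_pow]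
          have hξ' := not_not.1 hξ
          refine pow_le_pow_left' ?_ r
          have := m4_good X z hz hzX hzH' _ (m4_abs_zo ξ ξ') hξ'.1 hb0 ((m4_pow _ a h3).trans hb)
            (mul_pos hc hs) hξ'.2
          refine this.trans (le_of_eq ?_)
          congr 2
          rw [div_div]; congr 1; ring
    _ = rho b (kerS X) ^ r * ENNReal.ofReal ((Real.exp 4 / c / (b * √(Fintype.card ι : ℝ))) ^ r) +
          rho b (kerS X) ^ r * ENNReal.ofReal (pr p B) := by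
        rw [m4_exE_add, m4_exE_const h0 h1, exE_indicator h0 h1]
    _ ≤ _ := by
        rw [ENNReal.ofReal_add (pow_nonneg hβ r) (Real.exp_pos _).le, mul_add]
        exact add_le_add le_rfl (mul_le_mul_right (ENNReal.ofReal_le_ofReal hB) _)

theorem m4_coll (h0 : 0 < p) (h1 : p < 1) (Z : κ → ι → ℤ) :
    ENNReal.ofReal (coll p Z) = exE p fun ξ' : ι → Bool => exE p fun ξ : ι → Bool =>
      {ξ' : ι → Bool | ∀ i, (zo ξ - zo ξ') ⬝ᵥ Z i = 0}.indicator (fun _ => (1 : ℝ≥0∞)) ξ' := by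
  rw [m4_exE_comm, coll, ← exE_ofReal h0 h1 fun _ => pr_nonneg h0 h1 _]
  congr 1
  funext ξ
  rw [exE_indicator h0 h1, one_mul]

theorem m4_ind (b : ℝ) (S : Set (ι → ℤ)) (Z : κ → ι → ℤ) (ξ ξ' : ι → Bool) :
    ∏ i, (S ∩ {z | (zo ξ - zo ξ') ⬝ᵥ z = 0}).indicator (wt b) (Z i) =
      (∏ i, S.indicator (wt b) (Z i)) *
        {ξ' : ι → Bool | ∀ i, (zo ξ - zo ξ') ⬝ᵥ Z i = 0}.indicator (fun _ => (1 : ℝ≥0∞)) ξ' := by
  by_cases h : ∀ i, (zo ξ - zo ξ') ⬝ᵥ Z i = 0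
  · rw [Set.indicator_of_mem (show ξ' ∈ {ξ' : ι → Bool | ∀ i, (zo ξ - zo ξ') ⬝ᵥ Z i = 0} from h), mul_one]
    refine Finset.prod_congr rfl fun i _ => ?_
    by_cases hS : Z i ∈ S
    · rw [Set.indicator_of_mem hS, Set.indicator_of_mem (show Z i ∈ S ∩ {z | (zo ξ - zo ξ') ⬝ᵥ z = 0} from ⟨hS, h i⟩)]
    · rw [Set.indicator_of_notMem hS, Set.indicator_of_notMem fun h' => hS h'.1]
  · rw [Set.indicator_of_notMem (show ξ' ∉ {ξ' : ι → Bool | ∀ i, (zo ξ - zo ξ') ⬝ᵥ Z i = 0} from h), mul_zero]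
    obtain ⟨i, hi⟩ := not_forall.1 h
    exact Finset.prod_eq_zero (Finset.mem_univ i) (Set.indicator_of_notMem (fun h' => hi h'.2) _)

/-- `ofReal (coll Z) = exE exE 1[zo ξ - zo ξ' ⟂ Z]` (the definition is symmetric in `ξ`, `ξ'` after swapping the two sums), so
`mom (k+1) S = exE exE mom k (S ∩ x^⟂)`. -/
theorem mom_succ (h0 : 0 < p) (h1 : p < 1) (b : ℝ) (r k : ℕ) (S : Set (ι → ℤ)) :
    mom p b r (k + 1) S =
      exE p fun ξ' : ι → Bool => exE p fun ξ : ι → Bool => mom p b r k (S ∩ {z | (zo ξ - zo ξ') ⬝ᵥ z = 0}) := by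
  simp only [mom, exE_tsum, m4_ind]
  refine tsum_congr fun Z => ?_
  simp only [mul_right_comm _ _ (ENNReal.ofReal (coll p Z) ^ k), exE_const_mul]
  rw [← m4_coll h0 h1, pow_succ, mul_assoc]

theorem m4_kerS_cons {j : ℕ} (x : ι → ℤ) (X : Fin j → ι → ℤ) :
    kerS (Fin.cons x X : Fin (j + 1) → ι → ℤ) = kerS X ∩ {z | x ⬝ᵥ z = 0} := by
  ext z
  simp only [kerS, Set.mem_inter_iff, Set.mem_ofPred_eq, Fin.forall_fin_succ, Fin.cons_zero, Fin.cons_succ]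
  exact and_comm

/-- Induction on `k` for `mom k (kerS X) ≤ rho (kerS X)^r β^k` whenever `j + k ≤ (1-γ) h` (`kerS (Fin.cons x X) = kerS X ∩ x^⟂`,
`rho_pow`), then `j = 0` and `rho_univ_le`. -/
theorem moment (h0 : 0 < p) (h1 : p < 1) {γ : ℝ} (hγ : 0 < γ) : ∃ (C : ℕ) (C' c : ℝ) (h₀ : ℕ), 0 < C' ∧ 0 < c ∧
    ∀ h : ℕ, h₀ ≤ h → ∀ b : ℝ, 1 ≤ b → (h : ℝ) ^ C ≤ b → ∀ r k : ℕ, (k : ℝ) ≤ (1 - γ) * h →
    mom p b r k (Set.univ : Set (Fin h → ℤ)) ≤
      ENNReal.ofReal (5 * b) ^ (h * r) * ENNReal.ofReal ((C' / (b * √h)) ^ r + Real.exp (-c * h)) ^ k := by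
  obtain ⟨C, C', c, h₀, hC', hc, hstep⟩ := moment_step h0 h1 hγ
  refine ⟨C, C', c, h₀, hC', hc, fun h hh b hb1 hb r k hk => ?_⟩
  have hst := hstep (Fin h) (by simpa using hh) b (by simpa using hb)
  simp only [Fintype.card_fin] at hst
  set β := ENNReal.ofReal ((C' / (b * √h)) ^ r + Real.exp (-c * h)) with hβ
  have key : ∀ (k j : ℕ) (X : Fin j → Fin h → ℤ), (∀ l i, |X l i| ≤ 1) → (j : ℝ) + k ≤ (1 - γ) * h →
      mom p b r k (kerS X) ≤ rho b (kerS X) ^ r * β ^ k := by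
    intro k
    induction k with
    | zero =>
      intro j X hX hj
      simp only [mom, pow_zero, mul_one, rho_pow, le_refl]
    | succ k ih =>
      intro j X hX hj
      rw [mom_succ h0 h1]
      have hk0 : (0 : ℝ) ≤ k := Nat.cast_nonneg _
      push_cast at hj
      calc (exE p fun ξ' : Fin h → Bool => exE p fun ξ : Fin h → Bool =>
              mom p b r k (kerS X ∩ {z | (zo ξ - zo ξ') ⬝ᵥ z = 0}))
          ≤ exE p fun ξ' : Fin h → Bool => exE p fun ξ : Fin h → Bool =>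
              β ^ k * rho b (kerS X ∩ {z | (zo ξ - zo ξ') ⬝ᵥ z = 0}) ^ r := by
            refine exE_mono p fun ξ' => exE_mono p fun ξ => ?_
            rw [← m4_kerS_cons, mul_comm]
            refine ih (j + 1) _ (fun l i => ?_) (by push_cast; linarith)
            refine Fin.cases ?_ (fun l => ?_) l
            · exact m4_abs_zo ξ ξ' i
            · exact hX l i
        _ ≤ β ^ k * (rho b (kerS X) ^ r * β) := by
            simp only [exE_const_mul]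
            exact mul_le_mul_right (hst j X hX (by linarith) r) _
        _ = _ := by rw [pow_succ]; ring
  have h2 := key k 0 Fin.elim0 (fun l => l.elim0) (by simpa using hk)
  have h3 : kerS (Fin.elim0 : Fin 0 → Fin h → ℤ) = Set.univ := Set.eq_univ_of_forall fun z l => l.elim0
  rw [h3] at h2
  refine h2.trans (mul_le_mul_left ?_ _)
  rw [pow_mul]
  refine pow_le_pow_left' ?_ r
  simpa using rho_univ_le (ι := Fin h) hb1

end

end Crest.Agent.R152
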