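import Crest.Agent.R152.A2
import Crest.Agent.R152.A3
import Crest.Agent.R152.DM

/-!
# R152/N

Few admissible columns.

Helper lemmas: prefix `n_`.
-/

set_option autoImplicit false
set_option linter.unusedVariables false
set_option linter.unusedSectionVars false

namespace Crest.Agent.R152

open Crest.FinProb Crest.ProbabilityR.SignMatrix MeasureTheory ProbabilityTheory Filter Module
open scoped RealInnerProductSpace ENNReal Matrix Topology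

noncomputable section

variable {p : ℝ}

theorem n_ev {δ : ℝ} (hδ : 0 < δ) (C : ℝ) : ∀ᶠ n : ℕ in atTop, C ≤ (n : ℝ) ^ δ :=
  ((tendsto_rpow_atTop hδ).comp tendsto_natCast_atTop_atTop).eventually_ge_atTop C

theorem n_cancel {x a b d e c I M : ℝ} (hx : 1 ≤ x) (hc : x ^ d ≤ c) (he : 0 ≤ e) (h : c ^ e ≤ I * M)
    (hM : M ≤ x ^ b) (hI : 0 ≤ I) (hab : a + b ≤ d * e) : x ^ a ≤ I := by
  have h0 : 0 < x := by linarith
  refine le_of_mul_le_mul_right ?_ (Real.rpow_pos_of_pos h0 b)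
  calc x ^ a * x ^ b ≤ (x ^ d) ^ e := by
        rw [← Real.rpow_add h0, ← Real.rpow_mul h0.le]
        exact Real.rpow_le_rpow_of_exponent_le hx hab
    _ ≤ c ^ e := Real.rpow_le_rpow (by positivity) hc he
    _ ≤ _ := h.trans (mul_le_mul_of_nonneg_left hM hI)

/-- `κ₁ ≤ min 1 (σ/4)` from `card_small_subsets` (`η = σ/4`), `k = ⌊κ₁ n⌋ ≥ κ₁ n/2`, `δ₁ = κ₁ c₀/24`, `δ = δ₁ κ₁/8`.  Keep the lattices of `cover_large` and
`cover_small` that satisfy `IdxLat δ`; use the first if `c ≥ n^{δ₁ n}`, the second otherwise. -/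
theorem cover {c₀ σ : ℝ} (hc : 0 < c₀) (hσ : 0 < σ) : ∃ δ : ℝ, 0 < δ ∧ ∀ p₀ : ℕ, ∀ᶠ n : ℕ in atTop,
    ∀ A : Matrix (Fin n) (Fin n) ℤ, A.IsSymm → (∀ i j, |A i j| ≤ 1) → (n : ℝ) ^ (c₀ * n) ≤ A.det.natAbs →
    ∃ F : Finset (Submodule ℤ (Fin n → ℤ)), (F.card : ℝ) ≤ Real.exp (σ * n) ∧ (∀ Λ ∈ F, IdxLat δ A Λ) ∧
      ∀ x s c y, AdmA p₀ A x s c y → ∃ Λ ∈ F, sv x ∈ Λ := by
  classical
  obtain ⟨κ, hκ, hκ1, hcnt⟩ := card_small_subsets (show 0 < σ / 4 by positivity)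
  obtain ⟨κ₁, h1, h2, h3⟩ : ∃ κ₁ : ℝ, 0 < κ₁ ∧ κ₁ ≤ κ ∧ κ₁ ≤ σ / 4 :=
    ⟨min κ (σ / 4), by positivity, min_le_left _ _, min_le_right _ _⟩
  obtain ⟨δ₁, hδ₁⟩ : ∃ δ₁ : ℝ, δ₁ = κ₁ * c₀ / 24 := ⟨_, rfl⟩
  have h4 : 0 < δ₁ := by rw [hδ₁]; positivity
  have h5 : 0 < δ₁ * κ₁ / 8 := by positivity
  refine ⟨δ₁ * κ₁ / 8, h5, fun p₀ => ?_⟩
  filter_upwards [n_ev h4 2, n_ev h5 ((p₀ : ℝ) ^ (p₀ * p₀)), eventually_ge_atTop 1,
    (tendsto_natCast_atTop_atTop.const_mul_atTop h1).eventually_ge_atTop 2,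
    (tendsto_natCast_atTop_atTop.const_mul_atTop hσ).eventually_ge_atTop (2 + σ)] with n e1 e2 hn e3 e4 A hs hA hD
  have hn1 : (1 : ℝ) ≤ n := Nat.one_le_cast.2 hn
  have hn0 : (0 : ℝ) < n := by linarith
  have hD0 : A.det.natAbs ≠ 0 := Nat.cast_ne_zero.1 ((Real.rpow_pos_of_pos hn0 _).trans_le hD).ne'
  have hdet : A.det ≠ 0 := Int.natAbs_ne_zero.1 hD0
  have hDf : A.det.natAbs ≤ n.factorial := by simpa using natAbs_det_le A hA
  obtain ⟨k, k1, k2⟩ : ∃ k : ℕ, (k : ℝ) ≤ κ₁ * n ∧ κ₁ * n / 2 ≤ k :=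
    ⟨⌊κ₁ * n⌋₊, Nat.floor_le (by positivity), by linarith [Nat.lt_floor_add_one (κ₁ * n)]⟩
  have hk : k ≤ n := Nat.cast_le.1 (k1.trans (mul_le_of_le_one_left hn0.le (h2.trans hκ1)))
  obtain ⟨Λ, l1, l2⟩ := cover_large hn p₀ A hdet hDf hk
  obtain ⟨F, f1, f2, f3⟩ := cover_small hn p₀ A hs hdet hDf hk
  refine ⟨((A.det.natAbs.primeFactors.powerset.filter fun t => (t.card : ℝ) ≤ κ * (n + 1)).image Λ ∪ F).filter
    (IdxLat (δ₁ * κ₁ / 8) A), ?_, fun _ h => (Finset.mem_filter.1 h).2, fun x s c y h => ?_⟩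
  · have c1 := hcnt ℕ _ n (card_primeFactors_le hD0 hDf)
    have c2 : (F.card : ℝ) ≤ Real.exp (σ / 4 * (n + 1)) :=
      calc (F.card : ℝ) ≤ 2 ^ k := by exact_mod_cast f1
        _ ≤ Real.exp 1 ^ k := pow_le_pow_left₀ zero_le_two (by linarith [Real.add_one_le_exp 1]) k
        _ ≤ _ := by rw [← Real.exp_nat_mul]; exact Real.exp_le_exp.2 (by nlinarith)
    refine (Nat.cast_le.2 ((Finset.card_filter_le _ _).trans ((Finset.card_union_le _ _).trans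
      (Nat.add_le_add_right Finset.card_image_le _)))).trans ?_
    calc _ ≤ 2 * Real.exp (σ / 4 * (n + 1)) := by push_cast; linarith
      _ ≤ Real.exp 1 * Real.exp (σ / 4 * (n + 1)) := by gcongr; linarith [Real.add_one_le_exp 1]
      _ ≤ _ := by rw [← Real.exp_add]; exact Real.exp_le_exp.2 (by linarith)
  · rcases le_total ((n : ℝ) ^ (δ₁ * n)) c with hc' | hc'
    · obtain ⟨P, p1, p2, p3, p4⟩ := l2 x s c y h
      refine ⟨Λ P, Finset.mem_filter.2 ⟨Finset.mem_union_left _ (Finset.mem_image_of_mem _ (Finset.mem_filter.2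
        ⟨Finset.mem_powerset.2 p1, (Nat.cast_le.2 p2).trans (k1.trans (by nlinarith))⟩)), l1 P,
        n_cancel (b := δ₁ * κ₁ / 8 * n) hn1 hc' (by positivity) p4 ?_ (Nat.cast_nonneg _) ?_⟩, p3⟩
      · rw [pow_mul, Real.rpow_mul hn0.le, Real.rpow_natCast]
        exact pow_le_pow_left₀ (by positivity) e2 n
      · rw [show δ₁ * n * (k / (2 * n)) = δ₁ * k / 2 by field_simp]
        nlinarith
    · obtain ⟨L, p1, p2, p3⟩ := f3 x s c y h
      refine ⟨L, Finset.mem_filter.2 ⟨Finset.mem_union_right _ p1, f2 L p1,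
        n_cancel (b := δ₁ * n + δ₁ * n / 2) hn1 hD (by positivity) (p3.trans_eq (mul_comm _ _)) ?_
          (Nat.cast_nonneg _) ?_⟩, p2⟩
      · rw [Real.rpow_add hn0]
        refine mul_le_mul (e1.trans (Real.rpow_le_rpow_of_exponent_le hn1 (le_mul_of_one_le_right h4.le hn1)))
          ?_ (Real.sqrt_nonneg _) (by positivity)
        rw [Real.sqrt_eq_rpow, div_eq_mul_one_div (δ₁ * n), Real.rpow_mul hn0.le _ (1 / 2)]
        exact Real.rpow_le_rpow (Nat.cast_nonneg _) hc' (by norm_num)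
      · rw [show c₀ * n * (k / (6 * n)) = c₀ * k / 6 by field_simp]
        have : δ₁ * n * κ₁ ≤ δ₁ * n := mul_le_of_le_one_right (by positivity) (h2.trans hκ1)
        have : 0 ≤ δ₁ * n := by positivity
        have : δ₁ * n = c₀ * (κ₁ * n / 2) / 12 := by rw [hδ₁]; ring
        nlinarith

/-- `thm_small` if `|det| ≤ n^{n/400}`; otherwise `cover` for `σ/2`, `exists_ncard_ge`, `thm_index` for `σ/2`. -/
theorem thmN (h0 : 0 < p) (h1 : p < 1) {σ : ℝ} (hσ : 0 < σ) : ∃ κ : ℝ, 0 < κ ∧ ∀ (p₀ : ℕ) (K : ℝ), ∀ᶠ n : ℕ in atTop,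
    pr p {ω : Sym2 (Fin n) → Bool | (Mx ω).det ≠ 0 ∧
      Real.exp (σ * n) < {x : Fin n → Bool | Adm κ p₀ (Mx ω) x}.ncard} ≤ Real.exp (-K * n) := by
  obtain ⟨κ, c, hκ, hc, hs⟩ := thm_small h0 h1 hσ
  obtain ⟨δ, hδ, hcov⟩ := cover (c₀ := 1 / 400) (by norm_num) (half_pos hσ)
  obtain ⟨c', hc', hi⟩ := thm_index h0 h1 (half_pos hσ) hδ
  refine ⟨κ, hκ, fun p₀ K => ?_⟩
  filter_upwards [hs, hcov p₀, hi, eventually_exp_add_le hc hc',
    eventually_mul_exp_le (half_pos (lt_min hc hc')) 1 K] with n e1 e2 e3 e4 e5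
  refine (pr_mono h0 h1 fun ω hω => ?_).trans
    ((pr_union_le h0 h1 _ _).trans ((add_le_add e1 e3).trans (e4.trans (by rwa [one_mul] at e5))))
  rcases le_total ((Mx ω).det.natAbs : ℝ) ((n : ℝ) ^ ((n : ℝ) / 400)) with h | h
  · exact Or.inl ⟨hω.1, h, hω.2.le.trans (Nat.cast_le.2 (Set.ncard_le_ncard fun x hx => hx.1))⟩
  · obtain ⟨F, f1, f2, f3⟩ := e2 (Mx ω) (Mx_symm ω) (fun i j => by rw [Mx_apply, abs_sv])
      (by rwa [one_div_mul_eq_div])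
    obtain ⟨Λ, l1, l2⟩ := exists_ncard_ge {x : Fin n → Bool | Adm κ p₀ (Mx ω) x} F (fun Λ => {x | sv x ∈ Λ})
      (fun x ⟨_, s, c, y, hx⟩ => f3 x s c y hx) (Real.exp_pos (σ / 2 * n)) f1
      (by rw [← Real.exp_add, ← add_mul, add_halves]; exact hω.2)
    exact Or.inr ⟨hω.1, Λ, f2 Λ l1, l2⟩

end

end Crest.Agent.R152
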