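import Crest.Agent.R152.Defs

/-!
# R152/P1

Finite product probability: basic API.  `repl e η ω` replaces the coordinates in the range of an injection `e`.

Helper lemmas: prefix `p1_`.
-/

set_option autoImplicit false
set_option linter.unusedVariables false
set_option linter.unusedSectionVars false

namespace Crest.Agent.R152

open Crest.FinProb Crest.ProbabilityR.SignMatrix MeasureTheory ProbabilityTheory Filter Module
open scoped RealInnerProductSpace ENNReal Matrix Topology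

noncomputable section

variable {ι κ : Type} [Fintype ι] [DecidableEq ι] [Fintype κ] [DecidableEq κ] {p : ℝ}

theorem qq_pos (p : ℝ) : 0 < qq p := by
  unfold qq; nlinarith [sq_nonneg (2 * p - 1)]

theorem half_le_qq (p : ℝ) : 1 / 2 ≤ qq p := by
  unfold qq; nlinarith [sq_nonneg (2 * p - 1)]

theorem qq_lt_one (h0 : 0 < p) (h1 : p < 1) : qq p < 1 := by
  unfold qq; nlinarith [mul_pos h0 (sub_pos.2 h1)]

theorem pm_pos (p : ℝ) : 0 < pm p := by
  unfold pm
  rcases le_total p (1 - p) with h | h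
  · rw [max_eq_right h]; linarith
  · rw [max_eq_left h]; linarith

theorem pm_lt_one (h0 : 0 < p) (h1 : p < 1) : pm p < 1 := by
  exact max_lt h1 (by linarith)

/-- weight of one coin -/
def p1_c (p : ℝ) (b : Bool) : ℝ := if b then p else 1 - p

theorem p1_wgt (p : ℝ) (ω : ι → Bool) : wgt p ω = ∏ i, p1_c p (ω i) := rfl

theorem p1_pr (p : ℝ) (E : Set (ι → Bool)) : pr p E = ∑ ω, E.indicator (wgt p) ω := by
  classical
  unfold pr bernoulliProb
  rw [Finset.sum_filter]
  refine Finset.sum_congr rfl fun ω _ => ?_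
  rw [Set.indicator_apply]

theorem wgt_pos (h0 : 0 < p) (h1 : p < 1) (ω : ι → Bool) : 0 < wgt p ω := by
  refine Finset.prod_pos fun i _ => ?_
  split_ifs <;> linarith

theorem sum_wgt (p : ℝ) : ∑ ω : ι → Bool, wgt p ω = 1 := by
  simp only [p1_wgt]
  rw [← Fintype.prod_sum (fun (_ : ι) (b : Bool) => p1_c p b)]
  simp [p1_c]

theorem wgt_le (h0 : 0 < p) (h1 : p < 1) (ω : ι → Bool) : wgt p ω ≤ pm p ^ Fintype.card ι := by
  rw [p1_wgt, ← Finset.card_univ, ← Finset.prod_const]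
  refine Finset.prod_le_prod (fun i _ => ?_) fun i _ => ?_
  · unfold p1_c; split_ifs <;> linarith
  · unfold p1_c; split_ifs
    · exact le_max_left _ _
    · exact le_max_right _ _

theorem pr_eq_ex (p : ℝ) (E : Set (ι → Bool)) : pr p E = ex p (E.indicator fun _ => 1) := by
  rw [p1_pr, ex]
  refine Finset.sum_congr rfl fun ω _ => ?_
  by_cases h : ω ∈ E <;> simp [h]

theorem ex_const (p c : ℝ) : ex p (fun _ : ι → Bool => c) = c := by
  rw [ex, ← Finset.sum_mul, sum_wgt, one_mul]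

theorem ex_mono (h0 : 0 < p) (h1 : p < 1) {f g : (ι → Bool) → ℝ} (h : ∀ ω, f ω ≤ g ω) : ex p f ≤ ex p g := by
  exact Finset.sum_le_sum fun ω _ => mul_le_mul_of_nonneg_left (h ω) (wgt_pos h0 h1 ω).le

theorem ex_nonneg (h0 : 0 < p) (h1 : p < 1) {f : (ι → Bool) → ℝ} (h : ∀ ω, 0 ≤ f ω) : 0 ≤ ex p f := by
  exact Finset.sum_nonneg fun ω _ => mul_nonneg (wgt_pos h0 h1 ω).le (h ω)

theorem ex_add (p : ℝ) (f g : (ι → Bool) → ℝ) : ex p (fun ω => f ω + g ω) = ex p f + ex p g := by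
  simp only [ex, mul_add, Finset.sum_add_distrib]

theorem ex_const_mul (p c : ℝ) (f : (ι → Bool) → ℝ) : ex p (fun ω => c * f ω) = c * ex p f := by
  simp only [ex, Finset.mul_sum, mul_left_comm]

theorem ex_wgt (p : ℝ) : ex p (fun ω : ι → Bool => wgt p ω) = qq p ^ Fintype.card ι := by
  simp only [ex, p1_wgt, ← Finset.prod_mul_distrib]
  rw [← Fintype.prod_sum (fun (_ : ι) (b : Bool) => p1_c p b * p1_c p b)]
  simp [p1_c, qq, sq]

theorem pr_nonneg (h0 : 0 < p) (h1 : p < 1) (E : Set (ι → Bool)) : 0 ≤ pr p E := by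
  rw [pr_eq_ex]
  exact ex_nonneg h0 h1 fun ω => Set.indicator_nonneg (fun _ _ => zero_le_one) ω

theorem pr_le_one (h0 : 0 < p) (h1 : p < 1) (E : Set (ι → Bool)) : pr p E ≤ 1 := by
  rw [pr_eq_ex]
  exact (ex_mono h0 h1 fun ω => Set.indicator_le_self' (fun _ _ => zero_le_one) ω).trans_eq
    (ex_const p 1)

theorem pr_empty (p : ℝ) : pr p (∅ : Set (ι → Bool)) = 0 := by
  simp [p1_pr]

theorem pr_mono (h0 : 0 < p) (h1 : p < 1) {E F : Set (ι → Bool)} (h : E ⊆ F) : pr p E ≤ pr p F := by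
  rw [pr_eq_ex, pr_eq_ex]
  exact ex_mono h0 h1 fun ω => Set.indicator_le_indicator_of_subset h (fun _ => zero_le_one) ω

theorem pr_union_le (h0 : 0 < p) (h1 : p < 1) (E F : Set (ι → Bool)) : pr p (E ∪ F) ≤ pr p E + pr p F := by
  rw [pr_eq_ex, pr_eq_ex, pr_eq_ex, ← ex_add]
  refine ex_mono h0 h1 fun ω => ?_
  by_cases a : ω ∈ E <;> by_cases b : ω ∈ F <;> simp [a, b]

theorem pr_le_sum (h0 : 0 < p) (h1 : p < 1) {α : Type} (s : Finset α) (E : α → Set (ι → Bool)) (F : Set (ι → Bool))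
    (h : ∀ ω ∈ F, ∃ a ∈ s, ω ∈ E a) : pr p F ≤ ∑ a ∈ s, pr p (E a) := by
  simp only [p1_pr]
  rw [Finset.sum_comm]
  refine Finset.sum_le_sum fun ω _ => ?_
  have n : ∀ a ∈ s, 0 ≤ (E a).indicator (wgt p) ω := fun a _ =>
    Set.indicator_nonneg (fun η _ => (wgt_pos h0 h1 η).le) ω
  by_cases hω : ω ∈ F
  · obtain ⟨a, ha, hE⟩ := h ω hω
    refine le_trans ?_ (Finset.single_le_sum n ha)
    rw [Set.indicator_of_mem hω, Set.indicator_of_mem hE]
  · rw [Set.indicator_of_notMem hω]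
    exact Finset.sum_nonneg n

theorem pr_le_card_mul (h0 : 0 < p) (h1 : p < 1) {α : Type} (s : Finset α) (E : α → Set (ι → Bool)) (F : Set (ι → Bool))
    (h : ∀ ω ∈ F, ∃ a ∈ s, ω ∈ E a) {c : ℝ} (hc : ∀ a ∈ s, pr p (E a) ≤ c) : pr p F ≤ s.card * c := by
  refine (pr_le_sum h0 h1 s E F h).trans ?_
  rw [← nsmul_eq_mul]
  exact Finset.sum_le_card_nsmul _ _ _ hc

theorem pr_le_ncard_mul (h0 : 0 < p) (h1 : p < 1) (E : Set (ι → Bool)) {c : ℝ} (hc0 : 0 ≤ c) (hc : ∀ ω ∈ E, wgt p ω ≤ c) :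
    pr p E ≤ E.ncard * c := by
  classical
  rw [Set.ncard_eq_toFinset_card', ← nsmul_eq_mul]
  unfold pr bernoulliProb
  refine le_trans (le_of_eq ?_) (Finset.sum_le_card_nsmul E.toFinset (wgt p) c fun ω hω =>
    hc ω (Set.mem_toFinset.1 hω))
  refine Finset.sum_congr ?_ fun _ _ => rfl
  ext ω
  simp

theorem pr_le_of_subsingleton (h0 : 0 < p) (h1 : p < 1) {E : Set (ι → Bool)} (h : E.Subsingleton) : pr p E ≤ pm p ^ Fintype.card ι := by
  have h2 : 0 ≤ pm p ^ Fintype.card ι := (pow_pos (pm_pos p) _).le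
  refine (pr_le_ncard_mul h0 h1 E h2 fun ω _ => wgt_le h0 h1 ω).trans
    (mul_le_of_le_one_left h2 ?_)
  exact_mod_cast (Set.ncard_le_one_iff_subsingleton).2 h

theorem markov (h0 : 0 < p) (h1 : p < 1) {f : (ι → Bool) → ℝ} (hf : ∀ ω, 0 ≤ f ω) {a : ℝ} (ha : 0 < a) :
    pr p {ω | a ≤ f ω} ≤ ex p f / a := by
  rw [pr_eq_ex, div_eq_inv_mul, ← ex_const_mul]
  refine ex_mono h0 h1 fun ω => ?_
  by_cases h : a ≤ f ω
  · rw [Set.indicator_of_mem (s := {ω | a ≤ f ω}) h, ← div_eq_inv_mul, one_le_div ha]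
    exact h
  · rw [Set.indicator_of_notMem (s := {ω | a ≤ f ω}) h]
    exact mul_nonneg (inv_nonneg.2 ha.le) (hf ω)

theorem repl_apply {e : κ → ι} (he : Function.Injective e) (η : κ → Bool) (ω : ι → Bool) (k : κ) :
    repl e η ω (e k) = η k := by
  exact he.extend_apply η ω k

theorem repl_of_not_mem {e : κ → ι} (η : κ → Bool) (ω : ι → Bool) {i : ι} (hi : i ∉ Set.range e) :
    repl e η ω i = ω i := by
  exact Function.extend_apply' η ω i hi

theorem p1_split {e : κ → ι} (he : Function.Injective e) (p : ℝ) (ω : ι → Bool) :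
    wgt p ω = wgt p (fun k => ω (e k)) * ∏ i ∈ (Finset.univ.image e)ᶜ, p1_c p (ω i) := by
  rw [p1_wgt, p1_wgt, ← Finset.prod_mul_prod_compl (Finset.univ.image e),
    Finset.prod_image fun a _ b _ h => he h]

theorem p1_swap {e : κ → ι} (he : Function.Injective e) (p : ℝ) (ω : ι → Bool) (η : κ → Bool) :
    wgt p (repl e η ω) * wgt p (fun k => ω (e k)) = wgt p ω * wgt p η := by
  rw [p1_split he p (repl e η ω), p1_split he p ω]
  simp only [repl_apply he]
  rw [Finset.prod_congr rfl (g := fun i => p1_c p (ω i)) fun i hi => by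
    rw [repl_of_not_mem η ω (by simpa using hi)]]
  ring

/-- Resampling.  The involution `(ω, η) ↦ (repl e η ω, ω ∘ e)` preserves `wgt ω * wgt η`. -/
theorem ex_repl (p : ℝ) {e : κ → ι} (he : Function.Injective e) (f : (ι → Bool) → ℝ) :
    ex p f = ex p fun ω => ex p fun η : κ → Bool => f (repl e η ω) := by
  have hi : Function.Involutive (fun x : (ι → Bool) × (κ → Bool) =>
      (repl e x.2 x.1, fun k => x.1 (e k))) := by
    rintro ⟨ω, η⟩
    refine Prod.ext (funext fun i => ?_) (funext fun k => repl_apply he _ _ _)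
    by_cases h : i ∈ Set.range e
    · obtain ⟨k, rfl⟩ := h
      exact repl_apply he _ _ _
    · exact (repl_of_not_mem _ _ h).trans (repl_of_not_mem _ _ h)
  have h1 := Equiv.sum_comp hi.toPerm
    (fun x : (ι → Bool) × (κ → Bool) => wgt p x.1 * wgt p x.2 * f x.1)
  simp only [Function.Involutive.coe_toPerm, p1_swap he, Fintype.sum_prod_type] at h1
  simp only [ex, Finset.mul_sum, ← mul_assoc]
  rw [h1]
  refine Finset.sum_congr rfl fun ω _ => ?_
  rw [← Finset.sum_mul, ← Finset.mul_sum, sum_wgt, mul_one]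

theorem p1_pr_repl (p : ℝ) {e : κ → ι} (he : Function.Injective e) (E : Set (ι → Bool)) :
    pr p E = ex p fun ω => pr p {η : κ → Bool | repl e η ω ∈ E} := by
  rw [pr_eq_ex, ex_repl p he]
  simp only [pr_eq_ex]
  rfl

theorem pr_le_of_repl (h0 : 0 < p) (h1 : p < 1) {e : κ → ι} (he : Function.Injective e) (E : Set (ι → Bool)) {a : ℝ}
    (h : ∀ ω, pr p {η : κ → Bool | repl e η ω ∈ E} ≤ a) : pr p E ≤ a := by
  rw [p1_pr_repl p he, ← ex_const (ι := ι) p a]
  exact ex_mono h0 h1 h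

theorem pr_le_mul_of_repl (h0 : 0 < p) (h1 : p < 1) {e : κ → ι} (he : Function.Injective e) (E F : Set (ι → Bool)) {a : ℝ} (ha : 0 ≤ a)
    (hF : ∀ ω η, repl e η ω ∈ E → ω ∈ F) (h : ∀ ω ∈ F, pr p {η : κ → Bool | repl e η ω ∈ E} ≤ a) :
    pr p E ≤ a * pr p F := by
  rw [p1_pr_repl p he, pr_eq_ex p F, ← ex_const_mul]
  refine ex_mono h0 h1 fun ω => ?_
  by_cases hω : ω ∈ F
  · rw [Set.indicator_of_mem hω, mul_one]
    exact h ω hω
  · rw [Set.indicator_of_notMem hω, mul_zero, ← pr_empty (ι := κ) p]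
    exact pr_mono h0 h1 fun η hη => hω (hF ω η hη)

theorem pr_le_add_of_repl (h0 : 0 < p) (h1 : p < 1) {e : κ → ι} (he : Function.Injective e) (E F : Set (ι → Bool)) {a : ℝ} (ha : 0 ≤ a)
    (h : ∀ ω, ω ∉ F → pr p {η : κ → Bool | repl e η ω ∈ E} ≤ a) : pr p E ≤ pr p F + a := by
  rw [p1_pr_repl p he, pr_eq_ex p F, ← ex_const (ι := ι) p a, ← ex_add]
  refine ex_mono h0 h1 fun ω => ?_
  by_cases hω : ω ∈ F
  · rw [Set.indicator_of_mem hω]
    exact (pr_le_one h0 h1 _).trans (le_add_of_nonneg_right ha)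
  · rw [Set.indicator_of_notMem hω, zero_add]
    exact h ω hω

theorem ex_comp (p : ℝ) {e : κ → ι} (he : Function.Injective e) (f : (κ → Bool) → ℝ) :
    ex p (fun ω : ι → Bool => f (fun k => ω (e k))) = ex p f := by
  rw [ex_repl p he]
  simp only [repl_apply he]
  exact ex_const p _

theorem pr_comp (p : ℝ) {e : κ → ι} (he : Function.Injective e) (S : Set (κ → Bool)) :
    pr p {ω : ι → Bool | (fun k => ω (e k)) ∈ S} = pr p S := by
  rw [pr_eq_ex, pr_eq_ex, ← ex_comp p he]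
  rfl

theorem ex_sum (p : ℝ) (f : (ι ⊕ κ → Bool) → ℝ) :
    ex p f = ex p fun a : ι → Bool => ex p fun b : κ → Bool => f (Sum.elim a b) := by
  simp only [ex, Finset.mul_sum, ← mul_assoc]
  rw [← Fintype.sum_prod_type', ← (Equiv.sumArrowEquivProdArrow ι κ Bool).symm.sum_comp]
  refine Finset.sum_congr rfl fun x _ => ?_
  rw [p1_wgt, Fintype.prod_sum_type]
  rfl

theorem ex_rows (p : ℝ) (g : ι → (κ → Bool) → ℝ) :
    ex p (fun η : ι × κ → Bool => ∏ r, g r fun c => η (r, c)) = ∏ r, ex p (g r) := by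
  simp only [ex]
  rw [Fintype.prod_sum, ← (Equiv.curry ι κ Bool).symm.sum_comp]
  refine Finset.sum_congr rfl fun x _ => ?_
  rw [p1_wgt, Fintype.prod_prod_type, ← Finset.prod_mul_distrib]
  rfl

theorem pr_rows (p : ℝ) (S : ι → Set (κ → Bool)) :
    pr p {η : ι × κ → Bool | ∀ r, (fun c => η (r, c)) ∈ S r} = ∏ r, pr p (S r) := by
  simp only [pr_eq_ex]
  rw [← ex_rows]
  congr 1
  funext η
  by_cases h : ∀ r, (fun c => η (r, c)) ∈ S r
  · rw [Set.indicator_of_mem (s := {η : ι × κ → Bool | ∀ r, (fun c => η (r, c)) ∈ S r}) h]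
    exact (Finset.prod_eq_one fun r _ => Set.indicator_of_mem (h r) _).symm
  · rw [Set.indicator_of_notMem (s := {η : ι × κ → Bool | ∀ r, (fun c => η (r, c)) ∈ S r}) h]
    obtain ⟨r, hr⟩ := not_forall.1 h
    exact (Finset.prod_eq_zero (Finset.mem_univ r) (Set.indicator_of_notMem hr _)).symm

theorem p1_repl_update {e : κ → ι} (he : Function.Injective e) (η : κ → Bool) (ω : ι → Bool) (k : κ)
    (b : Bool) : repl e (Function.update η k b) ω = Function.update (repl e η ω) (e k) b := by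
  funext i
  by_cases h : i ∈ Set.range e
  · obtain ⟨l, rfl⟩ := h
    rw [repl_apply he, Function.update_apply, Function.update_apply, repl_apply he]
    simp only [he.eq_iff]
  · rw [repl_of_not_mem _ _ h, Function.update_of_ne (fun h' => h ⟨k, h'.symm⟩), repl_of_not_mem _ _ h]

theorem p1_two (h0 : 0 < p) (h1 : p < 1) (S : Set (Fin 2 → Bool))
    (h : ∀ k, ∀ η ∈ S, Function.update η k (!η k) ∉ S) : pr p S ≤ qq p := by
  have e : ∀ a b : Bool, wgt p ![a, b] = p1_c p a * p1_c p b := fun a b => by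
    rw [p1_wgt, Fin.prod_univ_two]; rfl
  have u0 : ∀ a b : Bool, ![a, b] ∈ S → ![!a, b] ∉ S := fun a b hab => by
    have := h 0 _ hab
    rwa [show Function.update ![a, b] 0 (! ![a, b] 0) = ![!a, b] from by
      funext k; fin_cases k <;> rfl] at this
  have u1 : ∀ a b : Bool, ![a, b] ∈ S → ![a, !b] ∉ S := fun a b hab => by
    have := h 1 _ hab
    rwa [show Function.update ![a, b] 1 (! ![a, b] 1) = ![a, !b] from by
      funext k; fin_cases k <;> rfl] at this
  have a1 := u0 true true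
  have a2 := u0 true false
  have a3 := u1 true true
  have a4 := u1 false true
  rw [p1_pr, ← (finTwoArrowEquiv Bool).symm.sum_comp, Fintype.sum_prod_type]
  simp only [Fintype.sum_bool, finTwoArrowEquiv_symm_apply, Bool.not_true] at *
  have q1 := mul_pos h0 (sub_pos.2 h1)
  have q2 := sq_nonneg (2 * p - 1)
  have q3 := sq_nonneg p
  have q4 := sq_nonneg (1 - p)
  unfold qq
  by_cases b1 : ![true, true] ∈ S <;> by_cases b2 : ![true, false] ∈ S <;>
    by_cases b3 : ![false, true] ∈ S <;> by_cases b4 : ![false, false] ∈ S <;>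
    simp only [b1, b2, b3, b4, Set.indicator_of_mem, Set.indicator_of_notMem, not_false_eq_true,
      not_true_eq_false, e, p1_c, if_true, Bool.false_eq_true, if_false, forall_const] at * <;>
    nlinarith

/-- Resample the two coordinates; the section is a subset of `Bool²` without two adjacent points, so it has weight at most
`max (p² + (1-p)²) (2p(1-p)) = qq p`. -/
theorem pr_le_qq (h0 : 0 < p) (h1 : p < 1) (E : Set (ι → Bool)) {i j : ι} (hij : i ≠ j)
    (hi : ∀ ω ∈ E, Function.update ω i (!ω i) ∉ E) (hj : ∀ ω ∈ E, Function.update ω j (!ω j) ∉ E) :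
    pr p E ≤ qq p := by
  have he : Function.Injective ![i, j] := by
    intro a b hab
    fin_cases a <;> fin_cases b
    · rfl
    · exact (hij hab).elim
    · exact (hij hab.symm).elim
    · rfl
  refine pr_le_of_repl h0 h1 he E fun ω => p1_two h0 h1 _ fun k η hη => ?_
  rw [Set.mem_setOf_eq, p1_repl_update he, ← repl_apply he η ω k]
  fin_cases k
  · exact hi _ hη
  · exact hj _ hη

theorem exE_mono (p : ℝ) {f g : (ι → Bool) → ℝ≥0∞} (h : ∀ ω, f ω ≤ g ω) : exE p f ≤ exE p g := by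
  exact Finset.sum_le_sum fun ω _ => mul_le_mul_right (h ω) _

theorem exE_ofReal (h0 : 0 < p) (h1 : p < 1) {f : (ι → Bool) → ℝ} (hf : ∀ ω, 0 ≤ f ω) :
    exE p (fun ω => ENNReal.ofReal (f ω)) = ENNReal.ofReal (ex p f) := by
  rw [ex, ENNReal.ofReal_sum_of_nonneg fun ω _ => mul_nonneg (wgt_pos h0 h1 ω).le (hf ω)]
  exact Finset.sum_congr rfl fun ω _ => (ENNReal.ofReal_mul (wgt_pos h0 h1 ω).le).symm

theorem exE_const_mul (p : ℝ) (c : ℝ≥0∞) (f : (ι → Bool) → ℝ≥0∞) : exE p (fun ω => c * f ω) = c * exE p f := by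
  simp only [exE, Finset.mul_sum, mul_left_comm]

theorem exE_tsum (p : ℝ) {α : Type} (F : (ι → Bool) → α → ℝ≥0∞) :
    exE p (fun ω => ∑' a, F ω a) = ∑' a, exE p fun ω => F ω a := by
  simp only [exE, ← ENNReal.tsum_mul_left]
  exact (Summable.tsum_finsetSum fun _ _ => ENNReal.summable).symm

theorem exE_indicator (h0 : 0 < p) (h1 : p < 1) (E : Set (ι → Bool)) (c : ℝ≥0∞) :
    exE p (E.indicator fun _ => c) = c * ENNReal.ofReal (pr p E) := by
  rw [pr_eq_ex, ← exE_ofReal h0 h1 fun ω => Set.indicator_nonneg (fun _ _ => zero_le_one) ω,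
    ← exE_const_mul]
  congr 1
  funext ω
  by_cases h : ω ∈ E <;> simp [h]

theorem markovE (h0 : 0 < p) (h1 : p < 1) (E : Set (ι → Bool)) (f : (ι → Bool) → ℝ≥0∞) {a c : ℝ} (ha : 0 < a) (hc : 0 ≤ c)
    (hf : ∀ ω ∈ E, ENNReal.ofReal a ≤ f ω) (h : exE p f ≤ ENNReal.ofReal c) : pr p E ≤ c / a := by
  have h2 : exE p (E.indicator fun _ => ENNReal.ofReal a) ≤ exE p f := exE_mono p fun ω => by
    by_cases hω : ω ∈ E
    · rw [Set.indicator_of_mem hω]; exact hf ω hω
    · rw [Set.indicator_of_notMem hω]; exact zero_le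
  rw [exE_indicator h0 h1, ← ENNReal.ofReal_mul ha.le] at h2
  rw [le_div_iff₀ ha, mul_comm]
  exact (ENNReal.ofReal_le_ofReal_iff hc).1 (h2.trans h)

/-- An off-diagonal block of a symmetric array. -/
def blk {α β γ : Type} (r : α → γ) (c : β → γ) : α × β → Sym2 γ := fun x => s(r x.1, c x.2)

theorem blk_injective {α β γ : Type} {r : α → γ} {c : β → γ} (hr : Function.Injective r) (hc : Function.Injective c)
    (h : ∀ a b, r a ≠ c b) : Function.Injective (blk r c) := by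
  rintro ⟨a, b⟩ ⟨a', b'⟩ e
  rcases Sym2.eq_iff.1 e with ⟨h1, h2⟩ | ⟨h1, -⟩
  · exact Prod.ext (hr h1) (hc h2)
  · exact (h _ _ h1).elim

theorem mem_range_blk {α β γ : Type} {r : α → γ} {c : β → γ} {i j : γ} :
    s(i, j) ∈ Set.range (blk r c) ↔ (i ∈ Set.range r ∧ j ∈ Set.range c) ∨ (j ∈ Set.range r ∧ i ∈ Set.range c) := by
  constructor
  · rintro ⟨⟨a, b⟩, e⟩
    rcases Sym2.eq_iff.1 e with ⟨h1, h2⟩ | ⟨h1, h2⟩
    · exact Or.inl ⟨⟨a, h1⟩, ⟨b, h2⟩⟩
    · exact Or.inr ⟨⟨a, h1⟩, ⟨b, h2⟩⟩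
  · rintro (⟨⟨a, rfl⟩, ⟨b, rfl⟩⟩ | ⟨⟨a, rfl⟩, ⟨b, rfl⟩⟩)
    · exact ⟨(a, b), rfl⟩
    · exact ⟨(a, b), Sym2.eq_swap⟩

theorem sv_eq {α : Type} (x : α → Bool) (i : α) : sv x i = 1 - 2 * zo (fun j => !x j) i ∧ sv x i = 2 * zo x i - 1 := by
  unfold sv zo
  cases h : x i <;> simp [h]

theorem abs_sv {α : Type} (x : α → Bool) (i : α) : |sv x i| = 1 := by
  unfold sv
  cases x i <;> simp

theorem Mx_apply {n : ℕ} (b : Sym2 (Fin n) → Bool) (i j : Fin n) : Mx b i j = sv (fun l => b s(i, l)) j := by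
  rfl

theorem Mx_symm {n : ℕ} (b : Sym2 (Fin n) → Bool) : (Mx b).IsSymm := by
  ext i j
  simp only [Matrix.transpose_apply, Mx_apply, sv, Sym2.eq_swap (a := j)]

theorem Mx_minr {n : ℕ} (b : Sym2 (Fin (n + 1)) → Bool) (i : Fin (n + 1)) :
    Mx (minr b i) = (Mx b).submatrix i.succAbove i.succAbove := by
  rfl

/-- The minor and the deleted column are independent. -/
theorem ex_minr_colx (p : ℝ) {n : ℕ} (i : Fin (n + 1)) (f : (Sym2 (Fin n) → Bool) → (Fin n → Bool) → ℝ) :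
    ex p (fun b => f (minr b i) (colx b i)) = ex p fun a => ex p fun x => f a x := by
  have he : Function.Injective (Sum.elim (Sym2.map i.succAbove) (fun j => s(i, i.succAbove j)) :
      Sym2 (Fin n) ⊕ Fin n → Sym2 (Fin (n + 1))) := by
    refine Function.Injective.sumElim (Sym2.map.injective Fin.succAbove_right_injective)
      (fun a b h => Fin.succAbove_right_injective (Sym2.congr_right.1 h)) fun a b h => ?_
    have : i ∈ Sym2.map i.succAbove a := h ▸ Sym2.mem_mk_left _ _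
    obtain ⟨l, -, hl⟩ := Sym2.mem_map.1 this
    exact Fin.succAbove_ne i l hl
  exact (ex_comp p he fun c => f (fun a => c (Sum.inl a)) fun a => c (Sum.inr a)).trans (ex_sum p _)

end

end Crest.Agent.R152
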