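import Crest.Agent.R152.G2

/-!
# R152/RGau

The Voronoi gauge `gau L x = ⨆ y : L, 2⟪x,y⟫/‖y‖²` of a separated subgroup.

Helper lemmas: prefix `rgau_`.
-/

set_option autoImplicit false
set_option linter.unusedVariables false
set_option linter.unusedSectionVars false

namespace Crest.Agent.R152

open Crest.FinProb Crest.ProbabilityR.SignMatrix MeasureTheory ProbabilityTheory Filter Module
open scoped RealInnerProductSpace ENNReal Matrix Topology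

noncomputable section

variable {E : Type} [NormedAddCommGroup E] [InnerProductSpace ℝ E] {L : AddSubgroup E} {r : ℝ}

theorem rgau_term_le (hr : 0 < r) (h : Sep L r) (x : E) {y : E} (hy : y ∈ L) :
    2 * ⟪x, y⟫ / ‖y‖ ^ 2 ≤ 2 / r * ‖x‖ := by
  by_cases h0 : y = 0
  · subst h0
    simp only [inner_zero_right, mul_zero, zero_div]
    positivity
  have h1 := h y hy h0
  have h2 : 0 < ‖y‖ := norm_pos_iff.mpr h0
  have h3 := real_inner_le_norm x y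
  rw [div_le_iff₀ (by positivity)]
  have h4 : 2 / r * ‖x‖ * ‖y‖ ^ 2 = 2 * (‖x‖ * ‖y‖) * (‖y‖ / r) := by field_simp
  have h5 : 1 ≤ ‖y‖ / r := (one_le_div hr).mpr h1
  have h6 : 0 ≤ ‖x‖ * ‖y‖ := by positivity
  rw [h4]
  nlinarith

theorem gau_bdd (hr : 0 < r) (h : Sep L r) (x : E) :
    BddAbove (Set.range fun y : L => 2 * ⟪x, (y : E)⟫ / ‖(y : E)‖ ^ 2) := by
  refine ⟨2 / r * ‖x‖, ?_⟩
  rintro _ ⟨y, rfl⟩
  exact rgau_term_le hr h x y.2

theorem le_gau (hr : 0 < r) (h : Sep L r) (x : E) {y : E} (hy : y ∈ L) : 2 * ⟪x, y⟫ / ‖y‖ ^ 2 ≤ gau L x := by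
  exact le_ciSup (gau_bdd hr h x) (⟨y, hy⟩ : L)

theorem gau_nonneg (hr : 0 < r) (h : Sep L r) (x : E) : 0 ≤ gau L x := by
  simpa using le_gau hr h x L.zero_mem

theorem gau_le_of (L : AddSubgroup E) (x : E) {c : ℝ} (hc : 0 ≤ c)
    (h : ∀ y ∈ L, y ≠ 0 → 2 * ⟪x, y⟫ ≤ c * ‖y‖ ^ 2) : gau L x ≤ c := by
  refine ciSup_le fun y => ?_
  by_cases h0 : (y : E) = 0
  · simpa [h0] using hc
  have h2 : 0 < ‖(y : E)‖ := norm_pos_iff.mpr h0
  rw [div_le_iff₀ (by positivity)]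
  exact h y y.2 h0

theorem gau_le (hr : 0 < r) (h : Sep L r) (x : E) : gau L x ≤ 2 / r * ‖x‖ := by
  exact ciSup_le fun y => rgau_term_le hr h x y.2

theorem two_le_gau (hr : 0 < r) (h : Sep L r) {y : E} (hy : y ∈ L) (h0 : y ≠ 0) : 2 ≤ gau L y := by
  have h1 := le_gau hr h y hy
  have h2 : 0 < ‖y‖ := norm_pos_iff.mpr h0
  rw [real_inner_self_eq_norm_sq, mul_div_assoc, div_self (by positivity), mul_one] at h1
  exact h1

theorem rgau_inner_le (hr : 0 < r) (h : Sep L r) (x : E) {y : E} (hy : y ∈ L) :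
    2 * ⟪x, y⟫ ≤ gau L x * ‖y‖ ^ 2 := by
  by_cases h0 : y = 0
  · subst h0; simp
  have h2 : 0 < ‖y‖ := norm_pos_iff.mpr h0
  have := le_gau hr h x hy
  rwa [div_le_iff₀ (by positivity)] at this

theorem rgau_add_le (hr : 0 < r) (h : Sep L r) (x x' : E) : gau L (x + x') ≤ gau L x + gau L x' := by
  refine gau_le_of L _ (add_nonneg (gau_nonneg hr h _) (gau_nonneg hr h _)) fun y hy _ => ?_
  have h1 := rgau_inner_le hr h x hy
  have h2 := rgau_inner_le hr h x' hy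
  rw [inner_add_left]
  linarith

theorem rgau_smul_le (hr : 0 < r) (h : Sep L r) (c : ℝ) (x : E) : gau L (c • x) ≤ |c| * gau L x := by
  refine gau_le_of L _ (mul_nonneg (abs_nonneg _) (gau_nonneg hr h _)) fun y hy _ => ?_
  rw [real_inner_smul_left]
  rcases le_total 0 c with hc | hc
  · rw [abs_of_nonneg hc]
    have h1 := mul_le_mul_of_nonneg_left (rgau_inner_le hr h x hy) hc
    linarith
  · rw [abs_of_nonpos hc]
    have h1 := mul_le_mul_of_nonneg_left (rgau_inner_le hr h x (L.neg_mem hy)) (neg_nonneg.mpr hc)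
    rw [inner_neg_right, norm_neg] at h1
    linarith

theorem rgau_smul (hr : 0 < r) (h : Sep L r) (c : ℝ) (x : E) : gau L (c • x) = |c| * gau L x := by
  refine le_antisymm (rgau_smul_le hr h c x) ?_
  by_cases hc : c = 0
  · subst hc
    simpa using gau_nonneg hr h (0 : E)
  have h1 := rgau_smul_le hr h c⁻¹ (c • x)
  rw [smul_smul, inv_mul_cancel₀ hc, one_smul, abs_inv] at h1
  have h2 : 0 < |c| := abs_pos.mpr hc
  have h3 := mul_le_mul_of_nonneg_left h1 h2.le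
  rwa [← mul_assoc, mul_inv_cancel₀ h2.ne', one_mul] at h3

/-- The gauge is a seminorm (`L` is symmetric). -/
theorem exists_gauSN (hr : 0 < r) (h : Sep L r) : ∃ N : Seminorm ℝ E, ∀ x, N x = gau L x := by
  refine ⟨Seminorm.of (gau L) (rgau_add_le hr h) (fun c x => ?_), fun x => rfl⟩
  rw [rgau_smul hr h, Real.norm_eq_abs]

theorem continuous_gau (hr : 0 < r) (h : Sep L r) : Continuous (gau L) := by
  have hC : 0 ≤ 2 / r := by positivity
  refine (LipschitzWith.of_le_add_mul (f := gau L) ⟨2 / r, hC⟩ fun x y => ?_).continuous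
  have h1 := rgau_add_le hr h y (x - y)
  have h2 := gau_le hr h (x - y)
  rw [add_sub_cancel] at h1
  rw [dist_eq_norm]
  change gau L x ≤ gau L y + 2 / r * ‖x - y‖
  linarith

theorem gau_smul (hr : 0 < r) (h : Sep L r) (c : ℝ) (x : E) : gau L (c • x) = |c| * gau L x := by
  exact rgau_smul hr h c x

/-- `‖x‖² = ‖x - y‖² + 2⟪x - y, y⟫ + ‖y‖²` and `2⟪x - y, -y⟫ ≤ ‖y‖²`. -/
theorem norm_sub_le_of_gau (hr : 0 < r) (h : Sep L r) {x y : E} (hy : y ∈ L) (hx : gau L (x - y) ≤ 1) :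
    ‖x - y‖ ≤ ‖x‖ := by
  have h1 := rgau_inner_le hr h (x - y) (L.neg_mem hy)
  rw [inner_neg_right, norm_neg] at h1
  have h2 : ‖x‖ ^ 2 = ‖x - y‖ ^ 2 + 2 * ⟪x - y, y⟫ + ‖y‖ ^ 2 := by
    rw [← norm_add_sq_real, sub_add_cancel]
  have h3 : gau L (x - y) * ‖y‖ ^ 2 ≤ 1 * ‖y‖ ^ 2 := mul_le_mul_of_nonneg_right hx (sq_nonneg _)
  refine le_of_pow_le_pow_left₀ two_ne_zero (norm_nonneg _) ?_
  linarith

/-- A separated set meets a bounded set in a finite set (closed balls are compact / totally bounded). -/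
theorem Sep.finite_inter [FiniteDimensional ℝ E] (hr : 0 < r) (h : Sep L r) (R : ℝ) :
    {y : E | y ∈ L ∧ ‖y‖ ≤ R}.Finite := by
  have : ProperSpace E := FiniteDimensional.proper ℝ E
  have hc : IsCompact (Metric.closedBall (0 : E) R) := isCompact_closedBall _ _
  obtain ⟨t, htf, ht⟩ := Metric.totallyBounded_iff.mp hc.totallyBounded (r / 2) (by positivity)
  have hsub : {y : E | y ∈ L ∧ ‖y‖ ≤ R} ⊆ ⋃ z ∈ t, ({y : E | y ∈ L} ∩ Metric.ball z (r / 2)) := by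
    intro y hy
    have := ht (mem_closedBall_zero_iff.mpr hy.2)
    simp only [Set.mem_iUnion] at this ⊢
    obtain ⟨z, hz, hyz⟩ := this
    exact ⟨z, hz, hy.1, hyz⟩
  refine Set.Finite.subset (htf.biUnion fun z _ => Set.Subsingleton.finite ?_) hsub
  intro a ha b hb
  by_contra hab
  have h1 := h (a - b) (L.sub_mem ha.1 hb.1) (sub_ne_zero.mpr hab)
  have h2 := Metric.mem_ball.mp ha.2
  have h3 := Metric.mem_ball.mp hb.2
  have h4 := dist_triangle_right a b z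
  rw [← dist_eq_norm] at h1
  linarith

theorem Sep.countable [FiniteDimensional ℝ E] (hr : 0 < r) (h : Sep L r) : Countable L := by
  have h1 : (L : Set E) ⊆ ⋃ n : ℕ, {y : E | y ∈ L ∧ ‖y‖ ≤ n} := by
    intro y hy
    obtain ⟨n, hn⟩ := exists_nat_ge ‖y‖
    exact Set.mem_iUnion.mpr ⟨n, hy, hn⟩
  have h2 : (L : Set E).Countable :=
    (Set.countable_iUnion fun n : ℕ => (Sep.finite_inter hr h n).countable).mono h1
  exact h2.to_subtype

/-- A closest lattice point. -/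
theorem exists_gau_le_one [FiniteDimensional ℝ E] (hr : 0 < r) (h : Sep L r) (x : E) :
    ∃ y ∈ L, gau L (x - y) ≤ 1 := by
  obtain ⟨y, hy, hmin⟩ := Set.exists_min_image _ (fun y => ‖x - y‖) (Sep.finite_inter hr h (2 * ‖x‖))
    ⟨0, L.zero_mem, by simp⟩
  have h0 : ‖x - y‖ ≤ ‖x‖ := by simpa using hmin 0 ⟨L.zero_mem, by simp⟩
  have hall : ∀ z ∈ L, ‖x - y‖ ≤ ‖x - z‖ := by
    intro z hz
    by_cases hz2 : ‖z‖ ≤ 2 * ‖x‖
    · exact hmin z ⟨hz, hz2⟩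
    · have h1 : ‖z‖ ≤ ‖x‖ + ‖x - z‖ := by
        calc ‖z‖ = ‖x - (x - z)‖ := by congr 1; abel
          _ ≤ _ := norm_sub_le _ _
      linarith [not_le.mp hz2]
  refine ⟨y, hy.1, gau_le_of L _ zero_le_one fun z hz _ => ?_⟩
  have h1 := hall (y + z) (L.add_mem hy.1 hz)
  rw [← sub_sub] at h1
  have h2 := norm_sub_sq_real (x - y) z
  have h3 := pow_le_pow_left₀ (norm_nonneg _) h1 2
  linarith

/-- Scaling the lattice. -/
theorem gau_map_smul (hr : 0 < r) (h : Sep L r) {c : ℝ} (hc : 0 < c) (x : E) :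
    gau (L.map (c • LinearMap.id : E →ₗ[ℝ] E).toAddMonoidHom) x = gau L x / c := by
  have hs : Sep (L.map (c • LinearMap.id : E →ₗ[ℝ] E).toAddMonoidHom) (c * r) := by
    rintro _ ⟨y, hy, rfl⟩ h0
    change c * r ≤ ‖c • y‖
    have h0' : y ≠ 0 := by
      rintro rfl
      exact h0 (by simp)
    rw [norm_smul, Real.norm_eq_abs, abs_of_pos hc]
    exact mul_le_mul_of_nonneg_left (h y hy h0') hc.le
  refine le_antisymm ?_ ?_
  · refine gau_le_of _ _ (div_nonneg (gau_nonneg hr h x) hc.le) ?_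
    rintro _ ⟨y, hy, rfl⟩ _
    change 2 * ⟪x, c • y⟫ ≤ gau L x / c * ‖c • y‖ ^ 2
    rw [real_inner_smul_right, norm_smul, Real.norm_eq_abs, abs_of_pos hc]
    have h1 := mul_le_mul_of_nonneg_left (rgau_inner_le hr h x hy) hc.le
    have h2 : gau L x / c * (c * ‖y‖) ^ 2 = c * (gau L x * ‖y‖ ^ 2) := by field_simp
    rw [h2]
    linarith
  · rw [div_le_iff₀ hc]
    refine gau_le_of _ _ (mul_nonneg (gau_nonneg (mul_pos hc hr) hs x) hc.le) fun y hy _ => ?_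
    have h1 := rgau_inner_le (mul_pos hc hr) hs x (y := c • y) ⟨y, hy, rfl⟩
    rw [real_inner_smul_right, norm_smul, Real.norm_eq_abs, abs_of_pos hc] at h1
    refine le_of_mul_le_mul_left ?_ hc
    linarith

/-- Perturbing the lattice: `2⟪x, T y⟫ ≤ 2⟪x, y⟫ + 2δ‖x‖‖y‖ ≤ (gau L x + 2δ‖x‖)‖y‖²`, `‖T y‖ ≥ (1-δ)‖y‖`,
`(1-δ)⁻² ≤ 1 + 6δ` and `gau L x ≤ 2‖x‖`. -/
theorem gau_map_le (h : Sep L 1) (T : E →ₗ[ℝ] E) {δ : ℝ} (h0 : 0 ≤ δ) (h1 : δ ≤ 1 / 2)
    (hT : ∀ x, ‖T x - x‖ ≤ δ * ‖x‖) (x : E) :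
    gau (L.map T.toAddMonoidHom) x ≤ gau L x + 20 * δ * ‖x‖ := by
  have hg0 := gau_nonneg one_pos h x
  have hg2 : gau L x ≤ 2 * ‖x‖ := by simpa using gau_le one_pos h x
  have hx := norm_nonneg x
  refine gau_le_of _ _ (by positivity) ?_
  rintro _ ⟨y, hy, rfl⟩ hy0
  change 2 * ⟪x, T y⟫ ≤ (gau L x + 20 * δ * ‖x‖) * ‖T y‖ ^ 2
  have hy0' : y ≠ 0 := by
    rintro rfl
    exact hy0 (by simp)
  have hy1 := h y hy hy0'
  have h2 : ⟪x, T y⟫ = ⟪x, y⟫ + ⟪x, T y - y⟫ := by rw [inner_sub_right]; ring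
  have h3 := real_inner_le_norm x (T y - y)
  have h4 := hT y
  have h5 := rgau_inner_le one_pos h x hy
  have h6 : (1 - δ) * ‖y‖ ≤ ‖T y‖ := by
    have : ‖y‖ ≤ ‖T y‖ + ‖T y - y‖ := by
      calc ‖y‖ = ‖T y - (T y - y)‖ := by congr 1; abel
        _ ≤ _ := norm_sub_le _ _
    linarith
  have h7 : ((1 - δ) * ‖y‖) ^ 2 ≤ ‖T y‖ ^ 2 :=
    pow_le_pow_left₀ (mul_nonneg (by linarith) (norm_nonneg _)) h6 2
  have h8 : ‖x‖ * ‖T y - y‖ ≤ ‖x‖ * (δ * ‖y‖ ^ 2) := by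
    refine mul_le_mul_of_nonneg_left (h4.trans (mul_le_mul_of_nonneg_left ?_ h0)) hx
    nlinarith
  have h9 : gau L x + 2 * δ * ‖x‖ ≤ (gau L x + 20 * δ * ‖x‖) * (1 - δ) ^ 2 := by
    have a1 : 1 / 4 ≤ (1 - δ) ^ 2 := by nlinarith
    have a2 : 1 - (1 - δ) ^ 2 ≤ δ * (2 - δ) := by nlinarith
    have a3 : gau L x * (1 - (1 - δ) ^ 2) ≤ 2 * ‖x‖ * (δ * (2 - δ)) :=
      mul_le_mul hg2 a2 (by nlinarith) (by positivity)
    have a4 : 0 ≤ δ * ‖x‖ := by positivity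
    have a5 : 0 ≤ 20 * (1 - δ) ^ 2 - 2 - 2 * (2 - δ) := by nlinarith
    have a6 := mul_nonneg a4 a5
    nlinarith
  calc 2 * ⟪x, T y⟫ ≤ (gau L x + 2 * δ * ‖x‖) * ‖y‖ ^ 2 := by rw [h2]; nlinarith
    _ ≤ (gau L x + 20 * δ * ‖x‖) * (1 - δ) ^ 2 * ‖y‖ ^ 2 := mul_le_mul_of_nonneg_right h9 (sq_nonneg _)
    _ = (gau L x + 20 * δ * ‖x‖) * ((1 - δ) * ‖y‖) ^ 2 := by ring
    _ ≤ _ := mul_le_mul_of_nonneg_left h7 (by positivity)

end

end Crest.Agent.R152
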