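import Crest.Agent.R152.RGau

/-!
# R152/RVol

The Voronoi cell of a full stable lattice has volume at least one, also after truncation.

Helper lemmas: prefix `rvol_`.
-/

set_option autoImplicit false
set_option linter.unusedVariables false
set_option linter.unusedSectionVars false

namespace Crest.Agent.R152

open Crest.FinProb Crest.ProbabilityR.SignMatrix MeasureTheory ProbabilityTheory Filter Module
open scoped RealInnerProductSpace ENNReal Matrix Topology

noncomputable section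

variable {m : ℕ}

/-- `L` is discrete (`Stable.sep`) and spans, so `L.toIntSubmodule` is a `IsZLattice`; take a `ℤ`-basis `b`
(`Module.Free.chooseBasis`, `Basis.ofZLatticeBasis`), its fundamental domain `F` has volume `gvol b ≥ 1`
(`ZSpan.measure_fundamentalDomain` against the standard orthonormal basis, `gvol_eq_abs_det`, `Stable.le_gvol`).
With `V = {gau ≤ 1}`: `vol F ≤ ∑_y vol (F ∩ (V + y)) = ∑_y vol ((F - y) ∩ V) = vol V` (`exists_gau_le_one`,
`IsAddFundamentalDomain.measure_eq_tsum`). -/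
theorem one_le_vol_voronoi (L : AddSubgroup (Euc (Fin m))) (h : Stable L 1)
    (hs : Submodule.span ℝ (L : Set (Euc (Fin m))) = ⊤) : 1 ≤ volume {x | gau L x ≤ 1} := by
  have hsep : Sep L 1 := h.sep
  set Λ : Submodule ℤ (Euc (Fin m)) := AddSubgroup.toIntSubmodule L with hΛ
  have hmem : ∀ y, y ∈ Λ ↔ y ∈ L := fun y => Iff.rfl
  have hd : DiscreteTopology Λ := by
    refine DiscreteTopology.of_forall_le_dist one_pos fun x y hxy => ?_
    change 1 ≤ dist (x : Euc (Fin m)) y
    rw [dist_eq_norm]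
    exact hsep _ (L.sub_mem x.2 y.2) (sub_ne_zero.mpr fun e => hxy (Subtype.ext e))
  have hz : IsZLattice ℝ Λ := ⟨hs⟩
  have hrk : finrank ℤ Λ = m := by rw [ZLattice.rank ℝ Λ, finrank_euclideanSpace_fin]
  set b := Module.finBasisOfFinrankEq ℤ Λ hrk
  set B := b.ofZLatticeBasis ℝ Λ with hB
  have hF := ZLattice.isAddFundamentalDomain b (volume : Measure (Euc (Fin m)))
  set e := EuclideanSpace.basisFun (Fin m) ℝ
  have h1 : (1 : ℝ≥0∞) ≤ volume (ZSpan.fundamentalDomain B) := by
    rw [ZSpan.measure_fundamentalDomain B volume e.toBasis,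
      measure_congr (ZSpan.fundamentalDomain_ae_parallelepiped e.toBasis volume), OrthonormalBasis.coe_toBasis,
      e.volume_parallelepiped, mul_one, ENNReal.one_le_ofReal]
    have a1 := h.le_gvol B (fun i => by rw [hB, Basis.ofZLatticeBasis_apply]; exact (b i).2) B.linearIndependent
    rw [one_pow, gvol_eq_abs_det e] at a1
    refine a1.trans_eq ?_
    rw [Basis.det_apply, ← Matrix.det_transpose]
    congr 2
    ext i j
    simp only [Matrix.transpose_apply, Matrix.of_apply, Basis.toMatrix_apply,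
      OrthonormalBasis.coe_toBasis_repr_apply, OrthonormalBasis.repr_apply_apply]
  have hinv : VAddInvariantMeasure Λ (Euc (Fin m)) volume :=
    inferInstanceAs (VAddInvariantMeasure L (Euc (Fin m)) volume)
  rw [hF.measure_eq_tsum]
  refine h1.trans (le_trans (measure_mono fun x hx => ?_) (measure_iUnion_le _))
  obtain ⟨y, hy, hy1⟩ := exists_gau_le_one one_pos hsep x
  refine Set.mem_iUnion.mpr ⟨⟨y, hy⟩, ⟨x - y, hy1, ?_⟩, hx⟩
  change y + (x - y) = x
  abel

/-- Choose `J` with `J * vol (ball 0 (1/4)) ≥ 1` and `R = 2 J + 1`.  If `V ⊆ closedBall 0 R` use `one_le_vol_voronoi`.  Otherwise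
`V` (convex, symmetric, contains `closedBall 0 (1/2)` by `gau_le`) contains a point `x` of norm `> R`, hence with `u = x/‖x‖` the
disjoint balls `ball (j • u) (1/4)`, `j < J` (`gau (j u + w) ≤ j/‖x‖ + 1/2 ≤ 1`), all inside `closedBall 0 R`. -/
theorem exists_trunc (m : ℕ) : ∃ R : ℝ, 1 ≤ R ∧ ∀ L : AddSubgroup (Euc (Fin m)), Stable L 1 →
    Submodule.span ℝ (L : Set (Euc (Fin m))) = ⊤ → 1 ≤ volume {x | gau L x ≤ 1 ∧ ‖x‖ ≤ R} := by
  have hv : volume (Metric.ball (0 : Euc (Fin m)) (1 / 4)) ≠ 0 :=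
    (Metric.measure_ball_pos _ _ (by norm_num)).ne'
  obtain ⟨J, hJ⟩ := ENNReal.exists_nat_mul_gt hv ENNReal.one_ne_top
  have hJ0 : (0 : ℝ) ≤ J := Nat.cast_nonneg _
  refine ⟨2 * J + 1, by linarith, fun L h hs => ?_⟩
  have hsep : Sep L 1 := h.sep
  by_cases hb : ∀ x, gau L x ≤ 1 → ‖x‖ ≤ 2 * J + 1
  · exact (one_le_vol_voronoi L h hs).trans (measure_mono fun x hx => ⟨hx, hb x hx⟩)
  push Not at hb
  obtain ⟨x, hx1, hx2⟩ := hb
  obtain ⟨N, hN⟩ := exists_gauSN one_pos hsep
  have hx0 : 0 < ‖x‖ := by linarith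
  set u : Euc (Fin m) := ‖x‖⁻¹ • x with hu
  have hu1 : ‖u‖ = 1 := by
    rw [hu, norm_smul, norm_inv, norm_norm, inv_mul_cancel₀ hx0.ne']
  have hsub : (⋃ j ∈ Finset.range J, Metric.ball ((j : ℝ) • u) (1 / 4)) ⊆
      {x | gau L x ≤ 1 ∧ ‖x‖ ≤ 2 * J + 1} := by
    intro z hz
    simp only [Set.mem_iUnion, Finset.mem_range, mem_ball_iff_norm] at hz
    obtain ⟨j, hj, hz⟩ := hz
    have hj' : (j : ℝ) ≤ J := by exact_mod_cast hj.le
    have hj0 : (0 : ℝ) ≤ j := Nat.cast_nonneg _
    refine ⟨?_, ?_⟩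
    · have a1 := map_add_le_add N ((j : ℝ) • u) (z - (j : ℝ) • u)
      rw [add_sub_cancel, hN, hN, hN] at a1
      have a2 := gau_le one_pos hsep (z - (j : ℝ) • u)
      have a3 : gau L ((j : ℝ) • u) ≤ 1 / 2 := by
        rw [hu, smul_smul, gau_smul one_pos hsep, abs_of_nonneg (by positivity)]
        have a4 : (j : ℝ) * ‖x‖⁻¹ ≤ 1 / 2 := by
          rw [← div_eq_mul_inv, div_le_iff₀ hx0]; linarith
        have a5 := gau_nonneg one_pos hsep x
        exact (mul_le_of_le_one_right (by positivity) hx1).trans a4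
      rw [div_one] at a2
      linarith
    · have a1 := norm_add_le ((j : ℝ) • u) (z - (j : ℝ) • u)
      rw [add_sub_cancel, norm_smul, hu1, Real.norm_eq_abs, abs_of_nonneg hj0] at a1
      linarith
  refine le_trans ?_ (measure_mono hsub)
  rw [measure_biUnion_finset (f := fun j : ℕ => Metric.ball ((j : ℝ) • u) (1 / 4)) ?_
    fun _ _ => Metric.isOpen_ball.measurableSet]
  · simp only [Measure.addHaar_ball_center volume (_ • u), Finset.sum_const, Finset.card_range, nsmul_eq_mul]
    exact hJ.le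
  · intro i _ j _ hij
    refine Metric.ball_disjoint_ball ?_
    rw [dist_eq_norm, ← sub_smul, norm_smul, hu1, mul_one, Real.norm_eq_abs]
    have a1 : (1 : ℤ) ≤ |(i : ℤ) - j| := Int.one_le_abs (sub_ne_zero.mpr (by exact_mod_cast hij))
    have a2 : (1 : ℝ) ≤ |(i : ℝ) - j| := by exact_mod_cast a1
    linarith

end

end Crest.Agent.R152
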