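import Crest.Agent.R152.RGau
import Crest.Agent.R285.Gauss

/-!
# R152/RVor

The Voronoi cell maximises the Gaussian mass among packings, and the final bound on the Gaussian sum.
`Crest.Agent.R285.gam_eq` is the density of the standard Gaussian with respect to `volume` (`R285.gam d` is
`stdGaussian (EuclideanSpace ℝ (Fin d))`), `R285.integrable_norm_gam`, `R285.integral_norm_gam_le`.

Helper lemmas: prefix `rvor_`.
-/

set_option autoImplicit false
set_option linter.unusedVariables false
set_option linter.unusedSectionVars false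

namespace Crest.Agent.R152

open Crest.FinProb Crest.ProbabilityR.SignMatrix MeasureTheory ProbabilityTheory Filter Module
open scoped RealInnerProductSpace ENNReal Matrix Topology

noncomputable section

variable {m : ℕ} {L : AddSubgroup (Euc (Fin m))} {r : ℝ}

/-- The Gaussian density. -/
def rvor_G (z : Euc (Fin m)) : ℝ≥0∞ := ENNReal.ofReal (R285.gdens z)

theorem rvor_G_meas : Measurable (rvor_G : Euc (Fin m) → ℝ≥0∞) :=
  ENNReal.measurable_ofReal.comp R285.continuous_gdens.measurable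

theorem rvor_gam_apply {A : Set (Euc (Fin m))} (hA : MeasurableSet A) :
    gam m A = ∫⁻ x, A.indicator rvor_G x := by
  have h := R285.gam_eq m
  change gam m = _ at h
  rw [h, withDensity_apply _ hA, lintegral_indicator hA]
  rfl

theorem rvor_G_mono {x z : Euc (Fin m)} (h : ‖x‖ ≤ ‖z‖) : rvor_G z ≤ rvor_G x := by
  refine ENNReal.ofReal_le_ofReal ?_
  unfold R285.gdens
  refine mul_le_mul_of_nonneg_left (Real.exp_le_exp.mpr ?_) (by positivity)
  have := pow_le_pow_left₀ (norm_nonneg _) h 2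
  linarith

theorem rvor_shift_le {A B : Set (Euc (Fin m))} (hA : MeasurableSet A) (hB : MeasurableSet B) (u : Euc (Fin m))
    (h : ∀ x ∈ A, x - u ∈ B ∧ ‖x - u‖ ≤ ‖x‖) : gam m A ≤ gam m B := by
  rw [rvor_gam_apply hA, rvor_gam_apply hB, ← lintegral_sub_right_eq_self (B.indicator rvor_G) u]
  refine lintegral_mono fun x => ?_
  by_cases hx : x ∈ A
  · simp only [Set.indicator_of_mem hx, Set.indicator_of_mem (h x hx).1]
    exact rvor_G_mono (h x hx).2
  · simp [Set.indicator_of_notMem hx]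

theorem rvor_smul_le {A B : Set (Euc (Fin m))} (hA : MeasurableSet A) (hB : MeasurableSet B) {c : ℝ} (hc0 : 0 < c)
    (hc1 : c ≤ 1) (h : ∀ x ∈ A, c • x ∈ B) : ENNReal.ofReal (c ^ m) * gam m A ≤ gam m B := by
  have h1 : ∫⁻ x, B.indicator rvor_G (c • x) = ENNReal.ofReal (c ^ m)⁻¹ * gam m B := by
    rw [rvor_gam_apply hB, ← lintegral_map (rvor_G_meas.indicator hB) (measurable_const_smul c),
      Measure.map_addHaar_smul _ hc0.ne', lintegral_smul_measure, finrank_euclideanSpace_fin,
      abs_of_pos (by positivity), smul_eq_mul]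
  have h2 : gam m A ≤ ∫⁻ x, B.indicator rvor_G (c • x) := by
    rw [rvor_gam_apply hA]
    refine lintegral_mono fun x => ?_
    by_cases hx : x ∈ A
    · simp only [Set.indicator_of_mem hx, Set.indicator_of_mem (h x hx)]
      refine rvor_G_mono ?_
      rw [norm_smul, Real.norm_eq_abs, abs_of_pos hc0]
      exact mul_le_of_le_one_left (norm_nonneg _) hc1
    · simp [Set.indicator_of_notMem hx]
  calc ENNReal.ofReal (c ^ m) * gam m A ≤ ENNReal.ofReal (c ^ m) * (ENNReal.ofReal (c ^ m)⁻¹ * gam m B) := by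
        rw [← h1]; gcongr
    _ = gam m B := by
        rw [← mul_assoc, ← ENNReal.ofReal_mul (by positivity), mul_inv_cancel₀ (by positivity),
          ENNReal.ofReal_one, one_mul]

theorem rvor_G_two (z u : Euc (Fin m)) :
    2 * (ENNReal.ofReal (Real.exp (-‖u‖ ^ 2 / 2)) * rvor_G z) ≤ rvor_G (z + u) + rvor_G (u - z) := by
  unfold rvor_G
  rw [← ENNReal.ofReal_mul (Real.exp_pos _).le, two_mul, ← ENNReal.ofReal_add
    (mul_pos (Real.exp_pos _) (R285.gdens_pos _)).le (mul_pos (Real.exp_pos _) (R285.gdens_pos _)).le,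
    ← ENNReal.ofReal_add (R285.gdens_pos _).le (R285.gdens_pos _).le]
  refine ENNReal.ofReal_le_ofReal ?_
  unfold R285.gdens
  rw [norm_add_sq_real, norm_sub_sq_real, real_inner_comm z u]
  set s := ⟪z, u⟫
  set K : ℝ := (√(2 * Real.pi))⁻¹ ^ m
  have hK : 0 ≤ K := by positivity
  have e1 : Real.exp (-(‖z‖ ^ 2 + 2 * s + ‖u‖ ^ 2) / 2) =
      Real.exp (-‖u‖ ^ 2 / 2) * Real.exp (-‖z‖ ^ 2 / 2) * Real.exp (-s) := by
    rw [← Real.exp_add, ← Real.exp_add]; congr 1; ring
  have e2 : Real.exp (-(‖u‖ ^ 2 - 2 * s + ‖z‖ ^ 2) / 2) =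
      Real.exp (-‖u‖ ^ 2 / 2) * Real.exp (-‖z‖ ^ 2 / 2) * Real.exp s := by
    rw [← Real.exp_add, ← Real.exp_add]; congr 1; ring
  rw [e1, e2]
  have h1 := Real.add_one_le_exp s
  have h2 := Real.add_one_le_exp (-s)
  have h3 : 0 ≤ K * (Real.exp (-‖u‖ ^ 2 / 2) * Real.exp (-‖z‖ ^ 2 / 2)) := by positivity
  have h4 := mul_nonneg h3 (by linarith : 0 ≤ Real.exp s + Real.exp (-s) - 2)
  nlinarith

theorem rvor_translate {F : Set (Euc (Fin m))} (hF : MeasurableSet F) (hs : ∀ x ∈ F, -x ∈ F) (u : Euc (Fin m)) :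
    ENNReal.ofReal (Real.exp (-‖u‖ ^ 2 / 2)) * gam m F ≤ gam m {x | x - u ∈ F} := by
  have hm : MeasurableSet {x | x - u ∈ F} := (measurable_sub_const u) hF
  have h1 : gam m {x | x - u ∈ F} = ∫⁻ z, {x | x - u ∈ F}.indicator rvor_G (z + u) := by
    rw [rvor_gam_apply hm, lintegral_add_right_eq_self]
  have h2 : gam m {x | x - u ∈ F} = ∫⁻ z, {x | x - u ∈ F}.indicator rvor_G (u - z) := by
    rw [rvor_gam_apply hm, lintegral_sub_left_eq_self]
  have h3 : 2 * (ENNReal.ofReal (Real.exp (-‖u‖ ^ 2 / 2)) * gam m F) ≤ 2 * gam m {x | x - u ∈ F} := by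
    rw [two_mul (gam m {x | x - u ∈ F})]
    nth_rewrite 1 [h1]
    nth_rewrite 1 [h2]
    have hmm : Measurable fun z => {x | x - u ∈ F}.indicator rvor_G (z + u) :=
      (rvor_G_meas.indicator hm).comp (measurable_add_const u)
    rw [← lintegral_add_left hmm,
      rvor_gam_apply hF, ← lintegral_const_mul _ (rvor_G_meas.indicator hF),
      ← lintegral_const_mul _ ((rvor_G_meas.indicator hF).const_mul _)]
    refine lintegral_mono fun z => ?_
    by_cases hz : z ∈ F
    · have a1 : z + u ∈ {x | x - u ∈ F} := by simpa using hz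
      have a2 : u - z ∈ {x | x - u ∈ F} := by simpa using hs z hz
      simp only [Set.indicator_of_mem hz, Set.indicator_of_mem a1, Set.indicator_of_mem a2]
      exact rvor_G_two z u
    · simp [Set.indicator_of_notMem hz]
  exact (ENNReal.mul_le_mul_iff_right (by norm_num) (by norm_num)).mp h3

theorem rvor_two_le (N : Seminorm ℝ (Euc (Fin m))) (h2 : ∀ y ∈ L, y ≠ 0 → 2 ≤ N y) {t : ℝ} (ht : 0 < t)
    {y y' z z' : Euc (Fin m)} (hy : y ∈ L) (hy' : y' ∈ L) (hne : y ≠ y') (e : z - z' = t • (y - y'))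
    (hz : N z < t) (hz' : N z' < t) : False := by
  have h1 := h2 (y - y') (L.sub_mem hy hy') (sub_ne_zero.mpr hne)
  have h3 := map_sub_le_add N z z'
  rw [e, map_smul_eq_mul, Real.norm_eq_abs, abs_of_pos ht] at h3
  nlinarith

/-- `F = {N < t}` is a packing for `t L` (two points of `F` differ by a vector of `N`-norm `< 2t`); `V = {gau ≤ t}`.
Every `x` lies in some `V + t y` (`exists_gau_le_one` at `x/t`, `gau_smul`), and on `V + t y` the density at `x - t y` is
larger (`norm_sub_le_of_gau`).  So `γ F ≤ ∑_y γ (F ∩ (V + t y)) ≤ ∑_y γ ((F - t y) ∩ V) ≤ γ V` (disjoint sets;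
`L` is countable). -/
theorem gam_lt_le (hr : 0 < r) (h : Sep L r) (N : Seminorm ℝ (Euc (Fin m))) (hN : Continuous N)
    (h2 : ∀ y ∈ L, y ≠ 0 → 2 ≤ N y) {t : ℝ} (ht : 0 < t) :
    gam m {x | N x < t} ≤ gam m {x | gau L x ≤ t} := by
  have := Sep.countable hr h
  have hg := continuous_gau hr h
  have hV : MeasurableSet {x | gau L x ≤ t} := measurableSet_le hg.measurable measurable_const
  have hF : MeasurableSet {x | N x < t} := measurableSet_lt hN.measurable measurable_const
  have hsub : {x | N x < t} ⊆ ⋃ y : L, ({x | N x < t} ∩ {x | gau L (t⁻¹ • x - y) ≤ 1}) := by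
    intro x hx
    obtain ⟨y, hy, hy1⟩ := exists_gau_le_one hr h (t⁻¹ • x)
    exact Set.mem_iUnion.mpr ⟨⟨y, hy⟩, hx, hy1⟩
  have hG : ∀ y : L, MeasurableSet ({z | N (z + t • (y : Euc (Fin m))) < t} ∩ {x | gau L x ≤ t}) := fun y =>
    (measurableSet_lt (hN.comp (continuous_id.add continuous_const)).measurable measurable_const).inter hV
  calc gam m {x | N x < t} ≤ ∑' y : L, gam m ({x | N x < t} ∩ {x | gau L (t⁻¹ • x - y) ≤ 1}) :=
        (measure_mono hsub).trans (measure_iUnion_le _)
    _ ≤ ∑' y : L, gam m ({z | N (z + t • (y : Euc (Fin m))) < t} ∩ {x | gau L x ≤ t}) := by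
        refine ENNReal.tsum_le_tsum fun y => rvor_shift_le (hF.inter (measurableSet_le (hg.comp
          ((continuous_const_smul _).sub continuous_const)).measurable measurable_const)) (hG y) (t • y) ?_
        rintro x ⟨hx1, hx2⟩
        have e : x - t • (y : Euc (Fin m)) = t • (t⁻¹ • x - y) := by
          rw [smul_sub, smul_smul, mul_inv_cancel₀ ht.ne', one_smul]
        refine ⟨⟨by simpa using hx1, ?_⟩, ?_⟩
        · change gau L _ ≤ t
          rw [e, gau_smul hr h, abs_of_pos ht]
          exact mul_le_of_le_one_right ht.le hx2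
        · have h1 := norm_sub_le_of_gau hr h y.2 hx2
          rw [e, norm_smul, Real.norm_eq_abs, abs_of_pos ht]
          refine (mul_le_mul_of_nonneg_left h1 ht.le).trans_eq ?_
          rw [norm_smul, Real.norm_eq_abs, abs_of_pos (inv_pos.mpr ht), ← mul_assoc, mul_inv_cancel₀ ht.ne',
            one_mul]
    _ = gam m (⋃ y : L, ({z | N (z + t • (y : Euc (Fin m))) < t} ∩ {x | gau L x ≤ t})) := by
        refine (measure_iUnion (fun y y' hne => Set.disjoint_left.mpr fun z hz hz' => ?_) hG).symm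
        refine rvor_two_le N h2 ht y.2 y'.2 (fun e => hne (Subtype.ext e)) ?_ hz.1 hz'.1
        rw [smul_sub]; abel
    _ ≤ _ := measure_mono (Set.iUnion_subset fun y => Set.inter_subset_right)

theorem integrable_posPart (N : Euc (Fin m) → ℝ) (hN : Continuous N) {C : ℝ} (hC : ∀ x, |N x| ≤ C * ‖x‖) (a : ℝ) :
    Integrable (fun x => max (N x - a) 0) (gam m) := by
  have i3 : Integrable (fun x : Euc (Fin m) => ‖x‖) (gam m) := R285.integrable_norm_gam
  refine Integrable.mono' ((i3.const_mul C).add (integrable_const |a|))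
    ((hN.sub continuous_const).max continuous_const).aestronglyMeasurable (ae_of_all _ fun x => ?_)
  have h1 := hC x
  have h2 := le_abs_self (N x)
  have h3 := neg_abs_le a
  have h4 := abs_nonneg (N x)
  have h5 := abs_nonneg a
  rw [Real.norm_eq_abs, abs_of_nonneg (le_max_right _ _)]
  change _ ≤ C * ‖x‖ + |a|
  exact max_le (by linarith) (by linarith)

/-- Layer cake (`Integrable.integral_eq_integral_meas_lt`, `..._meas_le`): for `s > 0`,
`γ {gau > a + s} ≤ γ {N ≥ a + s}` is the complement of `gam_lt_le`. -/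
theorem PhiL_le (hr : 0 < r) (h : Sep L r) (N : Seminorm ℝ (Euc (Fin m))) {C : ℝ} (hC : ∀ x, N x ≤ C * ‖x‖)
    (h2 : ∀ y ∈ L, y ≠ 0 → 2 ≤ N y) {a : ℝ} (ha : 0 ≤ a) :
    PhiL a L ≤ ∫ x, max (N x - a) 0 ∂gam m := by
  have hN : Continuous N := by
    refine (LipschitzWith.of_le_add_mul (f := N) ⟨|C|, abs_nonneg _⟩ fun x y => ?_).continuous
    have h1 := map_add_le_add N y (x - y)
    have h2 := hC (x - y)
    have h3 : C * ‖x - y‖ ≤ |C| * ‖x - y‖ := mul_le_mul_of_nonneg_right (le_abs_self _) (norm_nonneg _)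
    rw [add_sub_cancel] at h1
    rw [dist_eq_norm]
    change N x ≤ N y + |C| * ‖x - y‖
    linarith
  have hg := continuous_gau hr h
  have i1 : Integrable (fun x => max (gau L x - a) 0) (gam m) :=
    integrable_posPart _ hg (C := 2 / r) (fun x => by
      rw [abs_of_nonneg (gau_nonneg hr h x)]; exact gau_le hr h x) a
  have i2 : Integrable (fun x => max (N x - a) 0) (gam m) :=
    integrable_posPart _ hN (C := C) (fun x => by
      rw [abs_of_nonneg (apply_nonneg N x)]; exact hC x) a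
  have n1 : 0 ≤ᵐ[gam m] fun x => max (gau L x - a) 0 := ae_of_all _ fun x => le_max_right _ _
  have n2 : 0 ≤ᵐ[gam m] fun x => max (N x - a) 0 := ae_of_all _ fun x => le_max_right _ _
  unfold PhiL
  rw [← ENNReal.ofReal_le_ofReal_iff (integral_nonneg_of_ae n2), ofReal_integral_eq_lintegral_ofReal i1 n1,
    ofReal_integral_eq_lintegral_ofReal i2 n2, lintegral_eq_lintegral_meas_lt _ n1 i1.aemeasurable,
    lintegral_eq_lintegral_meas_le _ n2 i2.aemeasurable]
  refine setLIntegral_mono' measurableSet_Ioi fun s hs => ?_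
  have hs0 : 0 < s := hs
  have e1 : {x | s < max (gau L x - a) 0} = {x | gau L x ≤ a + s}ᶜ := by
    ext x
    simp only [Set.mem_ofPred_eq, Set.mem_compl_iff, lt_max_iff, not_le, hs0.not_gt, or_false]
    constructor <;> intro h <;> linarith
  have e2 : {x | s ≤ max (N x - a) 0} = {x | N x < a + s}ᶜ := by
    ext x
    simp only [Set.mem_ofPred_eq, Set.mem_compl_iff, le_max_iff, not_lt, hs0.not_ge, or_false]
    constructor <;> intro h <;> linarith
  rw [e1, e2, prob_compl_eq_one_sub (measurableSet_le hg.measurable measurable_const),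
    prob_compl_eq_one_sub (measurableSet_lt hN.measurable measurable_const)]
  exact tsub_le_tsub_left (gam_lt_le hr h N hN h2 (by linarith)) _

theorem PhiL_nonneg (a : ℝ) (L : AddSubgroup (Euc (Fin m))) : 0 ≤ PhiL a L := by
  exact integral_nonneg fun x => le_max_right _ _

theorem PhiL_le_sqrt (h : Sep L 1) {a : ℝ} (ha : 0 ≤ a) : PhiL a L ≤ 2 * √m := by
  have i3 : Integrable (fun x : Euc (Fin m) => ‖x‖) (gam m) := R285.integrable_norm_gam
  have i4 : ∫ x, ‖x‖ ∂(gam m) ≤ √m := R285.integral_norm_gam_le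
  have h1 : PhiL a L ≤ ∫ x, 2 * ‖x‖ ∂gam m := by
    refine integral_mono_of_nonneg (ae_of_all _ fun x => le_max_right _ _) (i3.const_mul 2)
      (ae_of_all _ fun x => ?_)
    have h2 := gau_le one_pos h x
    rw [div_one] at h2
    exact max_le (by linarith) (by positivity)
  rw [integral_const_mul] at h1
  linarith

/-- Markov: `γ {gau ≥ a + 1} ≤ PhiL ≤ 1/2`.  Let `t = a + 1`, `F = {gau < c t} = c • {gau < t}`; `γ F ≥ c^m γ {gau < t}`
(the density is larger at `c x`; `Measure.addHaar_smul`).  The translates `F + c t y` are disjoint (`two_le_gau`,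
subadditivity), and `γ (F + u) ≥ exp (-‖u‖²/2) γ F` since `F = -F` and `e^s + e^{-s} ≥ 2`. -/
theorem sum_exp_le (h : Sep L 1) {a : ℝ} (ha : 0 ≤ a) (hP : PhiL a L ≤ 1 / 2) {c : ℝ} (hc0 : 0 < c) (hc1 : c ≤ 1)
    (S : Finset (Euc (Fin m))) (hS : ∀ y ∈ S, y ∈ L) :
    ∑ y ∈ S, Real.exp (-(c * (a + 1)) ^ 2 * ‖y‖ ^ 2 / 2) ≤ 2 / c ^ m := by
  have hg := continuous_gau one_pos h
  obtain ⟨N, hN⟩ := exists_gauSN one_pos h
  have ht : 0 < c * (a + 1) := by positivity
  have hm : ∀ s : ℝ, MeasurableSet {x | gau L x < s} := fun s => measurableSet_lt hg.measurable measurable_const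
  have i1 : Integrable (fun x => max (gau L x - a) 0) (gam m) :=
    integrable_posPart _ hg (C := 2 / 1) (fun x => by
      rw [abs_of_nonneg (gau_nonneg one_pos h x)]; exact gau_le one_pos h x) a
  have h1 : ENNReal.ofReal (1 / 2) ≤ gam m {x | gau L x < a + 1} := by
    have n1 : 0 ≤ᵐ[gam m] fun x => max (gau L x - a) 0 := ae_of_all _ fun x => le_max_right _ _
    have a1 := mul_meas_ge_le_integral_of_nonneg n1 i1 1
    have e1 : {x | (1 : ℝ) ≤ max (gau L x - a) 0} = {x | gau L x < a + 1}ᶜ := by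
      ext x
      simp only [Set.mem_ofPred_eq, Set.mem_compl_iff, le_max_iff, not_lt, zero_lt_one.not_ge, or_false]
      constructor <;> intro h <;> linarith
    rw [e1, one_mul, probReal_compl_eq_one_sub (hm _)] at a1
    unfold PhiL at hP
    rw [← ofReal_measureReal (measure_ne_top _ _)]
    exact ENNReal.ofReal_le_ofReal (by linarith)
  have h2 : ENNReal.ofReal (c ^ m) * gam m {x | gau L x < a + 1} ≤ gam m {x | gau L x < c * (a + 1)} := by
    refine rvor_smul_le (hm _) (hm _) hc0 hc1 fun x hx => ?_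
    change gau L (c • x) < _
    rw [gau_smul one_pos h, abs_of_pos hc0]
    exact mul_lt_mul_of_pos_left hx hc0
  have h3 : ENNReal.ofReal (c ^ m / 2) ≤ gam m {x | gau L x < c * (a + 1)} := by
    refine le_trans ?_ h2
    rw [div_eq_mul_one_div, ENNReal.ofReal_mul (by positivity)]
    gcongr
  have h4 : ∑ y ∈ S, gam m {x | x - (c * (a + 1)) • y ∈ {x | gau L x < c * (a + 1)}} ≤ 1 := by
    rw [← measure_biUnion_finset (f := fun y => {x | x - (c * (a + 1)) • y ∈ {x | gau L x < c * (a + 1)}}) ?_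
      fun y _ => (measurable_sub_const _) (hm _)]
    · exact prob_le_one
    intro y hy y' hy' hne
    refine Set.disjoint_left.mpr fun z hz hz' => ?_
    refine rvor_two_le (L := L) N (fun y hy h0 => by rw [hN]; exact two_le_gau one_pos h hy h0) ht (hS y' hy')
      (hS y hy) hne.symm (z := z - (c * (a + 1)) • y) (z' := z - (c * (a + 1)) • y') ?_
      (by rw [hN]; exact hz) (by rw [hN]; exact hz')
    rw [smul_sub]; abel
  have h5 : ENNReal.ofReal ((∑ y ∈ S, Real.exp (-(c * (a + 1)) ^ 2 * ‖y‖ ^ 2 / 2)) * (c ^ m / 2)) ≤ 1 := by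
    refine le_trans ?_ h4
    rw [ENNReal.ofReal_mul (Finset.sum_nonneg fun _ _ => (Real.exp_pos _).le),
      ENNReal.ofReal_sum_of_nonneg fun _ _ => (Real.exp_pos _).le, Finset.sum_mul]
    refine Finset.sum_le_sum fun y _ => ?_
    refine le_trans ?_ (rvor_translate (hm _) (fun x hx => ?_) _)
    · rw [norm_smul, Real.norm_eq_abs, abs_of_pos ht, mul_pow (c * (a + 1)), neg_mul]
      gcongr
    · change gau L (-x) < _
      rw [← hN, map_neg_eq_map, hN]
      exact hx
  rw [ENNReal.ofReal_le_one] at h5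
  rw [le_div_iff₀ (by positivity)]
  linarith

end

end Crest.Agent.R152
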