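import Crest.Agent.R152.M4

/-!
# R152/TP1

The probability that a fixed tuple is mapped into a fixed subspace.

Helper lemmas: prefix `tp1_`.
-/

set_option autoImplicit false
set_option linter.unusedVariables false
set_option linter.unusedSectionVars false

namespace Crest.Agent.R152

open Crest.FinProb Crest.ProbabilityR.SignMatrix MeasureTheory ProbabilityTheory Filter Module
open scoped RealInnerProductSpace ENNReal Matrix Topology

noncomputable section

variable {ι κ : Type} [Fintype ι] [DecidableEq ι] [Fintype κ] [DecidableEq κ] {p : ℝ}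

/-- `Ω = {φ | φ ⟂ D, φ = 0 on Q}` has dimension `≥ card ι - finrank D - |Q|`; `R` is an information set of `Ω` (`exists_info_set`); it
misses `Q` because of the surjectivity clause. -/
theorem exists_functionals (D : Submodule ℚ (ι → ℚ)) (Q : Finset ι) :
    ∃ (R : Finset ι) (φ : ι → ι → ℚ), Disjoint R Q ∧ Fintype.card ι ≤ R.card + finrank ℚ D + Q.card ∧
      (∀ j, ∀ y ∈ D, φ j ⬝ᵥ y = 0) ∧ (∀ j, ∀ i ∈ Q, φ j i = 0) ∧
      ∀ j ∈ R, ∀ j' ∈ R, φ j j' = if j = j' then 1 else 0 := by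
  let Ψ : (ι → ℚ) →ₗ[ℚ] Module.Dual ℚ D × (Q → ℚ) :=
    (D.subtype.dualMap ∘ₗ dotProductBilin ℚ ℚ).prod (LinearMap.funLeft ℚ ℚ Subtype.val)
  have hΨ : ∀ w ∈ LinearMap.ker Ψ, (∀ y ∈ D, w ⬝ᵥ y = 0) ∧ ∀ i ∈ Q, w i = 0 := fun w hw =>
    ⟨fun y hy => LinearMap.congr_fun (congrArg Prod.fst (LinearMap.mem_ker.1 hw)) ⟨y, hy⟩,
      fun i hi => congrFun (congrArg Prod.snd (LinearMap.mem_ker.1 hw)) ⟨i, hi⟩⟩
  obtain ⟨R, hc, -, hs⟩ := exists_info_set (LinearMap.ker Ψ)
  choose φ hφ hφ' using fun j => hs fun j' => if j = j' then 1 else 0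
  refine ⟨R, φ, Finset.disjoint_left.2 fun j hj hQ => ?_, ?_, fun j => (hΨ _ (hφ j)).1,
    fun j => (hΨ _ (hφ j)).2, fun j _ j' hj' => hφ' j j' hj'⟩
  · have := hφ' j j hj
    rw [(hΨ _ (hφ j)).2 j hQ, if_pos rfl] at this
    exact zero_ne_one this
  · have h1 := Ψ.finrank_range_add_finrank_ker
    have h2 := (LinearMap.range Ψ).finrank_le
    rw [Module.finrank_prod, Subspace.dual_finrank_eq, Module.finrank_fintype_fun_eq_card,
      Fintype.card_coe] at h2
    rw [Module.finrank_fintype_fun_eq_card] at h1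
    omega

open Classical in
theorem tp1_cs {A B T : Type} [Fintype A] [Fintype B] (w : A → ℝ) (w' : B → ℝ) (f : A → T) (g : B → T) :
    (∑ a, w a * ∑ b, w' b * if f a = g b then 1 else 0) ^ 2 ≤
      (∑ a, w a * ∑ a', w a' * if f a = f a' then 1 else 0) *
        ∑ b, w' b * ∑ b', w' b' * if g b = g b' then 1 else 0 := by
  have key : ∀ {A B : Type} [Fintype A] [Fintype B] (w : A → ℝ) (w' : B → ℝ) (f : A → T) (g : B → T)
      (S : Finset T), (∀ a, f a ∈ S) → ∑ a, w a * ∑ b, w' b * (if f a = g b then 1 else 0) =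
      ∑ s ∈ S, (∑ a, w a * if f a = s then 1 else 0) * ∑ b, w' b * if g b = s then 1 else 0 := by
    intro A B _ _ w w' f g S hS
    simp only [Finset.sum_mul]
    rw [Finset.sum_comm]
    refine Finset.sum_congr rfl fun a _ => ?_
    simp [hS a, eq_comm]
  have hf : ∀ a, f a ∈ Finset.univ.image f ∪ Finset.univ.image g := fun a => by simp
  have hg : ∀ b, g b ∈ Finset.univ.image f ∪ Finset.univ.image g := fun b => by simp
  rw [key w w' f g _ hf, key w w f f _ hf, key w' w' g g _ hg]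
  simpa only [sq] using Finset.sum_mul_sq_le_sq_mul_sq (Finset.univ.image f ∪ Finset.univ.image g)
    (fun s => ∑ a, w a * if f a = s then 1 else 0) fun s => ∑ b, w' b * if g b = s then 1 else 0

/-- Cauchy-Schwarz: with `μ'(s) = pr {S' = s}`, `μ''(s) = pr {S'' = τ - s}`, the probability is `∑ μ' μ''`, and `∑ μ'² = coll`
(`sv = 2 zo - 1`). -/
theorem pr_sq_le_coll (h0 : 0 < p) (h1 : p < 1) {α : Type} (Z' : α → ι → ℤ) (Z'' : α → κ → ℤ) (τ : α → ℚ) :
    pr p {η : ι ⊕ κ → Bool | ∀ i, ((sv (fun l => η (Sum.inl l)) ⬝ᵥ Z' i + sv (fun l => η (Sum.inr l)) ⬝ᵥ Z'' i : ℤ) : ℚ) = τ i} ^ 2 ≤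
      coll p Z' * coll p Z'' := by
  classical
  have hd : ∀ {ι : Type} [Fintype ι] (a a' : ι → Bool) (z : ι → ℤ),
      sv a ⬝ᵥ z = sv a' ⬝ᵥ z ↔ (zo a - zo a') ⬝ᵥ z = 0 := fun a a' z => by
    have : sv a ⬝ᵥ z - sv a' ⬝ᵥ z = 2 * ((zo a - zo a') ⬝ᵥ z) := by
      simp only [dotProduct, ← Finset.sum_sub_distrib, Finset.mul_sum, (sv_eq _ _).2, Pi.sub_apply]
      exact Finset.sum_congr rfl fun i _ => by ring
    rw [← sub_eq_zero, this]
    simp
  have h := tp1_cs (wgt p) (wgt p) (fun (a : ι → Bool) i => ((sv a ⬝ᵥ Z' i : ℤ) : ℚ))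
    (fun (b : κ → Bool) i => τ i - ((sv b ⬝ᵥ Z'' i : ℤ) : ℚ))
  simp only [funext_iff, sub_right_inj, Int.cast_inj, hd] at h
  simp only [coll, pr_eq_ex, ex_sum]
  simpa only [ex, Set.indicator, Set.mem_ofPred_eq, Sum.elim_inl, Sum.elim_inr, Int.cast_add,
    eq_sub_iff_add_eq] using h

theorem tp1_coll_nonneg (h0 : 0 < p) (h1 : p < 1) {α : Type} (Z : α → ι → ℤ) : 0 ≤ coll p Z :=
  ex_nonneg h0 h1 fun _ => pr_nonneg h0 h1 _

theorem tp1_coll_le (h0 : 0 < p) (h1 : p < 1) {α : Type} (Z : α → ι → ℤ) : coll p Z ≤ 1 :=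
  (ex_mono h0 h1 fun _ => pr_le_one h0 h1 _).trans_eq (ex_const p 1)

/-- `Q` the union of the two ranges, `R`, `φ` from `exists_functionals`.  Resample the block `R × Q` (`blk`, `pr_le_of_repl`).  For `j ∈ R`
the equation `φ j ⬝ᵥ (M Z i) = 0` reads `∑_{l ∈ Q} M j l Z i l = τ j i`, where `τ` only involves rows outside `R ∪ Q` and entries `M j l`,
`l ∉ Q`, which are not resampled.  `pr_rows`, `pr_sq_le_coll`, `coll ≤ 1`. -/
theorem tuple_bound (h0 : 0 < p) (h1 : p < 1) {n h : ℕ} {α : Type} (D : Submodule ℚ (Fin n → ℚ)) (e : Fin h ⊕ Fin h → Fin n)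
    (he : Function.Injective e) (Z : α → Fin n → ℤ) :
    pr p {b : Sym2 (Fin n) → Bool | ∀ i, qc (Mx b *ᵥ Z i) ∈ D} ^ 2 ≤
      (coll p (fun i l => Z i (e (Sum.inl l))) * coll p (fun i l => Z i (e (Sum.inr l)))) ^ (n - finrank ℚ D - 2 * h) := by
  classical
  obtain ⟨R, φ, hRQ, hc, hD, hQ, hR⟩ := exists_functionals D (Finset.univ.image e)
  rw [Finset.card_image_of_injective _ he] at hc
  simp only [Fintype.card_fin, Finset.card_univ, Fintype.card_sum] at hc
  have hne : ∀ (a : R) c, (a : Fin n) ≠ e c := fun a c h =>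
    Finset.disjoint_left.1 hRQ a.2 (by simp [h])
  have hinj := blk_injective (Subtype.val_injective (p := (· ∈ R))) he hne
  obtain ⟨C, hZ'⟩ : ∃ c, c = coll p (fun i l => Z i (e (Sum.inl l))) *
    coll p (fun i l => Z i (e (Sum.inr l))) := ⟨_, rfl⟩
  rw [← hZ']
  have hcs := fun τ => (pr_sq_le_coll h0 h1 (fun i l => Z i (e (Sum.inl l)))
    (fun i l => Z i (e (Sum.inr l))) τ).trans_eq hZ'.symm
  have c0 : 0 ≤ C := (sq_nonneg _).trans (hcs 0)
  have c1 : C ≤ 1 := by
    rw [hZ']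
    exact mul_le_one₀ (tp1_coll_le h0 h1 _) (tp1_coll_nonneg h0 h1 _) (tp1_coll_le h0 h1 _)
  have key : pr p {b : Sym2 (Fin n) → Bool | ∀ i, qc (Mx b *ᵥ Z i) ∈ D} ≤ √C ^ R.card := by
    refine pr_le_of_repl h0 h1 hinj _ fun ω => ?_
    let τ : R → α → ℚ := fun r i => -∑ j, φ r j * ∑ l,
      if s(j, l) ∈ Set.range (blk (Subtype.val : R → Fin n) e) then 0 else ((Mx ω j l * Z i l : ℤ) : ℚ)
    refine (pr_mono h0 h1 (F := {η | ∀ r, (fun c => η (r, c)) ∈ {ξ : Fin h ⊕ Fin h → Bool | ∀ i,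
      ((sv (fun l => ξ (Sum.inl l)) ⬝ᵥ (fun l => Z i (e (Sum.inl l))) +
        sv (fun l => ξ (Sum.inr l)) ⬝ᵥ (fun l => Z i (e (Sum.inr l))) : ℤ) : ℚ) = τ r i}})
      fun η hη r i => ?_).trans ?_
    · set b := repl (blk (Subtype.val : R → Fin n) e) η ω with hb
      have h2 : φ r ⬝ᵥ qc (Mx b *ᵥ Z i) = 0 := hD r _ (hη i)
      have h3 : ∀ j, qc (Mx b *ᵥ Z i) j =
          (∑ l, if s(j, l) ∈ Set.range (blk (Subtype.val : R → Fin n) e) then
            ((Mx b j l * Z i l : ℤ) : ℚ) else 0) +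
          ∑ l, if s(j, l) ∈ Set.range (blk (Subtype.val : R → Fin n) e) then 0 else
            ((Mx ω j l * Z i l : ℤ) : ℚ) := fun j => by
        rw [qc_apply, Matrix.mulVec, dotProduct, Int.cast_sum, ← Finset.sum_add_distrib]
        refine Finset.sum_congr rfl fun l _ => ?_
        split_ifs with hm
        · simp
        · simp only [Mx, symSignMatrix, Matrix.of_apply, hb, repl_of_not_mem η ω hm, zero_add]
      simp only [dotProduct, h3, mul_add, Finset.sum_add_distrib] at h2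
      rw [Finset.sum_eq_single (r : Fin n), hR r r.2 r r.2, if_pos rfl, one_mul,
        ← Fintype.sum_of_injective e he (fun c => ((sv (fun c => η (r, c)) c * Z i (e c) : ℤ) : ℚ))]
        at h2
      · rw [Fintype.sum_sum_type] at h2
        simp only [τ, dotProduct]
        push_cast at h2 ⊢
        exact eq_neg_of_add_eq_zero_left h2
      · intro l hl
        rw [if_neg]
        rw [mem_range_blk]
        rintro (⟨-, h4⟩ | ⟨-, c, h4⟩)
        · exact hl h4
        · exact hne r c h4.symm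
      · intro c
        rw [if_pos ⟨(r, c), rfl⟩]
        have : b s((r : Fin n), e c) = η (r, c) := repl_apply hinj η ω (r, c)
        simp only [Mx, symSignMatrix, Matrix.of_apply, this, sv]
      · intro j _ hj
        by_cases hjR : j ∈ R
        · rw [hR r r.2 j hjR, if_neg hj.symm, zero_mul]
        by_cases hjQ : j ∈ Finset.univ.image e
        · rw [hQ r j hjQ, zero_mul]
        rw [Finset.sum_eq_zero, mul_zero]
        intro l _
        rw [if_neg]
        rw [mem_range_blk]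
        rintro (⟨⟨a, h4⟩, -⟩ | ⟨-, c, h4⟩)
        · exact hjR (h4 ▸ a.2)
        · exact hjQ (by simp [← h4])
      · simp
    · rw [pr_rows, ← Fintype.card_coe R, ← Finset.card_univ, ← Finset.prod_const]
      exact Finset.prod_le_prod (fun _ _ => pr_nonneg h0 h1 _) fun r _ => Real.le_sqrt_of_sq_le (hcs _)
  refine (pow_le_pow_left₀ (pr_nonneg h0 h1 _) key 2).trans ?_
  rw [← pow_mul, mul_comm, pow_mul, Real.sq_sqrt c0]
  exact pow_le_pow_of_le_one c0 c1 (by omega)

end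

end Crest.Agent.R152
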