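import Crest.Agent.R152.TP1

/-!
# R152/TP2

The first moment factorises over the blocks.

Helper lemmas: prefix `tp2_`.
-/

set_option autoImplicit false
set_option linter.unusedVariables false
set_option linter.unusedSectionVars false

namespace Crest.Agent.R152

open Crest.FinProb Crest.ProbabilityR.SignMatrix MeasureTheory ProbabilityTheory Filter Module
open scoped RealInnerProductSpace ENNReal Matrix Topology

noncomputable section

variable {ι κ : Type} [Fintype ι] [DecidableEq ι] [Fintype κ] [DecidableEq κ] {p : ℝ}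

theorem tp2_nonneg (h0 : 0 < p) (h1 : p < 1) {α : Type} (Z : α → ι → ℤ) : 0 ≤ coll p Z :=
  ex_nonneg h0 h1 fun _ => pr_nonneg h0 h1 _

theorem tp2_le_one (h0 : 0 < p) (h1 : p < 1) {α : Type} (Z : α → ι → ℤ) : coll p Z ≤ 1 :=
  (ex_mono h0 h1 fun _ => pr_le_one h0 h1 _).trans (ex_const p 1).le

/-- splitting tuples of vectors into blocks -/
def tp2Eq {A H C N : Type} (σ : (A × H) ⊕ C ≃ N) (r : ℕ) :
    (Fin r → C → ℤ) × (A → Fin r → H → ℤ) ≃ (Fin r → N → ℤ) where
  toFun q i j := Sum.elim (fun x => q.2 x.1 i x.2) (q.1 i) (σ.symm j)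
  invFun Z := (fun i c => Z i (σ (Sum.inr c)), fun a i l => Z i (σ (Sum.inl (a, l))))
  left_inv q := by
    ext <;> simp
  right_inv Z := by
    funext i j
    obtain ⟨x, rfl⟩ := σ.surjective j
    rcases x with x | x <;> simp

theorem tp2_split {A H C N : Type} [Fintype A] [DecidableEq A] [Fintype H] [DecidableEq H] [Fintype C]
    [DecidableEq C] [Fintype N] [DecidableEq N] (σ : (A × H) ⊕ C ≃ N) (r : ℕ) (b : ℝ)
    (F : (Fin r → H → ℤ) → ℝ≥0∞) :
    ∑' Z : Fin r → N → ℤ, (∏ i, wt b (Z i)) * ∏ a, F (fun i l => Z i (σ (Sum.inl (a, l)))) =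
      rho b (Set.univ : Set (C → ℤ)) ^ r *
        (∑' Y : Fin r → H → ℤ, (∏ i, wt b (Y i)) * F Y) ^ Fintype.card A := by
  rw [← (tp2Eq σ r).tsum_eq, ENNReal.tsum_prod', rho_pow, ← Finset.card_univ, ← Finset.prod_const,
    ← tsum_pi_prod (fun (_ : A) (Y : Fin r → H → ℤ) => (∏ i, wt b (Y i)) * F Y),
    ← ENNReal.tsum_mul_right]
  refine tsum_congr fun W => ?_
  rw [← ENNReal.tsum_mul_left]
  refine tsum_congr fun Y => ?_
  have h1 : ∀ i, wt b (tp2Eq σ r (W, Y) i) = wt b (W i) * ∏ a, wt b (Y a i) := fun i => by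
    simp only [wt_eq_prod]
    rw [← σ.prod_comp, Fintype.prod_sum_type, Fintype.prod_prod_type, mul_comm]
    simp [tp2Eq]
  have h2 : ∀ a, (fun i l => tp2Eq σ r (W, Y) i (σ (Sum.inl (a, l)))) = Y a := fun a => by
    funext i l
    simp [tp2Eq]
  simp only [h1, h2, Set.indicator_univ, Finset.prod_mul_distrib]
  rw [Finset.prod_comm, mul_assoc]

/-- `P^{2M} = ∏_a P² ≤ ∏_{a,s} coll^{c'} ≤ (∏_{a,s} coll^k)^{2M}`. -/
theorem tuple_bound_prod (h0 : 0 < p) (h1 : p < 1) {n h M k : ℕ} (hM : 0 < M) {α : Type} (D : Submodule ℚ (Fin n → ℚ))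
    (e : (Fin M × Bool) × Fin h → Fin n) (he : Function.Injective e) (hk : 2 * M * k ≤ n - finrank ℚ D - 2 * h)
    (Z : α → Fin n → ℤ) :
    pr p {b : Sym2 (Fin n) → Bool | ∀ i, qc (Mx b *ᵥ Z i) ∈ D} ≤ ∏ a, coll p (fun i l => Z i (e (a, l))) ^ k := by
  have key : ∀ m : Fin M, pr p {b : Sym2 (Fin n) → Bool | ∀ i, qc (Mx b *ᵥ Z i) ∈ D} ^ 2 ≤
      (∏ s : Bool, coll p (fun i l => Z i (e ((m, s), l))) ^ k) ^ (2 * M) := fun m => by
    have hi : Function.Injective
        (Sum.elim (fun l => e ((m, true), l)) (fun l => e ((m, false), l)) : Fin h ⊕ Fin h → Fin n) := by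
      rintro (l | l) (l' | l') hl <;> have := he hl <;> simp_all
    refine (tuple_bound h0 h1 D _ hi Z).trans ?_
    rw [Fintype.prod_bool, ← mul_pow, ← pow_mul]
    exact pow_le_pow_of_le_one (mul_nonneg (tp2_nonneg h0 h1 _) (tp2_nonneg h0 h1 _))
      (mul_le_one₀ (tp2_le_one h0 h1 _) (tp2_nonneg h0 h1 _) (tp2_le_one h0 h1 _))
      ((mul_comm _ _).trans_le hk)
  have h2 := Finset.prod_le_prod (s := Finset.univ) (fun m _ => sq_nonneg _) fun m _ => key m
  rw [Finset.prod_const, Finset.card_univ, Fintype.card_fin, ← pow_mul, Finset.prod_pow,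
    ← Fintype.prod_prod_type (fun a : Fin M × Bool => coll p (fun i l => Z i (e (a, l))) ^ k)] at h2
  exact le_of_pow_le_pow_left₀ (by omega)
    (Finset.prod_nonneg fun a _ => pow_nonneg (tp2_nonneg h0 h1 _) k) h2

/-- `rho_pow`, `exE_tsum`, `exE_indicator`, `tuple_bound_prod`; then split `Z` into its restrictions to the blocks and to the complement of
the range of `e` (`Equiv.sumCompl`, `Equiv.sumArrowEquivProdArrow`, `Equiv.curry`), `wt_eq_prod`, `tsum_pi_prod`, `tsum_gauss_int_le`. -/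
theorem first_moment (h0 : 0 < p) (h1 : p < 1) {n h M k : ℕ} (hM : 0 < M) (D : Submodule ℚ (Fin n → ℚ))
    (e : (Fin M × Bool) × Fin h → Fin n) (he : Function.Injective e) (hk : 2 * M * k ≤ n - finrank ℚ D - 2 * h)
    {b : ℝ} (hb : 1 ≤ b) (r : ℕ) :
    exE p (fun ω : Sym2 (Fin n) → Bool => rho b {z | qc (Mx ω *ᵥ z) ∈ D} ^ r) ≤
      ENNReal.ofReal (5 * b) ^ ((n - 2 * M * h) * r) * mom p b r k (Set.univ : Set (Fin h → ℤ)) ^ (2 * M) := by
  classical
  obtain ⟨σ, hσ⟩ : ∃ σ : ((Fin M × Bool) × Fin h) ⊕ {j // j ∉ Set.range e} ≃ Fin n,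
      ∀ x, σ (Sum.inl x) = e x :=
    ⟨((Equiv.ofInjective e he).sumCongr (Equiv.refl _)).trans (Equiv.sumCompl (· ∈ Set.range e)),
      fun x => rfl⟩
  have hc : Fintype.card {j // j ∉ Set.range e} = n - 2 * M * h := by
    have := Fintype.card_congr σ
    simp only [Fintype.card_sum, Fintype.card_prod, Fintype.card_fin, Fintype.card_bool] at this
    rw [mul_comm 2 M]
    omega
  have h3 : ∀ Z : Fin r → Fin n → ℤ, exE p (fun ω : Sym2 (Fin n) → Bool =>
      ∏ i, {z | qc (Mx ω *ᵥ z) ∈ D}.indicator (wt b) (Z i)) ≤ (∏ i, wt b (Z i)) *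
        ∏ a, ENNReal.ofReal (coll p fun i l => Z i (σ (Sum.inl (a, l)))) ^ k := fun Z => by
    have e1 : (fun ω : Sym2 (Fin n) → Bool => ∏ i, {z | qc (Mx ω *ᵥ z) ∈ D}.indicator (wt b) (Z i)) =
        {ω : Sym2 (Fin n) → Bool | ∀ i, qc (Mx ω *ᵥ Z i) ∈ D}.indicator fun _ => ∏ i, wt b (Z i) := by
      funext ω
      by_cases hω : ω ∈ {ω : Sym2 (Fin n) → Bool | ∀ i, qc (Mx ω *ᵥ Z i) ∈ D}
      · rw [Set.indicator_of_mem hω]
        exact Finset.prod_congr rfl fun i _ =>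
          Set.indicator_of_mem (s := {z | qc (Mx ω *ᵥ z) ∈ D}) (hω i) _
      · rw [Set.indicator_of_notMem hω]
        obtain ⟨i, hi⟩ := not_forall.1 hω
        exact Finset.prod_eq_zero (Finset.mem_univ i)
          (Set.indicator_of_notMem (s := {z | qc (Mx ω *ᵥ z) ∈ D}) hi _)
    rw [e1, exE_indicator h0 h1]
    refine mul_le_mul_right ((ENNReal.ofReal_le_ofReal
      (tuple_bound_prod h0 h1 hM D e he hk Z)).trans (le_of_eq ?_)) _
    rw [ENNReal.ofReal_prod_of_nonneg fun a _ => pow_nonneg (tp2_nonneg h0 h1 _) k]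
    simp only [hσ, ENNReal.ofReal_pow (tp2_nonneg h0 h1 _)]
  simp only [rho_pow]
  rw [exE_tsum]
  refine (ENNReal.tsum_le_tsum h3).trans ?_
  rw [tp2_split σ r b fun Y => ENNReal.ofReal (coll p Y) ^ k, pow_mul, ← hc]
  simp only [mom, Set.indicator_univ, Fintype.card_prod, Fintype.card_fin, Fintype.card_bool,
    mul_comm M 2]
  exact mul_le_mul_left (pow_le_pow_left' (rho_univ_le hb) r) _

end

end Crest.Agent.R152
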