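import Crest.Agent.R152.TP2
import Crest.Agent.R152.G3

/-!
# R152/TP3

The first moment bound for a fixed container.

Helper lemmas: prefix `tp3_`.
-/

set_option autoImplicit false
set_option linter.unusedVariables false
set_option linter.unusedSectionVars false

namespace Crest.Agent.R152

open Crest.FinProb Crest.ProbabilityR.SignMatrix MeasureTheory ProbabilityTheory Filter Module
open scoped RealInnerProductSpace ENNReal Matrix Topology

noncomputable section

variable {p : ℝ}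

/-- `exists_many_points` with `R = b √n` (`u ≤ n`, so `R/√u ≥ b`), `le_rho`, and `u ≥ finrank D - ε n`. -/
theorem rho_ge_of_PEv {n : ℕ} (hn : 0 < n) {δ ε b : ℝ} (hb : 1 ≤ b) (D : Submodule ℚ (Fin n → ℚ))
    (A : Matrix (Fin n) (Fin n) ℤ) (h : PEv δ ε D A) :
    ENNReal.ofReal ((b * √n) ^ ((finrank ℚ D : ℝ) - ε * n) * (n : ℝ) ^ (δ * n - n / 2) * Real.exp (-n)) ≤
      rho b {z | qc (A *ᵥ z) ∈ D} := by
  classical
  obtain ⟨u, z, hz, hd, hD, hg⟩ := h
  have hn' : (1 : ℝ) ≤ n := by exact_mod_cast hn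
  have hun : u ≤ n := by simpa using hz.fintype_card_le_finrank
  have hsn : (1 : ℝ) ≤ √n := Real.one_le_sqrt.2 hn'
  have hb0 : 0 < b := by linarith
  have hR : 0 < b * √n := by positivity
  obtain ⟨S, hS, hc⟩ := exists_many_points (fun i => zc (z i)) hz hR
  have hzc : ∀ c : Fin u → ℤ, zc (∑ i, c i • z i) = ∑ i, (c i : ℝ) • zc (z i) := by
    intro c
    rw [map_sum]
    refine Finset.sum_congr rfl fun i _ => ?_
    rw [map_zsmul, Int.cast_smul_eq_zsmul]
  have hinj : Function.Injective fun c : Fin u → ℤ => ∑ i, c i • z i := by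
    intro c c' hcc
    have h1 := congrArg zc hcc
    simp only [hzc] at h1
    have h2 := (Fintype.linearIndependent_iffₛ.1 hz) _ _ h1
    funext i
    exact_mod_cast h2 i
  have hT := le_rho (R := b * √n) hb0 {z | qc (A *ᵥ z) ∈ D} (S.image fun c => ∑ i, c i • z i) (by
    intro w hw
    obtain ⟨c, hc, rfl⟩ := Finset.mem_image.1 hw
    refine ⟨?_, by rw [hzc]; exact hS c hc⟩
    show qc (A *ᵥ ∑ i, c i • z i) ∈ D
    rw [Matrix.mulVec_sum, map_sum]
    refine D.sum_mem fun i _ => ?_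
    rw [Matrix.mulVec_smul, map_zsmul]
    exact zsmul_mem (hD i) _)
  refine le_trans (ENNReal.ofReal_le_ofReal ?_) hT
  rw [Finset.card_image_of_injective _ hinj]
  have e1 : -(b * √n) ^ 2 / b ^ 2 = -(n : ℝ) := by
    rw [mul_pow, Real.sq_sqrt (by positivity)]
    field_simp
  rw [e1]
  refine mul_le_mul_of_nonneg_right (le_trans ?_ hc) (Real.exp_pos _).le
  have hg0 : 0 < gvol fun i => zc (z i) := (gvol_pos_iff _).2 hz
  rw [le_div_iff₀ hg0]
  have h1 : (b * √n) ^ ((finrank ℚ D : ℝ) - ε * n) ≤ (b * √n) ^ (u : ℝ) :=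
    Real.rpow_le_rpow_of_exponent_le (by nlinarith) (by linarith)
  have h2 : (b * √n) ^ (u : ℝ) = b ^ u * (n : ℝ) ^ ((u : ℝ) / 2) := by
    rw [Real.mul_rpow hb0.le (by positivity), Real.rpow_natCast, Real.sqrt_eq_rpow, ← Real.rpow_mul (by positivity)]
    congr 2
    ring
  have h3 : b ^ u ≤ (b * √n / √u) ^ u := by
    rcases Nat.eq_zero_or_pos u with rfl | hu
    · simp
    · refine pow_le_pow_left₀ hb0.le ?_ _
      rw [le_div_iff₀ (by positivity)]
      exact mul_le_mul_of_nonneg_left (Real.sqrt_le_sqrt (by exact_mod_cast hun)) hb0.le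
  have h4 : (n : ℝ) ^ ((u : ℝ) / 2) * (n : ℝ) ^ (δ * n - n / 2) * (n : ℝ) ^ (((n : ℝ) - u) / 2 - δ * n) = 1 := by
    rw [← Real.rpow_add (by positivity), ← Real.rpow_add (by positivity)]
    have : (u : ℝ) / 2 + (δ * n - n / 2) + (((n : ℝ) - u) / 2 - δ * n) = 0 := by ring
    rw [this, Real.rpow_zero]
  calc (b * √n) ^ ((finrank ℚ D : ℝ) - ε * n) * (n : ℝ) ^ (δ * n - n / 2) * gvol (fun i => zc (z i))
      ≤ (b ^ u * (n : ℝ) ^ ((u : ℝ) / 2)) * (n : ℝ) ^ (δ * n - n / 2) * (n : ℝ) ^ (((n : ℝ) - u) / 2 - δ * n) := by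
        rw [← h2]
        gcongr
    _ = b ^ u * ((n : ℝ) ^ ((u : ℝ) / 2) * (n : ℝ) ^ (δ * n - n / 2) * (n : ℝ) ^ (((n : ℝ) - u) / 2 - δ * n)) := by ring
    _ ≤ _ := by rw [h4, mul_one]; exact h3

theorem tp3_ratio {n j d M : ℕ} {b y W E δ ε : ℝ} (hn : 1 ≤ n) (hM : 0 < M) (hb : 0 < b) (hy : y = b * √n) (hy1 : 1 ≤ y)
    (hW : 1 ≤ W) (hE : Real.log y ≤ E * Real.log n) (hE0 : 0 < E) (hj : j ≤ n) (hjd : (n : ℝ) - j - d ≤ n / M + 2 * M)
    (h1 : E / M ≤ δ / 8) (h2 : E * ε ≤ δ / 8) (hε : 0 ≤ ε) (h3 : Real.log 5 + 1 + Real.log W ≤ δ / 8 * Real.log n)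
    (h4 : 2 * M * E ≤ δ / 8 * n) :
    (5 * b) ^ n * (W / y) ^ j / (y ^ ((d : ℝ) - ε * n) * (n : ℝ) ^ (δ * n - n / 2) * Real.exp (-n)) ≤
      Real.exp (-(δ * n * Real.log n / 2)) := by
  have hn' : (1 : ℝ) ≤ n := by exact_mod_cast hn
  have hn0 : (0 : ℝ) < n := by linarith
  have hy0 : 0 < y := by linarith
  have hW0 : 0 < W := by linarith
  have hM' : (0 : ℝ) < M := by exact_mod_cast hM
  have hL : 0 ≤ Real.log n := Real.log_nonneg hn'
  have hly : 0 ≤ Real.log y := Real.log_nonneg hy1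
  have hlW : 0 ≤ Real.log W := Real.log_nonneg hW
  have hlb : Real.log b = Real.log y - Real.log n / 2 := by
    rw [hy, Real.log_mul hb.ne' (by positivity), Real.log_sqrt hn0.le]
    ring
  rw [← Real.log_le_iff_le_exp (by positivity), Real.log_div (by positivity) (by positivity),
    Real.log_mul (by positivity) (by positivity), Real.log_mul (by positivity) (by positivity),
    Real.log_mul (by positivity) (by positivity), Real.log_pow, Real.log_pow, Real.log_mul (by norm_num) hb.ne',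
    Real.log_div hW0.ne' hy0.ne', Real.log_rpow hy0, Real.log_rpow hn0, Real.log_exp, hlb]
  have hj' : (j : ℝ) ≤ n := by exact_mod_cast hj
  have a1 : (j : ℝ) * Real.log W ≤ n * Real.log W := mul_le_mul_of_nonneg_right hj' hlW
  have a2 : Real.log y * ((n : ℝ) - j - d + ε * n) ≤ Real.log y * (n / M + 2 * M + ε * n) :=
    mul_le_mul_of_nonneg_left (by linarith) hly
  have a3 : Real.log y * (n / M + 2 * M + ε * n) ≤ E * Real.log n * (n / M + 2 * M + ε * n) :=
    mul_le_mul_of_nonneg_right hE (by positivity)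
  have a4 : E * Real.log n * (n / M + 2 * M + ε * n) =
      (E / M) * (n * Real.log n) + (2 * M * E) * Real.log n + (E * ε) * (n * Real.log n) := by
    field_simp
  have hnL : 0 ≤ n * Real.log n := by positivity
  have a5 := mul_le_mul_of_nonneg_right h1 hnL
  have a6 := mul_le_mul_of_nonneg_right h2 hnL
  have a7 := mul_le_mul_of_nonneg_right h4 hL
  have a8 := mul_le_mul_of_nonneg_left h3 hn0.le
  nlinarith

theorem tp3_beta {n h M r : ℕ} {b C' c E α : ℝ} (hn : 1 ≤ n) (hM : 0 < M) (hr : 1 ≤ r) (hb : 1 ≤ b) (hC : 0 < C')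
    (hc : 0 < c) (hh : (n : ℝ) / (4 * M) ≤ h) (hE : Real.log (b * √n) ≤ E * Real.log n) (hE0 : 0 < E)
    (hα : α = c / (4 * M * E)) (hrα : r * Real.log n ≤ α * n) :
    (C' / (b * √h)) ^ r + Real.exp (-c * h) ≤ (2 * ((C' + 1) * √(4 * M)) / (b * √n)) ^ r := by
  have hn' : (1 : ℝ) ≤ n := by exact_mod_cast hn
  have hM' : (1 : ℝ) ≤ M := by exact_mod_cast hM
  have hsn : (1 : ℝ) ≤ √n := Real.one_le_sqrt.2 hn'
  have hs4 : (1 : ℝ) ≤ √(4 * M) := Real.one_le_sqrt.2 (by linarith)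
  have hh0 : (0 : ℝ) < h := lt_of_lt_of_le (by positivity) hh
  have hy : 0 < b * √n := by positivity
  set w := (C' + 1) * √(4 * M) / (b * √n) with hw
  have hw0 : 0 < w := by positivity
  have e1 : C' / (b * √h) ≤ w := by
    rw [hw, div_le_div_iff₀ (by positivity) hy]
    have : √(n : ℝ) ≤ √(4 * M) * √h := by
      rw [← Real.sqrt_mul (by positivity)]
      refine Real.sqrt_le_sqrt ?_
      rw [div_le_iff₀ (by positivity)] at hh
      linarith
    calc C' * (b * √n) ≤ (C' + 1) * (b * (√(4 * M) * √h)) := by gcongr; linarith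
      _ = _ := by ring
  have e2 : Real.exp (-c * h) ≤ w ^ r := by
    have : 1 / (b * √n) ≤ w := by
      rw [hw]
      gcongr
      nlinarith
    refine le_trans ?_ (pow_le_pow_left₀ (by positivity) this r)
    rw [← Real.le_log_iff_exp_le (by positivity), Real.log_pow, Real.log_div one_ne_zero hy.ne', Real.log_one]
    have a1 : (r : ℝ) * Real.log (b * √n) ≤ r * (E * Real.log n) := mul_le_mul_of_nonneg_left hE (by positivity)
    have a2 : E * (r * Real.log n) ≤ E * (α * n) := mul_le_mul_of_nonneg_left hrα hE0.le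
    have a3 : E * (α * n) = c * (n / (4 * M)) := by
      rw [hα]
      field_simp
    have a4 := mul_le_mul_of_nonneg_left hh hc.le
    nlinarith
  have e3 : (2 : ℝ) ≤ 2 ^ r := by
    calc (2 : ℝ) = 2 ^ 1 := by norm_num
      _ ≤ 2 ^ r := pow_le_pow_right₀ (by norm_num) hr
  have e4 : (2 * ((C' + 1) * √(4 * M)) / (b * √n)) = 2 * w := by
    rw [hw]
    ring
  rw [e4, mul_pow]
  have e5 := pow_le_pow_left₀ (by positivity) e1 r
  have e6 : 0 < w ^ r := by positivity
  nlinarith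

/-- `γ = min c₂ 1 / 2`, constants `C, C', c` of `moment` (`C ≥ 1`, `C' ≥ 1` wlog), `b = n^C`, `M` with `(C+1)/M ≤ δ/8`, `ε = δ/(8(C+1))`,
`h = n / (2M)`, `d = finrank D`, `k = (n - d - 2h)/(2M) ≤ (1-γ) h` for large `n`, `r = ⌊α n / log n⌋` with `α (C+1) ≤ c/(4M)`, so that
`exp (-c h) ≤ (b√n)^{-r}`, and `√h ≥ √n / √(4M)`.  Then `β ≤ (C''/(b√n))^r`, the first moment is at most
`((5b)^n (C''/(b√n))^{2Mk})^r` with `2Mk ≥ n - d - n/M - 2M`, and the quotient by the `r`-th power of the lower bound is at most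
`(exp (O(n)) (b√n)^{ε n + n/M + 2M} n^{-δ n})^r ≤ n^{-δ n r / 2}`.  `markovE`. -/
theorem thmP (h0 : 0 < p) (h1 : p < 1) {c₂ δ : ℝ} (hc : 0 < c₂) (hδ : 0 < δ) : ∃ ε c : ℝ, 0 < ε ∧ 0 < c ∧ ∀ᶠ n : ℕ in atTop,
    ∀ D : Submodule ℚ (Fin n → ℚ), c₂ * n ≤ finrank ℚ D →
    pr p {ω : Sym2 (Fin n) → Bool | PEv δ ε D (Mx ω)} ≤ Real.exp (-c * n ^ 2) := by
  classical
  set γ := min c₂ 1 / 2 with hγ
  have hγ0 : 0 < γ := by positivity
  have hγ1 : γ ≤ 1 / 2 := by
    have := min_le_right c₂ 1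
    linarith
  have hγ2 : γ ≤ c₂ / 2 := by
    have := min_le_left c₂ 1
    linarith
  obtain ⟨C, C', c, h₀, hC', hc0, H⟩ := moment h0 h1 hγ0
  set E : ℝ := C + 2 with hE
  have hE0 : 0 < E := by positivity
  obtain ⟨M, hM, hMδ⟩ : ∃ M : ℕ, 0 < M ∧ E / M ≤ δ / 8 := by
    refine ⟨⌈8 * E / δ⌉₊ + 1, Nat.succ_pos _, ?_⟩
    have := Nat.le_ceil (8 * E / δ)
    rw [div_le_iff₀ hδ] at this
    rw [div_le_iff₀ (by positivity)]
    push_cast
    nlinarith
  have hM' : (1 : ℝ) ≤ M := by exact_mod_cast hM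
  set α := c / (4 * M * E) with hα
  have hα0 : 0 < α := by positivity
  set W := 2 * ((C' + 1) * √(4 * M)) with hW
  have hW1 : 1 ≤ W := by
    have : (1 : ℝ) ≤ √(4 * M) := Real.one_le_sqrt.2 (by linarith)
    nlinarith
  refine ⟨δ / (8 * E), δ * α / 4, by positivity, by positivity, ?_⟩
  have tl : Tendsto (fun n : ℕ => Real.log n) atTop atTop :=
    Real.tendsto_log_atTop.comp tendsto_natCast_atTop_atTop
  have tn : Tendsto (fun n : ℕ => (n : ℝ)) atTop atTop := tendsto_natCast_atTop_atTop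
  have tq : Tendsto (fun n : ℕ => Real.log n / n) atTop (𝓝 0) := by
    have := (Real.tendsto_pow_log_div_mul_add_atTop 1 0 1 one_ne_zero).comp tn
    simpa [Function.comp_def] using this
  filter_upwards [eventually_ge_atTop (2 * M * (h₀ + 1)), tn.eventually_ge_atTop (4 * M),
    tn.eventually_ge_atTop (4 * M / γ), tl.eventually_ge_atTop ((Real.log 5 + 1 + Real.log W) / (δ / 8)),
    tn.eventually_ge_atTop (2 * M * E / (δ / 8)), tl.eventually_ge_atTop 1,
    tq.eventually (gt_mem_nhds (show 0 < α / 2 by positivity))] with n g1 g2 g3 g4 g5 g6 g7 D hD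
  have hn' : (1 : ℝ) ≤ n := by linarith
  have hn1 : 1 ≤ n := by exact_mod_cast hn'
  have hn0 : (0 : ℝ) < n := by linarith
  have hL : 0 < Real.log n := by linarith
  set h := n / (2 * M) with hh
  set d := finrank ℚ D with hd
  set k := (n - d - 2 * h) / (2 * M) with hk
  set r := ⌊α * n / Real.log n⌋₊ with hr
  set b : ℝ := (n : ℝ) ^ (C + 1) with hb
  have h2M : 0 < 2 * M := by omega
  have hh1 : h₀ + 1 ≤ h := (Nat.le_div_iff_mul_le h2M).2 (by linarith)
  have hh2 : 2 * M * h ≤ n := Nat.mul_div_le _ _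
  have hh3 : n < 2 * M * (h + 1) := by
    rw [hh]
    exact Nat.lt_mul_div_succ _ h2M
  have hh2' : 2 * (M : ℝ) * h ≤ n := by exact_mod_cast hh2
  have hh3' : (n : ℝ) < 2 * M * (h + 1) := by exact_mod_cast hh3
  have hh4 : (n : ℝ) / (4 * M) ≤ h := by
    rw [div_le_iff₀ (by positivity)]
    nlinarith
  have hhn : h ≤ n := Nat.div_le_self _ _
  have hk1 : 2 * M * k ≤ n - d - 2 * h := Nat.mul_div_le _ _
  have hk2 : n - d - 2 * h < 2 * M * (k + 1) := by
    rw [hk]
    exact Nat.lt_mul_div_succ _ h2M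
  have hdn : d ≤ n := by
    have := Submodule.finrank_le D
    simpa using this
  have hdn' : (d : ℝ) ≤ n := by exact_mod_cast hdn
  have hk3 : 2 * (M : ℝ) * k ≤ n - d := by
    have : 2 * M * k + d ≤ n := by omega
    have : 2 * (M : ℝ) * k + d ≤ n := by exact_mod_cast this
    linarith
  have hk4 : (k : ℝ) ≤ (1 - γ) * h := by
    have a1 : 4 * M ≤ γ * n := by
      rw [div_le_iff₀ hγ0] at g3
      linarith
    have a2 : 2 * γ * n ≤ d := by nlinarith
    have a3 : 2 * (M : ℝ) * k ≤ 2 * M * ((1 - γ) * h) := by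
      have : (1 - γ) * n ≤ (1 - γ) * (2 * M * (h + 1)) := mul_le_mul_of_nonneg_left hh3'.le (by linarith)
      nlinarith
    exact le_of_mul_le_mul_left a3 (by positivity)
  have hk5 : (n : ℝ) - (2 * M * k : ℕ) - d ≤ n / M + 2 * M := by
    have a1 : n < d + 2 * h + 2 * M * (k + 1) := by omega
    have a2 : (n : ℝ) < d + 2 * h + 2 * M * (k + 1) := by exact_mod_cast a1
    have a3 : 2 * (h : ℝ) ≤ n / M := by
      rw [le_div_iff₀ (by positivity)]
      linarith
    push_cast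
    linarith
  have hb1 : 1 ≤ b := one_le_pow₀ hn'
  have hbh : (h : ℝ) ^ C ≤ b := by
    calc (h : ℝ) ^ C ≤ (n : ℝ) ^ C := pow_le_pow_left₀ (by positivity) (by exact_mod_cast hhn) _
      _ ≤ b := pow_le_pow_right₀ hn' (Nat.le_succ _)
  have hsn : (1 : ℝ) ≤ √n := Real.one_le_sqrt.2 hn'
  have hy1 : 1 ≤ b * √n := by nlinarith
  have hly : Real.log (b * √n) ≤ E * Real.log n := by
    rw [Real.log_mul (by positivity) (by positivity), hb, Real.log_pow, Real.log_sqrt hn0.le, hE]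
    push_cast
    linarith
  have hx : 2 ≤ α * n / Real.log n := by
    rw [le_div_iff₀ hL]
    rw [div_lt_iff₀ hn0] at g7
    linarith
  have hr1 : 1 ≤ r := Nat.le_floor (by push_cast; linarith)
  have hr2 : r * Real.log n ≤ α * n := by
    have := Nat.floor_le (show 0 ≤ α * n / Real.log n by positivity)
    rwa [le_div_iff₀ hL] at this
  have hr3 : α * n / 2 ≤ r * Real.log n := by
    have a1 := Nat.lt_floor_add_one (α * n / Real.log n)
    have a2 : α * n / Real.log n / 2 ≤ r := by linarith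
    have a3 := mul_le_mul_of_nonneg_right a2 hL.le
    have a4 : α * n / Real.log n / 2 * Real.log n = α * n / 2 := by field_simp
    linarith
  obtain ⟨e⟩ : Nonempty (((Fin M × Bool) × Fin h) ↪ Fin n) :=
    Function.Embedding.nonempty_of_card_le (by simpa [mul_comm M 2] using hh2)
  have F1 := first_moment h0 h1 hM D e e.injective hk1 hb1 r
  have F2 := H h (by omega) b hb1 hbh r k hk4
  have F3 := tp3_beta hn1 hM hr1 hb1 hC' hc0 hh4 hly hE0 hα hr2
  set y := b * √n with hy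
  have hβ0 : 0 ≤ (C' / (b * √h)) ^ r + Real.exp (-c * h) := by positivity
  have F4 : exE p (fun ω : Sym2 (Fin n) → Bool => rho b {z | qc (Mx ω *ᵥ z) ∈ D} ^ r) ≤
      ENNReal.ofReal (((5 * b) ^ n * (W / y) ^ (2 * M * k)) ^ r) := by
    refine F1.trans ?_
    calc ENNReal.ofReal (5 * b) ^ ((n - 2 * M * h) * r) * mom p b r k (Set.univ : Set (Fin h → ℤ)) ^ (2 * M)
        ≤ ENNReal.ofReal (5 * b) ^ ((n - 2 * M * h) * r) *
          (ENNReal.ofReal (5 * b) ^ (h * r) * ENNReal.ofReal ((W / y) ^ r) ^ k) ^ (2 * M) := by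
          gcongr
          refine F2.trans ?_
          gcongr
      _ = ENNReal.ofReal (5 * b) ^ (n * r) * ENNReal.ofReal ((W / y) ^ r) ^ (k * (2 * M)) := by
          rw [mul_pow, ← pow_mul, ← pow_mul, ← mul_assoc, ← pow_add]
          congr 2
          obtain ⟨t, ht⟩ := Nat.exists_eq_add_of_le hh2
          have : n - 2 * M * h = t := by omega
          rw [this, ht]
          ring
      _ = _ := by
          rw [← ENNReal.ofReal_pow (by positivity), ← ENNReal.ofReal_pow (by positivity),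
            ← ENNReal.ofReal_mul (by positivity)]
          congr 1
          rw [mul_pow ((5 * b) ^ n), ← pow_mul (5 * b), ← pow_mul (W / y), ← pow_mul (W / y)]
          congr 2
          ring
  set a₀ := y ^ ((d : ℝ) - δ / (8 * E) * n) * (n : ℝ) ^ (δ * n - n / 2) * Real.exp (-n) with ha₀
  have ha0 : 0 < a₀ := by positivity
  have F5 := markovE h0 h1 {ω : Sym2 (Fin n) → Bool | PEv δ (δ / (8 * E)) D (Mx ω)} _ (a := a₀ ^ r) (by positivity)
    (by positivity) (fun ω hω => by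
      rw [ENNReal.ofReal_pow ha0.le]
      gcongr
      exact rho_ge_of_PEv (by omega) hb1 D _ hω) F4
  refine F5.trans ?_
  rw [← div_pow]
  have F6 := tp3_ratio (j := 2 * M * k) (d := d) (δ := δ) (ε := δ / (8 * E)) hn1 hM (by positivity : 0 < b) hy hy1 hW1 hly
    hE0 (by omega) hk5 hMδ (by field_simp; rfl) (by positivity)
    (by rw [div_le_iff₀ (by positivity)] at g4; linarith) (by rw [div_le_iff₀ (by positivity)] at g5; linarith)
  refine (pow_le_pow_left₀ (by positivity) F6 r).trans ?_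
  rw [← Real.exp_nat_mul]
  refine Real.exp_le_exp.2 ?_
  have := mul_le_mul_of_nonneg_left hr3 (show 0 ≤ δ * n / 2 by positivity)
  nlinarith

end

end Crest.Agent.R152
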