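import Crest.Agent.R152.P1

/-!
# R152/Z1

Kernels of zero-one matrices with a free right-hand side over `ℚ`, `ZMod l`, `ZMod (l^a)`.

Helper lemmas: prefix `z1_`.
-/

set_option autoImplicit false
set_option linter.unusedVariables false
set_option linter.unusedSectionVars false

namespace Crest.Agent.R152

open Crest.FinProb Crest.ProbabilityR.SignMatrix MeasureTheory ProbabilityTheory Filter Module
open scoped RealInnerProductSpace ENNReal Matrix Topology

noncomputable section

variable {X S : Type} [Fintype X] [DecidableEq X] [Fintype S] [DecidableEq S]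

/-- All `(w, τ)` with `ξ_r · w = τ` for every row `r`. -/
def kerB (R : Type) [CommRing R] (B : X → S → Bool) : Submodule R ((S → R) × R) := ⨅ r, cut (B r)

theorem mem_kerB {R : Type} [CommRing R] {B : X → S → Bool} {u : (S → R) × R} :
    u ∈ kerB R B ↔ ∀ r, ∑ j, (zo (B r) j : R) * u.1 j = u.2 := by
  rw [kerB, Submodule.mem_iInf]
  rfl

theorem GoodK.mono {R : Type} [CommRing R] {L K₀ : ℕ} {K K' : Submodule R ((S → R) × R)} (h : K ≤ K')
    (hK : GoodK L K₀ K) : GoodK L K₀ K' := by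
  obtain ⟨u, hu, h'⟩ := hK
  exact ⟨u, h hu, h'⟩

theorem z1_card {l a N : ℕ} (hl : l.Prime) (hN : N = l ^ a)
    (K : Submodule (ZMod N) ((S → ZMod N) × ZMod N)) : ∃ i, Nat.card K = l ^ i := by
  have h := AddSubgroup.card_addSubgroup_dvd_card K.toAddSubgroup
  rw [Nat.card_prod, Nat.card_fun, Nat.card_zmod, ← pow_succ] at h
  conv_rhs at h => rw [hN, ← pow_mul]
  obtain ⟨i, -, hi⟩ := (Nat.dvd_prime_pow hl).1 h
  exact ⟨i, hi⟩

/-- The ambient group has order a power of `l`; a proper subgroup has index `> 1` dividing it. -/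
theorem len_strictMono {l a N : ℕ} (hl : l.Prime) (hN : N = l ^ a) :
    StrictMono fun K : Submodule (ZMod N) ((S → ZMod N) × ZMod N) => (Nat.card K).factorization l := by
  have : NeZero N := ⟨by rw [hN]; exact pow_ne_zero _ hl.ne_zero⟩
  intro K K' h
  obtain ⟨i, hi⟩ := z1_card hl hN K
  obtain ⟨j, hj⟩ := z1_card hl hN K'
  have h1 : Nat.card K < Nat.card K' :=
    Set.ncard_lt_ncard (s := (K : Set ((S → ZMod N) × ZMod N))) (t := K')
      (SetLike.coe_ssubset_coe.2 h) (Set.toFinite _)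
  show (Nat.card K).factorization l < (Nat.card K').factorization l
  rw [hi, hj] at h1 ⊢
  rw [Nat.factorization_pow_self hl, Nat.factorization_pow_self hl]
  exact (Nat.pow_lt_pow_iff_right hl.one_lt).1 h1

theorem z1_tors {K : Type} [AddCommGroup K] [Finite K] (l i : ℕ) :
    Nat.card (nsmulAddMonoidHom (l ^ i) : K →+ K).ker ≤
      Nat.card (nsmulAddMonoidHom l : K →+ K).ker ^ i := by
  induction i with
  | zero =>
    have : (nsmulAddMonoidHom (l ^ 0) : K →+ K).ker = ⊥ := by
      ext x; simp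
    rw [this]; simp
  | succ i ih =>
    obtain ⟨H, hH⟩ : ∃ H, H = (nsmulAddMonoidHom (l ^ (i + 1)) : K →+ K).ker := ⟨_, rfl⟩
    rw [← hH]
    have h1 := ((nsmulAddMonoidHom l : K →+ K).comp H.subtype).ker.index_mul_card
    rw [AddSubgroup.index_ker] at h1
    rw [← h1, pow_succ]
    refine Nat.mul_le_mul (le_trans (AddSubgroup.card_le_of_le ?_) ih) ?_
    · rintro _ ⟨x, rfl⟩
      have hx : (x : K) ∈ (nsmulAddMonoidHom (l ^ (i + 1)) : K →+ K).ker := hH ▸ x.2
      rw [AddMonoidHom.mem_ker, nsmulAddMonoidHom_apply, pow_succ, mul_smul] at hx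
      exact hx
    · exact Nat.card_le_card_of_injective (fun x => ⟨x.1.1, x.2⟩) fun x y h =>
        Subtype.ext (Subtype.ext (Subtype.mk.inj h))

theorem z1_psi {l a N : ℕ} (hl : l.Prime) (hN : N = l ^ (a + 1)) : ∃ ψ : ZMod l →+ ZMod N,
    Function.Injective ψ ∧ ∀ x : ZMod N, l • x = 0 → ∃ t, ψ t = x := by
  have hl0 : (l : ℤ) ≠ 0 := by exact_mod_cast hl.ne_zero
  have e : ∀ m : ℤ, zmultiplesHom (ZMod N) ((l ^ a : ℕ) : ZMod N) m =
      (((l : ℤ) ^ a * m : ℤ) : ZMod N) := fun m => by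
    simp [mul_comm]
  have eN : (N : ℤ) = (l : ℤ) ^ a * l := by rw [hN]; push_cast; ring
  refine ⟨ZMod.lift l ⟨zmultiplesHom (ZMod N) ((l ^ a : ℕ) : ZMod N), ?_⟩, ?_, fun x hx => ?_⟩
  · rw [e, ← eN, Int.cast_natCast, ZMod.natCast_self]
  · rw [ZMod.lift_injective]
    intro m hm
    rw [e, ZMod.intCast_zmod_eq_zero_iff_dvd, eN,
      mul_dvd_mul_iff_left (pow_ne_zero _ hl0)] at hm
    exact (ZMod.intCast_zmod_eq_zero_iff_dvd _ _).2 hm
  · obtain ⟨m, rfl⟩ := ZMod.intCast_surjective x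
    have h : (((m * l : ℤ)) : ZMod N) = 0 := by
      rw [← hx]; simp [mul_comm]
    rw [ZMod.intCast_zmod_eq_zero_iff_dvd, eN, mul_dvd_mul_iff_right hl0] at h
    obtain ⟨t, rfl⟩ := h
    exact ⟨t, by rw [ZMod.lift_coe]; exact e t⟩

/-- `card (ker mod l^(a+1)) ≤ card (ker mod l) * card (ker mod l^a)`: reduce modulo `l`; an element of the kernel of the reduction is `l` times a solution
modulo `l^a`.  It may be easier to count integer vectors: solution lattices `Λ_N ⊇ N ℤ^{S+1}`. -/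
theorem len_le {l a N : ℕ} [Fact l.Prime] (hN : N = l ^ a) (B : X → S → Bool) :
    (Nat.card (kerB (ZMod N) B)).factorization l ≤ a * finrank (ZMod l) (kerB (ZMod l) B) := by
  have hl : l.Prime := Fact.out
  have : NeZero N := ⟨by rw [hN]; exact pow_ne_zero _ hl.ne_zero⟩
  obtain ⟨i, hi⟩ := z1_card hl hN (kerB (ZMod N) B)
  have h1 := z1_tors (K := kerB (ZMod N) B) l a
  have h2 : (nsmulAddMonoidHom (l ^ a) : kerB (ZMod N) B →+ kerB (ZMod N) B).ker = ⊤ := by
    rw [eq_top_iff]
    intro x _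
    rw [AddMonoidHom.mem_ker, nsmulAddMonoidHom_apply, ← hN, ← Nat.cast_smul_eq_nsmul (ZMod N),
      ZMod.natCast_self, zero_smul]
  rw [h2, AddSubgroup.card_top, hi] at h1
  rw [hi, Nat.factorization_pow_self hl, ← Nat.pow_le_pow_iff_right hl.one_lt, mul_comm, pow_mul]
  rcases a with _ | a
  · simpa using h1
  refine h1.trans (Nat.pow_le_pow_left ?_ _)
  obtain ⟨ψ, ψ1, ψ2⟩ := z1_psi hl hN
  have e : l ^ finrank (ZMod l) (kerB (ZMod l) B) = Nat.card (kerB (ZMod l) B) := by
    rw [Module.natCard_eq_pow_finrank (K := ZMod l), Nat.card_zmod]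
  rw [e]
  have hz : ∀ (x : Bool) (t : ZMod l), ψ (((if x then 1 else 0 : ℤ) : ZMod l) * t) =
      ((if x then 1 else 0 : ℤ) : ZMod N) * ψ t := by
    intro x t
    cases x <;> simp
  have hex : ∀ u : (nsmulAddMonoidHom l : kerB (ZMod N) B →+ kerB (ZMod N) B).ker,
      ∃ v : kerB (ZMod l) B, (∀ j, ψ (v.1.1 j) = u.1.1.1 j) ∧ ψ v.1.2 = u.1.1.2 := by
    intro u
    have hu : l • u.1.1 = 0 := congrArg Subtype.val (AddMonoidHom.mem_ker.1 u.2)
    choose w hw using fun j => ψ2 (u.1.1.1 j) (congrFun (congrArg Prod.fst hu) j)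
    obtain ⟨t, ht⟩ := ψ2 u.1.1.2 (congrArg Prod.snd hu)
    refine ⟨⟨(w, t), mem_kerB.2 fun r => ψ1 ?_⟩, hw, ht⟩
    rw [ht, ← mem_kerB.1 u.1.2 r, map_sum]
    exact Finset.sum_congr rfl fun j _ => by rw [← hw j]; exact hz _ _
  choose f f1 f2 using hex
  refine Nat.card_le_card_of_injective f fun u u' h => ?_
  refine Subtype.ext (Subtype.ext (Prod.ext (funext fun j => ?_) ?_))
  · rw [← f1, ← f1, h]
  · rw [← f2, ← f2, h]

/-- Rank-nullity for `(w, τ) ↦ B w - τ 1`, whose range contains the range of `B`. -/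
theorem finrank_kerB_le (F : Type) [Field F] (B : S → S → Bool) :
    finrank F (kerB F B) + (Matrix.of fun i j => if B i j then (1 : F) else 0).rank ≤ Fintype.card S + 1 := by
  obtain ⟨M, hM⟩ : ∃ M : Matrix S S F, M = Matrix.of fun i j => if B i j then (1 : F) else 0 :=
    ⟨_, rfl⟩
  rw [← hM]
  have h1 := LinearMap.finrank_range_add_finrank_ker
    (M.mulVecLin.coprod (LinearMap.toSpanSingleton F (S → F) fun _ => -1))
  have h2 : LinearMap.ker (M.mulVecLin.coprod (LinearMap.toSpanSingleton F (S → F) fun _ => -1)) =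
      kerB F B := by
    ext u
    rw [mem_kerB, LinearMap.mem_ker, funext_iff]
    refine forall_congr' fun r => ?_
    simp [hM, Matrix.mulVec, dotProduct, zo, add_neg_eq_zero]
  have h3 : M.rank ≤ finrank F (LinearMap.range
      (M.mulVecLin.coprod (LinearMap.toSpanSingleton F (S → F) fun _ => -1))) :=
    Submodule.finrank_mono (by rw [LinearMap.range_coprod]; exact le_sup_left)
  rw [h2, Module.finrank_prod, Module.finrank_fintype_fun_eq_card, Module.finrank_self] at h1
  omega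

end

end Crest.Agent.R152
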