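import Crest.Agent.R152.Z1
import Crest.Agent.R152.A1

/-!
# R152/Z2

All but a few primes behave like `ℚ`.

Helper lemmas: prefix `z2_`.
-/

set_option autoImplicit false
set_option linter.unusedVariables false
set_option linter.unusedSectionVars false

namespace Crest.Agent.R152

open Crest.FinProb Crest.ProbabilityR.SignMatrix MeasureTheory ProbabilityTheory Filter Module
open scoped RealInnerProductSpace ENNReal Matrix Topology

noncomputable section

variable {X S : Type} [Fintype X] [DecidableEq X] [Fintype S] [DecidableEq S]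

theorem z2_index {ι : Type} [Fintype ι] [DecidableEq ι] (A : Matrix ι ι ℤ) (hA : A.det ≠ 0) :
    (LinearMap.range A.mulVecLin).toAddSubgroup.index = A.det.natAbs := by
  have hi : Function.Injective A.mulVecLin :=
    (injective_iff_map_eq_zero _).2 fun v hv => Matrix.eq_zero_of_mulVec_eq_zero hA hv
  have h := Submodule.natAbs_det_equiv (LinearMap.range A.mulVecLin) (LinearEquiv.ofInjective _ hi)
  rw [← LinearMap.det_toLin' A]
  exact h.symm

theorem z2_cols {α β : Type} [Fintype α] [Fintype β] (M : Matrix α β ℚ) {ρ : ℕ} (h : M.rank = ρ) :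
    ∃ c : Fin ρ → β, Function.Injective c ∧ LinearIndependent ℚ fun i => M.col (c i) := by
  obtain ⟨κ, a, ha, hsp, hli⟩ := exists_linearIndependent' ℚ M.col
  haveI : Fintype κ := Fintype.ofInjective a ha
  have hc : Fintype.card κ = ρ := by
    rw [← h, Matrix.rank_eq_finrank_span_cols, ← hsp, finrank_span_eq_card hli]
  let e : Fin ρ ≃ κ := (Fintype.equivFinOfCardEq hc).symm
  exact ⟨a ∘ e, ha.comp e.injective, hli.comp e e.injective⟩

theorem z2_det_map {ι R : Type} [Fintype ι] [DecidableEq ι] [CommRing R] (A : Matrix ι ι ℤ) :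
    (A.map (Int.cast : ℤ → R)).det = (A.det : R) := by
  have := (Int.castRingHom R).map_det A
  simp only [eq_intCast, RingHom.mapMatrix_apply, Int.coe_castRingHom] at this
  exact this.symm

/-- The range of the integer map has index `|det|` (`index_range` in `R152/L1`, or `Submodule.natAbs_det_equiv`) and is contained in the preimage of the range modulo
`l`, which has index `l^(card - rank)`. -/
theorem pow_dvd_det {κ : Type} [Fintype κ] [DecidableEq κ] (C : Matrix κ κ ℤ) (l : ℕ) [Fact l.Prime] :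
    (l : ℤ) ^ (Fintype.card κ - (C.map (Int.cast : ℤ → ZMod l)).rank) ∣ C.det := by
  by_cases hC : C.det = 0
  · rw [hC]; exact dvd_zero _
  let red : (κ → ℤ) →+ (κ → ZMod l) := (Int.castAddHom (ZMod l)).compLeft κ
  have hred : Function.Surjective red := fun y => ⟨fun i => (y i).cast, funext fun i => ZMod.intCast_zmod_cast _⟩
  set W := LinearMap.range (C.map (Int.cast : ℤ → ZMod l)).mulVecLin with hW
  have hle : (LinearMap.range C.mulVecLin).toAddSubgroup ≤ W.toAddSubgroup.comap red := by
    rintro _ ⟨x, rfl⟩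
    refine ⟨red x, funext fun i => ?_⟩
    simp [red, Matrix.mulVec, dotProduct]
  have h1 := AddSubgroup.index_dvd_of_le hle
  rw [AddSubgroup.index_comap_of_surjective _ hred, z2_index C hC] at h1
  have h2 : W.toAddSubgroup.index = l ^ (Fintype.card κ - (C.map (Int.cast : ℤ → ZMod l)).rank) := by
    have h3 := W.finrank_quotient_add_finrank
    rw [Module.finrank_fintype_fun_eq_card] at h3
    have h4 : Nat.card ((κ → ZMod l) ⧸ W) = Nat.card (ZMod l) ^ finrank (ZMod l) ((κ → ZMod l) ⧸ W) :=
      Module.natCard_eq_pow_finrank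
    rw [Nat.card_zmod] at h4
    have h5 : (C.map (Int.cast : ℤ → ZMod l)).rank = finrank (ZMod l) W := rfl
    rw [h5, ← h3, Nat.add_sub_cancel, ← h4]
    rfl
  rw [h2] at h1
  rw [← Int.dvd_natAbs]
  exact_mod_cast h1

/-- A square submatrix of maximal size with nonzero determinant. -/
theorem exists_max_minor {α β : Type} [Fintype α] [DecidableEq α] [Fintype β] [DecidableEq β] (C : Matrix α β ℤ) :
    ∃ (ρ : ℕ) (r : Fin ρ → α) (c : Fin ρ → β), Function.Injective r ∧ Function.Injective c ∧ (C.submatrix r c).det ≠ 0 ∧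
      (C.map (Int.cast : ℤ → ℚ)).rank = ρ := by
  obtain ⟨ρ, hρ⟩ : ∃ ρ, (C.map (Int.cast : ℤ → ℚ)).rank = ρ := ⟨_, rfl⟩
  obtain ⟨c, hc, hli⟩ := z2_cols (C.map (Int.cast : ℤ → ℚ)) hρ
  have h1 : ((C.map (Int.cast : ℤ → ℚ)).submatrix id c)ᵀ.rank = ρ := by
    rw [Matrix.rank_transpose, Matrix.rank_eq_finrank_span_cols]
    exact (finrank_span_eq_card hli).trans (Fintype.card_fin _)
  obtain ⟨r, hr, hli'⟩ := z2_cols _ h1
  refine ⟨ρ, r, c, hr, hc, ?_, hρ⟩
  have hu : IsUnit ((C.submatrix r c).map (Int.cast : ℤ → ℚ)) :=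
    Matrix.linearIndependent_rows_iff_isUnit.1 hli'
  have := ((Matrix.isUnit_iff_isUnit_det _).1 hu).ne_zero
  rw [z2_det_map] at this
  exact_mod_cast this

/-- A subspace over an infinite field contains a vector that is nonzero at every coordinate where some vector of the subspace is nonzero. -/
theorem exists_generic {α : Type} [Fintype α] (K : Submodule ℚ (α → ℚ)) :
    ∃ u ∈ K, ∀ j, (∃ w ∈ K, w j ≠ 0) → u j ≠ 0 := by
  obtain ⟨u, hu, h⟩ := Module.Dual.exists_forall_mem_ne_zero_of_forall_exists K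
    (fun j : {j // ∃ w ∈ K, w j ≠ 0} => (LinearMap.proj j.1 : (α → ℚ) →ₗ[ℚ] ℚ)) fun j => j.2
  exact ⟨u, hu, fun j hj => h ⟨j, hj⟩⟩

/-- The matrix `[B | -1]`. -/
def z2_C (B : X → S → Bool) : Matrix X (Option S) ℤ := Matrix.of fun r j => j.elim (-1) (zo (B r))

/-- Pairs `(w, τ)` as vectors indexed by `Option S`. -/
def z2_e (S R : Type) [CommRing R] : ((S → R) × R) ≃ₗ[R] (Option S → R) :=
  (LinearEquiv.prodComm R _ _).trans (LinearEquiv.piOptionEquivProd R (M := fun _ => R)).symm

theorem z2_ker (R : Type) [CommRing R] (B : X → S → Bool) :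
    kerB R B = (LinearMap.ker ((z2_C B).map (Int.cast : ℤ → R)).mulVecLin).comap (z2_e S R).toLinearMap := by
  ext u
  rw [mem_kerB, Submodule.mem_comap, LinearMap.mem_ker, funext_iff]
  refine forall_congr' fun r => ?_
  have e1 : z2_e S R u none = u.2 := rfl
  have e2 : ∀ j, z2_e S R u (some j) = u.1 j := fun j => rfl
  simp only [Matrix.mulVecLin_apply, Matrix.mulVec, dotProduct, Fintype.sum_option, Matrix.map_apply, z2_C,
    Matrix.of_apply, Option.elim, LinearEquiv.coe_coe, e1, e2, Pi.zero_apply, Int.cast_neg, Int.cast_one]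
  constructor <;> intro h <;> linear_combination h

theorem z2_rank (F : Type) [Field F] (B : X → S → Bool) :
    finrank F (kerB F B) + ((z2_C B).map (Int.cast : ℤ → F)).rank = Fintype.card S + 1 := by
  have h2 := LinearMap.finrank_range_add_finrank_ker ((z2_C B).map (Int.cast : ℤ → F)).mulVecLin
  rw [Module.finrank_fintype_fun_eq_card, Fintype.card_option] at h2
  rw [z2_ker, ((z2_e S F).ofSubmodule' _).finrank_eq, add_comm]
  exact h2

theorem z2_lift {α β : Type} [Fintype α] [DecidableEq α] [Fintype β] [DecidableEq β] (C : Matrix α β ℤ)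
    {ρ : ℕ} (r : Fin ρ → α) (c : Fin ρ → β) (hd : (C.submatrix r c).det ≠ 0)
    (hρ : (C.map (Int.cast : ℤ → ℚ)).rank = ρ) {F : Type} [Field F] (hF : ((C.submatrix r c).det : F) ≠ 0)
    (w : β → F) (hw : C.map (Int.cast : ℤ → F) *ᵥ w = 0) (j : β) (hj : w j ≠ 0) :
    ∃ u ∈ LinearMap.ker (C.map (Int.cast : ℤ → ℚ)).mulVecLin, u j ≠ 0 := by
  set D := C.submatrix r c with hD
  let R : Matrix (Fin ρ) β ℤ := C.submatrix r id
  let P : Matrix β (Fin ρ) ℤ := Matrix.of fun j i => if j = c i then 1 else 0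
  have hRP : R * P = D := by
    ext a i
    simp [R, P, hD, Matrix.mul_apply]
  let U : Matrix β β ℤ := D.det • (1 : Matrix β β ℤ) - P * D.adjugate * R
  have hRU : R * U = 0 := by
    simp only [U]
    rw [Matrix.mul_sub, Matrix.mul_smul, Matrix.mul_one, ← Matrix.mul_assoc, ← Matrix.mul_assoc, hRP,
      Matrix.mul_adjugate, Matrix.smul_mul, Matrix.one_mul, sub_self]
  have hker : LinearMap.ker (C.map (Int.cast : ℤ → ℚ)).mulVecLin =
      LinearMap.ker (R.map (Int.cast : ℤ → ℚ)).mulVecLin := by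
    refine Submodule.eq_of_le_of_finrank_le (fun u hu => ?_) ?_
    · rw [LinearMap.mem_ker] at hu ⊢
      funext a
      exact congrFun hu (r a)
    · have h2 := LinearMap.finrank_range_add_finrank_ker (C.map (Int.cast : ℤ → ℚ)).mulVecLin
      have h3 := LinearMap.finrank_range_add_finrank_ker (R.map (Int.cast : ℤ → ℚ)).mulVecLin
      have h4 : (D.map (Int.cast : ℤ → ℚ)).rank = ρ := by
        rw [Matrix.rank_of_det_ne_zero (by rw [z2_det_map]; exact_mod_cast hd), Fintype.card_fin]
      have h5 : (D.map (Int.cast : ℤ → ℚ)).rank ≤ (R.map (Int.cast : ℤ → ℚ)).rank :=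
        Matrix.rank_submatrix_le (R.map (Int.cast : ℤ → ℚ)) id c
      unfold Matrix.rank at hρ h4 h5
      omega
  have hRw : R.map (Int.castRingHom F) *ᵥ w = 0 := by
    funext a
    exact congrFun hw (r a)
  have hUw : (U.map (Int.castRingHom F) *ᵥ w) j = (D.det : F) * w j := by
    have : U.map (Int.castRingHom F) = (D.det : F) • (1 : Matrix β β F) -
        (P * D.adjugate).map (Int.castRingHom F) * R.map (Int.castRingHom F) := by
      rw [← Matrix.map_mul]
      ext a a'
      simp only [U, Matrix.map_apply, Matrix.sub_apply, Matrix.smul_apply, Matrix.one_apply, map_sub,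
        smul_eq_mul, eq_intCast]
      split_ifs <;> simp
    rw [this, Matrix.sub_mulVec, ← Matrix.mulVec_mulVec, hRw, Matrix.mulVec_zero, sub_zero,
      Matrix.smul_mulVec, Matrix.one_mulVec]
    rfl
  obtain ⟨j', hj'⟩ : ∃ j', U j j' ≠ 0 := by
    by_contra hcon
    push Not at hcon
    refine mul_ne_zero hF hj ?_
    rw [← hUw]
    simp [Matrix.mulVec, dotProduct, hcon]
  refine ⟨fun a => (U a j' : ℚ), ?_, Int.cast_ne_zero.2 hj'⟩
  rw [hker, LinearMap.mem_ker]
  funext a
  have := congrFun (congrFun hRU a) j'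
  simp only [Matrix.mul_apply, Matrix.zero_apply] at this
  simp only [Matrix.mulVecLin_apply, Matrix.mulVec, dotProduct, Matrix.map_apply, Pi.zero_apply]
  exact_mod_cast this

/-- `C = [B | -1]` with columns `Option S`, `Δ = |det C_{r,c}|` of `exists_max_minor` (`natAbs_det_le`).  The rational kernel of `C` is that of the rows `r`.  For each
non-pivot column `j'` the integer vector `u j' = (Δ at j', -adj (C_{r,c}) C_{r,j'} on the pivots)` is in the rational kernel, and every solution `w` modulo `l`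
satisfies `det • w = ∑_{j'} w j' • u j'`; so if `l ∤ Δ` and `w j ≠ 0` then some `u j'` is nonzero at `j`.  Second part: `pow_dvd_det`, rank-nullity. -/
theorem exists_delta (B : X → S → Bool) : ∃ Δ : ℕ, 0 < Δ ∧ Δ ≤ (Fintype.card S + 1).factorial ∧
    ∀ (l : ℕ) [Fact l.Prime], (¬ l ∣ Δ → ∀ L L' K₀ : ℕ, 2 ≤ L → GoodK L K₀ (kerB (ZMod l) B) → GoodK L' K₀ (kerB ℚ B)) ∧
      l ^ (finrank (ZMod l) (kerB (ZMod l) B) - finrank ℚ (kerB ℚ B)) ∣ Δ := by
  classical
  obtain ⟨ρ, r, c, hr, hc, hd, hρ⟩ := exists_max_minor (z2_C B)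
  refine ⟨((z2_C B).submatrix r c).det.natAbs, Int.natAbs_pos.2 hd, ?_, fun l _ => ⟨?_, ?_⟩⟩
  · refine (natAbs_det_le _ fun i j => ?_).trans (Nat.factorial_le ?_)
    · simp only [Matrix.submatrix_apply, z2_C, Matrix.of_apply]
      cases c j with
      | none => simp
      | some s =>
        simp only [Option.elim, zo]
        split_ifs <;> simp
    · have := Fintype.card_le_of_injective c hc
      rwa [Fintype.card_option] at this
  · rintro hl L L' K₀ hL ⟨w, hw, hK⟩
    have hF : ((((z2_C B).submatrix r c).det : ℤ) : ZMod l) ≠ 0 := by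
      rw [Ne, ZMod.intCast_zmod_eq_zero_iff_dvd, Int.natCast_dvd]
      exact hl
    obtain ⟨u, hu, hgen⟩ := exists_generic (LinearMap.ker ((z2_C B).map (Int.cast : ℤ → ℚ)).mulVecLin)
    rw [z2_ker] at hw
    refine ⟨(z2_e S ℚ).symm u, ?_, hK.trans (Finset.card_le_card fun j hj => ?_)⟩
    · rw [z2_ker, Submodule.mem_comap, LinearEquiv.coe_coe, LinearEquiv.apply_symm_apply]
      exact hu
    · simp only [Finset.mem_filter, Finset.mem_univ, true_and] at hj ⊢
      have h1 : w.1 j ≠ 0 := by simpa using hj 1 one_pos (by omega)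
      have h2 : u (some j) ≠ 0 :=
        hgen _ (z2_lift (z2_C B) r c hd hρ hF (z2_e S (ZMod l) w) hw (some j) h1)
      intro i hi _
      exact smul_ne_zero hi.ne' h2
  · have h1 := pow_dvd_det ((z2_C B).submatrix r c) l
    have h2 := z2_rank (ZMod l) B
    have h3 := z2_rank ℚ B
    have h4 : (((z2_C B).submatrix r c).map (Int.cast : ℤ → ZMod l)).rank ≤
        ((z2_C B).map (Int.cast : ℤ → ZMod l)).rank :=
      Matrix.rank_submatrix_le ((z2_C B).map (Int.cast : ℤ → ZMod l)) r c
    rw [Fintype.card_fin] at h1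
    rw [← Int.natCast_dvd]
    push_cast
    exact (pow_dvd_pow _ (by omega)).trans h1

end

end Crest.Agent.R152
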